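import Vale.Agent.P204.Stmt

/-! Smoothness of parametric integrals. -/

set_option maxSynthPendingDepth 3

open scoped Topology ContDiff RealInnerProductSpace Manifold
open Set Metric MeasureTheory Filter

noncomputable section
namespace Vale.Agent.P204

namespace Avg
variable {P Z W Y : Type} [NormedAddCommGroup P] [NormedSpace ℝ P] [FiniteDimensional ℝ P]
  [NormedAddCommGroup Z] [NormedSpace ℝ Z] [NormedAddCommGroup W] [NormedSpace ℝ W]
  [MeasurableSpace Y] {μ : Measure Y} {φ : Y → Z} {w : Y → W} {K : Set Z}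

section
variable {E : Type} [NormedAddCommGroup E] [NormedSpace ℝ E] {G : P × Z → W →L[ℝ] E}

/-- derivative in the first variable -/
def D (G : P × Z → W →L[ℝ] E) (q : P × Z) : W →L[ℝ] P →L[ℝ] E :=
  ContinuousLinearMap.flipₗᵢ ℝ P W E ((fderiv ℝ G q).comp (ContinuousLinearMap.inl ℝ P Z))

omit [FiniteDimensional ℝ P] in
lemma D_sm (hG : ContDiff ℝ ∞ G) : ContDiff ℝ ∞ (D G) :=
  (ContinuousLinearMap.flipₗᵢ ℝ P W E).contDiff.comp ((cd_fderiv hG).clm_comp contDiff_const)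

omit [FiniteDimensional ℝ P] in
lemma hasF (hG : ContDiff ℝ ∞ G) (p : P) (z : Z) : HasFDerivAt (fun p' => G (p', z))
    ((fderiv ℝ G (p, z)).comp (ContinuousLinearMap.inl ℝ P Z)) p :=
  (hG.differentiable (by simp) (p, z)).hasFDerivAt.comp p (hasFDerivAt_prodMk_left p z)

omit [FiniteDimensional ℝ P] in
lemma hasD (hG : ContDiff ℝ ∞ G) (p : P) (z : Z) (v : W) :
    HasFDerivAt (fun p' => G (p', z) v) (D G (p, z) v) p :=
  (ContinuousLinearMap.apply ℝ E v).hasFDerivAt.comp p (hasF hG p z)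

omit [FiniteDimensional ℝ P] in
lemma norm_D (hG : ContDiff ℝ ∞ G) (n : ℕ) (p : P) (z : Z) :
    ‖iteratedFDeriv ℝ n (fun p' => D G (p', z)) p‖ =
      ‖iteratedFDeriv ℝ (n + 1) (fun p' => G (p', z)) p‖ := by
  have h : (fun p' => D G (p', z)) =
      ContinuousLinearMap.flipₗᵢ ℝ P W E ∘ fderiv ℝ (fun p' => G (p', z)) :=
    funext fun p' => congrArg (ContinuousLinearMap.flipₗᵢ ℝ P W E) (hasF hG p' z).fderiv.symm
  rw [h, LinearIsometryEquiv.norm_iteratedFDeriv_comp_left, norm_iteratedFDeriv_fderiv]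

omit [NormedSpace ℝ Z] in
lemma bound (hG : Continuous G) (hK : IsCompact K) (h : ∀ᵐ y ∂μ, w y ≠ 0 → φ y ∈ K) (p : P) :
    ∃ C, ∀ᵐ y ∂μ, ∀ p' ∈ closedBall p 1, ‖G (p', φ y)‖ * ‖w y‖ ≤ C * ‖w y‖ := by
  obtain ⟨C, hC⟩ := ((isCompact_closedBall p 1).prod hK).exists_bound_of_continuousOn
    hG.continuousOn
  refine ⟨C, h.mono fun y hy p' hp => ?_⟩
  by_cases h0 : w y = 0
  · simp [h0]
  · exact mul_le_mul_of_nonneg_right (hC _ ⟨hp, hy h0⟩) (norm_nonneg _)

omit [NormedSpace ℝ Z] [FiniteDimensional ℝ P] [NormedSpace ℝ P] in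
lemma meas (hG : Continuous G) (hφ : AEStronglyMeasurable φ μ) (p : P) :
    AEStronglyMeasurable (fun y => G (p, φ y)) μ :=
  (hG.comp (Continuous.prodMk_right p)).comp_aestronglyMeasurable hφ

omit [NormedSpace ℝ Z] [FiniteDimensional ℝ P] [NormedSpace ℝ P] in
lemma meas' (hG : Continuous G) (hφ : AEStronglyMeasurable φ μ) (hw : Integrable w μ) (p : P) :
    AEStronglyMeasurable (fun y => G (p, φ y) (w y)) μ :=
  (isBoundedBilinearMap_apply (𝕜 := ℝ) (E := W) (F := E)).continuous.comp_aestronglyMeasurable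
    ((meas hG hφ p).prodMk hw.1)

omit [NormedSpace ℝ Z] in
lemma intN (hG : Continuous G) (hK : IsCompact K) (hφ : AEStronglyMeasurable φ μ)
    (hw : Integrable w μ) (h : ∀ᵐ y ∂μ, w y ≠ 0 → φ y ∈ K) (p : P) :
    Integrable (fun y => ‖G (p, φ y)‖ * ‖w y‖) μ := by
  obtain ⟨C, hC⟩ := bound hG hK h p
  refine (hw.norm.const_mul C).mono' ((meas hG hφ p).norm.mul hw.1.norm) (hC.mono fun y hy => ?_)
  rw [Real.norm_of_nonneg (by positivity)]
  exact hy p (mem_closedBall_self one_pos.le)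

omit [NormedSpace ℝ Z] in
lemma int (hG : Continuous G) (hK : IsCompact K) (hφ : AEStronglyMeasurable φ μ)
    (hw : Integrable w μ) (h : ∀ᵐ y ∂μ, w y ≠ 0 → φ y ∈ K) (p : P) :
    Integrable (fun y => G (p, φ y) (w y)) μ :=
  (intN hG hK hφ hw h p).mono' (meas' hG hφ hw p)
    (Eventually.of_forall fun _ => ContinuousLinearMap.le_opNorm _ _)

lemma hasI (hG : ContDiff ℝ ∞ G) (hK : IsCompact K) (hφ : AEStronglyMeasurable φ μ)
    (hw : Integrable w μ) (h : ∀ᵐ y ∂μ, w y ≠ 0 → φ y ∈ K) (p : P) :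
    HasFDerivAt (fun p => ∫ y, G (p, φ y) (w y) ∂μ) (∫ y, D G (p, φ y) (w y) ∂μ) p := by
  obtain ⟨C, hC⟩ := bound (D_sm hG).continuous hK h p
  exact hasFDerivAt_integral_of_dominated_of_fderiv_le (F' := fun p y => D G (p, φ y) (w y))
    (closedBall_mem_nhds p one_pos) (Eventually.of_forall (meas' hG.continuous hφ hw))
    (int hG.continuous hK hφ hw h p) (meas' (D_sm hG).continuous hφ hw p)
    (hC.mono fun y hy p' hp => (ContinuousLinearMap.le_opNorm _ _).trans (hy p' hp))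
    (hw.norm.const_mul C) (Eventually.of_forall fun y p' _ => hasD hG p' (φ y) (w y))

end

lemma main (hK : IsCompact K) (hφ : AEStronglyMeasurable φ μ) (hw : Integrable w μ)
    (h : ∀ᵐ y ∂μ, w y ≠ 0 → φ y ∈ K) (n : ℕ) : ∀ (E : Type) [NormedAddCommGroup E]
    [NormedSpace ℝ E] (G : P × Z → W →L[ℝ] E), ContDiff ℝ ∞ G →
    ContDiff ℝ n (fun p => ∫ y, G (p, φ y) (w y) ∂μ) ∧ ∀ p,
      Integrable (fun y => ‖iteratedFDeriv ℝ n (fun p' => G (p', φ y)) p‖ * ‖w y‖) μ ∧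
      ‖iteratedFDeriv ℝ n (fun p => ∫ y, G (p, φ y) (w y) ∂μ) p‖
        ≤ ∫ y, ‖iteratedFDeriv ℝ n (fun p' => G (p', φ y)) p‖ * ‖w y‖ ∂μ := by
  induction n with
  | zero =>
    intro E _ _ G hG
    refine ⟨contDiff_zero.2 (continuous_iff_continuousAt.2 fun p =>
      (hasI hG hK hφ hw h p).continuousAt), fun p => ?_⟩
    simp only [norm_iteratedFDeriv_zero]
    exact ⟨intN hG.continuous hK hφ hw h p, norm_integral_le_of_norm_le
      (intN hG.continuous hK hφ hw h p)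
      (Eventually.of_forall fun _ => ContinuousLinearMap.le_opNorm _ _)⟩
  | succ n ih =>
    intro E _ _ G hG
    obtain ⟨h1, h2⟩ := ih _ (D G) (D_sm hG)
    have h3 : fderiv ℝ (fun p => ∫ y, G (p, φ y) (w y) ∂μ) =
        fun p => ∫ y, D G (p, φ y) (w y) ∂μ := funext fun p => (hasI hG hK hφ hw h p).fderiv
    refine ⟨?_, fun p => ?_⟩
    · rw [Nat.cast_succ, contDiff_succ_iff_fderiv, h3]
      exact ⟨fun p => (hasI hG hK hφ hw h p).differentiableAt, by simp, h1⟩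
    · rw [← norm_iteratedFDeriv_fderiv, h3]
      simpa only [norm_D hG] using h2 p

lemma clm {E : Type} [NormedAddCommGroup E] [NormedSpace ℝ E] {G : P × Z → W →L[ℝ] E}
    (hG : ContDiff ℝ ∞ G) (hK : IsCompact K) (hφ : AEStronglyMeasurable φ μ)
    (hw : Integrable w μ) (h : ∀ᵐ y ∂μ, w y ≠ 0 → φ y ∈ K) :
    ContDiff ℝ ∞ (fun p => ∫ y, G (p, φ y) (w y) ∂μ) ∧
    (∀ p, Integrable (fun y => G (p, φ y) (w y)) μ) ∧
    (∀ p, Integrable (fun y => fderiv ℝ (fun p' => G (p', φ y) (w y)) p) μ ∧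
      fderiv ℝ (fun p => ∫ y, G (p, φ y) (w y) ∂μ) p
        = ∫ y, fderiv ℝ (fun p' => G (p', φ y) (w y)) p ∂μ) ∧
    ∀ (n : ℕ) p,
      Integrable (fun y => ‖iteratedFDeriv ℝ n (fun p' => G (p', φ y)) p‖ * ‖w y‖) μ ∧
      ‖iteratedFDeriv ℝ n (fun p => ∫ y, G (p, φ y) (w y) ∂μ) p‖
        ≤ ∫ y, ‖iteratedFDeriv ℝ n (fun p' => G (p', φ y)) p‖ * ‖w y‖ ∂μ := by
  refine ⟨contDiff_infty.2 fun n => (main hK hφ hw h n E G hG).1,
    int hG.continuous hK hφ hw h, fun p => ?_, fun n => (main hK hφ hw h n E G hG).2⟩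
  simp only [(hasD hG _ _ _).fderiv]
  exact ⟨int (D_sm hG).continuous hK hφ hw h p, (hasI hG hK hφ hw h p).fderiv⟩

end Avg

theorem avgS : AvgS where
  clm _ _ _ _ _ hG hK hφ hw h := Avg.clm hG hK hφ hw h
  smul := by
    intro P Z E Y _ _ _ _ _ _ _ _ _ _ μ G φ w K hG hK hφ hw h
    obtain ⟨h1, h2, h3, h4⟩ := Avg.clm (G := ContinuousLinearMap.toSpanSingletonLIE ℝ E ∘ G)
      ((ContinuousLinearMap.toSpanSingletonLIE ℝ E).contDiff.comp hG) hK hφ hw h
    have e1 : ∀ (p : P) (y : Y), fderiv ℝ (fun p' => w y • G (p', φ y)) p =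
        w y • fderiv ℝ (fun p' => G (p', φ y)) p := fun p y => fderiv_fun_const_smul
      ((hG.comp (contDiff_prodMk_left (φ y))).differentiable (by simp) p) _
    have e2 : ∀ (n : ℕ) (p : P) (y : Y), ‖iteratedFDeriv ℝ n (fun p' =>
        (ContinuousLinearMap.toSpanSingletonLIE ℝ E ∘ G) (p', φ y)) p‖ * ‖w y‖ =
        |w y| * ‖iteratedFDeriv ℝ n (fun p' => G (p', φ y)) p‖ := fun n p y => by
      rw [mul_comm]
      exact congrArg (|w y| * ·) (LinearIsometryEquiv.norm_iteratedFDeriv_comp_left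
        (ContinuousLinearMap.toSpanSingletonLIE ℝ E) (fun p' => G (p', φ y)) p n)
    refine ⟨h1, h2, fun p => ?_, fun n p => ?_⟩
    · simp only [← e1]
      exact h3 p
    · simp only [← e2]
      exact h4 n p

end Vale.Agent.P204
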