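import Vale.Agent.P204.Defs

/-! Linear algebra of two-forms on `V`. -/

set_option maxSynthPendingDepth 3

open scoped Topology ContDiff RealInnerProductSpace
open Set Metric MeasureTheory

noncomputable section
namespace Vale.Agent.P204

attribute [local semireducible] J0 el wv ev ap alt2 w1 pull dg Q6 Pm Po Pa B2 cm wq st D4 sl dl2

@[simp] lemma pr_apply (i : Fin 4) (v : V) : pr i v = v i := rfl
@[simp] lemma p6_apply (k : Fin 6) (h : E6) : p6 k h = h k := rfl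
lemma bv_apply (i j : Fin 4) : bv i j = if j = i then 1 else 0 := by
  simp [bv]
lemma b6_apply (i j : Fin 6) : b6 i j = if j = i then 1 else 0 := by
  simp [b6]
@[simp] lemma norm_bv (i : Fin 4) : ‖bv i‖ = 1 := by simp [bv]
@[simp] lemma norm_b6 (i : Fin 6) : ‖b6 i‖ = 1 := by simp [b6]

lemma inner_V (p q : V) : ⟪p, q⟫ = p 0 * q 0 + p 1 * q 1 + p 2 * q 2 + p 3 * q 3 := by
  simp [PiLp.inner_apply, Fin.sum_univ_four]; ring
lemma inner_E6 (p q : E6) :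
    ⟪p, q⟫ = p 0 * q 0 + p 1 * q 1 + p 2 * q 2 + p 3 * q 3 + p 4 * q 4 + p 5 * q 5 := by
  simp [PiLp.inner_apply, Fin.sum_univ_six]; ring
lemma inner_E2 (p q : E2) : ⟪p, q⟫ = p 0 * q 0 + p 1 * q 1 := by
  simp [PiLp.inner_apply, Fin.sum_univ_two]; ring
lemma normsq_V (p : V) : ‖p‖ ^ 2 = p 0 ^ 2 + p 1 ^ 2 + p 2 ^ 2 + p 3 ^ 2 := by
  rw [← real_inner_self_eq_norm_sq, inner_V]; ring
lemma normsq_E6 (p : E6) :
    ‖p‖ ^ 2 = p 0 ^ 2 + p 1 ^ 2 + p 2 ^ 2 + p 3 ^ 2 + p 4 ^ 2 + p 5 ^ 2 := by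
  rw [← real_inner_self_eq_norm_sq, inner_E6]; ring
lemma normsq_E2 (p : E2) : ‖p‖ ^ 2 = p 0 ^ 2 + p 1 ^ 2 := by
  rw [← real_inner_self_eq_norm_sq, inner_E2]; ring

lemma V_ext {p q : V} (h0 : p 0 = q 0) (h1 : p 1 = q 1) (h2 : p 2 = q 2) (h3 : p 3 = q 3) :
    p = q := by
  ext i; fin_cases i <;> assumption
lemma E6_ext {p q : E6} (h0 : p 0 = q 0) (h1 : p 1 = q 1) (h2 : p 2 = q 2) (h3 : p 3 = q 3)
    (h4 : p 4 = q 4) (h5 : p 5 = q 5) : p = q := by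
  ext i; fin_cases i <;> assumption
lemma E2_ext {p q : E2} (h0 : p 0 = q 0) (h1 : p 1 = q 1) : p = q := by
  ext i; fin_cases i <;> assumption

lemma V_sum (p : V) : p = p 0 • bv 0 + p 1 • bv 1 + p 2 • bv 2 + p 3 • bv 3 := by
  apply V_ext <;> simp [bv_apply]
lemma E6_sum (h : E6) :
    h = h 0 • b6 0 + h 1 • b6 1 + h 2 • b6 2 + h 3 • b6 3 + h 4 • b6 4 + h 5 • b6 5 := by
  apply E6_ext <;> simp [b6_apply]

/-! ### `J0` -/
@[simp] lemma J0_0 (v : V) : J0 v 0 = -v 1 := by simp [J0, bv_apply]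
@[simp] lemma J0_1 (v : V) : J0 v 1 = v 0 := by simp [J0, bv_apply]
@[simp] lemma J0_2 (v : V) : J0 v 2 = -v 3 := by simp [J0, bv_apply]
@[simp] lemma J0_3 (v : V) : J0 v 3 = v 2 := by simp [J0, bv_apply]
@[simp] lemma J0_J0 (v : V) : J0 (J0 v) = -v := by apply V_ext <;> simp
lemma inner_J0 (p q : V) : ⟪J0 p, q⟫ = -⟪p, J0 q⟫ := by simp [inner_V]; ring
lemma inner_J0_J0 (p q : V) : ⟪J0 p, J0 q⟫ = ⟪p, q⟫ := by simp [inner_V]; ring
@[simp] lemma norm_J0_apply (v : V) : ‖J0 v‖ = ‖v‖ := by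
  rw [← sq_eq_sq₀ (norm_nonneg _) (norm_nonneg _), normsq_V, normsq_V]; simp; ring
lemma norm_J0_le : ‖J0‖ ≤ 1 := J0.opNorm_le_bound zero_le_one (by simp)

/-! ### evaluation -/
lemma wv_0 (p q : V) : wv p q 0 = (p 0 * q 1 - p 1 * q 0 + (p 2 * q 3 - p 3 * q 2)) / 2 := by
  simp [wv, el, Fin.sum_univ_four, b6_apply]; ring
lemma wv_1 (p q : V) : wv p q 1 = (p 0 * q 2 - p 2 * q 0 - (p 1 * q 3 - p 3 * q 1)) / 2 := by
  simp [wv, el, Fin.sum_univ_four, b6_apply]; ring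
lemma wv_2 (p q : V) : wv p q 2 = (p 0 * q 3 - p 3 * q 0 + (p 1 * q 2 - p 2 * q 1)) / 2 := by
  simp [wv, el, Fin.sum_univ_four, b6_apply]; ring
lemma wv_3 (p q : V) : wv p q 3 = (p 0 * q 1 - p 1 * q 0 - (p 2 * q 3 - p 3 * q 2)) / 2 := by
  simp [wv, el, Fin.sum_univ_four, b6_apply]; ring
lemma wv_4 (p q : V) : wv p q 4 = (p 0 * q 2 - p 2 * q 0 + (p 1 * q 3 - p 3 * q 1)) / 2 := by
  simp [wv, el, Fin.sum_univ_four, b6_apply]; ring
lemma wv_5 (p q : V) : wv p q 5 = (p 0 * q 3 - p 3 * q 0 - (p 1 * q 2 - p 2 * q 1)) / 2 := by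
  simp [wv, el, Fin.sum_univ_four, b6_apply]; ring

@[simp] lemma ev_apply (p q : V) (h : E6) : ev p q h = ap h p q := rfl
lemma ap_inner (h : E6) (p q : V) : ap h p q = 2 * ⟪wv p q, h⟫ := by
  simp [ap, ev]
lemma ap_apply (h : E6) (p q : V) : ap h p q =
    h 0 * (p 0 * q 1 - p 1 * q 0 + (p 2 * q 3 - p 3 * q 2))
    + h 1 * (p 0 * q 2 - p 2 * q 0 - (p 1 * q 3 - p 3 * q 1))
    + h 2 * (p 0 * q 3 - p 3 * q 0 + (p 1 * q 2 - p 2 * q 1))
    + h 3 * (p 0 * q 1 - p 1 * q 0 - (p 2 * q 3 - p 3 * q 2))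
    + h 4 * (p 0 * q 2 - p 2 * q 0 + (p 1 * q 3 - p 3 * q 1))
    + h 5 * (p 0 * q 3 - p 3 * q 0 - (p 1 * q 2 - p 2 * q 1)) := by
  rw [ap_inner, inner_E6, wv_0, wv_1, wv_2, wv_3, wv_4, wv_5]; ring

@[simp] lemma ap_zero (p q : V) : ap 0 p q = 0 := by simp [ap_apply]
@[simp] lemma ap_add (g h : E6) (p q : V) : ap (g + h) p q = ap g p q + ap h p q := by
  simp [ap_apply]; ring
@[simp] lemma ap_sub (g h : E6) (p q : V) : ap (g - h) p q = ap g p q - ap h p q := by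
  simp [ap_apply]; ring
@[simp] lemma ap_neg (h : E6) (p q : V) : ap (-h) p q = -ap h p q := by
  simp [ap_apply]; ring
@[simp] lemma ap_smul (c : ℝ) (h : E6) (p q : V) : ap (c • h) p q = c * ap h p q := by
  simp [ap_apply]; ring
lemma ap_sum {ι : Type*} (t : Finset ι) (h : ι → E6) (p q : V) :
    ap (∑ i ∈ t, h i) p q = ∑ i ∈ t, ap (h i) p q := map_sum (ev p q) h t
lemma ap_add_l (h : E6) (p p' q : V) : ap h (p + p') q = ap h p q + ap h p' q := by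
  simp [ap_apply]; ring
lemma ap_add_r (h : E6) (p q q' : V) : ap h p (q + q') = ap h p q + ap h p q' := by
  simp [ap_apply]; ring
lemma ap_sub_l (h : E6) (p p' q : V) : ap h (p - p') q = ap h p q - ap h p' q := by
  simp [ap_apply]; ring
lemma ap_sub_r (h : E6) (p q q' : V) : ap h p (q - q') = ap h p q - ap h p q' := by
  simp [ap_apply]; ring
lemma ap_neg_l (h : E6) (p q : V) : ap h (-p) q = -ap h p q := by simp [ap_apply]; ring
lemma ap_neg_r (h : E6) (p q : V) : ap h p (-q) = -ap h p q := by simp [ap_apply]; ring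
lemma ap_smul_l (h : E6) (c : ℝ) (p q : V) : ap h (c • p) q = c * ap h p q := by
  simp [ap_apply]; ring
lemma ap_smul_r (h : E6) (c : ℝ) (p q : V) : ap h p (c • q) = c * ap h p q := by
  simp [ap_apply]; ring
lemma ap_swap (h : E6) (p q : V) : ap h p q = -ap h q p := by simp [ap_apply]; ring
@[simp] lemma ap_self (h : E6) (p : V) : ap h p p = 0 := by simp [ap_apply]; ring

lemma coord_0 (h : E6) : h 0 = (ap h (bv 0) (bv 1) + ap h (bv 2) (bv 3)) / 2 := by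
  simp [ap_apply, bv_apply]; ring
lemma coord_1 (h : E6) : h 1 = (ap h (bv 0) (bv 2) - ap h (bv 1) (bv 3)) / 2 := by
  simp [ap_apply, bv_apply]
lemma coord_2 (h : E6) : h 2 = (ap h (bv 0) (bv 3) + ap h (bv 1) (bv 2)) / 2 := by
  simp [ap_apply, bv_apply]; ring
lemma coord_3 (h : E6) : h 3 = (ap h (bv 0) (bv 1) - ap h (bv 2) (bv 3)) / 2 := by
  simp [ap_apply, bv_apply]
lemma coord_4 (h : E6) : h 4 = (ap h (bv 0) (bv 2) + ap h (bv 1) (bv 3)) / 2 := by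
  simp [ap_apply, bv_apply]; ring
lemma coord_5 (h : E6) : h 5 = (ap h (bv 0) (bv 3) - ap h (bv 1) (bv 2)) / 2 := by
  simp [ap_apply, bv_apply]

lemma ap_ext {g h : E6} (H : ∀ p q, ap g p q = ap h p q) : g = h := by
  apply E6_ext
  · rw [coord_0, coord_0 h, H, H]
  · rw [coord_1, coord_1 h, H, H]
  · rw [coord_2, coord_2 h, H, H]
  · rw [coord_3, coord_3 h, H, H]
  · rw [coord_4, coord_4 h, H, H]
  · rw [coord_5, coord_5 h, H, H]

lemma ap_wv (p q u v : V) : ap (wv p q) u v = ⟪p, u⟫ * ⟪q, v⟫ - ⟪p, v⟫ * ⟪q, u⟫ := by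
  rw [ap_apply, wv_0, wv_1, wv_2, wv_3, wv_4, wv_5]; simp only [inner_V]; ring

lemma norm_wv_le (p q : V) : ‖wv p q‖ ≤ ‖p‖ * ‖q‖ := by
  have h : ‖wv p q‖ ^ 2 ≤ (‖p‖ * ‖q‖) ^ 2 := by
    have h1 : 2 * ‖wv p q‖ ^ 2 = ‖p‖ ^ 2 * ‖q‖ ^ 2 - ⟪p, q⟫ ^ 2 := by
      rw [normsq_E6, normsq_V, normsq_V, inner_V, wv_0, wv_1, wv_2, wv_3, wv_4, wv_5]; ring
    nlinarith [sq_nonneg ⟪p, q⟫, sq_nonneg ‖wv p q‖]
  exact (pow_le_pow_iff_left₀ (norm_nonneg _) (by positivity) two_ne_zero).1 h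

lemma abs_ap_le (h : E6) (p q : V) : |ap h p q| ≤ 2 * ‖h‖ * ‖p‖ * ‖q‖ := by
  rw [ap_inner, abs_mul, abs_two]
  have h1 := abs_real_inner_le_norm (wv p q) h
  have h2 := norm_wv_le p q
  have h3 := norm_nonneg h
  nlinarith

lemma norm_ev_le (p q : V) : ‖ev p q‖ ≤ 2 * ‖p‖ * ‖q‖ :=
  (ev p q).opNorm_le_bound (by positivity) fun h => by
    have := abs_ap_le h p q
    rw [ev_apply, Real.norm_eq_abs]; nlinarith

lemma norm_le_of_ap {h : E6} {C : ℝ} (H : ∀ i j, |ap h (bv i) (bv j)| ≤ C) : ‖h‖ ≤ 3 * C := by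
  have hC : 0 ≤ C := (abs_nonneg _).trans (H 0 0)
  have e : ∀ i j, ap h (bv i) (bv j) ^ 2 ≤ C ^ 2 := fun i j => by
    rw [← sq_abs]; exact pow_le_pow_left₀ (abs_nonneg _) (H i j) 2
  have h2 : ‖h‖ ^ 2 ≤ (3 * C) ^ 2 := by
    rw [normsq_E6, coord_0, coord_1, coord_2, coord_3, coord_4, coord_5]
    nlinarith [e 0 1, e 2 3, e 0 2, e 1 3, e 0 3, e 1 2]
  exact (pow_le_pow_iff_left₀ (norm_nonneg _) (by positivity) two_ne_zero).1 h2

lemma ap_alt2 (L : Bil) (p q : V) : ap (alt2 L) p q = L p q - L q p := by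
  have e : ∀ a b : V, L a b = ∑ i, ∑ j, a i * b j * L (bv i) (bv j) := fun a b => by
    conv_lhs => rw [V_sum a, V_sum b]
    simp [Fin.sum_univ_four]; ring
  rw [e p q, e q p]
  simp [alt2, ap_apply, el, Fin.sum_univ_four, b6_apply]; ring

lemma ap_w1 (ξ η : Cov) (p q : V) : ap (w1 ξ η) p q = ξ p * η q - ξ q * η p := by
  simp [w1, ap_alt2]
lemma ap_d1 (b : V → Cov) (y p q : V) :
    ap (d1 b y) p q = fderiv ℝ b y p q - fderiv ℝ b y q p := ap_alt2 _ _ _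

lemma norm_w1_le (ξ η : Cov) : ‖w1 ξ η‖ ≤ 6 * ‖ξ‖ * ‖η‖ := by
  have e : ∀ (ζ : Cov) i, |ζ (bv i)| ≤ ‖ζ‖ := fun ζ i => by
    simpa using ζ.le_opNorm (bv i)
  have : ‖w1 ξ η‖ ≤ 3 * (2 * ‖ξ‖ * ‖η‖) := norm_le_of_ap fun i j => by
    rw [ap_w1]
    refine (abs_sub _ _).trans ?_
    rw [abs_mul, abs_mul]
    have := mul_le_mul (e ξ i) (e η j) (abs_nonneg _) (norm_nonneg _)
    have := mul_le_mul (e ξ j) (e η i) (abs_nonneg _) (norm_nonneg _)
    linarith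
  linarith

lemma ap_pull (A : End) (h : E6) (p q : V) : ap (pull A h) p q = ap h (A p) (A q) := by
  have e : ∀ a : V, A a = a 0 • A (bv 0) + a 1 • A (bv 1) + a 2 • A (bv 2) + a 3 • A (bv 3) :=
    fun a => by conv_lhs => rw [V_sum a]; simp
  rw [e p, e q]
  simp only [ap_add_l, ap_add_r, ap_smul_l, ap_smul_r, ap_self]
  rw [ap_swap h (A (bv 1)) (A (bv 0)), ap_swap h (A (bv 2)) (A (bv 0)),
    ap_swap h (A (bv 3)) (A (bv 0)), ap_swap h (A (bv 2)) (A (bv 1)),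
    ap_swap h (A (bv 3)) (A (bv 1)), ap_swap h (A (bv 3)) (A (bv 2))]
  simp only [pull, Fin.sum_univ_four, add_apply,
    ContinuousLinearMap.smulRight_apply, ev_apply]
  generalize ap h (A (bv 0)) (A (bv 1)) = a01
  generalize ap h (A (bv 0)) (A (bv 2)) = a02
  generalize ap h (A (bv 0)) (A (bv 3)) = a03
  generalize ap h (A (bv 1)) (A (bv 2)) = a12
  generalize ap h (A (bv 1)) (A (bv 3)) = a13
  generalize ap h (A (bv 2)) (A (bv 3)) = a23
  simp [el, ap_apply, b6_apply]; ring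

lemma pull_pull (A B : End) (h : E6) : pull A (pull B h) = pull (B.comp A) h :=
  ap_ext fun p q => by simp [ap_pull]
lemma pull_comp (A B : End) : pull (B.comp A) = (pull A).comp (pull B) := by
  ext1 h; exact (pull_pull A B h).symm
@[simp] lemma pull_id : pull (ContinuousLinearMap.id ℝ V) = ContinuousLinearMap.id ℝ E6 := by
  ext1 h; exact ap_ext fun p q => by simp [ap_pull]
lemma pull_smul (c : ℝ) (A : End) : pull (c • A) = c ^ 2 • pull A := by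
  ext1 h; exact ap_ext fun p q => by simp [ap_pull, ap_smul_l, ap_smul_r]; ring
lemma pull_neg (A : End) : pull (-A) = pull A := by
  ext1 h; exact ap_ext fun p q => by simp [ap_pull, ap_neg_l, ap_neg_r]

lemma norm_pull_le (A : End) : ‖pull A‖ ≤ 6 * ‖A‖ ^ 2 := by
  refine (pull A).opNorm_le_bound (by positivity) fun h => ?_
  have e : ∀ i, ‖A (bv i)‖ ≤ ‖A‖ := fun i => by simpa using A.le_opNorm (bv i)
  have : ‖pull A h‖ ≤ 3 * (2 * ‖h‖ * ‖A‖ * ‖A‖) := norm_le_of_ap fun i j => by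
    rw [ap_pull]
    refine (abs_ap_le _ _ _).trans ?_
    gcongr <;> exact e _
  nlinarith

lemma norm_pull_sub_le (A B : End) : ‖pull A - pull B‖ ≤ 6 * (‖A‖ + ‖B‖) * ‖A - B‖ := by
  refine (pull A - pull B).opNorm_le_bound (by positivity) fun h => ?_
  have e : ∀ (A : End) i, ‖A (bv i)‖ ≤ ‖A‖ := fun A i => by simpa using A.le_opNorm (bv i)
  have : ‖(pull A - pull B) h‖ ≤ 3 * (2 * ‖h‖ * ‖A - B‖ * ‖A‖ + 2 * ‖h‖ * ‖B‖ * ‖A - B‖) :=
    norm_le_of_ap fun i j => by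
      have : ap ((pull A - pull B) h) (bv i) (bv j)
          = ap h ((A - B) (bv i)) (A (bv j)) + ap h (B (bv i)) ((A - B) (bv j)) := by
        simp [ap_pull, ap_sub_l, ap_sub_r]
      rw [this]
      refine (abs_add_le _ _).trans (add_le_add ?_ ?_)
      · refine (abs_ap_le _ _ _).trans ?_
        gcongr <;> exact e _ _
      · refine (abs_ap_le _ _ _).trans ?_
        gcongr <;> exact e _ _
  nlinarith

/-! ### diagonal maps -/
@[simp] lemma dg_apply (c : Fin 6 → ℝ) (h : E6) (k : Fin 6) : dg c h k = c k * h k := by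
  fin_cases k <;> simp [dg, Fin.sum_univ_six, b6_apply]
@[simp] lemma Q6_0 (h : E6) : Q6 h 0 = h 0 := by simp [Q6]
@[simp] lemma Q6_1 (h : E6) : Q6 h 1 = h 1 := by simp [Q6]
@[simp] lemma Q6_2 (h : E6) : Q6 h 2 = h 2 := by simp [Q6]
@[simp] lemma Q6_3 (h : E6) : Q6 h 3 = -h 3 := by simp [Q6]
@[simp] lemma Q6_4 (h : E6) : Q6 h 4 = -h 4 := by simp [Q6]
@[simp] lemma Q6_5 (h : E6) : Q6 h 5 = -h 5 := by simp [Q6]
@[simp] lemma Pm_0 (h : E6) : Pm h 0 = 0 := by simp [Pm]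
@[simp] lemma Pm_1 (h : E6) : Pm h 1 = h 1 := by simp [Pm]
@[simp] lemma Pm_2 (h : E6) : Pm h 2 = h 2 := by simp [Pm]
@[simp] lemma Pm_3 (h : E6) : Pm h 3 = 0 := by simp [Pm]
@[simp] lemma Pm_4 (h : E6) : Pm h 4 = 0 := by simp [Pm]
@[simp] lemma Pm_5 (h : E6) : Pm h 5 = 0 := by simp [Pm]
@[simp] lemma Po_0 (h : E6) : Po h 0 = h 0 := by simp [Po]
@[simp] lemma Po_1 (h : E6) : Po h 1 = 0 := by simp [Po]
@[simp] lemma Po_2 (h : E6) : Po h 2 = 0 := by simp [Po]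
@[simp] lemma Po_3 (h : E6) : Po h 3 = h 3 := by simp [Po]
@[simp] lemma Po_4 (h : E6) : Po h 4 = h 4 := by simp [Po]
@[simp] lemma Po_5 (h : E6) : Po h 5 = h 5 := by simp [Po]
@[simp] lemma Pa_0 (h : E6) : Pa h 0 = 0 := by simp [Pa]
@[simp] lemma Pa_1 (h : E6) : Pa h 1 = 0 := by simp [Pa]
@[simp] lemma Pa_2 (h : E6) : Pa h 2 = 0 := by simp [Pa]
@[simp] lemma Pa_3 (h : E6) : Pa h 3 = h 3 := by simp [Pa]
@[simp] lemma Pa_4 (h : E6) : Pa h 4 = h 4 := by simp [Pa]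
@[simp] lemma Pa_5 (h : E6) : Pa h 5 = h 5 := by simp [Pa]
@[simp] lemma B2_0 (c : E2) : B2 c 0 = 0 := by simp [B2, b6_apply]
@[simp] lemma B2_1 (c : E2) : B2 c 1 = c 0 := by simp [B2, b6_apply]
@[simp] lemma B2_2 (c : E2) : B2 c 2 = c 1 := by simp [B2, b6_apply]
@[simp] lemma B2_3 (c : E2) : B2 c 3 = 0 := by simp [B2, b6_apply]
@[simp] lemma B2_4 (c : E2) : B2 c 4 = 0 := by simp [B2, b6_apply]
@[simp] lemma B2_5 (c : E2) : B2 c 5 = 0 := by simp [B2, b6_apply]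
@[simp] lemma cm_0 (h : E6) : cm h 0 = h 1 := by simp [cm]
@[simp] lemma cm_1 (h : E6) : cm h 1 = h 2 := by simp [cm]

@[simp] lemma Q6_Q6 (h : E6) : Q6 (Q6 h) = h := by apply E6_ext <;> simp
@[simp] lemma cm_B2 (c : E2) : cm (B2 c) = c := by apply E2_ext <;> simp
@[simp] lemma B2_cm (h : E6) : B2 (cm h) = Pm h := by apply E6_ext <;> simp
@[simp] lemma cm_Po (h : E6) : cm (Po h) = 0 := by apply E2_ext <;> simp
@[simp] lemma cm_Pm (h : E6) : cm (Pm h) = cm h := by apply E2_ext <;> simp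
@[simp] lemma Po_B2 (c : E2) : Po (B2 c) = 0 := by apply E6_ext <;> simp
@[simp] lemma Pm_B2 (c : E2) : Pm (B2 c) = B2 c := by apply E6_ext <;> simp
lemma Pm_add_Po (h : E6) : Pm h + Po h = h := by apply E6_ext <;> simp
lemma norm_eq_of_sq {E F : Type*} [NormedAddCommGroup E] [NormedAddCommGroup F] {a : E} {b : F}
    (h : ‖a‖ ^ 2 = ‖b‖ ^ 2) : ‖a‖ = ‖b‖ := (sq_eq_sq₀ (norm_nonneg _) (norm_nonneg _)).1 h
lemma norm_le_of_sq {E F : Type*} [NormedAddCommGroup E] [NormedAddCommGroup F] {a : E} {b : F}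
    (h : ‖a‖ ^ 2 ≤ ‖b‖ ^ 2) : ‖a‖ ≤ ‖b‖ :=
  (pow_le_pow_iff_left₀ (norm_nonneg _) (norm_nonneg _) two_ne_zero).1 h
@[simp] lemma norm_Q6 (h : E6) : ‖Q6 h‖ = ‖h‖ := norm_eq_of_sq (by simp [normsq_E6])
lemma norm_cm (h : E6) : ‖cm h‖ = ‖Pm h‖ := norm_eq_of_sq (by simp [normsq_E6, normsq_E2])
@[simp] lemma norm_B2 (c : E2) : ‖B2 c‖ = ‖c‖ := norm_eq_of_sq (by simp [normsq_E6, normsq_E2])
lemma normsq_split (h : E6) : ‖h‖ ^ 2 = ‖Pm h‖ ^ 2 + ‖Po h‖ ^ 2 := by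
  simp [normsq_E6]; ring
lemma normsq_Po (h : E6) : ‖Po h‖ ^ 2 = h 0 ^ 2 + ‖Pa h‖ ^ 2 := by simp [normsq_E6]; ring
lemma norm_Pm_le (h : E6) : ‖Pm h‖ ≤ ‖h‖ :=
  norm_le_of_sq (by rw [normsq_split h]; nlinarith [sq_nonneg ‖Po h‖])
lemma norm_Po_le (h : E6) : ‖Po h‖ ≤ ‖h‖ :=
  norm_le_of_sq (by rw [normsq_split h]; nlinarith [sq_nonneg ‖Pm h‖])
lemma norm_Pa_le (h : E6) : ‖Pa h‖ ≤ ‖Po h‖ :=
  norm_le_of_sq (by rw [normsq_Po h]; nlinarith [sq_nonneg (h 0)])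
lemma norm_cm_le (h : E6) : ‖cm h‖ ≤ ‖h‖ := (norm_cm h).trans_le (norm_Pm_le h)

/-! ### wedge product and determinant -/
lemma wq_apply (g h : E6) :
    wq g h = 2 * (g 0 * h 0 + g 1 * h 1 + g 2 * h 2 - g 3 * h 3 - g 4 * h 4 - g 5 * h 5) := by
  simp [wq, inner_E6]; ring
lemma wq_symm (g h : E6) : wq g h = wq h g := by simp [wq_apply]; ring
lemma wq_split (g h : E6) : wq g h = 2 * (g 0 * h 0 + ⟪Pm g, Pm h⟫ - ⟪Pa g, Pa h⟫) := by
  simp [wq_apply, inner_E6]; ring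
@[simp] lemma wq_zero_l (h : E6) : wq 0 h = 0 := by simp [wq_apply]
@[simp] lemma wq_zero_r (h : E6) : wq h 0 = 0 := by simp [wq_apply]
lemma wq_add_l (g g' h : E6) : wq (g + g') h = wq g h + wq g' h := by simp [wq_apply]; ring
lemma wq_add_r (g h h' : E6) : wq g (h + h') = wq g h + wq g h' := by simp [wq_apply]; ring
lemma wq_smul_l (c : ℝ) (g h : E6) : wq (c • g) h = c * wq g h := by simp [wq_apply]; ring
lemma wq_smul_r (c : ℝ) (g h : E6) : wq g (c • h) = c * wq g h := by simp [wq_apply]; ring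
lemma abs_wq_le (g h : E6) : |wq g h| ≤ 2 * ‖g‖ * ‖h‖ := by
  rw [wq, abs_mul, abs_two]
  have := abs_real_inner_le_norm g (Q6 h)
  rw [norm_Q6] at this; linarith
/-- `wq g` as a continuous linear functional, continuous and linear in `g` -/
def wqL : E6 →L[ℝ] E6 →L[ℝ] ℝ :=
  (2 : ℝ) • ((ContinuousLinearMap.compL ℝ E6 E6 ℝ).flip Q6).comp (innerSL ℝ)
@[simp] lemma wqL_apply (g h : E6) : wqL g h = wq g h := by simp [wqL, wq]
lemma wq_ap (g h : E6) : wq g h = ap g (bv 0) (bv 1) * ap h (bv 2) (bv 3)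
    - ap g (bv 0) (bv 2) * ap h (bv 1) (bv 3) + ap g (bv 0) (bv 3) * ap h (bv 1) (bv 2)
    + ap g (bv 1) (bv 2) * ap h (bv 0) (bv 3) - ap g (bv 1) (bv 3) * ap h (bv 0) (bv 2)
    + ap g (bv 2) (bv 3) * ap h (bv 0) (bv 1) := by
  simp [wq_apply, ap_apply, bv_apply]; ring
lemma wq_ext {g h : E6} (H : ∀ β, wq g β = wq h β) : g = h := by
  apply E6_ext
  · simpa [wq_apply, b6_apply] using H (b6 0)
  · simpa [wq_apply, b6_apply] using H (b6 1)
  · simpa [wq_apply, b6_apply] using H (b6 2)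
  · simpa [wq_apply, b6_apply] using H (b6 3)
  · simpa [wq_apply, b6_apply] using H (b6 4)
  · simpa [wq_apply, b6_apply] using H (b6 5)

lemma st_apply (p q : V) : st p q = Q6 (wv p q) := rfl
lemma wq_st (h : E6) (p q : V) : wq h (st p q) = ap h p q := by
  rw [wq, st_apply, Q6_Q6, ap_inner, real_inner_comm]
lemma norm_st_le (p q : V) : ‖st p q‖ ≤ ‖p‖ * ‖q‖ := by
  rw [st_apply, norm_Q6]; exact norm_wv_le p q
/-- the forms `st p q` span -/
lemma st_span (h : E6) : h = (h 0 - h 3) • st (bv 0) (bv 1) + (h 1 - h 4) • st (bv 0) (bv 2)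
    + (h 2 - h 5) • st (bv 0) (bv 3) + (h 2 + h 5) • st (bv 1) (bv 2)
    - (h 1 + h 4) • st (bv 1) (bv 3) + (h 0 + h 3) • st (bv 2) (bv 3) := by
  apply E6_ext <;> simp [st_apply, wv_0, wv_1, wv_2, wv_3, wv_4, wv_5, bv_apply] <;> ring
lemma st_add_wv (p q : V) : st p q + wv p q
    = ap (b6 0) p q • b6 0 + ap (b6 1) p q • b6 1 + ap (b6 2) p q • b6 2 := by
  apply E6_ext <;> simp [st_apply, wv_0, wv_1, wv_2, ap_apply, b6_apply]
lemma ap_b0 (p q : V) : ap (b6 0) p q = ⟪J0 p, q⟫ := by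
  simp [ap_apply, b6_apply, inner_V]; ring
lemma ap_b0_J0 (p : V) : ap (b6 0) p (J0 p) = ‖p‖ ^ 2 := by
  simp [ap_apply, b6_apply, normsq_V]; ring
lemma ap_b1_J0 (p : V) : ap (b6 1) p (J0 p) = 0 := by simp [ap_apply, b6_apply]; ring
lemma ap_b2_J0 (p : V) : ap (b6 2) p (J0 p) = 0 := by simp [ap_apply, b6_apply]; ring
lemma ap_B2_J0 (c : E2) (p : V) : ap (B2 c) p (J0 p) = 0 := by simp [ap_apply]; ring
lemma cm_st_J0 (p : V) : cm (st p (J0 p)) = 0 := by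
  apply E2_ext <;> simp [st_apply, wv_1, wv_2] <;> ring
lemma cm_wv_J0 (p : V) : cm (wv p (J0 p)) = 0 := by
  apply E2_ext <;> simp [wv_1, wv_2] <;> ring
lemma st_J0_0 (p : V) : st p (J0 p) 0 = ‖p‖ ^ 2 / 2 := by
  simp [st_apply, wv_0, normsq_V]; ring
lemma pull_J0 (h : E6) : pull J0 h = Po h - Pm h :=
  ap_ext fun p q => by rw [ap_pull]; simp [ap_apply]; ring
lemma inv_iff_cm (h : E6) : (∀ u v, ap h (J0 u) (J0 v) = ap h u v) ↔ cm h = 0 := by
  constructor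
  · intro H
    have h1 : pull J0 h = h := ap_ext fun p q => by rw [ap_pull, H]
    rw [pull_J0] at h1
    have a1 := congrArg (fun g : E6 => g 1) h1
    have a2 := congrArg (fun g : E6 => g 2) h1
    simp at a1 a2
    apply E2_ext <;> simp <;> linarith
  · intro H u v
    have a1 : h 1 = 0 := by simpa using congrArg (fun g : E2 => g 0) H
    have a2 : h 2 = 0 := by simpa using congrArg (fun g : E2 => g 1) H
    simp [ap_apply, a1, a2]; ring

lemma D4_apply (p q u v : V) : D4 p q u v =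
    (p 0 * q 1 - p 1 * q 0) * (u 2 * v 3 - u 3 * v 2)
    - (p 0 * q 2 - p 2 * q 0) * (u 1 * v 3 - u 3 * v 1)
    + (p 0 * q 3 - p 3 * q 0) * (u 1 * v 2 - u 2 * v 1)
    + (p 1 * q 2 - p 2 * q 1) * (u 0 * v 3 - u 3 * v 0)
    - (p 1 * q 3 - p 3 * q 1) * (u 0 * v 2 - u 2 * v 0)
    + (p 2 * q 3 - p 3 * q 2) * (u 0 * v 1 - u 1 * v 0) := by
  simp [D4, ap_apply, st_apply, wv_0, wv_1, wv_2, wv_3, wv_4, wv_5]; ring
lemma D4_swap (p q u v : V) : D4 p q u v = D4 u v p q := by simp only [D4_apply]; ring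
lemma abs_D4_le (p q u v : V) : |D4 p q u v| ≤ 2 * ‖p‖ * ‖q‖ * ‖u‖ * ‖v‖ := by
  refine (abs_ap_le _ _ _).trans ?_
  have := norm_st_le p q
  calc 2 * ‖st p q‖ * ‖u‖ * ‖v‖ ≤ 2 * (‖p‖ * ‖q‖) * ‖u‖ * ‖v‖ := by gcongr
    _ = _ := by ring

lemma det4 (M : Matrix (Fin 4) (Fin 4) ℝ) : M.det =
    (M 0 0 * M 1 1 - M 1 0 * M 0 1) * (M 2 2 * M 3 3 - M 3 2 * M 2 3)
    - (M 0 0 * M 2 1 - M 2 0 * M 0 1) * (M 1 2 * M 3 3 - M 3 2 * M 1 3)
    + (M 0 0 * M 3 1 - M 3 0 * M 0 1) * (M 1 2 * M 2 3 - M 2 2 * M 1 3)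
    + (M 1 0 * M 2 1 - M 2 0 * M 1 1) * (M 0 2 * M 3 3 - M 3 2 * M 0 3)
    - (M 1 0 * M 3 1 - M 3 0 * M 1 1) * (M 0 2 * M 2 3 - M 2 2 * M 0 3)
    + (M 2 0 * M 3 1 - M 3 0 * M 2 1) * (M 0 2 * M 1 3 - M 1 2 * M 0 3) := by
  simp [Matrix.det_succ_row_zero, Fin.sum_univ_succ, Fin.succAbove]
  ring

lemma det_eq_D4 (A : End) : A.det = D4 (A (bv 0)) (A (bv 1)) (A (bv 2)) (A (bv 3)) := by
  have : A.det = (LinearMap.toMatrix (EuclideanSpace.basisFun (Fin 4) ℝ).toBasis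
      (EuclideanSpace.basisFun (Fin 4) ℝ).toBasis (A : V →ₗ[ℝ] V)).det :=
    (LinearMap.det_toMatrix _ _).symm
  rw [this, det4, D4_apply]
  simp [LinearMap.toMatrix_apply, bv]

lemma wq_pull (A : End) (g h : E6) : wq (pull A g) (pull A h) = A.det * wq g h := by
  rw [wq_ap, det_eq_D4, D4_apply, wq_apply]
  simp only [ap_pull]
  simp only [ap_apply]
  ring

lemma pull_wv (A : End) (h : E6) (p q : V) : ⟪wv p q, pull A h⟫ = ⟪wv (A p) (A q), h⟫ := by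
  have := ap_pull A h p q
  rw [ap_inner, ap_inner] at this; linarith

lemma D4_comp (A : End) (p q u v : V) : D4 (A p) (A q) (A u) (A v) = A.det * D4 p q u v := by
  have e : ∀ a : V, A a = a 0 • A (bv 0) + a 1 • A (bv 1) + a 2 • A (bv 2) + a 3 • A (bv 3) :=
    fun a => by conv_lhs => rw [V_sum a]; simp
  rw [det_eq_D4, e p, e q, e u, e v]
  simp only [D4_apply, PiLp.add_apply, PiLp.smul_apply, smul_eq_mul]
  ring

lemma wq_sl (u v : V) (k : Op) (β : E6) : wq (sl u v k) β = ap (k β) u v := by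
  conv_rhs => rw [← Q6_Q6 β, E6_sum (Q6 β)]
  simp [sl, Fin.sum_univ_six, wq_apply, b6_apply]; ring
lemma ap_sl (u v p q : V) (k : Op) : ap (sl u v k) p q = ap (k (st p q)) u v := by
  rw [← wq_st, wq_sl]
lemma Op_ext {k k' : Op} (H : ∀ p q u v, ap (k (st p q)) u v = ap (k' (st p q)) u v) : k = k' := by
  have e : ∀ p q, k (st p q) = k' (st p q) := fun p q => ap_ext (H p q)
  ext1 h
  rw [st_span h]
  simp only [map_add, map_sub, map_smul, e]
lemma dl2_st (A B : End) (p q : V) : dl2 A B (st p q) = pull B (st (A p) (A q)) := by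
  rw [dl2, ContinuousLinearMap.comp_apply]
  congr 1
  have e : ∀ i, ⟪Q6 (pull A (Q6 (b6 i))), st p q⟫ = st (A p) (A q) i := fun i => by
    have h1 : ⟪Q6 (pull A (Q6 (b6 i))), st p q⟫ = ⟪wv p q, pull A (Q6 (b6 i))⟫ := by
      simp [st_apply, inner_E6]; ring
    rw [h1, pull_wv]
    fin_cases i <;> simp [st_apply, inner_E6, b6_apply]
  conv_rhs => rw [E6_sum (st (A p) (A q))]
  have e2 : ∀ x : ℝ, 2 * x * 2⁻¹ = x := fun x => by ring
  simp [Fin.sum_univ_six, e, smul_smul, e2]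
lemma ap_dl2 (A B : End) (p q u v : V) :
    ap (dl2 A B (st p q)) u v = D4 (A p) (A q) (B u) (B v) := by
  rw [dl2_st, ap_pull, D4]
lemma sl_dl2 (A B : End) (u v : V) : sl u v (dl2 A B) = pull A (st (B u) (B v)) :=
  ap_ext fun p q => by rw [ap_sl, ap_dl2, ap_pull, D4_swap, D4]
lemma dl2_left (L A B : End) : dl2 (L.comp A) (L.comp B) = L.det • dl2 A B :=
  Op_ext fun p q u v => by simp [ap_dl2, D4_comp]
lemma dl2_smul_id (a b : ℝ) : dl2 (a • ContinuousLinearMap.id ℝ V) (b • ContinuousLinearMap.id ℝ V)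
    = (a ^ 2 * b ^ 2) • ContinuousLinearMap.id ℝ E6 :=
  Op_ext fun p q u v => by
    rw [ap_dl2]
    change _ = ap ((a ^ 2 * b ^ 2) • st p q) u v
    rw [ap_smul, ← D4]; simp [D4_apply]; ring
lemma pull_st (S S' : End) (h : S'.comp S = ContinuousLinearMap.id ℝ V) (p q : V) :
    S.det • pull S' (st p q) = st (S p) (S q) := by
  have h2 : S.comp S' = ContinuousLinearMap.id ℝ V := by
    have h3 : (S' : V →ₗ[ℝ] V) * (S : V →ₗ[ℝ] V) = 1 := by
      ext1 v; exact congrArg (fun T : End => T v) h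
    have h4 := mul_eq_one_comm.1 h3
    ext1 v; exact congrArg (fun T : V →ₗ[ℝ] V => T v) h4
  refine ap_ext fun u v => ?_
  have hu : S (S' u) = u := congrArg (fun T : End => T u) h2
  have hv : S (S' v) = v := congrArg (fun T : End => T v) h2
  rw [ap_smul, ap_pull, ← D4, ← D4_comp, hu, hv, D4]
/-- change of coordinates in both slots -/
lemma dl2_right (A B S S' T : End) (h : S'.comp S = ContinuousLinearMap.id ℝ V) :
    dl2 (A.comp S) (B.comp T) = S.det • (pull T).comp ((dl2 A B).comp (pull S')) :=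
  Op_ext fun p q u v => by
    have : (S.det • (pull T).comp ((dl2 A B).comp (pull S'))) (st p q)
        = pull T (dl2 A B (S.det • pull S' (st p q))) := by simp
    rw [this, pull_st S S' h, ap_pull, ap_dl2, ap_dl2]; rfl
lemma wq_st_self (p q : V) : wq (st p q) (st p q) = 0 := by
  rw [wq_st, ← D4, D4_apply]; ring
lemma wq_pull_inv (S S' : End) (h : S'.comp S = ContinuousLinearMap.id ℝ V) (g k : E6) :
    wq (pull S g) k = S.det * wq g (pull S' k) := by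
  rw [← wq_pull, pull_pull, h, pull_id]; rfl

/-! ### complex linear maps -/
lemma comm_pull {S : End} (h : S.comp J0 = J0.comp S) (g : E6) :
    Pm (pull S g) = pull S (Pm g) ∧ Po (pull S g) = pull S (Po g) := by
  have h1 : pull J0 (pull S g) = pull S (pull J0 g) := by rw [pull_pull, pull_pull, h]
  rw [pull_J0, pull_J0, map_sub] at h1
  have h2 : Pm (pull S g) + Po (pull S g) = pull S (Pm g) + pull S (Po g) := by
    rw [Pm_add_Po, ← map_add, Pm_add_Po]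
  constructor
  · have : (2 : ℝ) • Pm (pull S g) = (2 : ℝ) • pull S (Pm g) := by
      linear_combination (norm := module) h2 - h1
    exact smul_right_injective _ two_ne_zero this
  · have : (2 : ℝ) • Po (pull S g) = (2 : ℝ) • pull S (Po g) := by
      linear_combination (norm := module) h2 + h1
    exact smul_right_injective _ two_ne_zero this

lemma D4_J0 (a c : V) : D4 a (J0 a) c (J0 c) = ap (b6 1) a c ^ 2 + ap (b6 2) a c ^ 2 := by
  simp [D4_apply, ap_apply, b6_apply]; ring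

lemma det_nonneg_of_comm {S : End} (h : S.comp J0 = J0.comp S) : 0 ≤ S.det := by
  have e : ∀ v, S (J0 v) = J0 (S v) := fun v => congrArg (fun T : End => T v) h
  have h1 : bv 1 = J0 (bv 0) := by apply V_ext <;> simp [bv_apply]
  have h3 : bv 3 = J0 (bv 2) := by apply V_ext <;> simp [bv_apply]
  rw [det_eq_D4, h1, h3, e, e, D4_J0]; positivity

/-- two almost complex lines span an almost positive volume -/
lemma D4_cone (a c e e' : V) :
    -(2 * (‖c‖ ^ 2 * ‖e‖ ^ 2 + ‖a‖ ^ 2 * ‖e'‖ ^ 2)) ≤ D4 a (J0 a + e) c (J0 c + e') := by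
  set x := ap (b6 1) a c
  set y := ap (b6 2) a c
  have hl : ∀ p q : V, ap (b6 1) p q ^ 2 + ap (b6 2) p q ^ 2 ≤ ‖p‖ ^ 2 * ‖q‖ ^ 2 := fun p q => by
    have : ‖p‖ ^ 2 * ‖q‖ ^ 2 = ap (b6 1) p q ^ 2 + ap (b6 2) p q ^ 2
        + (⟪p, q⟫ ^ 2 + ⟪J0 p, q⟫ ^ 2) := by
      simp [ap_apply, b6_apply, normsq_V, inner_V]; ring
    nlinarith [sq_nonneg ⟪p, q⟫, sq_nonneg ⟪J0 p, q⟫]
  have e0 : D4 a (J0 a + e) c (J0 c + e') = x ^ 2 + y ^ 2
      + (x * ap (b6 2) e c - y * ap (b6 1) e c) + (x * ap (b6 2) a e' - y * ap (b6 1) a e')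
      + D4 a e c e' := by
    simp [x, y, D4_apply, ap_apply, b6_apply]; ring
  have h1 := hl e c
  have h2 := hl a e'
  have h3 := neg_abs_le (D4 a e c e')
  have h4 := abs_D4_le a e c e'
  rw [e0]
  nlinarith [sq_nonneg (x + ap (b6 2) e c + ap (b6 2) a e'),
    sq_nonneg (y - ap (b6 1) e c - ap (b6 1) a e'), sq_nonneg (‖c‖ * ‖e‖ - ‖a‖ * ‖e'‖),
    sq_nonneg (ap (b6 2) e c - ap (b6 2) a e'), sq_nonneg (ap (b6 1) e c - ap (b6 1) a e')]

attribute [irreducible] wqL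

end Vale.Agent.P204
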