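import Vale.Agent.P204.Basic

/-! Smoothness of the algebraic operations, cut-off functions, frames. -/

set_option maxSynthPendingDepth 3

open scoped Topology ContDiff RealInnerProductSpace
open Set Metric MeasureTheory

noncomputable section
namespace Vale.Agent.P204

attribute [local semireducible] J0 el wv ev ap alt2 w1 pull dg Q6 Pm Po Pa B2 cm wq st D4 sl dl2

lemma D4_eq (p q u v : V) : D4 p q u v = ap (st p q) u v := rfl
lemma w1_eq (ξ η : Cov) : w1 ξ η = alt2 (ξ.smulRight η) := rfl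
lemma wq_eq (g h : E6) : wq g h = 2 * ⟪g, Q6 h⟫ := rfl
lemma k21_apply (F : Frame) (δ : ℝ) (x z a a' p : V) :
    F.k21 δ x z a a' p = D4 (gk δ (F.Ps x z)) (F.DPs x z a) (F.DPs x z a') (F.A x p) := by
  rw [D4_eq, ap_inner, real_inner_comm]; simp [Frame.k21]
lemma k12_apply (F : Frame) (δ : ℝ) (x z a p q : V) :
    ap (F.k12 δ x z a) p q = D4 (gk δ (F.Ps x z)) (F.DPs x z a) (F.A x p) (F.A x q) := by
  rw [D4_eq, ← ap_pull]; rfl
lemma k22_apply (F : Frame) (x z a a' p q : V) :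
    ap (F.k22 x z a a') p q = D4 (F.DPs x z a) (F.DPs x z a') (F.A x p) (F.A x q) := by
  rw [D4_eq, ← ap_pull]; rfl

section smooth
variable {P : Type*} [NormedAddCommGroup P] [NormedSpace ℝ P] {n : WithTop ℕ∞}

lemma contDiff_wv : ContDiff ℝ n (fun p : V × V => wv p.1 p.2) :=
  wv.isBoundedBilinearMap.contDiff
lemma contDiff_st : ContDiff ℝ n (fun p : V × V => st p.1 p.2) :=
  Q6.contDiff.comp contDiff_wv
lemma contDiff_stL : ContDiff ℝ n st :=
  contDiff_const.clm_comp wv.contDiff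
lemma contDiff_ev : ContDiff ℝ n (fun p : V × V => ev p.1 p.2) :=
  ((innerSL ℝ : E6 →L[ℝ] E6 →L[ℝ] ℝ).contDiff.comp contDiff_wv).const_smul (2 : ℝ)
lemma contDiff_ap : ContDiff ℝ n (fun p : E6 × V × V => ap p.1 p.2.1 p.2.2) :=
  (contDiff_ev.comp contDiff_snd).clm_apply contDiff_fst
lemma contDiff_D4 : ContDiff ℝ n (fun p : (V × V) × V × V => D4 p.1.1 p.1.2 p.2.1 p.2.2) := by
  have := (contDiff_ap (n := n)).comp (((contDiff_st (n := n)).comp
    (contDiff_fst (E := V × V) (F := V × V))).prodMk contDiff_snd)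
  simpa only [Function.comp_def, D4] using this
lemma contDiff_pull : ContDiff ℝ n pull := by
  unfold pull
  refine ContDiff.sum fun i _ => ContDiff.sum fun j _ => ?_
  exact (contDiff_ev.comp ((contDiff_id.clm_apply contDiff_const).prodMk
    (contDiff_id.clm_apply contDiff_const))).smulRight contDiff_const
lemma contDiff_w1 : ContDiff ℝ n (fun p : Cov × Cov => w1 p.1 p.2) :=
  alt2.contDiff.comp (contDiff_fst.smulRight contDiff_snd)
lemma contDiff_wq : ContDiff ℝ n (fun p : E6 × E6 => wq p.1 p.2) := by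
  simpa using (wqL.isBoundedBilinearMap.contDiff : ContDiff ℝ n _)
lemma contDiff_dl2 : ContDiff ℝ n (fun p : End × End => dl2 p.1 p.2) := by
  unfold dl2
  refine (contDiff_pull.comp contDiff_snd).clm_comp (ContDiff.sum fun i _ => ?_)
  refine ContDiff.smulRight (ContDiff.const_smul _ ?_) contDiff_const
  exact (innerSL ℝ : E6 →L[ℝ] E6 →L[ℝ] ℝ).contDiff.comp
    (Q6.contDiff.comp ((contDiff_pull.comp contDiff_fst).clm_apply contDiff_const))
lemma contDiff_sl : ContDiff ℝ n (fun p : V × V => sl p.1 p.2) := by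
  unfold sl
  exact ContDiff.sum fun i _ => (contDiff_ev.clm_comp contDiff_const).smulRight contDiff_const
lemma contDiff_det : ContDiff ℝ n (fun A : End => A.det) := by
  have e : ∀ i, ContDiff ℝ n (fun A : End => A (bv i)) := fun i =>
    contDiff_id.clm_apply contDiff_const
  have := (contDiff_D4 (n := n)).comp (((e 0).prodMk (e 1)).prodMk ((e 2).prodMk (e 3)))
  simpa only [Function.comp_def, det_eq_D4] using this

lemma cd_ap {h : P → E6} {p q : P → V} (hh : ContDiff ℝ n h) (hp : ContDiff ℝ n p)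
    (hq : ContDiff ℝ n q) : ContDiff ℝ n (fun x => ap (h x) (p x) (q x)) := by
  simpa only [Function.comp_def] using (contDiff_ap (n := n)).comp (hh.prodMk (hp.prodMk hq))
lemma cd_pull {A : P → End} (hA : ContDiff ℝ n A) : ContDiff ℝ n (fun x => pull (A x)) :=
  contDiff_pull.comp hA
lemma cd_st {p q : P → V} (hp : ContDiff ℝ n p) (hq : ContDiff ℝ n q) :
    ContDiff ℝ n (fun x => st (p x) (q x)) := by
  simpa only [Function.comp_def] using (contDiff_st (n := n)).comp (hp.prodMk hq)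
lemma cd_D4 {p q u v : P → V} (hp : ContDiff ℝ n p) (hq : ContDiff ℝ n q) (hu : ContDiff ℝ n u)
    (hv : ContDiff ℝ n v) : ContDiff ℝ n (fun x => D4 (p x) (q x) (u x) (v x)) := by
  simpa only [Function.comp_def] using
    (contDiff_D4 (n := n)).comp ((hp.prodMk hq).prodMk (hu.prodMk hv))
lemma cd_w1 {ξ η : P → Cov} (h1 : ContDiff ℝ n ξ) (h2 : ContDiff ℝ n η) :
    ContDiff ℝ n (fun x => w1 (ξ x) (η x)) := by
  simpa only [Function.comp_def] using (contDiff_w1 (n := n)).comp (h1.prodMk h2)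
lemma cd_wq {g h : P → E6} (h1 : ContDiff ℝ n g) (h2 : ContDiff ℝ n h) :
    ContDiff ℝ n (fun x => wq (g x) (h x)) := by
  simpa only [Function.comp_def] using (contDiff_wq (n := n)).comp (h1.prodMk h2)
lemma cd_dl2 {A B : P → End} (h1 : ContDiff ℝ n A) (h2 : ContDiff ℝ n B) :
    ContDiff ℝ n (fun x => dl2 (A x) (B x)) := by
  simpa only [Function.comp_def] using (contDiff_dl2 (n := n)).comp (h1.prodMk h2)
lemma cd_ev {p q : P → V} (hp : ContDiff ℝ n p) (hq : ContDiff ℝ n q) :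
    ContDiff ℝ n (fun x => ev (p x) (q x)) := by
  simpa only [Function.comp_def] using (contDiff_ev (n := n)).comp (hp.prodMk hq)
lemma cd_sl {p q : P → V} (hp : ContDiff ℝ n p) (hq : ContDiff ℝ n q) :
    ContDiff ℝ n (fun x => sl (p x) (q x)) := by
  simpa only [Function.comp_def] using (contDiff_sl (n := n)).comp (hp.prodMk hq)
lemma cd_det {A : P → End} (hA : ContDiff ℝ n A) : ContDiff ℝ n (fun x => (A x).det) := by
  simpa only [Function.comp_def] using (contDiff_det (n := n)).comp hA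

lemma continuous_ap : Continuous (fun p : E6 × V × V => ap p.1 p.2.1 p.2.2) :=
  (contDiff_ap (n := 0)).continuous
lemma continuous_pull : Continuous pull := (contDiff_pull (n := 0)).continuous
lemma continuous_wq : Continuous (fun p : E6 × E6 => wq p.1 p.2) :=
  (contDiff_wq (n := 0)).continuous

lemma cd_fderiv {E : Type*} [NormedAddCommGroup E] [NormedSpace ℝ E] {f : P → E}
    (hf : ContDiff ℝ ∞ f) : ContDiff ℝ ∞ (fderiv ℝ f) :=
  hf.fderiv_right (m := ∞) (by simp)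
lemma cd_d1 {b : V → Cov} (hb : ContDiff ℝ ∞ b) : ContDiff ℝ ∞ (d1 b) :=
  alt2.contDiff.comp (cd_fderiv hb)

/-- derivative of an evaluated form -/
lemma fderiv_ap {h : P → E6} {x : P} (hh : DifferentiableAt ℝ h x) (p q : V) (a : P) :
    fderiv ℝ (fun y => ap (h y) p q) x a = ap (fderiv ℝ h x a) p q := by
  have := ((ev p q).hasFDerivAt.comp x hh.hasFDerivAt).fderiv
  exact congrArg (fun L : P →L[ℝ] ℝ => L a) this
/-- derivative of an evaluated family of linear maps -/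
lemma fderiv_app {E F : Type*} [NormedAddCommGroup E] [NormedSpace ℝ E] [NormedAddCommGroup F]
    [NormedSpace ℝ F] {h : P → E →L[ℝ] F} {x : P} (hh : DifferentiableAt ℝ h x) (p : E) (a : P) :
    fderiv ℝ (fun y => h y p) x a = fderiv ℝ h x a p := by
  have := ((ContinuousLinearMap.apply ℝ F p).hasFDerivAt.comp x hh.hasFDerivAt).fderiv
  exact congrArg (fun L : P →L[ℝ] F => L a) this
end smooth

/-! ### test functions -/
section cc
variable {E : Type} [NormedAddCommGroup E] [NormedSpace ℝ E] {r r' : ℝ} {f g : V → E}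

lemma Cc.mono (h : Cc r f) (hr : r ≤ r') : Cc r' f :=
  ⟨h.1, fun y hy => h.2 y (hr.trans_lt hy)⟩
lemma Cc.continuous (h : Cc r f) : Continuous f := h.1.continuous
lemma Cc.tsupport_subset (h : Cc r f) : tsupport f ⊆ closedBall 0 r :=
  closure_minimal (fun y hy => by
    by_contra hc
    exact hy (h.2 y (by simpa using hc))) isClosed_closedBall
lemma Cc.hcs (h : Cc r f) : HasCompactSupport f :=
  (isCompact_closedBall 0 r).of_isClosed_subset (isClosed_tsupport f) h.tsupport_subset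
lemma Cc.integrable (h : Cc r f) : Integrable f :=
  h.continuous.integrable_of_hasCompactSupport h.hcs
lemma Cc.eventually_zero (h : Cc r f) {y : V} (hy : r < ‖y‖) : f =ᶠ[𝓝 y] 0 := by
  filter_upwards [(isOpen_lt continuous_const continuous_norm).mem_nhds hy] with z hz
  exact h.2 z hz
lemma Cc.zero : Cc r (0 : V → E) := ⟨contDiff_const, fun _ _ => rfl⟩
lemma Cc.add (h : Cc r f) (h' : Cc r g) : Cc r (f + g) :=
  ⟨h.1.add h'.1, fun y hy => by simp [h.2 y hy, h'.2 y hy]⟩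
lemma Cc.sub (h : Cc r f) (h' : Cc r g) : Cc r (f - g) :=
  ⟨h.1.sub h'.1, fun y hy => by simp [h.2 y hy, h'.2 y hy]⟩
lemma Cc.const_smul (h : Cc r f) (c : ℝ) : Cc r (c • f) :=
  ⟨h.1.const_smul c, fun y hy => by simp [h.2 y hy]⟩
lemma Cc.smul_left {a : V → ℝ} (ha : ContDiff ℝ ∞ a) (h : Cc r f) : Cc r (fun y => a y • f y) :=
  ⟨ha.smul h.1, fun y hy => by simp [h.2 y hy]⟩
lemma Cc.smul_right {a : V → ℝ} (ha : Cc r a) (h : ContDiff ℝ ∞ f) : Cc r (fun y => a y • f y) :=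
  ⟨ha.1.smul h, fun y hy => by simp [ha.2 y hy]⟩
lemma Cc.clm {E' : Type} [NormedAddCommGroup E'] [NormedSpace ℝ E'] {L : V → E →L[ℝ] E'}
    (hL : ContDiff ℝ ∞ L) (h : Cc r f) : Cc r (fun y => L y (f y)) :=
  ⟨hL.clm_apply h.1, fun y hy => by simp [h.2 y hy]⟩
lemma Cc.fderiv (h : Cc r f) : Cc r (fderiv ℝ f) :=
  ⟨cd_fderiv h.1, fun y hy => by rw [(h.eventually_zero hy).fderiv_eq]; simp⟩
lemma Cc.iteratedFDeriv_zero (h : Cc r f) (l : ℕ) {y : V} (hy : r < ‖y‖) :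
    iteratedFDeriv ℝ l f y = 0 := by
  rw [(h.eventually_zero hy).iteratedFDeriv ℝ l |>.eq_of_nhds]
  exact congrFun (iteratedFDeriv_fun_zero (𝕜 := ℝ) (E := V) (F := E) (n := l)) y
lemma Cc.d1 {b : V → Cov} (h : Cc r b) : Cc r (d1 b) :=
  ⟨cd_d1 h.1, fun y hy => by simp [P204.d1, h.fderiv.2 y hy]⟩
lemma Cc.bounded (h : Cc r f) : ∃ C, 0 ≤ C ∧ ∀ y, ‖f y‖ ≤ C := by
  obtain ⟨C, hC⟩ := h.continuous.bounded_above_of_compact_support h.hcs
  exact ⟨max C 0, le_max_right _ _, fun y => (hC y).trans (le_max_left _ _)⟩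
end cc

lemma nL2_nonneg (g : V → ℝ) : 0 ≤ nL2 g := Real.sqrt_nonneg _

lemma cut_sm (r : ℝ) : ContDiff ℝ ∞ (cut r) := ContDiffBump.contDiff _
lemma cut_nonneg (r : ℝ) (y : V) : 0 ≤ cut r y := ContDiffBump.nonneg _
lemma cut_le_one (r : ℝ) (y : V) : cut r y ≤ 1 := ContDiffBump.le_one _
lemma cut_one {r : ℝ} {y : V} (hy : ‖y‖ ≤ r) : cut r y = 1 :=
  ContDiffBump.one_of_mem_closedBall _ (by simpa using Or.inl hy)
lemma cut_zero {r : ℝ} (hr : 1 ≤ r) {y : V} (hy : r + 1 ≤ ‖y‖) : cut r y = 0 :=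
  ContDiffBump.zero_of_le_dist _ (by simpa [max_eq_left hr] using hy)
lemma cut_pos {r : ℝ} (hr : 1 ≤ r) {y : V} (hy : ‖y‖ < r + 1) : 0 < cut r y :=
  ContDiffBump.pos_of_mem_ball _ (by simpa [max_eq_left hr] using hy)
lemma cut_cc {r : ℝ} (hr : 1 ≤ r) : Cc (r + 1) (cut r) :=
  ⟨cut_sm r, fun _ hy => cut_zero hr hy.le⟩
lemma cut_fderiv_zero {r : ℝ} {y : V} (hy : ‖y‖ < r) : fderiv ℝ (cut r) y = 0 := by
  have : cut r =ᶠ[𝓝 y] fun _ => 1 := by
    filter_upwards [(isOpen_lt continuous_norm continuous_const).mem_nhds hy] with z hz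
    exact cut_one (le_of_lt hz)
  rw [this.fderiv_eq]; simp

lemma eta_sm : ContDiff ℝ ∞ eta := ContDiffBump.contDiff_normed _
lemma eta_nonneg (y : V) : 0 ≤ eta y := ContDiffBump.nonneg_normed _ _
lemma eta_int : ∫ y, eta y = 1 := ContDiffBump.integral_normed _
lemma eta_zero {y : V} (hy : 1 ≤ ‖y‖) : eta y = 0 := by
  have : y ∉ Function.support eta := by
    rw [eta, ContDiffBump.support_normed_eq]; simpa using hy
  simpa using this
lemma eta_cc : Cc 1 eta := ⟨eta_sm, fun _ hy => eta_zero hy.le⟩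

lemma kp_pos {δ : ℝ} (hδ : 0 < δ) (k : ℕ) (w : V) : 0 < kp δ k w := by
  unfold kp; positivity
lemma kp_neg (δ : ℝ) (k : ℕ) (w : V) : kp δ k (-w) = kp δ k w := by simp [kp]
lemma kp_sub (δ : ℝ) (k : ℕ) (x y : V) : kp δ k (x - y) = kp δ k (y - x) := by
  simp [kp, norm_sub_rev]
lemma kp_succ {δ : ℝ} (hδ : 0 < δ) (k : ℕ) (w : V) :
    kp δ k w = (‖w‖ + δ) * kp δ (k + 1) w := by
  have : ‖w‖ + δ ≠ 0 := by positivity
  unfold kp; field_simp; ring
lemma kp_le {δ : ℝ} (hδ : 0 < δ) (k : ℕ) (w : V) : kp δ k w ≤ (δ ^ k)⁻¹ := by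
  unfold kp
  gcongr
  linarith [norm_nonneg w]
lemma continuous_kp {δ : ℝ} (hδ : 0 < δ) (k : ℕ) : Continuous (kp δ k) :=
  ((continuous_norm.add continuous_const).pow k).inv₀ fun w =>
    (by positivity : (‖w‖ + δ) ^ k ≠ 0)

/-! ### frames -/
namespace Frame
variable (F : Frame)

@[simp] lemma Ai_A (y v : V) : F.Ai y (F.A y v) = v := congrArg (fun T : End => T v) (F.inv1 y)
@[simp] lemma A_Ai (y v : V) : F.A y (F.Ai y v) = v := congrArg (fun T : End => T v) (F.inv2 y)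
lemma norm_A_sub (y v : V) : ‖F.A y v - v‖ ≤ 1 / 4 * ‖v‖ := by
  have := (F.A y - ContinuousLinearMap.id ℝ V).le_opNorm v
  have h2 := mul_le_mul_of_nonneg_right (F.near y) (norm_nonneg v)
  simpa using this.trans h2
lemma norm_A_le (y v : V) : ‖F.A y v‖ ≤ 5 / 4 * ‖v‖ := by
  have := norm_le_insert' (F.A y v) v
  linarith [F.norm_A_sub y v]
lemma le_norm_A (y v : V) : 3 / 4 * ‖v‖ ≤ ‖F.A y v‖ := by
  have := norm_le_insert (F.A y v) v
  linarith [F.norm_A_sub y v]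
lemma norm_Ai_le (y v : V) : ‖F.Ai y v‖ ≤ 4 / 3 * ‖v‖ := by
  have := F.le_norm_A y (F.Ai y v)
  rw [A_Ai] at this; linarith
lemma le_norm_Ai (y v : V) : 4 / 5 * ‖v‖ ≤ ‖F.Ai y v‖ := by
  have := F.norm_A_le y (F.Ai y v)
  rw [A_Ai] at this; linarith
lemma opNorm_A (y : V) : ‖F.A y‖ ≤ 5 / 4 :=
  (F.A y).opNorm_le_bound (by norm_num) (F.norm_A_le y)
lemma opNorm_Ai (y : V) : ‖F.Ai y‖ ≤ 4 / 3 :=
  (F.Ai y).opNorm_le_bound (by norm_num) (F.norm_Ai_le y)
lemma J_apply (y v : V) : F.J y v = F.Ai y (J0 (F.A y v)) := rfl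
@[simp] lemma A_J (y v : V) : F.A y (F.J y v) = J0 (F.A y v) := by simp [J_apply]
@[simp] lemma J_J (y v : V) : F.J y (F.J y v) = -v := by simp [J_apply]
lemma J_Ai (y v : V) : F.J y (F.Ai y v) = F.Ai y (J0 v) := by simp [J_apply]
lemma norm_J_le (y v : V) : ‖F.J y v‖ ≤ 2 * ‖v‖ := by
  have h1 := F.norm_Ai_le y (J0 (F.A y v))
  have h2 := F.norm_A_le y v
  rw [norm_J0_apply] at h1
  rw [J_apply]; linarith [norm_nonneg v]
lemma opNorm_J (y : V) : ‖F.J y‖ ≤ 2 := (F.J y).opNorm_le_bound (by norm_num) (F.norm_J_le y)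
lemma out_Ai (y : V) (hy : 12 < ‖y‖) : F.Ai y = ContinuousLinearMap.id ℝ V := by
  have := F.inv1 y
  rwa [F.out y hy, ContinuousLinearMap.comp_id] at this
lemma smJ : ContDiff ℝ ∞ F.J := F.smAi.clm_comp (contDiff_const.clm_comp F.smA)
lemma sm_cm : ContDiff ℝ ∞ F.cm := contDiff_const.clm_comp (cd_pull F.smAi)
lemma sm_up : ContDiff ℝ ∞ F.up := (cd_pull F.smA).clm_comp contDiff_const
lemma cm_apply (y : V) (h : E6) : F.cm y h = P204.cm (pull (F.Ai y) h) := rfl
lemma up_apply (y : V) (c : E2) : F.up y c = pull (F.A y) (B2 c) := rfl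
@[simp] lemma pull_Ai_A (y : V) (h : E6) : pull (F.Ai y) (pull (F.A y) h) = h := by
  rw [pull_pull, F.inv2, pull_id]; rfl
@[simp] lemma pull_A_Ai (y : V) (h : E6) : pull (F.A y) (pull (F.Ai y) h) = h := by
  rw [pull_pull, F.inv1, pull_id]; rfl
@[simp] lemma cm_up (y : V) (c : E2) : F.cm y (F.up y c) = c := by simp [cm_apply, up_apply]
lemma cm_pull_A (y : V) (h : E6) : F.cm y (pull (F.A y) h) = P204.cm h := by simp [cm_apply]
lemma norm_pull_A (y : V) (h : E6) : ‖pull (F.A y) h‖ ≤ 11 * ‖h‖ := by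
  have h1 := (pull (F.A y)).le_opNorm h
  have h2 := norm_pull_le (F.A y)
  have h3 := F.opNorm_A y
  have h4 : ‖F.A y‖ ^ 2 ≤ (5 / 4) ^ 2 := by gcongr
  nlinarith [norm_nonneg h]
lemma norm_pull_Ai (y : V) (h : E6) : ‖pull (F.Ai y) h‖ ≤ 11 * ‖h‖ := by
  have h1 := (pull (F.Ai y)).le_opNorm h
  have h2 := norm_pull_le (F.Ai y)
  have h3 := F.opNorm_Ai y
  have h4 : ‖F.Ai y‖ ^ 2 ≤ (4 / 3) ^ 2 := by gcongr
  nlinarith [norm_nonneg h]
lemma norm_cm_le (y : V) (h : E6) : ‖F.cm y h‖ ≤ 11 * ‖h‖ :=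
  (P204.norm_cm_le _).trans (F.norm_pull_Ai y h)
lemma norm_up_le (y : V) (c : E2) : ‖F.up y c‖ ≤ 11 * ‖c‖ := by
  simpa [up_apply] using F.norm_pull_A y (B2 c)
lemma ap_up_J (y v : V) (c : E2) : ap (F.up y c) v (F.J y v) = 0 := by
  rw [up_apply, ap_pull, A_J, ap_B2_J0]
lemma inv_iff (y : V) (h : E6) :
    (∀ u v, ap h (F.J y u) (F.J y v) = ap h u v) ↔ F.cm y h = 0 := by
  rw [cm_apply, ← inv_iff_cm]
  constructor
  · intro H u v
    rw [ap_pull, ap_pull, ← J_Ai, ← J_Ai, H]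
  · intro H u v
    have := H (F.A y u) (F.A y v)
    rw [ap_pull, ap_pull, Ai_A, Ai_A] at this
    exact this
lemma cm_w1_J (y : V) (ξ : Cov) : F.cm y (w1 ξ (-ξ.comp (F.J y))) = 0 := by
  rw [← inv_iff]; intro u v; simp [ap_w1]; ring
lemma det_mul (y : V) : (F.Ai y).det * (F.A y).det = 1 := by
  have := congrArg ContinuousLinearMap.det (F.inv1 y)
  simpa [ContinuousLinearMap.det, ← LinearMap.det_comp] using this
lemma abs_det_le {A : End} (h : ‖A‖ ≤ 4 / 3) : |A.det| ≤ 7 := by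
  have e : ∀ i, ‖A (bv i)‖ ≤ 4 / 3 := fun i => by
    have := A.le_opNorm (bv i); rw [norm_bv] at this; linarith
  rw [det_eq_D4]
  refine (abs_D4_le _ _ _ _).trans ?_
  calc _ ≤ 2 * (4 / 3) * (4 / 3) * (4 / 3) * (4 / 3 : ℝ) := by gcongr <;> exact e _
    _ ≤ 7 := by norm_num
lemma det_pos (y : V) : 0 < (F.A y).det := by
  have hc : Continuous fun y => (F.A y).det :=
    (contDiff_det (n := 0)).continuous.comp F.smA.continuous
  have hne : ∀ y, (F.A y).det ≠ 0 := fun y h => by simpa [h] using F.det_mul y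
  have h1 : (F.A ((13 : ℝ) • bv 0)).det = 1 := by
    rw [F.out _ (by rw [norm_smul]; norm_num)]; simp [ContinuousLinearMap.det]
  by_contra hle
  have hle' : (F.A y).det ≤ 0 := not_lt.1 hle
  obtain ⟨z, hz⟩ := intermediate_value_univ y ((13 : ℝ) • bv 0) hc
    (show (0 : ℝ) ∈ Icc _ _ from ⟨hle', by rw [h1]; norm_num⟩)
  exact hne z hz
lemma det_le (y : V) : (F.A y).det ≤ 7 :=
  (le_abs_self _).trans (abs_det_le ((F.opNorm_A y).trans (by norm_num)))
lemma le_det (y : V) : 1 / 7 ≤ (F.A y).det := by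
  have h1 := F.det_mul y
  have h2 := (le_abs_self _).trans (abs_det_le (F.opNorm_Ai y))
  have h3 := F.det_pos y
  nlinarith
end Frame

/-- Hahn-Banach with a subspace to kill -/
theorem hb_kill {E : Type*} [AddCommGroup E] [Module ℝ E] (p : E → ℝ) (Z : Submodule ℝ E)
    (e0 : E) (d : ℝ) (h0 : ∀ x, 0 ≤ p x) (hadd : ∀ x y, p (x + y) ≤ p x + p y)
    (hs : ∀ (c : ℝ) x, 0 < c → p (c • x) = c * p x) (hd : ∀ z ∈ Z, d ≤ p (e0 - z)) :
    ∃ L : E →ₗ[ℝ] ℝ, (∀ x, L x ≤ p x) ∧ (∀ z ∈ Z, L z = 0) ∧ d ≤ L e0 := by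
  let q : E → ℝ := fun x => ⨅ z : Z, p (x - z)
  have hb : ∀ x, BddBelow (range fun z : Z => p (x - z)) := fun x =>
    ⟨0, by rintro _ ⟨z, rfl⟩; exact h0 _⟩
  have qle : ∀ x (z : Z), q x ≤ p (x - z) := fun x z => ciInf_le (hb x) z
  have q0 : ∀ x, 0 ≤ q x := fun x => le_ciInf fun z => h0 _
  have p0 : p 0 = 0 := by
    have := hs 2 0 two_pos
    rw [smul_zero] at this; linarith
  have qadd : ∀ x y, q (x + y) ≤ q x + q y := fun x y => by
    refine le_ciInf_add_ciInf fun z z' => (qle _ (z + z')).trans ?_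
    have : x + y - ((z + z' : Z) : E) = (x - z) + (y - z') := by push_cast; abel
    rw [this]; exact hadd _ _
  have qs1 : ∀ (c : ℝ) x, 0 < c → q (c • x) ≤ c * q x := fun c x hc => by
    rw [← div_le_iff₀' hc]
    refine le_ciInf fun z => ?_
    rw [div_le_iff₀' hc, ← hs c _ hc, smul_sub]
    exact qle _ (c • z)
  have qs : ∀ (c : ℝ), 0 < c → ∀ x, q (c • x) = c * q x := fun c hc x => by
    refine le_antisymm (qs1 c x hc) ?_
    have := qs1 c⁻¹ (c • x) (inv_pos.2 hc)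
    rw [smul_smul, inv_mul_cancel₀ hc.ne', one_smul] at this
    calc c * q x ≤ c * (c⁻¹ * q (c • x)) := by gcongr
      _ = _ := by field_simp
  have hq0 : q 0 = 0 := le_antisymm (by simpa [p0] using qle 0 0) (q0 0)
  have key : ∃ L : E →ₗ[ℝ] ℝ, (∀ x, L x ≤ q x) ∧ q e0 ≤ L e0 := by
    by_cases he : e0 = 0
    · exact ⟨0, fun x => q0 x, by simp [he, hq0]⟩
    obtain ⟨L, hL1, hL2⟩ := exists_extension_of_le_sublinear
      (LinearPMap.mkSpanSingleton (K := ℝ) e0 (q e0) he) q qs qadd (by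
        rintro ⟨x, hx⟩
        obtain ⟨c, rfl⟩ := Submodule.mem_span_singleton.1 hx
        rw [LinearPMap.mkSpanSingleton'_apply]
        simp only [smul_eq_mul]
        rcases lt_trichotomy c 0 with hc | rfl | hc
        · exact (mul_nonpos_of_nonpos_of_nonneg hc.le (q0 _)).trans (q0 _)
        · simp [hq0]
        · exact (qs c hc e0).ge)
    refine ⟨L, hL2, ?_⟩
    have := hL1 ⟨e0, Submodule.mem_span_singleton_self e0⟩
    rw [LinearPMap.mkSpanSingleton_apply] at this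
    exact this.ge
  obtain ⟨L, hL, hL0⟩ := key
  refine ⟨L, fun x => (hL x).trans (by simpa using qle x 0), fun z hz => ?_,
    (le_ciInf fun z : Z => hd z z.2).trans hL0⟩
  have h1 := (hL z).trans (qle z ⟨z, hz⟩)
  have h2 := (hL (-z)).trans (qle (-z) ⟨-z, Z.neg_mem hz⟩)
  simp [p0] at h1 h2
  linarith

end Vale.Agent.P204
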