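import Vale.Agent.P204.Stmt

/-! The anti-invariant functional is bounded at all scales and the densities are bounded. -/

set_option maxSynthPendingDepth 3

open scoped Topology ContDiff RealInnerProductSpace
open Set Metric MeasureTheory Filter

noncomputable section
namespace Vale.Agent.P204
namespace Bdd

lemma pw (g h : E6) {C t τ lam : ℝ} (hC : 0 ≤ C) (ht : 0 < t) (ht1 : t ≤ 1) (hτ : 0 ≤ τ)
    (hl : 0 < lam) (h1 : ‖g‖ ≤ C * τ) (h2 : ‖Pm g‖ ≤ C * t * τ)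
    (h3 : ‖Pa g‖ ≤ g 0 + C * t ^ 2 * τ) :
    ‖Pm h‖ ^ 2 - (10 + 4 / lam) * C ^ 2 * t ^ 2 * (τ * τ) - (2 + lam / t ^ 2) * ‖Po h‖ ^ 2
      ≤ wq (g + h) (g + h) := by
  have e0 : wq (g + h) (g + h) = wq g g + 2 * (2 * ⟪Pm g, Pm h⟫ + wq (Po g) (Po h)) + wq h h := by
    simp [wq_apply, inner_E6]; ring
  have g0 : |g 0| ≤ C * τ := by
    have := PiLp.norm_apply_le g 0
    rw [Real.norm_eq_abs] at this; linarith
  have e1 : -(6 * C ^ 2 * t ^ 2 * (τ * τ)) ≤ wq g g := by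
    rw [wq_split, real_inner_self_eq_norm_sq, real_inner_self_eq_norm_sq]
    have a1 : ‖Pa g‖ ^ 2 ≤ (g 0 + C * t ^ 2 * τ) ^ 2 := pow_le_pow_left₀ (norm_nonneg _) h3 2
    have a2 : g 0 * (C * t ^ 2 * τ) ≤ C * τ * (C * t ^ 2 * τ) :=
      mul_le_mul_of_nonneg_right ((le_abs_self _).trans g0) (by positivity)
    have a3 : (C * t ^ 2 * τ) ^ 2 ≤ C ^ 2 * t ^ 2 * (τ * τ) := by
      have : t ^ 2 ≤ 1 := pow_le_one₀ ht.le ht1
      calc _ = t ^ 2 * (C ^ 2 * t ^ 2 * (τ * τ)) := by ring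
        _ ≤ 1 * (C ^ 2 * t ^ 2 * (τ * τ)) := by gcongr
        _ = _ := one_mul _
    nlinarith [sq_nonneg ‖Pm g‖]
  have e2 : 2 * ‖Pm h‖ ^ 2 - 2 * ‖Po h‖ ^ 2 ≤ wq h h := by
    rw [wq_split, real_inner_self_eq_norm_sq, real_inner_self_eq_norm_sq, normsq_Po]
    nlinarith [sq_nonneg (h 0)]
  have e3 : -(‖Pm h‖ ^ 2 + 4 * C ^ 2 * t ^ 2 * (τ * τ)) ≤ 4 * ⟪Pm g, Pm h⟫ := by
    have a1 := neg_abs_le ⟪Pm g, Pm h⟫
    have a2 := abs_real_inner_le_norm (Pm g) (Pm h)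
    have a3 : ‖Pm g‖ ^ 2 ≤ (C * t * τ) ^ 2 := pow_le_pow_left₀ (norm_nonneg _) h2 2
    nlinarith [sq_nonneg (2 * ‖Pm g‖ - ‖Pm h‖)]
  have e4 : -(4 / lam * C ^ 2 * t ^ 2 * (τ * τ) + lam / t ^ 2 * ‖Po h‖ ^ 2)
      ≤ 2 * wq (Po g) (Po h) := by
    have a1 := neg_abs_le (wq (Po g) (Po h))
    have a2 := abs_wq_le (Po g) (Po h)
    have a3 : ‖Po g‖ * ‖Po h‖ ≤ C * τ * ‖Po h‖ :=
      mul_le_mul_of_nonneg_right ((norm_Po_le g).trans h1) (norm_nonneg _)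
    have a4 : 4 * (C * τ * ‖Po h‖)
        ≤ 4 / lam * C ^ 2 * t ^ 2 * (τ * τ) + lam / t ^ 2 * ‖Po h‖ ^ 2 := by
      have : 4 / lam * C ^ 2 * t ^ 2 * (τ * τ) + lam / t ^ 2 * ‖Po h‖ ^ 2 - 4 * (C * τ * ‖Po h‖)
          = (2 * C * t ^ 2 * τ - lam * ‖Po h‖) ^ 2 / (lam * t ^ 2) := by
        field_simp; ring
      have h0 : 0 ≤ (2 * C * t ^ 2 * τ - lam * ‖Po h‖) ^ 2 / (lam * t ^ 2) := by positivity
      linarith
    linarith
  rw [e0]; linarith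

lemma tau_nonneg (m : Measure (V × V)) (C t : ℝ) (y : V) : 0 ≤ tau m C t y :=
  mul_nonneg (by positivity) measureReal_nonneg

variable {X : Type*} [TopologicalSpace X] {D : Dat X}

/-- square integral of the smoothed trace measure -/
lemma tau2 (h2 : TauS) (h6 : HilS D) (C0 : ℝ) (hC0 : 1 ≤ C0) : ∃ C, 0 ≤ C ∧
    ∀ (m : Measure (V × V)) (t Dn : ℝ) j, IsFiniteMeasure m → 0 < t → C0 * t ≤ 1 / 2 → 0 ≤ Dn →
      (∀ y, ‖y‖ ≤ 4 → mass m y (2 * C0 * t) ≤ Dn * (2 * C0 * t) ^ 2) →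
      Integrable (fun y => tau m C0 t y * tau m C0 t y) (D.nu j) ∧
      t ^ 2 * ∫ y, tau m C0 t y * tau m C0 t y ∂(D.nu j) ≤ C * Dn * m.real univ := by
  obtain ⟨C4, hC4, h4⟩ := h2.l2
  obtain ⟨C5, hC5, h5⟩ := h6.wt
  refine ⟨C5 * (C4 * C0 ^ 4 * (2 * C0) ^ 2), by positivity, fun m t Dn j hm ht hCt hDn hd => ?_⟩
  obtain ⟨i1, i2⟩ := h4 m m C0 t hm hm (by linarith) ht
  have hw : Continuous fun y => D.psi j y * ((D.F j).A y).det :=
    (D.psi_cc j).continuous.mul (cd_det (n := 0) ((D.F j).smA.of_le bot_le)).continuous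
  have i3 : Integrable fun y =>
      (D.psi j y * ((D.F j).A y).det) • (tau m C0 t y * tau m C0 t y) :=
    i1.bdd_mul hw.aestronglyMeasurable (c := C5) (Eventually.of_forall fun y => by
      rw [Real.norm_eq_abs, abs_of_nonneg (h5 j y).1]; exact (h5 j y).2.1)
  refine ⟨(h6.intg j _).2 i3, ?_⟩
  have a1 : ∫ y, tau m C0 t y * tau m C0 t y ∂(D.nu j)
      ≤ C5 * ∫ y in closedBall (0 : V) 2, tau m C0 t y * tau m C0 t y := by
    rw [h6.int, ← integral_const_mul, ← integral_indicator measurableSet_closedBall]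
    refine integral_mono i3 ((i1.const_mul C5).indicator measurableSet_closedBall) fun y => ?_
    have := mul_nonneg (tau_nonneg m C0 t y) (tau_nonneg m C0 t y)
    by_cases hy : y ∈ closedBall (0 : V) 2
    · simp only [indicator_of_mem hy, smul_eq_mul]
      exact mul_le_mul_of_nonneg_right (h5 j y).2.1 this
    · simp only [indicator_of_notMem hy, smul_eq_mul]
      rw [(D.psi_cc j).2 y (by simpa using hy)]; simp
  have hS : MeasurableSet {p : V × V | ‖p.1‖ ≤ 2 + C0 * t} :=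
    measurableSet_le measurable_fst.norm measurable_const
  have a2 : ∫ p in {p : V × V | ‖p.1‖ ≤ 2 + C0 * t}, mass m p.1 (2 * C0 * t) ∂m
      ≤ Dn * (2 * C0 * t) ^ 2 * m.real univ := by
    have := norm_setIntegral_le_of_norm_le_const (μ := m) (s := {p : V × V | ‖p.1‖ ≤ 2 + C0 * t})
      (f := fun p => mass m p.1 (2 * C0 * t)) (C := Dn * (2 * C0 * t) ^ 2) (measure_lt_top _ _)
      (fun p hp => by
        rw [Real.norm_eq_abs, abs_of_nonneg (show 0 ≤ mass m p.1 _ from measureReal_nonneg)]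
        exact hd p.1 (le_trans hp (by linarith)))
    refine ((le_abs_self _).trans this).trans ?_
    exact mul_le_mul_of_nonneg_left (measureReal_mono (subset_univ _)) (by positivity)
  calc _ ≤ t ^ 2 * (C5 * (C4 * C0 ^ 4 * (t ^ 4)⁻¹ * (Dn * (2 * C0 * t) ^ 2 * m.real univ))) := by
        gcongr
        refine a1.trans ?_
        gcongr
        refine i2.trans ?_
        gcongr
    _ = _ := by field_simp

/-- the basic inequality -/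
lemma five (h6 : HilS D) {Θ1 Θ2 : D.H} {τ : Fin D.n → V → ℝ} {C t lam : ℝ}
    (hC : 0 ≤ C) (ht : 0 < t) (ht1 : t ≤ 1) (hl : 0 < lam) (hτ : ∀ j y, 0 ≤ τ j y)
    (hi : ∀ j, Integrable (fun y => τ j y * τ j y) (D.nu j))
    (hb : ∀ j, ∀ᵐ y ∂(D.nu j), ‖Θ1 j y‖ ≤ C * τ j y ∧ ‖Pm (Θ1 j y)‖ ≤ C * t * τ j y ∧
      ‖Pa (Θ1 j y)‖ ≤ Θ1 j y 0 + C * t ^ 2 * τ j y)
    (hq : D.qH (Θ1 + Θ2) (Θ1 + Θ2) = 0) :
    ‖D.mapH Pm Θ2‖ ^ 2 ≤ (10 + 4 / lam) * C ^ 2 * ∑ j, t ^ 2 * ∫ y, τ j y * τ j y ∂(D.nu j)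
      + (2 + lam / t ^ 2) * ‖D.mapH Po Θ2‖ ^ 2 := by
  obtain ⟨i1, e1⟩ := h6.norm_sq (D.mapH Pm Θ2)
  obtain ⟨i2, e2⟩ := h6.norm_sq (D.mapH Po Θ2)
  obtain ⟨i3, e3⟩ := h6.qH_eq (Θ1 + Θ2) (Θ1 + Θ2)
  have key : ∀ j, ∫ y, ‖D.mapH Pm Θ2 j y‖ ^ 2 ∂(D.nu j)
      - (10 + 4 / lam) * C ^ 2 * (t ^ 2 * ∫ y, τ j y * τ j y ∂(D.nu j))
      - (2 + lam / t ^ 2) * ∫ y, ‖D.mapH Po Θ2 j y‖ ^ 2 ∂(D.nu j)
      ≤ ∫ y, wq ((Θ1 + Θ2) j y) ((Θ1 + Θ2) j y) ∂(D.nu j) := fun j => by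
    have i4 : Integrable (fun y => ‖D.mapH Pm Θ2 j y‖ ^ 2
        - (10 + 4 / lam) * C ^ 2 * t ^ 2 * (τ j y * τ j y)) (D.nu j) :=
      (i1 j).sub ((hi j).const_mul _)
    rw [← mul_assoc, ← integral_const_mul, ← integral_const_mul,
      ← integral_sub (i1 j) ((hi j).const_mul _), ← integral_sub i4 ((i2 j).const_mul _)]
    refine integral_mono_ae (i4.sub ((i2 j).const_mul _)) (i3 j) ?_
    filter_upwards [hb j, h6.map_ae Pm Θ2 j, h6.map_ae Po Θ2 j, Lp.coeFn_add (Θ1 j) (Θ2 j)]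
      with y b1 b2 b3 b4
    have b5 : (Θ1 + Θ2) j y = Θ1 j y + Θ2 j y := b4
    rw [b2, b3, b5]
    exact pw _ _ hC ht ht1 (hτ j y) hl b1.1 b1.2.1 b1.2.2
  have := Finset.sum_le_sum fun j (_ : j ∈ Finset.univ) => key j
  rw [← e3, hq, Finset.sum_sub_distrib, Finset.sum_sub_distrib, ← Finset.mul_sum,
    ← Finset.mul_sum _ _ (2 + lam / t ^ 2), ← e1, ← e2] at this
  linarith

lemma exists_min {n : ℕ} (s : Fin n → ℝ) (hs : ∀ j, 0 < s j) (a : ℝ) (ha : 0 < a) :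
    ∃ b, 0 < b ∧ b ≤ a ∧ ∀ j, b ≤ s j := by
  have h1 : ∀ᶠ b in 𝓝[>] (0 : ℝ), ∀ j, b ≤ s j :=
    eventually_all.2 fun j => mem_nhdsWithin_of_mem_nhds (Iic_mem_nhds (hs j))
  have h2 : ∀ᶠ b in 𝓝[>] (0 : ℝ), b ≤ a := mem_nhdsWithin_of_mem_nhds (Iic_mem_nhds ha)
  obtain ⟨b, b1, b2, b3⟩ := (h1.and (h2.and self_mem_nhdsWithin)).exists
  exact ⟨b, b3, b2, b1⟩

lemma young {a A1 A2 θ κ β : ℝ} (ha : 0 ≤ a) (h1 : 0 ≤ A1) (hκ : 0 < κ) (hβ : 0 ≤ β)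
    (hθ : θ ≤ κ ^ 2 / 2) (h : a ^ 2 ≤ A1 + A2 * β + θ * β ^ 2) :
    a ≤ (A1 + A2 ^ 2 / (2 * κ ^ 2) + 1) + κ * β := by
  set A := A1 + A2 ^ 2 / (2 * κ ^ 2) + 1 with hA
  have h3 : 0 ≤ A2 ^ 2 / (2 * κ ^ 2) := by positivity
  have h4 : A2 * β ≤ A2 ^ 2 / (2 * κ ^ 2) + κ ^ 2 / 2 * β ^ 2 := by
    have : A2 ^ 2 / (2 * κ ^ 2) + κ ^ 2 / 2 * β ^ 2 - A2 * β
        = (A2 - κ ^ 2 * β) ^ 2 / (2 * κ ^ 2) := by field_simp; ring
    have h0 : 0 ≤ (A2 - κ ^ 2 * β) ^ 2 / (2 * κ ^ 2) := by positivity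
    linarith
  have hA1 : 1 ≤ A := by linarith
  have h5 : θ * β ^ 2 ≤ κ ^ 2 / 2 * β ^ 2 := by gcongr
  refine (pow_le_pow_iff_left₀ ha (by positivity) two_ne_zero).1 ?_
  have : 0 ≤ A * (κ * β) := by positivity
  nlinarith

end Bdd

open Bdd in
set_option maxHeartbeats 1000000 in
theorem bddS {X : Type*} [TopologicalSpace X] [T2Space X] {D : Dat X} {K : Ker D}
    (h1 : NkS) (h2 : TauS) (h3 : MonoS) (h4 : FormS D) (h5 : SemS D) (h6 : HilS D)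
    (h7 : CurS D) (h8 : MS K) (h9 : KeyS K) (h10 : StepS K) (h11 : LeakS K) (h12 : ThTS K) :
    BddS K := by
  intro m mm s k Λ hm hcm hΛ hs hord hZ
  have hI := h4.killsI s k Λ hord
  choose s0 hs0 hmono using fun j => h3 (D.F j) (k + 3)
  obtain ⟨C1, L0, hC1, hL0, hrec⟩ := h10.recur (k + 3)
  obtain ⟨C2, hC2, hleak⟩ := h11.leak (k + 3)
  obtain ⟨C3, hC3, hth⟩ := h12
  obtain ⟨C4, hC4, htau⟩ := tau2 h2 h6 K.C0 K.one_le
  obtain ⟨C5, hC5, hcr⟩ := h5.crude k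
  obtain ⟨C6, hC6, hcr'⟩ := h1.crude
  obtain ⟨ΛT, hΛT, hT⟩ := h7.ord m hm
  obtain ⟨C7, -, th0⟩ := h8.theta 0
  obtain ⟨C8, -, thk⟩ := h8.theta k
  set L := L0 + 4 * C1 with hL
  have hL1 : 1 ≤ L := by linarith
  set κ := 1 / (4 * (C1 + 1) * L ^ (k + 2)) with hκ
  have hκ0 : 0 < κ := by positivity
  set lam := κ ^ 2 / (4 * (C2 ^ 2 + 1)) with hlam
  have hlam0 : 0 < lam := by positivity
  obtain ⟨ε1, he0, he1, he2⟩ := exists_min s0 hs0 (min K.ε0 (min 1 (lam / 2)))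
    (lt_min K.pos (lt_min one_pos (by positivity)))
  have he3 : ε1 ≤ K.ε0 := he1.trans (min_le_left _ _)
  have he4 : ε1 ≤ 1 := he1.trans ((min_le_right _ _).trans (min_le_left _ _))
  have he5 : ε1 ≤ lam / 2 := he1.trans ((min_le_right _ _).trans (min_le_right _ _))
  choose Cm hCm hmono using fun j => hmono j ε1 he0 (he2 j)
  have hcl : ∀ j b, Cc 6 b →
      TL (D.F j) (mm j) (d1 b) + D.sj s j (fun y => (D.F j).cm y (d1 b y)) = 0 := fun j b hb => by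
    rw [← (hcm j).2 _ hb.d1.continuous hb.d1.2, ← h4.s_ext s j _ hs hI (hb.d1.mono (by norm_num))]
    exact h4.killsD _ j b hZ (hb.mono (by norm_num))
  have hdens : ∀ (β r : ℝ), 0 < r → r ≤ ε1 → 0 ≤ β →
      (∀ s', r ≤ s' → s' ≤ ε1 → D.Bd s (k + 3) s' β) → ∀ j y ρ, ‖y‖ ≤ 4 → r ≤ ρ →
      mass (mm j) y ρ ≤ Cm j * ((mm j).real univ + β) * ρ ^ 2 :=
    fun β r hr hr1 hβ hb j => hmono j (mm j) _ β r (hcm j).1 (hcl j) hr hr1 hβ
      fun s' a b => hb s' a b j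
  set W := (10 + 4 / lam) * C3 ^ 2 with hW
  set A1 := W * ∑ j, C4 * Cm j * (mm j).real univ ^ 2 with hA1
  set A2 := W * ∑ j, C4 * Cm j * (mm j).real univ with hA2
  have hA10 : 0 ≤ A1 := mul_nonneg (by positivity)
    (Finset.sum_nonneg fun j _ => mul_nonneg (mul_nonneg hC4 (hCm j)) (sq_nonneg _))
  set A := A1 + A2 ^ 2 / (2 * κ ^ 2) + 1 with hA
  have hA0 : 0 ≤ A := by positivity
  have ha : ∀ t β Θ, 0 < t → t ≤ ε1 → 0 ≤ β → (∀ s', t ≤ s' → s' ≤ ε1 → D.Bd s (k + 3) s' β) →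
      K.IsTh t s Θ → ‖D.mapH Pm Θ‖ ≤ A + κ * β := by
    intro t β Θ ht ht1 hβ hb hΘ
    have ht0 : t ≤ K.ε0 := ht1.trans he3
    obtain ⟨Θ1, hΘ1, -⟩ := th0 t _ ΛT ht ht0 hΛT (h7.fn m hm) hT
    have hsum : K.IsTh t (fun α => D.T m α + s α) (Θ1 + Θ) := fun h => by
      rw [h6.qH_add, hΘ1 h, hΘ h]
    have hq := h9 t _ _ _ _ ht ht0 hZ (fun j b hb => h4.killsD _ j b hZ (hb.mono (by norm_num)))
      hsum hsum
    have hCt : K.C0 * t ≤ 1 / 2 :=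
      (mul_le_mul_of_nonneg_left ht0 (by linarith [K.one_le])).trans K.small
    have hτ := fun j => htau (mm j) t (Cm j * ((mm j).real univ + β)) j (hcm j).1.1 ht hCt
      (mul_nonneg (hCm j) (add_nonneg measureReal_nonneg hβ))
      (fun y hy => hdens β t ht ht1 hβ hb j y _ hy (by nlinarith [K.one_le]))
    have h5' := five h6 hC3 ht (ht1.trans he4) hlam0 (fun j y => tau_nonneg _ _ _ y)
      (fun j => (hτ j).1) (hth t m mm Θ1 ht ht0 hm hcm hΘ1) hq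
    have hl := hleak t β s Θ ht ht0 hβ hs hI hΘ (hb t le_rfl ht1)
    refine young (θ := (2 * t ^ 2 + lam) * C2 ^ 2) (norm_nonneg _) hA10 hκ0 hβ ?_
      (h5'.trans (add_le_add ?_ ?_))
    · have a1 : t ^ 2 ≤ lam / 2 := by nlinarith
      have a2 : 2 * lam * (C2 ^ 2 + 1) = κ ^ 2 / 2 := by rw [hlam]; field_simp; ring
      nlinarith [sq_nonneg C2]
    · rw [hA1, hA2, mul_assoc W, ← mul_add, Finset.sum_mul, ← Finset.sum_add_distrib]
      refine mul_le_mul_of_nonneg_left (Finset.sum_le_sum fun j _ => (hτ j).2.trans_eq ?_)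
        (by positivity)
      ring
    · calc _ ≤ (2 + lam / t ^ 2) * (C2 * t * β) ^ 2 := by gcongr
        _ = _ := by field_simp
  have hB := h1.close (fun ε β => D.Bd s (k + 3) ε β) ε1 L (C1 * κ + C1 * (L ^ (k + 3))⁻¹)
    (C1 * A) (C6 * (C5 * Λ)) 0 (k + 2) he0 hL1 (by positivity) (by positivity) (by positivity)
    (Nat.zero_le _) ?_ (fun ε β β' h hβ j => h1.lbd_mono (h j) hβ)
    (fun ε β h j => h1.lbd_lim fun η hη => h η hη j)
    (fun ε hε hε1 j => hcr' _ k _ _ ε (by positivity) (by omega) hε (hε1.trans he4)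
      ((hcr s Λ hΛ hord).2 j)) ?_
  · refine ⟨k + 3, ε1, 2 * (C1 * A), ∑ j, Cm j * ((mm j).real univ + 2 * (C1 * A)), by omega, he0,
      he3, by positivity, fun ε hε hε1 => by simpa using hB ε hε hε1, fun j y r hy hr => ?_⟩
    have := hdens (2 * (C1 * A)) (min r ε1) (lt_min hr he0) (min_le_right _ _) (by positivity)
      (fun s' a b => by simpa using hB s' ((lt_min hr he0).trans_le a) b) j y r hy
      (min_le_left _ _)
    refine this.trans (mul_le_mul_of_nonneg_right ?_ (sq_nonneg _))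
    exact Finset.single_le_sum (f := fun j => Cm j * ((mm j).real univ + 2 * (C1 * A)))
      (fun j _ => mul_nonneg (hCm j) (add_nonneg measureReal_nonneg (by positivity)))
      (Finset.mem_univ j)
  · have a1 : C1 * κ * L ^ (k + 2) ≤ 1 / 4 := by
      rw [hκ]
      have : C1 * (1 / (4 * (C1 + 1) * L ^ (k + 2))) * L ^ (k + 2) = C1 / (4 * (C1 + 1)) := by
        field_simp
      rw [this, div_le_iff₀ (by positivity)]; linarith
    have a2 : C1 * (L ^ (k + 3))⁻¹ * L ^ (k + 2) ≤ 1 / 4 := by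
      have : C1 * (L ^ (k + 3))⁻¹ * L ^ (k + 2) = C1 / L := by field_simp; ring
      rw [this, div_le_iff₀ (by positivity)]; linarith
    linarith [add_mul (C1 * κ) (C1 * (L ^ (k + 3))⁻¹) (L ^ (k + 2))]
  · intro ε β hε hε1 hβ hb
    have ht : 0 < ε / L := by positivity
    have ht1 : ε / L ≤ ε1 := (div_le_self hε.le hL1).trans hε1
    obtain ⟨Θ, hΘ, -⟩ := thk (ε / L) s _ ht (ht1.trans he3) (by positivity) hs
      (hcr s Λ hΛ hord).1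
    have := hrec L ε β s Θ (by linarith) hε (hε1.trans he4) (ht1.trans he3) hβ hs hI hΘ
      (hb _ le_rfl ht1)
    intro j
    refine h1.lbd_mono (this j) ?_
    have := mul_le_mul_of_nonneg_left (ha _ β Θ ht ht1 hβ hb hΘ) hC1
    simp only [pow_zero, inv_one, mul_one]
    linarith

end Vale.Agent.P204
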