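import Vale.Agent.P204.Stmt

/-! From a compact smooth manifold with an almost complex structure to a finite atlas. -/

set_option maxSynthPendingDepth 3

open scoped Topology ContDiff RealInnerProductSpace Manifold
open Set Metric MeasureTheory Filter

noncomputable section
namespace Vale.Agent.P204
namespace Bridge

/-- a complex structure on `V` is conjugate to the standard one -/
lemma exists_conj (Jp : End) (h : ∀ v, Jp (Jp v) = -v) :
    ∃ L : V ≃L[ℝ] V, ∀ v, L (Jp (L.symm v)) = J0 v := by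
  have hv : bv 0 ≠ 0 := by
    intro h0
    have := norm_bv 0
    rw [h0, norm_zero] at this
    exact zero_ne_one this
  obtain ⟨w, hw⟩ : ∃ w : V, w ∉ Submodule.span ℝ ({bv 0, Jp (bv 0)} : Set V) := by
    by_contra hc
    push Not at hc
    have h1 : Submodule.span ℝ ({bv 0, Jp (bv 0)} : Set V) = ⊤ := Submodule.eq_top_iff'.2 hc
    have h2 := finrank_span_finset_le_card (R := ℝ) ({bv 0, Jp (bv 0)} : Finset V)
    rw [Set.finrank, Finset.coe_pair, h1, finrank_top, finrank_euclideanSpace_fin] at h2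
    have := Finset.card_le_two (a := bv 0) (b := Jp (bv 0))
    omega
  obtain ⟨M, hM⟩ : ∃ M : End, ∀ u, M u = u 0 • bv 0 + u 1 • Jp (bv 0) + u 2 • w + u 3 • Jp w :=
    ⟨(pr 0).smulRight (bv 0) + (pr 1).smulRight (Jp (bv 0)) + (pr 2).smulRight w
      + (pr 3).smulRight (Jp w), fun u => by simp⟩
  have hMJ : ∀ u, Jp (M u) = M (J0 u) := fun u => by
    rw [hM, hM]
    simp only [map_add, map_smul, h, J0_0, J0_1, J0_2, J0_3]
    module
  have hinj : Function.Injective (M : V →ₗ[ℝ] V) := by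
    refine (injective_iff_map_eq_zero _).2 fun u hu => ?_
    have h1 : M u = 0 := hu
    have h2 : M (J0 u) = 0 := by rw [← hMJ, h1, map_zero]
    rw [hM] at h1 h2
    simp only [J0_0, J0_1, J0_2, J0_3] at h2
    have h3 : u 2 ^ 2 + u 3 ^ 2 = 0 := by
      by_contra hne
      refine hw ((Submodule.smul_mem_iff _ hne).1 (Submodule.mem_span_pair.2
        ⟨-(u 0 * u 2 + u 1 * u 3), u 0 * u 3 - u 1 * u 2, ?_⟩))
      linear_combination (norm := module) (-u 2) • h1 + u 3 • h2
    have h4 : u 2 = 0 := by nlinarith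
    have h5 : u 3 = 0 := by nlinarith
    rw [h4, h5] at h1 h2
    have h6 : (u 0 ^ 2 + u 1 ^ 2) • bv 0 = 0 := by
      linear_combination (norm := module) u 0 • h1 - u 1 • h2
    have h7 := (smul_eq_zero.1 h6).resolve_right hv
    exact V_ext (by simp; nlinarith) (by simp; nlinarith) h4 h5
  refine ⟨(LinearEquiv.ofInjectiveEndo _ hinj).toContinuousLinearEquiv.symm, fun v => ?_⟩
  rw [ContinuousLinearEquiv.symm_apply_eq]
  exact hMJ v

variable {X : Type*} [TopologicalSpace X] [ChartedSpace R4 X]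

/-- smooth chart with smooth inverse -/
def Good (e : OpenPartialHomeomorph X V) : Prop :=
  ContMDiffOn (𝓡 4) (𝓡 4) ∞ e e.source ∧ ContMDiffOn (𝓡 4) (𝓡 4) ∞ e.symm e.target

lemma Good.md {e : OpenPartialHomeomorph X V} (h : Good e) : e.MDifferentiable (𝓡 4) (𝓡 4) :=
  ⟨h.1.mdifferentiableOn (by simp), h.2.mdifferentiableOn (by simp)⟩

lemma good_chart [IsManifold (𝓡 4) ∞ X] (p : X) : Good (chartAt R4 p) :=
  ⟨contMDiffOn_chart, contMDiffOn_chart_symm⟩

open Classical in
/-- the frame given by a chart -/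
def fr (e : OpenPartialHomeomorph X V) (x : X) : V ≃L[ℝ] V :=
  if h : Good e ∧ x ∈ e.source then (h.1.md.mfderiv h.2).symm else ContinuousLinearEquiv.refl ℝ V

variable {e e' : OpenPartialHomeomorph X V}

lemma fr_eq (h : Good e) {x : X} (hx : x ∈ e.source) :
    (fr e x : End) = mfderiv (𝓡 4) (𝓡 4) e.symm (e x) :=
  congrArg (fun T : V ≃L[ℝ] V => (T : End)) (dif_pos (⟨h, hx⟩ : Good e ∧ x ∈ e.source))

lemma fr_symm_eq (h : Good e) {x : X} (hx : x ∈ e.source) :
    ((fr e x).symm : End) = mfderiv (𝓡 4) (𝓡 4) e x :=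
  congrArg (fun T : V ≃L[ℝ] V => (T.symm : End)) (dif_pos (⟨h, hx⟩ : Good e ∧ x ∈ e.source))

lemma fr_eq' (h : Good e) {y : V} (hy : y ∈ e.target) :
    (fr e (e.symm y) : End) = mfderiv (𝓡 4) (𝓡 4) e.symm y := by
  obtain ⟨x, hx, rfl⟩ : ∃ x ∈ e.source, e x = y := ⟨_, e.map_target hy, e.right_inv hy⟩
  rw [← fr_eq h hx, e.left_inv hx]

lemma tm_smooth (h : Good e) (h' : Good e') :
    ContDiffOn ℝ ∞ (fun y => e (e'.symm y)) (e'.target ∩ e'.symm ⁻¹' e.source) :=
  (h.1.comp (h'.2.mono inter_subset_left) inter_subset_right).contDiffOn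

lemma tm_deriv (h : Good e) (h' : Good e') {x : X} (hx : x ∈ e.source) (hx' : x ∈ e'.source) :
    HasFDerivAt (fun y => e (e'.symm y)) (((fr e x).symm : End).comp (fr e' x : End)) (e' x) := by
  have h1 := (h'.md.mdifferentiableAt_symm (e'.map_source hx')).hasMFDerivAt
  have h2 : HasMFDerivAt (𝓡 4) (𝓡 4) e (e'.symm (e' x)) ((fr e x).symm : End) := by
    rw [fr_symm_eq h hx, e'.left_inv hx']
    exact (h.md.mdifferentiableAt hx).hasMFDerivAt
  rw [fr_eq h' hx']
  exact (h2.comp _ h1).hasFDerivAt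

omit [ChartedSpace R4 X] in
lemma dom_nhds {x : X} (hx : x ∈ e.source) (hx' : x ∈ e'.source) :
    e'.target ∩ e'.symm ⁻¹' e.source ∈ 𝓝 (e' x) :=
  (e'.symm.isOpen_inter_preimage e.open_source).mem_nhds
    ⟨e'.map_source hx', by rw [mem_preimage, e'.left_inv hx']; exact hx⟩

lemma tm_at (h : Good e) (h' : Good e') {x : X} (hx : x ∈ e.source) (hx' : x ∈ e'.source) :
    ContDiffAt ℝ ∞ (fun y => e (e'.symm y)) (e' x) :=
  (tm_smooth h h').contDiffAt (dom_nhds hx hx')

lemma tm_fderiv (h : Good e) (h' : Good e') {y : V} (hy : y ∈ e'.target ∩ e'.symm ⁻¹' e.source) :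
    fderiv ℝ (fun y => e (e'.symm y)) y
      = ((fr e (e'.symm y)).symm : End).comp (fr e' (e'.symm y) : End) := by
  have := tm_deriv h h' hy.2 (e'.map_target hy.1)
  rw [e'.right_inv hy.1] at this
  exact this.fderiv

/-- a form in a chart -/
def lc (e : OpenPartialHomeomorph X V) (β : Form X) (y : V) : E6 :=
  pull (fr e (e.symm y) : End) (β (e.symm y))

lemma lc_ev (h : Good e) (h' : Good e') (β : Form X) {x : X} (hx : x ∈ e.source)
    (hx' : x ∈ e'.source) : lc e' β =ᶠ[𝓝 (e' x)]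
      fun y => pull (fderiv ℝ (fun y => e (e'.symm y)) y) (lc e β (e (e'.symm y))) := by
  filter_upwards [dom_nhds hx hx'] with y hy
  rw [tm_fderiv h h' hy, lc, lc, e.left_inv hy.2, pull_pull]
  congr 2
  ext1 v
  simp

lemma lc_sm (h : Good e) (h' : Good e') (β : Form X) {x : X} (hx : x ∈ e.source)
    (hx' : x ∈ e'.source) (hs : ContDiffAt ℝ ∞ (lc e β) (e x)) :
    ContDiffAt ℝ ∞ (lc e' β) (e' x) := by
  have h1 := tm_at h h' hx hx'
  have h2 : ContDiffAt ℝ ∞ (lc e β) (e (e'.symm (e' x))) := by rwa [e'.left_inv hx']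
  refine ContDiffAt.congr_of_eventuallyEq ?_ (lc_ev h h' β hx hx')
  exact (contDiff_pull.contDiffAt.comp _ (h1.fderiv_right (m := ∞) (by simp))).clm_apply
    (h2.comp (f := fun y => e (e'.symm y)) (e' x) h1)

lemma cyc_congr {β β' : V → E6} {y : V} (h : β =ᶠ[𝓝 y] β') (u v w : V) :
    cyc β y u v w = cyc β' y u v w := by
  rw [cyc, cyc, h.fderiv_eq]

lemma lc_cl (hn : NatS) (h : Good e) (h' : Good e') (β : Form X) {x : X} (hx : x ∈ e.source)
    (hx' : x ∈ e'.source) (hs : ContDiffAt ℝ ∞ (lc e β) (e x))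
    (hc : ∀ u v w, cyc (lc e β) (e x) u v w = 0) (u v w : V) :
    cyc (lc e' β) (e' x) u v w = 0 := by
  have h1 := tm_at h h' hx hx'
  have h2 : ContDiffAt ℝ ∞ (lc e β) (e (e'.symm (e' x))) := by rwa [e'.left_inv hx']
  rw [cyc_congr (lc_ev h h' β hx hx'), hn.nat (h1.of_le (by norm_cast))
    (h2.differentiableAt (by simp)), e'.left_inv hx', hc]

lemma sm_transfer {ι κ : Type*} {c : ι → OpenPartialHomeomorph X V}
    {c' : κ → OpenPartialHomeomorph X V} (h : ∀ i, Good (c i)) (h' : ∀ k, Good (c' k))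
    (hc : ∀ x, ∃ i, x ∈ (c i).source) {β : Form X}
    (hs : ∀ i, ContDiffOn ℝ ∞ (lc (c i) β) (c i).target) (k : κ) :
    ContDiffOn ℝ ∞ (lc (c' k) β) (c' k).target := by
  intro y hy
  obtain ⟨i, hi⟩ := hc ((c' k).symm y)
  have := lc_sm (h i) (h' k) β hi ((c' k).map_target hy)
    ((hs i).contDiffAt ((c i).open_target.mem_nhds ((c i).map_source hi)))
  rw [(c' k).right_inv hy] at this
  exact this.contDiffWithinAt

lemma cl_transfer (hn : NatS) {ι κ : Type*} {c : ι → OpenPartialHomeomorph X V}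
    {c' : κ → OpenPartialHomeomorph X V} (h : ∀ i, Good (c i)) (h' : ∀ k, Good (c' k))
    (hc : ∀ x, ∃ i, x ∈ (c i).source) {β : Form X}
    (hs : ∀ i, ContDiffOn ℝ ∞ (lc (c i) β) (c i).target)
    (hcl : ∀ i, ∀ y ∈ (c i).target, ∀ u v w, cyc (lc (c i) β) y u v w = 0) (k : κ) :
    ∀ y ∈ (c' k).target, ∀ u v w, cyc (lc (c' k) β) y u v w = 0 := by
  intro y hy u v w
  obtain ⟨i, hi⟩ := hc ((c' k).symm y)
  have := lc_cl hn (h i) (h' k) β hi ((c' k).map_target hy)
    ((hs i).contDiffAt ((c i).open_target.mem_nhds ((c i).map_source hi)))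
    (hcl i _ ((c i).map_source hi)) u v w
  rwa [(c' k).right_inv hy] at this

lemma formCoord_eq [IsManifold (𝓡 4) ∞ X] {α : TwoTensor X} (hα : ∀ x u v, α x u v = -α x v u)
    (p : X) (a b : V) {y : V} (hy : y ∈ (chartAt R4 p).target) :
    formCoord α p a b y = ap (lc (chartAt R4 p) (toForm α) y) a b := by
  have e : ∀ x (u v : V), ap (toForm α x) u v = α x u v := fun x u v => by
    have h1 := ap_alt2 (α x) u v
    have h2 := hα x v u
    rw [toForm, ap_smul]
    exact (congrArg (1 / 2 * ·) h1).trans (by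
      change 1 / 2 * (α x u v - α x v u) = _
      rw [h2]; ring)
  rw [lc, ap_pull, e, fr_eq' (good_chart p) hy]
  rfl

lemma sm_iff [IsManifold (𝓡 4) ∞ X] {α : TwoTensor X} (hα : ∀ x u v, α x u v = -α x v u) :
    IsSmoothTwoForm α ↔
      ∀ p : X, ContDiffOn ℝ ∞ (lc (chartAt R4 p) (toForm α)) (chartAt R4 p).target := by
  refine ⟨fun h p => ?_, fun h => ⟨hα, fun p a b => ?_⟩⟩
  · have e : ∀ a b, ContDiffOn ℝ ∞ (fun y => ap (lc (chartAt R4 p) (toForm α) y) a b)
        (chartAt R4 p).target := fun a b =>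
      (h.2 p a b).congr fun y hy => (formCoord_eq hα p a b hy).symm
    refine contDiffOn_euclidean.2 fun i => ?_
    fin_cases i
    · exact (((e _ _).add (e _ _)).div_const 2).congr fun y _ => coord_0 _
    · exact (((e _ _).sub (e _ _)).div_const 2).congr fun y _ => coord_1 _
    · exact (((e _ _).add (e _ _)).div_const 2).congr fun y _ => coord_2 _
    · exact (((e _ _).sub (e _ _)).div_const 2).congr fun y _ => coord_3 _
    · exact (((e _ _).add (e _ _)).div_const 2).congr fun y _ => coord_4 _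
    · exact (((e _ _).sub (e _ _)).div_const 2).congr fun y _ => coord_5 _
  · exact ((ev a b).contDiff.comp_contDiffOn (h p)).congr fun y hy =>
      (formCoord_eq hα p a b hy).trans (ev_apply _ _ _).symm

lemma cl_iff [IsManifold (𝓡 4) ∞ X] {α : TwoTensor X} (hα : IsSmoothTwoForm α) :
    IsClosedTwoForm α ↔ ∀ p : X, ∀ y ∈ (chartAt R4 p).target, ∀ u v w,
      cyc (lc (chartAt R4 p) (toForm α)) y u v w = 0 := by
  refine forall_congr' fun p => forall₂_congr fun y hy => forall₃_congr fun u v w => ?_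
  have hy' := (chartAt R4 p).open_target.mem_nhds hy
  have hd := (((sm_iff hα.1).1 hα p).contDiffAt hy').differentiableAt (by simp)
  have e : ∀ a b c, fderiv ℝ (formCoord α p a b) y c
      = ap (fderiv ℝ (lc (chartAt R4 p) (toForm α)) y c) a b := fun a b c => by
    rw [← fderiv_ap hd]
    congr 1
    refine EventuallyEq.fderiv_eq ?_
    filter_upwards [hy'] with z hz using formCoord_eq hα.1 p a b hz
  rw [e, e, e, cyc]

/-- an endomorphism field in a chart -/
def Jl (e : OpenPartialHomeomorph X V) (J : X → End) (y : V) : End :=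
  ((fr e (e.symm y)).symm : End).comp ((J (e.symm y)).comp (fr e (e.symm y) : End))

lemma Jl_chart [IsManifold (𝓡 4) ∞ X] {J : EndField X} (hJ : IsAlmostComplex J) (p : X) :
    ContDiffOn ℝ ∞ (Jl (chartAt R4 p) fun x => (J x : End)) (chartAt R4 p).target := by
  refine contDiffOn_clm_apply.2 fun a => (hJ.2 p a).congr fun y hy => ?_
  unfold Jl
  rw [fr_eq' (good_chart p) hy, fr_symm_eq (good_chart p) ((chartAt R4 p).map_target hy)]
  rfl

lemma fr_trans (h : Good e) (L : V ≃L[ℝ] V) (y0 : V) (hs : e'.source ⊆ e.source)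
    (he : ∀ x, e' x = L (e x - y0)) (h' : Good e') {x : X} (hx : x ∈ e'.source) :
    ((fr e' x).symm : End).comp (fr e x : End) = L := by
  refine (tm_deriv h' h hx (hs hx)).unique ?_
  have h1 : HasFDerivAt (fun y => L (y - y0)) (L : End) (e x) :=
    (L : End).hasFDerivAt.comp (e x) ((hasFDerivAt_id (e x)).sub_const y0)
  refine h1.congr_of_eventuallyEq ?_
  filter_upwards [e.open_target.mem_nhds (e.map_source (hs hx))] with y hy
  rw [he, e.right_inv hy]

/-- a chart centered at `p` in which `J` is close to `J0` -/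
lemma exists_chart {J : X → End} (hJ : ∀ x v, J x (J x v) = -v) {c : OpenPartialHomeomorph X V}
    (gc : Good c) {p : X} (hp : p ∈ c.source) (hsm : ContDiffOn ℝ ∞ (Jl c J) c.target) :
    ∃ e : OpenPartialHomeomorph X V, Good e ∧ p ∈ e.source ∧ e p = 0 ∧
      closedBall (0 : V) 12 ⊆ e.target ∧ ContDiffOn ℝ ∞ (Jl e J) e.target ∧
      ∀ y ∈ e.target, ‖Jl e J y - J0‖ ≤ 1 / 2 := by
  obtain ⟨K, hK⟩ : ∃ K : V → End, K = Jl c J := ⟨_, rfl⟩
  rw [← hK] at hsm
  obtain ⟨L, hL⟩ := exists_conj (K (c p)) fun v => by simp [hK, Jl, hJ]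
  have hsm2 : ContDiffOn ℝ ∞ (fun y => (L : End).comp ((K y).comp (L.symm : End))) c.target :=
    contDiffOn_const.clm_comp (hsm.clm_comp contDiffOn_const)
  obtain ⟨U, hU⟩ : ∃ U, U = c.target ∩
      (fun y => (L : End).comp ((K y).comp (L.symm : End))) ⁻¹' ball J0 (1 / 2) := ⟨_, rfl⟩
  have Uo : IsOpen U := hU ▸ hsm2.continuousOn.isOpen_inter_preimage c.open_target isOpen_ball
  have pU : c p ∈ U := by
    rw [hU]
    refine ⟨c.map_source hp, ?_⟩
    have : (L : End).comp ((K (c p)).comp (L.symm : End)) = J0 := by ext1 v; exact hL v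
    rw [mem_preimage, this]
    exact mem_ball_self (by norm_num)
  obtain ⟨ρ, hρ, hρU⟩ : ∃ ρ > 0, ∀ y : V, ‖y‖ ≤ ρ → L.symm y + c p ∈ U := by
    have h1 : Continuous fun y : V => L.symm y + c p := by fun_prop
    obtain ⟨ρ, hρ, h2⟩ := Metric.isOpen_iff.1 (Uo.preimage h1) 0 (by simpa using pU)
    exact ⟨ρ / 2, by positivity, fun y hy => h2 (mem_ball_zero_iff.2 (by linarith))⟩
  obtain ⟨L', hL1, hL2⟩ : ∃ L' : V ≃L[ℝ] V, (∀ v, L' v = (12 / ρ) • L v) ∧
      ∀ v, L'.symm v = L.symm ((ρ / 12) • v) :=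
    ⟨L.trans (ContinuousLinearEquiv.smulLeft (Units.mk0 (12 / ρ) (by positivity))),
      fun v => rfl, fun v => by
        rw [ContinuousLinearEquiv.symm_apply_eq]
        simp [Units.smul_def, smul_smul, hρ.ne']⟩
  have hLL : ∀ y, (L' : End).comp ((K y).comp (L'.symm : End))
      = (L : End).comp ((K y).comp (L.symm : End)) := fun y => by
    ext1 v
    simp [hL1, hL2, smul_smul, hρ.ne']
  obtain ⟨e, e1, e2, e3, e4⟩ : ∃ e : OpenPartialHomeomorph X V, (∀ x, e x = L' (c x - c p)) ∧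
      (∀ y, e.symm y = c.symm (L'.symm y + c p)) ∧ e.source = c.source ∩ c ⁻¹' U ∧
      e.target = (fun y => L'.symm y + c p) ⁻¹' U := by
    refine ⟨c.trans (((Homeomorph.subRight (c p)).trans L'.toHomeomorph).toOpenPartialHomeomorph.restrOpen
      U Uo), fun x => rfl, fun y => rfl, by simp, ?_⟩
    ext y
    simp only [OpenPartialHomeomorph.trans_target, mem_inter_iff, mem_preimage]
    refine ⟨fun h => h.1.2, fun h => ⟨⟨trivial, h⟩, ?_⟩⟩
    rw [hU] at h
    exact h.1
  have hs : e.source ⊆ c.source := e3 ▸ inter_subset_left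
  have ht : ∀ y ∈ e.target, L'.symm y + c p ∈ U := fun y hy => by rwa [e4] at hy
  have ht' : ∀ y ∈ e.target, L'.symm y + c p ∈ c.target := fun y hy => (hU ▸ ht y hy).1
  have a1 : ContDiff ℝ ∞ fun y : V => L' (y - c p) := L'.contDiff.comp (contDiff_id.sub contDiff_const)
  have a2 : ContDiff ℝ ∞ fun y : V => L'.symm y + c p := L'.symm.contDiff.add contDiff_const
  have ge : Good e :=
    ⟨(a1.contMDiff.comp_contMDiffOn (gc.1.mono hs)).congr fun x _ => e1 x,
      (gc.2.comp a2.contMDiff.contMDiffOn ht').congr fun y _ => e2 y⟩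
  have key : ∀ y ∈ e.target, Jl e J y
      = (L : End).comp ((K (L'.symm y + c p)).comp (L.symm : End)) := fun y hy => by
    have h1 := fr_trans gc L' (c p) hs e1 ge (e.map_target hy)
    rw [← hLL, hK, Jl, Jl, ← e2]
    ext1 v
    have h2 : ∀ w, L' w = (fr e (e.symm y)).symm (fr c (e.symm y) w) := fun w =>
      (congrArg (fun T : End => T w) h1).symm
    have h3 : fr c (e.symm y) (L'.symm v) = fr e (e.symm y) v := by
      rw [← ContinuousLinearEquiv.symm_apply_eq, ← h2, L'.apply_symm_apply]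
    simp [h2, h3]
  refine ⟨e, ge, e3 ▸ ⟨hp, pU⟩, by simp [e1], fun y hy => ?_,
    (hsm2.comp a2.contDiffOn ht').congr key, fun y hy => ?_⟩
  · rw [e4, mem_preimage, hL2]
    refine hρU _ ?_
    rw [mem_closedBall_zero_iff] at hy
    rw [norm_smul, Real.norm_of_nonneg (by positivity)]
    nlinarith
  · rw [key y hy]
    exact (mem_ball_iff_norm.1 (hU ▸ ht y hy).2).le

end Bridge

open Bridge in
theorem bridgeS (h1 : NatS) (X : Type*) [TopologicalSpace X] [ChartedSpace R4 X] [T2Space X]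
    [CompactSpace X] [IsManifold (𝓡 4) ∞ X] : BridgeS X := by
  intro J hJ
  choose e ge hp h0 hbig hsm hnear using fun p : X =>
    exists_chart (J := fun x => (J x : End)) hJ.1 (good_chart p) (mem_chart_source R4 p)
      (Jl_chart hJ p)
  obtain ⟨t, ht⟩ := CompactSpace.elim_nhds_subcover
    (fun p => (e p).source ∩ e p ⁻¹' ball 0 1) fun p =>
      ((e p).isOpen_inter_preimage isOpen_ball).mem_nhds ⟨hp p, by simp [h0]⟩
  have hcov : ∀ x, ∃ j : Fin t.card, x ∈ (e (t.equivFin.symm j)).source ∧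
      ‖e (t.equivFin.symm j) x‖ < 1 := fun x => by
    obtain ⟨p, hp, hx⟩ := mem_iUnion₂.1 (ht.symm ▸ mem_univ x : x ∈ ⋃ p ∈ t,
      (e p).source ∩ e p ⁻¹' ball 0 1)
    refine ⟨t.equivFin ⟨p, hp⟩, ?_⟩
    rw [Equiv.symm_apply_apply]
    exact ⟨hx.1, mem_ball_zero_iff.1 hx.2⟩
  have hcov' : ∀ x, ∃ j : Fin t.card, x ∈ (e (t.equivFin.symm j)).source := fun x =>
    (hcov x).imp fun _ h => h.1
  have hch : ∀ x : X, ∃ p : X, x ∈ (chartAt R4 p).source := fun x => ⟨x, mem_chart_source R4 x⟩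
  refine ⟨⟨t.card, fun j => e (t.equivFin.symm j), fun j => hbig _, hcov,
    fun j => fr (e (t.equivFin.symm j)), fun i j => tm_smooth (ge _) (ge _),
    fun i j x hi hj => tm_deriv (ge _) (ge _) hi hj, fun x => (J x : End), hJ.1,
    fun j => hsm _, fun j => hnear _⟩, fun x => rfl, fun α hα => ⟨?_, fun hs => ?_⟩⟩
  · rw [sm_iff hα]
    exact ⟨fun h => sm_transfer good_chart (fun j => ge _) hch h,
      fun h => sm_transfer (fun j => ge _) good_chart hcov' h⟩
  · rw [cl_iff hs]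
    have hs' := (sm_iff hα).1 hs
    exact ⟨fun h => cl_transfer h1 good_chart (fun j => ge _) hch hs' h,
      fun h => cl_transfer h1 (fun j => ge _) good_chart hcov'
        (sm_transfer good_chart (fun j => ge _) hch hs') h⟩

end Vale.Agent.P204
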