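import Vale.Agent.P204.Stmt

/-! A change of variables on a product of copies of `V`. -/

set_option maxSynthPendingDepth 3

open scoped Topology ContDiff RealInnerProductSpace Manifold
open Set Metric MeasureTheory Filter

noncomputable section
namespace Vale.Agent.P204

namespace CVpi

lemma shear {n : ℕ} (i : Fin n) (L : End) (c : (Fin n → V) → V) (hL : L.det ≠ 0)
    (hc : Continuous c) (h : ∀ u w, c (Function.update u i w) = c u) :
    Measure.map (fun u : Fin n → V => Function.update u i (L (u i) + c u)) volume
      = ENNReal.ofReal |L.det⁻¹| • volume := by
  have hm : Measurable (fun u : Fin n → V => Function.update u i (L (u i) + c u)) :=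
    (continuous_id.update i ((L.continuous.comp (continuous_apply i)).add hc)).measurable
  ext s hs
  have h1 : Measurable (s.indicator (1 : (Fin n → V) → ENNReal)) := measurable_one.indicator hs
  rw [← lintegral_indicator_one hs, lintegral_map h1 hm, Measure.smul_apply, smul_eq_mul,
    ← lintegral_indicator_one hs, ← lintegral_const_mul _ h1, volume_pi]
  refine lintegral_eq_of_lmarginal_eq {i} (h1.comp hm) (h1.const_mul _) ?_
  rw [lmarginal_singleton, lmarginal_singleton]
  funext x
  have h2 : Measurable fun w : V => s.indicator (1 : (Fin n → V) → ENNReal)
      (Function.update x i w) := h1.comp (measurable_update x)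
  simp only [Function.update_idem, Function.update_self, h]
  have h3 := lintegral_map (μ := volume) (h2.comp (measurable_add_const (c x)))
    L.continuous.measurable
  rw [show Measure.map L volume = ENNReal.ofReal |L.det⁻¹| • (volume : Measure V) from
    Measure.map_linearMap_addHaar_eq_smul_addHaar volume (f := (L : V →ₗ[ℝ] V)) hL,
    lintegral_smul_measure, smul_eq_mul] at h3
  rw [lintegral_const_mul _ h2, ← lintegral_add_right_eq_self
    (fun w : V => s.indicator (1 : (Fin n → V) → ENNReal) (Function.update x i w)) (c x)]
  exact h3.symm

end CVpi

theorem cvpiS : CVpiS := by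
  intro n i j L c f hij hL hc h1 _ hf
  have hm : Measurable (fun u : Fin n → V => Function.update u i (L (u i) + c u)) :=
    (continuous_id.update i ((L.continuous.comp (continuous_apply i)).add hc)).measurable
  have h2 := volume_preserving_arrowCongr' (Equiv.swap i j) (MeasurableEquiv.refl V)
    (MeasurePreserving.id _)
  have h3 : ∀ u : Fin n → V, Function.update (Function.update u j (L (u i) + c u)) i (u j) =
      MeasurableEquiv.arrowCongr' (Equiv.swap i j) (MeasurableEquiv.refl V)
        (Function.update u i (L (u i) + c u)) := fun u => by
    funext k
    change _ = Function.update u i (L (u i) + c u) (Equiv.swap i j k)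
    by_cases hk : k = i
    · simp [hk, hij.symm]
    · by_cases hk' : k = j
      · simp [hk', hij.symm]
      · simp [hk, hk', Equiv.swap_apply_of_ne_of_ne hk hk']
  have h4 : Continuous fun u : Fin n → V =>
      f (MeasurableEquiv.arrowCongr' (Equiv.swap i j) (MeasurableEquiv.refl V) u) :=
    hf.comp (continuous_pi fun k => continuous_apply (Equiv.swap i j k))
  simp only [h3]
  rw [← integral_map hm.aemeasurable h4.aestronglyMeasurable, CVpi.shear i L c hL hc h1,
    integral_smul_measure, h2.integral_comp', ENNReal.toReal_ofReal (abs_nonneg _), smul_smul,
    ← abs_mul, mul_inv_cancel₀ hL, abs_one, one_smul]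

end Vale.Agent.P204
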