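import Vale.Agent.P204.Stmt

/-! Integrals of the comparison kernels, second part. -/

set_option maxSynthPendingDepth 3

open scoped Topology ContDiff RealInnerProductSpace Manifold
open Set Metric MeasureTheory Filter

noncomputable section
namespace Vale.Agent.P204
namespace ConvB

lemma layer {Y : Type*} [MeasurableSpace Y] (m : Measure Y) [IsFiniteMeasure m] (F : Y → ℝ)
    (A : ℕ → Set Y) (g R : ℕ → ℝ) (a : ℝ) (hF : ∀ p, 0 ≤ F p) (hm : AEStronglyMeasurable F m)
    (hA : ∀ j, MeasurableSet (A j)) (hg : ∀ j, 0 ≤ g j) (ha : 0 ≤ a)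
    (h : ∀ p, F p ≤ a ∨ ∃ j, p ∈ A j ∧ F p ≤ g j) (hR : ∀ j, m.real (A j) ≤ R j)
    (hs : Summable fun j => g j * R j) :
    ∫ p, F p ∂m ≤ a * m.real univ + ∑' j, g j * R j := by
  have hR0 : ∀ j, 0 ≤ R j := fun j => measureReal_nonneg.trans (hR j)
  have hgR : ∀ j, 0 ≤ g j * R j := fun j => mul_nonneg (hg j) (hR0 j)
  have ht : (0 : ℝ) ≤ ∑' j, g j * R j := tsum_nonneg hgR
  have h0 : 0 ≤ a * m.real univ := mul_nonneg ha measureReal_nonneg
  rw [integral_eq_lintegral_of_nonneg_ae (Eventually.of_forall hF) hm]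
  refine ENNReal.toReal_le_of_le_ofReal (add_nonneg h0 ht) ?_
  calc ∫⁻ p, ENNReal.ofReal (F p) ∂m
      ≤ ∫⁻ p, (ENNReal.ofReal a + ∑' j, (A j).indicator (fun _ => ENNReal.ofReal (g j)) p) ∂m := by
        refine lintegral_mono fun p => ?_
        rcases h p with h1 | ⟨j, h1, h2⟩
        · exact (ENNReal.ofReal_le_ofReal h1).trans le_self_add
        · refine le_trans ?_ le_add_self
          refine le_trans ?_ (ENNReal.le_tsum j)
          rw [indicator_of_mem h1]
          exact ENNReal.ofReal_le_ofReal h2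
    _ = ENNReal.ofReal a * m univ + ∑' j, ENNReal.ofReal (g j) * m (A j) := by
        rw [lintegral_add_left measurable_const, lintegral_const,
          lintegral_tsum fun j => (measurable_const.indicator (hA j)).aemeasurable]
        congr 1
        refine tsum_congr fun j => ?_
        rw [lintegral_indicator_const (hA j)]
    _ ≤ ENNReal.ofReal (a * m.real univ) + ∑' j, ENNReal.ofReal (g j * R j) := by
        refine add_le_add (le_of_eq ?_) (ENNReal.tsum_le_tsum fun j => ?_)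
        · rw [ENNReal.ofReal_mul ha, ofReal_measureReal]
        · rw [ENNReal.ofReal_mul (hg j)]
          gcongr
          rw [← ofReal_measureReal (μ := m) (s := A j)]
          exact ENNReal.ofReal_le_ofReal (hR j)
    _ = _ := by
        rw [ENNReal.ofReal_add h0 ht, ENNReal.ofReal_tsum_of_nonneg hgR hs]

lemma meas_ball (y : V) (r : ℝ) : MeasurableSet {p : V × V | ‖p.1 - y‖ ≤ r} :=
  (isClosed_le (continuous_fst.sub continuous_const).norm continuous_const).measurableSet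

lemma c4 : ∃ C, 0 ≤ C ∧ ∀ (m : Measure (V × V)) (y : V) (δ Dn : ℝ), IsFiniteMeasure m → 0 < δ →
    (∀ r, 0 < r → mass m y r ≤ Dn * r ^ 2) →
    δ ^ 2 * ∫ p, kp δ 5 (y - p.1) ∂m ≤ C * Dn / δ := by
  refine ⟨8, by norm_num, fun m y δ Dn hm hδ hD => ?_⟩
  have hDn : 0 ≤ Dn := by
    have h1 := hD 1 one_pos
    have h2 : 0 ≤ mass m y 1 := measureReal_nonneg
    linarith
  have e : ∀ j : ℕ, (((2 : ℝ) ^ j * δ) ^ 5)⁻¹ * (Dn * (2 ^ (j + 1) * δ) ^ 2)
      = (4 * Dn / δ ^ 3) * (1 / 8) ^ j := fun j => by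
    have : ((1 : ℝ) / 8) ^ j = ((2 ^ j) ^ 3)⁻¹ := by
      rw [← pow_mul, mul_comm, pow_mul, ← inv_pow]; norm_num
    rw [this, pow_succ (2 : ℝ) j]
    field_simp
    norm_num
  have hs : HasSum (fun j : ℕ => (4 * Dn / δ ^ 3) * (1 / 8 : ℝ) ^ j)
      ((4 * Dn / δ ^ 3) * (1 - 1 / 8)⁻¹) :=
    (hasSum_geometric_of_lt_one (by norm_num) (by norm_num)).mul_left _
  have key := layer m (fun p => kp δ 5 (y - p.1))
    (fun j => {p : V × V | ‖p.1 - y‖ ≤ 2 ^ (j + 1) * δ}) (fun j => (((2 : ℝ) ^ j * δ) ^ 5)⁻¹)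
    (fun j => Dn * (2 ^ (j + 1) * δ) ^ 2) 0 (fun p => (kp_pos hδ _ _).le)
    ((continuous_kp hδ 5).comp (continuous_const.sub continuous_fst)).aestronglyMeasurable
    (fun j => meas_ball y _) (fun j => by positivity) le_rfl (fun p => ?_)
    (fun j => hD _ (by positivity)) (by simp_rw [e]; exact hs.summable)
  · simp_rw [e] at key
    rw [hs.tsum_eq] at key
    have h2 : δ ^ 2 * (0 * m.real univ + 4 * Dn / δ ^ 3 * (1 - 1 / 8)⁻¹)
        = (32 / 7) * (Dn / δ) := by field_simp; ring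
    have h3 : 0 ≤ Dn / δ := by positivity
    calc _ ≤ δ ^ 2 * (0 * m.real univ + 4 * Dn / δ ^ 3 * (1 - 1 / 8)⁻¹) := by gcongr
      _ ≤ 8 * (Dn / δ) := by rw [h2]; linarith
      _ = _ := by ring
  · right
    have hn := norm_nonneg (y - p.1)
    obtain ⟨j, h1, h2⟩ := exists_nat_pow_near (x := (‖y - p.1‖ + δ) / δ) (y := 2)
      (by rw [le_div_iff₀ hδ]; linarith) one_lt_two
    rw [le_div_iff₀ hδ] at h1
    rw [div_lt_iff₀ hδ] at h2
    refine ⟨j, ?_, ?_⟩
    · change ‖p.1 - y‖ ≤ _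
      rw [norm_sub_rev]; linarith
    · unfold kp
      gcongr

lemma c5 : ∃ C, 0 ≤ C ∧ ∀ (m : Measure (V × V)) (y : V) (s s1 Dn : ℝ), IsFiniteMeasure m → 0 < s →
    s ≤ s1 → (∀ r, s ≤ r → r ≤ s1 → mass m y r ≤ Dn * r ^ 2) →
    ∫ p, kp s 1 (p.1 - y) ∂m ≤ C * (Dn * s1 + m.real univ / s1) := by
  refine ⟨4, by norm_num, fun m y s s1 Dn hm hs hs1 hD => ?_⟩
  have h1p : 0 < s1 := hs.trans_le hs1
  have hDn : 0 ≤ Dn := by
    have h1 := hD s le_rfl hs1
    have h2 : 0 ≤ mass m y s := measureReal_nonneg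
    have h3 : 0 ≤ Dn * s ^ 2 := h2.trans h1
    exact nonneg_of_mul_nonneg_left h3 (by positivity)
  have e : ∀ j : ℕ, ((2 : ℝ) ^ (j + 1) / s1) * (Dn * (s1 / 2 ^ j) ^ 2)
      = (2 * Dn * s1) * (1 / 2) ^ j := fun j => by
    rw [pow_succ (2 : ℝ) j, one_div, inv_pow]
    field_simp
  have hsum : HasSum (fun j : ℕ => (2 * Dn * s1) * (1 / 2 : ℝ) ^ j) ((2 * Dn * s1) * 2) :=
    hasSum_geometric_two.mul_left _
  have key := layer m (fun p => kp s 1 (p.1 - y))
    (fun j => {p : V × V | ‖p.1 - y‖ ≤ s1 / 2 ^ j} ∩ {_p | s ≤ s1 / 2 ^ j})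
    (fun j => (2 : ℝ) ^ (j + 1) / s1)
    (fun j => Dn * (s1 / 2 ^ j) ^ 2) s1⁻¹ (fun p => (kp_pos hs _ _).le)
    ((continuous_kp hs 1).comp (continuous_fst.sub continuous_const)).aestronglyMeasurable
    (fun j => (meas_ball y _).inter (MeasurableSet.const _)) (fun j => by positivity)
    (by positivity) (fun p => ?_) (fun j => ?_) (by simp_rw [e]; exact hsum.summable)
  · simp_rw [e] at key
    rw [hsum.tsum_eq] at key
    have h3 : 0 ≤ m.real univ / s1 := by positivity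
    have h4 : s1⁻¹ * m.real univ = m.real univ / s1 := by ring
    linarith
  · have hn := norm_nonneg (p.1 - y)
    have ht : 0 < ‖p.1 - y‖ + s := by positivity
    by_cases hc : s1 ≤ ‖p.1 - y‖ + s
    · left
      unfold kp
      rw [pow_one]
      gcongr
    right
    push Not at hc
    obtain ⟨j, h1, h2⟩ := exists_nat_pow_near (x := s1 / (‖p.1 - y‖ + s)) (y := 2)
      (by rw [le_div_iff₀ ht]; linarith) one_lt_two
    rw [le_div_iff₀ ht] at h1
    rw [div_lt_iff₀ ht] at h2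
    have h3 : ‖p.1 - y‖ + s ≤ s1 / 2 ^ j := by
      rw [le_div_iff₀ (by positivity)]; linarith
    refine ⟨j, ⟨?_, ?_⟩, ?_⟩
    · change ‖p.1 - y‖ ≤ _
      linarith
    · change s ≤ _
      linarith
    · unfold kp
      rw [pow_one, le_div_iff₀ h1p, inv_mul_le_iff₀ ht]
      linarith
  · by_cases hc : s ≤ s1 / 2 ^ j
    · refine le_trans ?_ (hD _ hc (div_le_self h1p.le (one_le_pow₀ one_le_two)))
      exact measureReal_mono inter_subset_left
    · simp only [hc, Set.ofPred_false, inter_empty, measureReal_empty]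
      positivity

end ConvB
end Vale.Agent.P204
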