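import Vale.Agent.P204.ConvA
import Vale.Agent.P204.ConvB

/-! Integrals of the comparison kernels. -/

set_option maxSynthPendingDepth 3

open scoped Topology ContDiff RealInnerProductSpace Manifold Convolution
open Set Metric MeasureTheory Filter

noncomputable section
namespace Vale.Agent.P204
namespace Conv

lemma int_mul {κ g : V → ℝ} {B : ℝ} (h0 : ∀ w, 0 ≤ κ w) (hc : Continuous κ) (hB : ∀ w, κ w ≤ B)
    (hg : Integrable g) (x : V) : Integrable (fun z => κ (x - z) * g z) :=
  hg.bdd_mul (c := B) (hc.comp (continuous_const.sub continuous_id)).aestronglyMeasurable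
    (Eventually.of_forall fun z => by rw [Real.norm_eq_abs, abs_of_nonneg (h0 _)]; exact hB _)

lemma cs {κ g : V → ℝ} {B : ℝ} (h0 : ∀ w, 0 ≤ κ w) (hi : Integrable κ) (hc : Continuous κ)
    (hB : ∀ w, κ w ≤ B) (hg : Integrable g) (hg2 : Integrable (fun z => g z ^ 2)) (x : V) :
    (∫ z, κ (x - z) * g z) ^ 2 ≤ (∫ w, κ w) * ∫ z, κ (x - z) * g z ^ 2 := by
  have i1 := int_mul h0 hc hB hg x
  have i2 := int_mul h0 hc hB hg2 x
  have i0 := hi.comp_sub_left x
  have key : ∀ t : ℝ, 0 ≤ (∫ w, κ w) * (t * t) + (-2 * ∫ z, κ (x - z) * g z) * t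
      + ∫ z, κ (x - z) * g z ^ 2 := fun t => by
    have e : ∫ z, κ (x - z) * (t - g z) ^ 2 = (∫ w, κ w) * (t * t)
        + (-2 * ∫ z, κ (x - z) * g z) * t + ∫ z, κ (x - z) * g z ^ 2 := by
      have : ∀ z, κ (x - z) * (t - g z) ^ 2 = (κ (x - z) * (t * t)
          + (-2 * (κ (x - z) * g z)) * t) + κ (x - z) * g z ^ 2 := fun z => by ring
      simp_rw [this]
      have j0 : Integrable (fun z => κ (x - z) * (t * t)) := i0.mul_const _
      have j1 : Integrable (fun z => (-2 * (κ (x - z) * g z)) * t) := (i1.const_mul _).mul_const _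
      have j2 : Integrable (fun z => κ (x - z) * (t * t) + (-2 * (κ (x - z) * g z)) * t) :=
        j0.add j1
      rw [integral_add j2 i2, integral_add j0 j1, integral_mul_const, integral_mul_const,
        integral_const_mul, integral_sub_left_eq_self κ]
    rw [← e]
    exact integral_nonneg fun z => mul_nonneg (h0 _) (sq_nonneg _)
  have := discrim_le_zero key
  unfold discrim at this
  linarith

lemma young (κ g : V → ℝ) (h0 : ∀ w, 0 ≤ κ w) (hi : Integrable κ) (hc : Continuous κ)
    (hB : ∃ B, ∀ w, κ w ≤ B) (hg0 : ∀ z, 0 ≤ g z) (hg : Integrable g)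
    (hg2 : Integrable (fun z => g z ^ 2)) :
    Continuous (fun x => ∫ z, κ (x - z) * g z) ∧
    Integrable (fun x => (∫ z, κ (x - z) * g z) ^ 2) ∧
    ∫ x, (∫ z, κ (x - z) * g z) ^ 2 ≤ (∫ w, κ w) ^ 2 * ∫ z, g z ^ 2 := by
  obtain ⟨B, hB⟩ := hB
  have hcont : Continuous (fun x => ∫ z, κ (x - z) * g z) := by
    refine continuous_of_dominated (bound := fun z => B * g z)
      (fun x => (int_mul h0 hc hB hg x).aestronglyMeasurable) (fun x => ?_) (hg.const_mul B) ?_
    · refine Eventually.of_forall fun z => ?_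
      rw [Real.norm_eq_abs, abs_of_nonneg (mul_nonneg (h0 _) (hg0 _))]
      exact mul_le_mul_of_nonneg_right (hB _) (hg0 _)
    · exact Eventually.of_forall fun z =>
        (hc.comp (continuous_id.sub continuous_const)).mul continuous_const
  have e : ∀ x, ∫ z, κ (x - z) * g z ^ 2
      = ((fun z => g z ^ 2) ⋆[ContinuousLinearMap.mul ℝ ℝ, volume] κ) x := fun x => by
    rw [convolution_def]
    exact integral_congr_ae (Eventually.of_forall fun z => by simp [mul_comm])
  have hG : Integrable (fun x => (∫ w, κ w) * ∫ z, κ (x - z) * g z ^ 2) := by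
    simp_rw [e]
    exact (hg2.integrable_convolution _ hi).const_mul _
  have hb := cs h0 hi hc hB hg hg2
  refine ⟨hcont, hG.mono' (hcont.pow 2).aestronglyMeasurable (Eventually.of_forall fun x => ?_), ?_⟩
  · rw [Real.norm_eq_abs, abs_of_nonneg (sq_nonneg _)]
    exact hb x
  refine (integral_mono_of_nonneg (Eventually.of_forall fun x => sq_nonneg _) hG
    (Eventually.of_forall hb)).trans (le_of_eq ?_)
  simp_rw [e]
  rw [integral_const_mul, integral_convolution _ hg2 hi]
  simp only [ContinuousLinearMap.mul_apply']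
  ring

end Conv

theorem convS : ConvS :=
  ⟨ConvA.c1, ConvA.c2, ConvA.c3, ConvB.c4, ConvB.c5, Conv.young⟩

end Vale.Agent.P204
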