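import Vale.Agent.P204.Stmt

/-! Integrals of the comparison kernels, first part. -/

set_option maxSynthPendingDepth 3

open scoped Topology ContDiff RealInnerProductSpace Manifold
open Set Metric MeasureTheory Filter

noncomputable section
namespace Vale.Agent.P204
namespace ConvA

lemma finrank_V : Module.finrank ℝ V = 4 := by simp [V]

def hh (d : ℝ) (w : V) : ℝ := (‖w‖ ^ 3)⁻¹ * ((‖w‖ + d) ^ 3)⁻¹

lemma hh_nonneg {d : ℝ} (hd : 0 < d) (w : V) : 0 ≤ hh d w := by unfold hh; positivity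

lemma hh_one_int : Integrable (hh 1) := by
  have := (integrable_fun_norm_addHaar (μ := (volume : Measure V))
    (f := fun y : ℝ => (y ^ 3)⁻¹ * ((y + 1) ^ 3)⁻¹)).2 ?_
  · exact this
  rw [finrank_V]
  have h1 : IntegrableOn (fun y : ℝ => (y + 1) ^ (-3 : ℝ)) (Ioi 0) :=
    integrableOn_add_rpow_Ioi_of_lt (by norm_num) (by norm_num)
  refine h1.congr_fun (fun y hy => ?_) measurableSet_Ioi
  have hy' : (0 : ℝ) < y := hy
  have h3 : (y + 1) ^ (-3 : ℝ) = ((y + 1) ^ 3)⁻¹ := by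
    rw [Real.rpow_neg (by positivity)]; norm_cast
  simp only [h3, smul_eq_mul]
  field_simp

lemma hh_scale {d : ℝ} (hd : 0 < d) (w : V) : hh d w = (d ^ 6)⁻¹ * hh 1 (d⁻¹ • w) := by
  unfold hh
  rw [norm_smul, Real.norm_eq_abs, abs_of_pos (inv_pos.2 hd)]
  by_cases hw : ‖w‖ = 0
  · simp [hw]
  have := norm_nonneg w
  field_simp

lemma hh_int {d : ℝ} (hd : 0 < d) : Integrable (hh d) := by
  have := (hh_one_int.comp_smul (inv_ne_zero hd.ne')).const_mul (d ^ 6)⁻¹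
  exact this.congr (Eventually.of_forall fun w => (hh_scale hd w).symm)

lemma hh_integral {d : ℝ} (hd : 0 < d) : ∫ w, hh d w = (d ^ 2)⁻¹ * ∫ w, hh 1 w := by
  simp_rw [hh_scale hd]
  rw [integral_const_mul, Measure.integral_comp_inv_smul_of_nonneg _ _ hd.le, finrank_V,
    smul_eq_mul]
  field_simp

lemma ae_ne (x : V) : ∀ᵐ z : V, x - z ≠ 0 := by
  have : ∀ᵐ z : V, z ≠ x := by
    rw [ae_iff]; simp
  filter_upwards [this] with z hz
  exact sub_ne_zero.2 hz.symm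

lemma c1 : ∃ C, 0 ≤ C ∧ ∀ (δ : ℝ) (x : V), 0 < δ →
    ∫ z in closedBall x 16, kp δ 3 (x - z) ≤ C := by
  refine ⟨17 ^ 3 * ∫ w, hh 1 w, by
    have : 0 ≤ ∫ w, hh 1 w := integral_nonneg (fun w => hh_nonneg one_pos w)
    positivity, fun δ x hδ => ?_⟩
  have hi : Integrable (fun z => 17 ^ 3 * hh 1 (x - z)) :=
    (hh_one_int.comp_sub_left x).const_mul _
  calc ∫ z in closedBall x 16, kp δ 3 (x - z)
      ≤ ∫ z in closedBall x 16, 17 ^ 3 * hh 1 (x - z) := by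
        refine integral_mono_of_nonneg (Eventually.of_forall fun z => (kp_pos hδ _ _).le)
          hi.integrableOn ?_
        filter_upwards [ae_restrict_mem measurableSet_closedBall, ae_restrict_of_ae (ae_ne x)]
          with z hz hz0
        have h0 : 0 < ‖x - z‖ := norm_pos_iff.2 hz0
        have h1 : ‖x - z‖ ≤ 16 := by rw [← dist_eq_norm, dist_comm]; exact hz
        unfold kp hh
        generalize ‖x - z‖ = a at h0 h1
        have e1 : ((a + δ) ^ 3)⁻¹ ≤ (a ^ 3)⁻¹ := by gcongr; linarith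
        have e2 : ((17 : ℝ) ^ 3)⁻¹ ≤ ((a + 1) ^ 3)⁻¹ := by gcongr; linarith
        calc ((a + δ) ^ 3)⁻¹ ≤ 17 ^ 3 * ((a ^ 3)⁻¹ * (17 ^ 3)⁻¹) := by
              rw [mul_comm (a ^ 3)⁻¹, ← mul_assoc, mul_inv_cancel₀ (by norm_num), one_mul]
              exact e1
          _ ≤ _ := by gcongr
    _ ≤ ∫ z, 17 ^ 3 * hh 1 (x - z) :=
        setIntegral_le_integral hi (Eventually.of_forall fun z => by
          have := hh_nonneg one_pos (x - z); positivity)
    _ = _ := by rw [integral_const_mul, integral_sub_left_eq_self (hh 1)]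

lemma pt2 {a b e δ : ℝ} (ha : 0 < a) (hab : a ≤ b) (he : 0 ≤ e) (h : e ≤ a + b) (hδ : 0 < δ) :
    ((a + δ) ^ 3)⁻¹ * ((b + δ) ^ 3)⁻¹ ≤ 27 * ((a ^ 3)⁻¹ * ((a + (e + δ)) ^ 3)⁻¹) := by
  have e1 : ((a + δ) ^ 3)⁻¹ ≤ (a ^ 3)⁻¹ := by gcongr; linarith
  have e2 : ((b + δ) ^ 3)⁻¹ ≤ (((a + (e + δ)) / 3) ^ 3)⁻¹ := by gcongr; linarith
  have hb : 0 < b := ha.trans_le hab
  calc _ ≤ (a ^ 3)⁻¹ * (((a + (e + δ)) / 3) ^ 3)⁻¹ := by gcongr
    _ = _ := by field_simp; norm_num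

lemma c2 : ∃ C, 0 ≤ C ∧ ∀ (δ : ℝ) (x y : V), 0 < δ →
    Integrable (fun z => kp δ 3 (x - z) * kp δ 3 (y - z)) ∧
    ∫ z, kp δ 3 (x - z) * kp δ 3 (y - z) ≤ C * kp δ 2 (x - y) := by
  refine ⟨54 * ∫ w, hh 1 w, by
    have : 0 ≤ ∫ w, hh 1 w := integral_nonneg (fun w => hh_nonneg one_pos w)
    positivity, fun δ x y hδ => ?_⟩
  have hd : 0 < ‖x - y‖ + δ := by positivity
  set d := ‖x - y‖ + δ with hdd
  have hi : Integrable (fun z => 27 * (hh d (x - z) + hh d (y - z))) :=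
    (((hh_int hd).comp_sub_left x).add ((hh_int hd).comp_sub_left y)).const_mul _
  have hb : ∀ᵐ z, kp δ 3 (x - z) * kp δ 3 (y - z) ≤ 27 * (hh d (x - z) + hh d (y - z)) := by
    filter_upwards [ae_ne x, ae_ne y] with z hx hy
    have h0 : 0 < ‖x - z‖ := norm_pos_iff.2 hx
    have h1 : 0 < ‖y - z‖ := norm_pos_iff.2 hy
    have h2 : ‖x - y‖ ≤ ‖x - z‖ + ‖y - z‖ := by
      have := norm_sub_le (x - z) (y - z)
      rwa [sub_sub_sub_cancel_right] at this
    have n1 := hh_nonneg hd (x - z)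
    have n2 := hh_nonneg hd (y - z)
    rcases le_total ‖x - z‖ ‖y - z‖ with h | h
    · have := pt2 h0 h (norm_nonneg (x - y)) h2 hδ
      change kp δ 3 (x - z) * kp δ 3 (y - z) ≤ 27 * hh d (x - z) at this
      linarith
    · have := pt2 h1 h (norm_nonneg (x - y)) (by linarith) hδ
      change kp δ 3 (y - z) * kp δ 3 (x - z) ≤ 27 * hh d (y - z) at this
      linarith
  have hc : Continuous (fun z => kp δ 3 (x - z) * kp δ 3 (y - z)) :=
    ((continuous_kp hδ 3).comp (continuous_const.sub continuous_id)).mul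
      ((continuous_kp hδ 3).comp (continuous_const.sub continuous_id))
  have hn : ∀ z, 0 ≤ kp δ 3 (x - z) * kp δ 3 (y - z) := fun z =>
    mul_nonneg (kp_pos hδ _ _).le (kp_pos hδ _ _).le
  refine ⟨hi.mono' hc.aestronglyMeasurable ?_, ?_⟩
  · filter_upwards [hb] with z hz
    rwa [Real.norm_eq_abs, abs_of_nonneg (hn z)]
  refine (integral_mono_of_nonneg (Eventually.of_forall hn) hi hb).trans (le_of_eq ?_)
  rw [integral_const_mul, integral_add ((hh_int hd).comp_sub_left x) ((hh_int hd).comp_sub_left y),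
    integral_sub_left_eq_self (hh d), integral_sub_left_eq_self (hh d), hh_integral hd]
  unfold kp
  ring

lemma kp_one_int {k : ℕ} (hk : 4 < k) : Integrable (kp 1 k) := by
  have := integrable_one_add_norm (E := V) (μ := volume) (r := (k : ℝ))
    (by rw [finrank_V]; exact_mod_cast hk)
  refine this.congr (Eventually.of_forall fun w => ?_)
  unfold kp
  simp only
  rw [Real.rpow_neg (by positivity), Real.rpow_natCast, add_comm]

lemma kp_scale {δ : ℝ} (hδ : 0 < δ) (k : ℕ) (w : V) :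
    kp δ k w = (δ ^ k)⁻¹ * kp 1 k (δ⁻¹ • w) := by
  unfold kp
  rw [norm_smul, Real.norm_eq_abs, abs_of_pos (inv_pos.2 hδ), ← mul_inv, ← mul_pow]
  congr 2
  field_simp

lemma kp_int {δ : ℝ} (hδ : 0 < δ) {k : ℕ} (hk : 4 < k) : Integrable (kp δ k) := by
  have := ((kp_one_int hk).comp_smul (inv_ne_zero hδ.ne')).const_mul (δ ^ k)⁻¹
  exact this.congr (Eventually.of_forall fun w => (kp_scale hδ k w).symm)

lemma kp_integral {δ : ℝ} (hδ : 0 < δ) (k : ℕ) :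
    ∫ w, kp δ k w = (δ ^ k)⁻¹ * δ ^ 4 * ∫ w, kp 1 k w := by
  simp_rw [kp_scale hδ]
  rw [integral_const_mul, Measure.integral_comp_inv_smul_of_nonneg _ _ hδ.le, finrank_V,
    smul_eq_mul, mul_assoc]

lemma c3 : ∃ C, 0 ≤ C ∧ ∀ δ : ℝ, 0 < δ → Integrable (kp δ 6) ∧ Integrable (kp δ 5) ∧
    δ ^ 2 * ∫ w, kp δ 6 w ≤ C ∧ δ ^ 2 * ∫ w, kp δ 5 w ≤ C * δ := by
  have n6 : 0 ≤ ∫ w, kp 1 6 w := integral_nonneg fun w => (kp_pos one_pos _ _).le
  have n5 : 0 ≤ ∫ w, kp 1 5 w := integral_nonneg fun w => (kp_pos one_pos _ _).le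
  refine ⟨(∫ w, kp 1 6 w) + ∫ w, kp 1 5 w, by positivity, fun δ hδ =>
    ⟨kp_int hδ (by norm_num), kp_int hδ (by norm_num), ?_, ?_⟩⟩
  · rw [kp_integral hδ]
    have : δ ^ 2 * ((δ ^ 6)⁻¹ * δ ^ 4 * ∫ w, kp 1 6 w) = ∫ w, kp 1 6 w := by field_simp
    linarith
  · rw [kp_integral hδ]
    have : δ ^ 2 * ((δ ^ 5)⁻¹ * δ ^ 4 * ∫ w, kp 1 5 w) = (∫ w, kp 1 5 w) * δ := by field_simp
    rw [this]
    gcongr
    linarith

end ConvA
end Vale.Agent.P204
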