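import Vale.Agent.P204.Stmt

/-! Positive currents of families of measures and their chart measures. -/

open scoped Topology ContDiff RealInnerProductSpace Manifold ENNReal
open Set Metric MeasureTheory Filter

noncomputable section
namespace Vale.Agent.P204

namespace Cur

lemma meas_ind {α E : Type*} [TopologicalSpace α] [MeasurableSpace α] [OpensMeasurableSpace α]
    [TopologicalSpace E] [MeasurableSpace E] [BorelSpace E] [Zero E] {f : α → E} {s : Set α}
    (hf : ContinuousOn f s) (hs : MeasurableSet s) : Measurable (s.indicator f) := by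
  classical
  rw [← piecewise_eq_indicator]
  exact hf.measurable_piecewise continuousOn_const hs

lemma TL_int (F : Frame) {r : ℝ} {m : Measure (V × V)} (h : PM r m) {β : V → E6}
    (hβ : ContinuousOn β (closedBall 0 r)) :
    Integrable (fun p : V × V => ap (β p.1) p.2 (F.J p.1 p.2)) m := by
  have := h.1
  have hK : IsCompact (closedBall (0 : V) r ×ˢ closedBall (0 : V) 1) :=
    (isCompact_closedBall _ _).prod (isCompact_closedBall _ _)
  have e : m.restrict (closedBall (0 : V) r ×ˢ closedBall (0 : V) 1) = m :=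
    Measure.restrict_eq_self_of_ae_mem (h.2.mono fun p hp =>
      ⟨mem_closedBall_zero_iff.2 hp.1, mem_closedBall_zero_iff.2 hp.2.le⟩)
  rw [← e]
  refine ContinuousOn.integrableOn_compact hK ?_
  exact continuous_ap.comp_continuousOn (f := fun p : V × V => (β p.1, p.2, F.J p.1 p.2))
    ((hβ.comp continuousOn_fst fun p hp => hp.1).prodMk
      (continuous_snd.prodMk ((F.smJ.continuous.comp continuous_fst).clm_apply
        continuous_snd)).continuousOn)

lemma inv_le {u v k : ℝ≥0∞} (h0 : k ≠ 0) (h1 : k ≠ ⊤) (h : v ≤ k * u) : u⁻¹ ≤ k * v⁻¹ := by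
  calc u⁻¹ = k * (k * u)⁻¹ := by
        rw [ENNReal.mul_inv (Or.inl h0) (Or.inl h1), ← mul_assoc, ENNReal.mul_inv_cancel h0 h1,
          one_mul]
    _ ≤ k * v⁻¹ := by gcongr

variable {X : Type*} [TopologicalSpace X] (D : Dat X)

/-- points of the unit ball of chart `i` that are seen in chart `j` -/
def S (i j : Fin D.n) : Set V := {y | ‖y‖ ≤ 1 ∧ D.In j 7 ((D.e i).symm y)}

/-- transported vector -/
def ww (i j : Fin D.n) : V × V → V :=
  (Prod.fst ⁻¹' S D i j).indicator fun p => D.tr j i ((D.e i).symm p.1) p.2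

/-- density -/
def rh (i j : Fin D.n) (p : V × V) : ℝ≥0∞ := ENNReal.ofReal (‖ww D i j p‖ ^ 2)

/-- transported pair -/
def Ph (i j : Fin D.n) (p : V × V) : V × V :=
  ((S D i j).indicator (D.tm j i) p.1, ‖ww D i j p‖⁻¹ • ww D i j p)

/-- transported measure -/
def push (i j : Fin D.n) (μ : Measure (V × V)) : Measure (V × V) :=
  (μ.withDensity (rh D i j)).map (Ph D i j)

/-- chart measures -/
def mm (m : Fin D.n → Measure (V × V)) (j : Fin D.n) : Measure (V × V) := ∑ i, push D i j (m i)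

variable {D}

lemma tgt {j : Fin D.n} {y : V} (hy : ‖y‖ ≤ 12) : y ∈ (D.e j).target :=
  D.big j (mem_closedBall_zero_iff.2 hy)

lemma In_symm {j : Fin D.n} {y : V} {r : ℝ} (hy : ‖y‖ ≤ r) (hr : r ≤ 12) :
    D.In j r ((D.e j).symm y) :=
  ⟨(D.e j).map_target (tgt (hy.trans hr)), by rwa [(D.e j).right_inv (tgt (hy.trans hr))]⟩

lemma In_mono {j : Fin D.n} {x : X} {r r' : ℝ} (h : D.In j r x) (hr : r ≤ r') : D.In j r' x :=
  ⟨h.1, h.2.trans hr⟩

lemma S_dom {i j : Fin D.n} : S D i j ⊆ D.dom j i := fun _ hy =>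
  ⟨tgt (hy.1.trans (by norm_num)), hy.2.1⟩

lemma tr_tr (i j : Fin D.n) (x : X) (v : V) : D.tr i j x (D.tr j i x v) = v := by
  simp [Atl.tr]

lemma tr_Jc (i j : Fin D.n) (x : X) (v : V) :
    D.tr j i x (D.Jc i x v) = D.Jc j x (D.tr j i x v) := by
  simp [Atl.tr, Atl.Jc]

lemma ww_mem {i j : Fin D.n} {p : V × V} (h : p.1 ∈ S D i j) :
    ww D i j p = D.tr j i ((D.e i).symm p.1) p.2 := indicator_of_mem (s := Prod.fst ⁻¹' _) h _

lemma ww_not {i j : Fin D.n} {p : V × V} (h : p.1 ∉ S D i j) : ww D i j p = 0 :=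
  indicator_of_notMem (s := Prod.fst ⁻¹' _) h _

lemma Ph_mem {i j : Fin D.n} {p : V × V} (h : p.1 ∈ S D i j) :
    (Ph D i j p).1 = D.e j ((D.e i).symm p.1) := indicator_of_mem h _

section
variable (G : GeoA D.toAtl)
include G

lemma meas_S (i j : Fin D.n) : MeasurableSet (S D i j) :=
  (G.cpt j i 1 7 (by norm_num) (by norm_num)).measurableSet

lemma meas_ww (i j : Fin D.n) : Measurable (ww D i j) :=
  meas_ind (((G.tr_sm j i).continuousOn.comp continuousOn_fst fun _ hp => S_dom hp).clm_apply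
    continuousOn_snd) (measurable_fst (meas_S G i j))

lemma meas_rh (i j : Fin D.n) : Measurable (rh D i j) :=
  ((meas_ww G i j).norm.pow_const 2).ennreal_ofReal

lemma meas_Ph (i j : Fin D.n) : Measurable (Ph D i j) :=
  ((meas_ind (fun y hy => (G.fderiv_tm j i y (S_dom hy)).continuousAt.continuousWithinAt)
    (meas_S G i j)).comp measurable_fst).prodMk ((meas_ww G i j).norm.inv.smul (meas_ww G i j))

lemma ww_bd : ∃ C : ℝ, 0 < C ∧ ∀ i j, ∀ p : V × V, ‖p.2‖ = 1 →
    ‖ww D i j p‖ ≤ C ∧ (p.1 ∈ S D i j → 1 ≤ C * ‖ww D i j p‖) := by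
  obtain ⟨C, hC, h⟩ := G.bound
  refine ⟨C + 1, by linarith, fun i j p hp => ?_⟩
  by_cases hS : p.1 ∈ S D i j
  · have a1 := In_mono (In_symm (D := D) (j := i) hS.1 (by norm_num)) (r' := 12) (by norm_num)
    have a2 := In_mono hS.2 (r' := 12) (by norm_num)
    rw [ww_mem hS]
    refine ⟨?_, fun _ => ?_⟩
    · have := (D.tr j i ((D.e i).symm p.1)).le_opNorm p.2
      rw [hp] at this
      linarith [h j i _ a2 a1]
    · have := (D.tr i j ((D.e i).symm p.1)).le_opNorm (D.tr j i ((D.e i).symm p.1) p.2)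
      rw [tr_tr, hp] at this
      exact this.trans (mul_le_mul_of_nonneg_right (by linarith [h i j _ a1 a2]) (norm_nonneg _))
  · rw [ww_not hS, norm_zero]
    exact ⟨by linarith, fun h => (hS h).elim⟩

lemma lint_push (i j : Fin D.n) (μ : Measure (V × V)) {g : V × V → ℝ≥0∞} (hg : Measurable g) :
    ∫⁻ p, g p ∂push D i j μ = ∫⁻ p, rh D i j p * g (Ph D i j p) ∂μ := by
  rw [push, lintegral_map hg (meas_Ph G i j)]
  exact lintegral_withDensity_eq_lintegral_mul _ (meas_rh G i j) (hg.comp (meas_Ph G i j))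

lemma int_push (i j : Fin D.n) (μ : Measure (V × V)) {g : V × V → ℝ} (hg : Measurable g) :
    ∫ p, g p ∂push D i j μ = ∫ p, ‖ww D i j p‖ ^ 2 * g (Ph D i j p) ∂μ := by
  rw [push, integral_map (meas_Ph G i j).aemeasurable hg.aestronglyMeasurable,
    integral_withDensity_eq_integral_toReal_smul (meas_rh G i j)
      (ae_of_all _ fun _ => ENNReal.ofReal_lt_top)]
  simp only [rh, ENNReal.toReal_ofReal (sq_nonneg _), smul_eq_mul]

lemma pm_push (i j : Fin D.n) {μ : Measure (V × V)} (h : PM 1 μ) : PM 7 (push D i j μ) := by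
  obtain ⟨C, hC, hb⟩ := ww_bd G
  have := h.1
  constructor
  · have : IsFiniteMeasure (μ.withDensity (rh D i j)) := by
      refine isFiniteMeasure_withDensity (ne_top_of_le_ne_top ?_
        (lintegral_mono_ae (g := fun _ => ENNReal.ofReal (C ^ 2)) (h.2.mono fun p hp => ?_)))
      · rw [lintegral_const]
        exact ENNReal.mul_ne_top ENNReal.ofReal_ne_top (measure_ne_top _ _)
      · exact ENNReal.ofReal_le_ofReal (pow_le_pow_left₀ (norm_nonneg _) (hb i j p hp.2).1 2)
    exact Measure.isFiniteMeasure_map _ _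
  · refine (ae_map_iff (meas_Ph G i j).aemeasurable ?_).2
      ((ae_withDensity_iff (meas_rh G i j)).2 (ae_of_all _ fun p hp => ?_))
    · exact (measurableSet_le measurable_fst.norm measurable_const).inter
        (measurableSet_eq_fun measurable_snd.norm measurable_const)
    · have h0 : ww D i j p ≠ 0 := fun e => hp (by simp [rh, e])
      have hS : p.1 ∈ S D i j := by_contra fun h => h0 (ww_not h)
      exact ⟨by rw [Ph_mem hS]; exact hS.2.2, norm_smul_inv_norm h0⟩

lemma pm_mm {m : Fin D.n → Measure (V × V)} (h : ∀ j, PM 1 (m j)) (j : Fin D.n) :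
    PM 7 (mm D m j) := by
  have := fun i => (pm_push G i j (h i)).1
  exact ⟨by unfold mm; infer_instance,
    ae_finsetSum_measure_iff.2 fun i _ => (pm_push G i j (h i)).2⟩

lemma key {m : Fin D.n → Measure (V × V)} (h : ∀ j, PM 1 (m j)) {i j : Fin D.n} {x : X}
    (hi : D.In i 6 x) (hj : D.In j 6 x) (hE : D.e j x ∈ Efin (mm D m j)) :
    D.e i x ∈ Efin (mm D m i) := by
  obtain ⟨C, hC, hb⟩ := ww_bd G
  have hx : (D.e i).symm (D.e i x) = x := (D.e i).left_inv hi.1
  have hy : D.e i x ∈ D.dom j i := ⟨(D.e i).map_source hi.1, by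
    rw [mem_preimage, hx]
    exact hj.1⟩
  have hd := G.fderiv_tm j i _ hy
  have ht : D.tm j i (D.e i x) = D.e j x := by rw [Atl.tm, hx]
  obtain ⟨c, hc, hO⟩ := hd.isBigO_sub.exists_pos
  have h7 : ∀ᶠ y in 𝓝 (D.e i x), ‖D.tm j i y‖ < 7 :=
    hd.continuousAt.norm.eventually_lt_const (by
      show ‖D.tm j i (D.e i x)‖ < 7
      rw [ht]
      linarith [hj.2])
  obtain ⟨δ, hδ, hn⟩ := Metric.eventually_nhds_iff.1
    (hO.bound.and (h7.and ((G.dom_open j i).mem_nhds hy)))
  have mg : ∀ y : V, Measurable fun p : V × V => (ENNReal.ofReal (‖p.1 - y‖ ^ 2))⁻¹ := fun y =>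
    ((measurable_fst.sub_const y).norm.pow_const 2).ennreal_ofReal.inv
  simp only [Efin, mem_ofPred_eq, mm, lintegral_finsetSum_measure, lint_push G _ _ _ (mg _),
    ENNReal.sum_lt_top] at hE ⊢
  intro l hl
  have := (h l).1
  set K : ℝ≥0∞ := ENNReal.ofReal (C ^ 2) with hK
  set k : ℝ≥0∞ := ENNReal.ofReal (c ^ 2) with hk
  have K1 : K ≠ ⊤ := ENNReal.ofReal_ne_top
  have k1 : k ≠ ⊤ := ENNReal.ofReal_ne_top
  refine lt_of_le_of_lt (lintegral_mono_ae (g := fun p => K * k * K * (rh D l j p *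
    (ENNReal.ofReal (‖(Ph D l j p).1 - D.e j x‖ ^ 2))⁻¹) + K * (ENNReal.ofReal (δ ^ 2))⁻¹)
    ((h l).2.mono fun p hp => ?_)) ?_
  · by_cases hS : p.1 ∈ S D l i
    swap
    · simp [rh, ww_not hS]
    have r1 : rh D l i p ≤ K :=
      ENNReal.ofReal_le_ofReal (pow_le_pow_left₀ (norm_nonneg _) (hb l i p hp.2).1 2)
    rw [Ph_mem hS]
    by_cases hd : ‖D.e i ((D.e l).symm p.1) - D.e i x‖ < δ
    · obtain ⟨n1, n2, n3⟩ := hn (y := D.e i ((D.e l).symm p.1)) (by rwa [dist_eq_norm])
      have hx' := (D.e i).left_inv hS.2.1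
      have n4 := n3.2
      rw [mem_preimage, hx'] at n4
      rw [ht, Atl.tm, hx'] at n1
      rw [Atl.tm, hx'] at n2
      have hS' : p.1 ∈ S D l j := ⟨hS.1, n4, n2.le⟩
      have r2 : 1 ≤ K * rh D l j p := by
        rw [hK, rh, ← ENNReal.ofReal_mul (sq_nonneg _), ← mul_pow]
        exact ENNReal.one_le_ofReal.2 (one_le_pow₀ ((hb l j p hp.2).2 hS'))
      have r3 := inv_le (k := k) (u := ENNReal.ofReal (‖D.e i ((D.e l).symm p.1) - D.e i x‖ ^ 2))
        (v := ENNReal.ofReal (‖D.e j ((D.e l).symm p.1) - D.e j x‖ ^ 2))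
        (ENNReal.ofReal_pos.2 (by positivity)).ne' k1 (by
          rw [hk, ← ENNReal.ofReal_mul (sq_nonneg _), ← mul_pow]
          exact ENNReal.ofReal_le_ofReal (pow_le_pow_left₀ (norm_nonneg _) n1 2))
      rw [Ph_mem hS']
      refine le_add_right ((mul_le_mul' r1 r3).trans ?_)
      calc K * (k * (ENNReal.ofReal (‖D.e j ((D.e l).symm p.1) - D.e j x‖ ^ 2))⁻¹)
          = K * k * 1 * (ENNReal.ofReal (‖D.e j ((D.e l).symm p.1) - D.e j x‖ ^ 2))⁻¹ := by ring
        _ ≤ K * k * (K * rh D l j p) *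
            (ENNReal.ofReal (‖D.e j ((D.e l).symm p.1) - D.e j x‖ ^ 2))⁻¹ := by gcongr
        _ = _ := by ring
    · exact le_add_left (mul_le_mul' r1 (ENNReal.inv_le_inv.2
        (ENNReal.ofReal_le_ofReal (pow_le_pow_left₀ hδ.le (not_lt.1 hd) 2))))
  · have K2 : K * k * K ≠ ⊤ := ENNReal.mul_ne_top (ENNReal.mul_ne_top K1 k1) K1
    rw [lintegral_add_right _ measurable_const, lintegral_const_mul' _ _ K2, lintegral_const]
    refine ENNReal.add_lt_top.2 ⟨ENNReal.mul_lt_top K2.lt_top (hE l hl),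
      ENNReal.mul_lt_top (ENNReal.mul_lt_top K1.lt_top ?_) (measure_lt_top _ _)⟩
    exact ENNReal.inv_lt_top.2 (ENNReal.ofReal_pos.2 (by positivity))

lemma cm_gen (Fo : FormS D) {m : Fin D.n → Measure (V × V)} (h : ∀ j, PM 1 (m j))
    {A : Fin D.n → Set V} (hA : ∀ j, MeasurableSet (A j))
    (hAA : ∀ i j x, D.In i 6 x → D.In j 6 x → D.e j x ∈ A j → D.e i x ∈ A i) :
    D.IsCM (fun i => (m i).restrict {p | p.1 ∈ A i})
      (fun j => (mm D m j).restrict {p | p.1 ∈ A j}) := by
  have hA' : ∀ j, MeasurableSet {p : V × V | p.1 ∈ A j} := fun j => measurable_fst (hA j)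
  intro j
  have := (pm_mm G h j).1
  refine ⟨⟨inferInstance, ae_restrict_of_ae (pm_mm G h j).2⟩, fun β hβ h6 => ?_⟩
  have mg : Measurable fun p : V × V => ap (β p.1) p.2 ((D.F j).J p.1 p.2) :=
    (continuous_ap.comp (f := fun p : V × V => (β p.1, p.2, (D.F j).J p.1 p.2))
      ((hβ.comp continuous_fst).prodMk (continuous_snd.prodMk
        (((D.F j).smJ.continuous.comp continuous_fst).clm_apply continuous_snd)))).measurable
  simp only [Dat.T, TL]
  rw [← integral_indicator (hA' j), mm, integral_finsetSum_measure fun i _ =>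
    (TL_int _ (pm_push G i j (h i)) hβ.continuousOn).indicator (hA' j)]
  refine Finset.sum_congr rfl fun i _ => ?_
  rw [int_push G _ _ _ (mg.indicator (hA' j)), ← integral_indicator (hA' i)]
  refine integral_congr_ae ((h i).2.mono fun p hp => ?_)
  have a1 := In_symm (D := D) (j := i) hp.1 (by norm_num)
  have a2 : D.e i ((D.e i).symm p.1) = p.1 := (D.e i).right_inv (tgt (hp.1.trans (by norm_num)))
  simp only [Fo.loc_ext']
  by_cases h0 : D.In j 6 ((D.e i).symm p.1)
  · have hS : p.1 ∈ S D i j := ⟨hp.1, In_mono h0 (by norm_num)⟩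
    have hi := In_mono a1 (r' := 6) (by norm_num)
    by_cases hp' : p.1 ∈ A i
    · have hq : Ph D i j p ∈ {p : V × V | p.1 ∈ A j} := by
        rw [mem_ofPred_eq, Ph_mem hS]
        exact hAA j i _ h0 hi (a2.symm ▸ hp')
      have e1 := D.FJ i _ (In_mono a1 (r' := 11) (by norm_num))
      rw [a2] at e1
      rw [indicator_of_mem (s := {p : V × V | p.1 ∈ A i}) hp', indicator_of_mem hq, Ph_mem hS,
        D.FJ j _ (In_mono h0 (by norm_num)), e1, ap_pull, tr_Jc, Atl.ext0, if_pos h0.1,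
        ← ww_mem hS]
      simp only [Ph, map_smul, ap_smul_l, ap_smul_r]
      by_cases hw : ww D i j p = 0
      · simp [hw]
      · have := norm_ne_zero_iff.2 hw
        field_simp
    · have hq : Ph D i j p ∉ {p : V × V | p.1 ∈ A j} := fun hq => by
        rw [mem_ofPred_eq, Ph_mem hS] at hq
        exact hp' (a2 ▸ hAA i j _ hi h0 hq)
      rw [indicator_of_notMem (s := {p : V × V | p.1 ∈ A i}) hp', indicator_of_notMem hq,
        mul_zero]
  · have e0 : D.ext0 j β ((D.e i).symm p.1) = 0 := by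
      unfold Atl.ext0
      split_ifs with hs
      exacts [h6 _ (not_le.1 fun hh => h0 ⟨hs, hh⟩), rfl]
    rw [indicator_apply_eq_zero.2 fun _ => by simp [e0]]
    by_cases hS : p.1 ∈ S D i j
    · rw [indicator_apply_eq_zero.2 fun _ => by
        rw [Ph_mem hS, h6 _ (not_le.1 fun hh => h0 ⟨hS.2.1, hh⟩), ap_zero], mul_zero]
    · simp [ww_not hS]

end

lemma sm_int {m : Measure (V × V)} (h : PM 1 m) {α : Form X} (hα : D.Sm α) (i : Fin D.n) :
    Integrable (fun p : V × V => ap (D.loc i α p.1) p.2 ((D.F i).J p.1 p.2)) m :=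
  TL_int _ h ((hα i).continuousOn.mono
    ((closedBall_subset_closedBall (by norm_num)).trans (D.big i)))

end Cur

open Cur

variable {X : Type*} [TopologicalSpace X] [T2Space X] {D : Dat X}

theorem curS (h1 : TauS) (h2 : GeoA D.toAtl) (h3 : FormS D) (h4 : SemS D) : CurS D where
  fn m h := by
    refine ⟨fun α β hα hβ => ?_, fun c α _ => ?_⟩
    · simp only [Dat.T, TL, ← Finset.sum_add_distrib]
      refine Finset.sum_congr rfl fun i _ => ?_
      rw [← integral_add (sm_int (h i) hα i) (sm_int (h i) hβ i)]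
      simp [Atl.loc]
    · simp only [Dat.T, TL, Finset.mul_sum, ← integral_const_mul]
      simp [Atl.loc]
  ord m h := by
    refine ⟨∑ i, 4 * (m i).real univ, by positivity, fun α hα => ?_⟩
    rw [Finset.sum_mul]
    refine (Finset.abs_sum_le_sum_abs _ _).trans (Finset.sum_le_sum fun i _ => ?_)
    have := (h i).1
    rw [← Real.norm_eq_abs, mul_right_comm]
    refine norm_integral_le_of_norm_le_const ((h i).2.mono fun p hp => ?_)
    have a1 := h4.pt 0 i α p.1 hα (hp.1.trans one_le_two)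
    have a2 := (D.F i).norm_J_le p.1 p.2
    refine (abs_ap_le _ _ _).trans ?_
    rw [hp.2] at a2 ⊢
    nlinarith [mul_le_mul a1 a2 (norm_nonneg _) (h4.nrm_nn 0 α)]
  cm m h := by
    refine ⟨mm D m, fun i => (m i).restrict {p | p.1 ∈ Efin (mm D m i)}, ?_, fun i => ?_,
      cm_gen h2 h3 h (fun j => h1.efin_meas _ (pm_mm h2 h j).1) fun i j x hi hj => key h2 h hi hj⟩
    · simpa using cm_gen h2 h3 h (A := fun _ => univ) (fun _ => MeasurableSet.univ)
        fun _ _ _ _ _ _ => mem_univ _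
    · have := (h i).1
      exact ⟨inferInstance, ae_restrict_of_ae (h i).2⟩

end Vale.Agent.P204
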