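import Vale.Agent.P204.Stmt

/-! The a priori estimate for the anti-invariant part of a closed current. -/

set_option maxSynthPendingDepth 3

open scoped Topology ContDiff RealInnerProductSpace Manifold
open Set Metric MeasureTheory Filter

noncomputable section
namespace Vale.Agent.P204

variable {X : Type*} [TopologicalSpace X] [T2Space X] {D : Dat X} {K : Ker D}

namespace DEA

omit [T2Space X] in
lemma eps_le (K : Ker D) : K.ε0 ≤ 1 / 2 := by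
  have h1 := K.small
  have h2 := K.one_le
  have h3 := K.pos
  nlinarith

omit [T2Space X] in
/-- the anti-invariant part is controlled by the invariant part -/
lemma minus_le (h2 : FormS D) (h4 : HilS D) (h6 : KeyS K) {τ s : Form X → ℝ} {t : ℝ}
    (ht : 0 < t) (ht' : t ≤ K.ε0) (hZ : D.KillsZ (fun α => τ α + s α)) {Θτ Θs : D.H}
    (hτ : K.IsTh t τ Θτ) (hs : K.IsTh t s Θs) :
    ‖D.mapH Pm Θs‖ ≤ 2 * ‖Θτ‖ + ‖D.mapH Po Θs‖ := by
  have hT : K.IsTh t (fun α => τ α + s α) (Θτ + Θs) := fun h => by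
    rw [h4.qH_add, hτ h, hs h]
  have hD : D.KillsD (fun α => τ α + s α) := fun j b hb =>
    h2.killsD _ j b hZ (hb.mono (by norm_num))
  have h0 := h6 t _ _ _ _ ht ht' hZ hD hT hT
  have h1 := h4.qH_self (Θτ + Θs)
  have h3 : ‖D.mapH Pm (Θτ + Θs)‖ ≤ ‖D.mapH Po (Θτ + Θs)‖ :=
    (pow_le_pow_iff_left₀ (norm_nonneg _) (norm_nonneg _) two_ne_zero).mp (by linarith)
  rw [h4.map_add, h4.map_add] at h3
  have h5 := norm_add_le (D.mapH Po Θτ) (D.mapH Po Θs)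
  have h7 := norm_sub_le (D.mapH Pm Θτ + D.mapH Pm Θs) (D.mapH Pm Θτ)
  rw [add_sub_cancel_left] at h7
  have h8 := h4.proj Θτ
  linarith [h8.1, h8.2.1]

end DEA

theorem deS (h1 : NkS) (h2 : FormS D) (h3 : SemS D) (h4 : HilS D) (h5 : MS K) (h6 : KeyS K)
    (h7 : StepS K) (h8 : LeakS K) : DES D := by
  intro k k'
  obtain ⟨q, hq1, hq2⟩ : ∃ q : ℕ, k + 4 ≤ q ∧ k' + 2 ≤ q := ⟨k + k' + 4, by omega, by omega⟩
  obtain ⟨C1, hC1, hcr1⟩ := h3.crude k'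
  obtain ⟨C2, hC2, hcr2⟩ := h1.crude
  obtain ⟨Ct, hCt, hth⟩ := h5.theta k
  obtain ⟨Cs, -, hths⟩ := h5.theta k'
  obtain ⟨Cr, L0, hCr, hL0, hrec⟩ := h7.recur (q + 1)
  obtain ⟨Cl, hCl, hleak⟩ := h8.leak (q + 1)
  obtain ⟨L, hL1, hL2⟩ : ∃ L : ℝ, L0 ≤ L ∧ 4 * Cr ≤ L :=
    ⟨max L0 (4 * Cr), le_max_left _ _, le_max_right _ _⟩
  have hL : 1 ≤ L := hL0.trans hL1
  have hLp : 0 < L := by linarith
  obtain ⟨ε1, hε1, hε1a, hε1b⟩ : ∃ ε1 : ℝ, 0 < ε1 ∧ ε1 ≤ K.ε0 ∧ Cr * Cl * L ^ q * ε1 ≤ 1 / 4 := by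
    have h0 : 0 ≤ Cr * Cl * L ^ q := by positivity
    refine ⟨min K.ε0 (1 / (4 * (Cr * Cl * L ^ q + 1))), lt_min K.pos (by positivity),
      min_le_left _ _, ?_⟩
    have h9 := min_le_right K.ε0 (1 / (4 * (Cr * Cl * L ^ q + 1)))
    have h10 : 0 < min K.ε0 (1 / (4 * (Cr * Cl * L ^ q + 1))) := lt_min K.pos (by positivity)
    rw [le_div_iff₀ (by positivity)] at h9
    nlinarith
  have hε1c : ε1 ≤ 1 := by linarith [DEA.eps_le K]
  obtain ⟨Cp, hCp, hrep⟩ := h7.rep (k + 4) k' ε1 hε1 hε1a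
  set A : ℝ := 2 * Cr * Ct * L ^ (k + 4) with hA
  have hA0 : 0 ≤ A := by positivity
  refine ⟨Cp * (2 * Ct + 2 * Cl * A), by positivity, fun τ s Λ hΛ hτ hs hτo hso hZ γ hγ => ?_⟩
  have hI := h2.killsI s k' Λ hso
  obtain ⟨hord, hsj⟩ := hcr1 s Λ hΛ hso
  have main : ∀ t, 0 < t → t ≤ K.ε0 → ∃ Θ, K.IsTh t s Θ ∧ ∀ β, 0 ≤ β → D.Bd s (q + 1) t β →
      ‖D.mapH Pm Θ‖ ≤ 2 * Ct * (t ^ (k + 4))⁻¹ + Cl * t * β := by
    intro t ht ht'
    obtain ⟨Θτ, a1, a2⟩ := hth t τ 1 ht ht' zero_le_one hτ hτo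
    obtain ⟨Θs, b1, -⟩ := hths t s (C1 * Λ) ht ht' (by positivity) hs hord
    refine ⟨Θs, b1, fun β hβ hb => ?_⟩
    have c1 := DEA.minus_le h2 h4 h6 ht ht' hZ a1 b1
    have c2 := hleak t β s Θs ht ht' hβ hs hI b1 hb
    rw [mul_one] at a2
    linarith
  have hκ : (Cr * Cl * ε1 + Cr * (L ^ (q + 1))⁻¹) * L ^ q ≤ 1 / 2 := by
    have e1 : Cr * (L ^ (q + 1))⁻¹ * L ^ q = Cr / L := by
      field_simp
      ring
    have e2 : Cr / L ≤ 1 / 4 := by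
      rw [div_le_iff₀ hLp]
      linarith
    rw [add_mul, e1]
    linarith
  have hbd := h1.close (fun ε β => D.Bd s (q + 1) ε β) ε1 L (Cr * Cl * ε1 + Cr * (L ^ (q + 1))⁻¹)
    A (C2 * (C1 * Λ)) (k + 4) q hε1 hL (by positivity) hA0 (by positivity) hq1 hκ
    (fun ε β β' hb hβ j => h1.lbd_mono (hb j) hβ)
    (fun ε β hb j => h1.lbd_lim fun η hη => hb η hη j)
    (fun ε hε hε' j => by
      refine h1.lbd_mono (hcr2 (D.sj s j) k' (q + 1) (C1 * Λ) ε (by positivity) (by omega) hε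
        (hε'.trans hε1c) (hsj j)) (mul_le_mul_of_nonneg_left ?_ (by positivity))
      exact inv_anti₀ (by positivity) (pow_le_pow_of_le_one hε.le (hε'.trans hε1c) hq2))
    (fun ε β hε hε' hβ hall j => by
      have ht : 0 < ε / L := by positivity
      have ht1 : ε / L ≤ ε1 := (div_le_self hε.le hL).trans hε'
      obtain ⟨Θ, a1, a2⟩ := main (ε / L) ht (ht1.trans hε1a)
      have hb := hall (ε / L) le_rfl ht1
      have a3 := a2 β hβ hb
      refine h1.lbd_mono (hrec L ε β s Θ hL1 hε (hε'.trans hε1c) (ht1.trans hε1a) hβ hs hI a1 hb j)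
        ?_
      have a4 : Cl * (ε / L) * β ≤ Cl * ε1 * β :=
        mul_le_mul_of_nonneg_right (mul_le_mul_of_nonneg_left ht1 hCl) hβ
      have a5 : ((ε / L) ^ (k + 4))⁻¹ = L ^ (k + 4) * (ε ^ (k + 4))⁻¹ := by
        rw [div_pow, inv_div, div_eq_mul_inv]
      rw [a5] at a3
      have a6 := mul_le_mul_of_nonneg_left (a3.trans (add_le_add le_rfl a4)) hCr
      rw [hA]
      linarith)
  have hfin := hrep s Λ (2 * Ct + 2 * Cl * A) hΛ (by positivity) hs hso (fun t ht ht' => by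
    obtain ⟨Θ, a1, a2⟩ := main t ht (ht'.trans hε1a)
    refine ⟨Θ, a1, (a2 _ (by positivity) (hbd t ht ht')).trans ?_⟩
    have a3 : 0 ≤ Cl * (2 * A * (t ^ (k + 4))⁻¹) := by positivity
    have a4 := mul_le_mul_of_nonneg_left (ht'.trans hε1c) a3
    linarith)
  rw [h2.s_sum s γ hs hI hγ]
  refine (Finset.abs_sum_le_sum_abs _ _).trans ?_
  unfold Dat.nrmm
  rw [Finset.mul_sum]
  exact Finset.sum_le_sum fun j _ => hfin j _ (h2.cj_cc j γ hγ)

end Vale.Agent.P204
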