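import Vale.Agent.P204.Stmt

/-! Partitions of unity and frames for a finite atlas. -/

set_option maxSynthPendingDepth 3

open scoped Topology ContDiff RealInnerProductSpace Manifold
open Set Metric MeasureTheory Filter

noncomputable section
namespace Vale.Agent.P204

namespace DatA

lemma norm_lt {B : End} (hB : ‖B‖ ≤ 1 / 2) : ‖(1 / 2 : ℝ) • J0.comp B‖ ≤ 1 / 4 := by
  have h1 := J0.opNorm_comp_le B
  have h2 := mul_le_mul norm_J0_le hB (norm_nonneg _) zero_le_one
  rw [norm_smul, Real.norm_of_nonneg (by norm_num)]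
  linarith

lemma isUnit {B : End} (hB : ‖B‖ ≤ 1 / 2) : IsUnit (1 - (1 / 2 : ℝ) • J0.comp B) :=
  (Units.oneSub _ ((norm_lt hB).trans_lt (by norm_num))).isUnit

/-- the frame attached to a small perturbation of the standard structure -/
def frame (B : V → End) (hB : Cc 12 B) (h : ∀ y, ‖B y‖ ≤ 1 / 2) : Frame where
  A y := 1 - (1 / 2 : ℝ) • J0.comp (B y)
  Ai y := Ring.inverse (1 - (1 / 2 : ℝ) • J0.comp (B y))
  smA := contDiff_const.sub ((contDiff_const.clm_comp hB.1).const_smul _)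
  smAi := contDiff_iff_contDiffAt.2 fun y => ContDiffAt.comp (g := Ring.inverse) y
    (contDiffAt_ringInverse ℝ (isUnit (h y)).unit)
    (contDiff_const.sub ((contDiff_const.clm_comp hB.1).const_smul _)).contDiffAt
  inv1 y := Ring.inverse_mul_cancel _ (isUnit (h y))
  inv2 y := Ring.mul_inverse_cancel _ (isUnit (h y))
  near y := by
    rw [← ContinuousLinearMap.one_def, sub_sub_cancel_left, norm_neg]
    exact norm_lt (h y)
  out y hy := by
    rw [hB.2 y hy, ContinuousLinearMap.comp_zero, smul_zero, sub_zero]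
    rfl

lemma frame_J (B : V → End) (hB : Cc 12 B) (h : ∀ y, ‖B y‖ ≤ 1 / 2) (y : V) (T : End)
    (hT : ∀ v, T (T v) = -v) (e : B y = T - J0) : (frame B hB h).J y = T := by
  ext1 v
  have : J0 ((frame B hB h).A y v) = (frame B hB h).A y (T v) := by
    simp only [frame, e, ContinuousLinearMap.sub_apply, ContinuousLinearMap.one_apply,
      ContinuousLinearMap.smul_apply, ContinuousLinearMap.comp_apply, map_sub, map_smul, J0_J0, hT,
      map_neg]
    module
  rw [Frame.J_apply, this, Frame.Ai_A]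

variable {X : Type*} [TopologicalSpace X] (a : Atl X)

lemma ext0_mul (j : Fin a.n) (f : V → ℝ) (g : X → ℝ) (x : X) :
    a.ext0 j (fun y => f y • g ((a.e j).symm y)) x = a.ext0 j f x * g x := by
  unfold Atl.ext0
  split_ifs with h
  · simp only [(a.e j).left_inv h, smul_eq_mul]
  · simp

lemma ext0_nn (j : Fin a.n) (r : ℝ) (x : X) : 0 ≤ a.ext0 j (cut r) x := by
  unfold Atl.ext0
  split_ifs
  exacts [cut_nonneg _ _, le_rfl]

lemma sum_pos {r : ℝ} (hr : 1 ≤ r) (k : ℕ) (x : X) : 0 < ∑ j, a.ext0 j (cut r) x ^ k := by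
  obtain ⟨j, h1, h2⟩ := a.cover x
  refine Finset.sum_pos' (fun i _ => pow_nonneg (ext0_nn a i r x) _) ⟨j, Finset.mem_univ _, ?_⟩
  rw [Atl.ext0, if_pos h1, cut_one (h2.le.trans hr), one_pow]
  exact one_pos

end DatA

variable {X : Type*} [TopologicalSpace X] [T2Space X]

theorem datS {a : Atl X} (h1 : GeoA a) : DatS a := by
  have hs : ∀ (r : ℝ) (k : ℕ) j, 1 ≤ r → r ≤ 11 → ContDiffOn ℝ ∞
      (fun y => ∑ i, a.ext0 i (cut r) ((a.e j).symm y) ^ k) (a.e j).target := fun r k j h h' =>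
    ContDiffOn.sum fun i _ => (h1.ext0_sm i j _ ((cut_cc h).mono (by linarith))).pow k
  have hB : ∀ j, Cc 12 fun y => cut 11 y • (a.Jc j ((a.e j).symm y) - J0) := fun j =>
    h1.cutoff j 12 _ _ le_rfl ((cut_cc (by norm_num)).mono (by norm_num))
      ((a.Jsm j).sub contDiffOn_const)
  have hB' : ∀ j y, ‖cut 11 y • (a.Jc j ((a.e j).symm y) - J0)‖ ≤ 1 / 2 := fun j y => by
    by_cases hy : ‖y‖ ≤ 12
    · rw [norm_smul, Real.norm_of_nonneg (cut_nonneg _ _)]
      exact (mul_le_of_le_one_left (norm_nonneg _) (cut_le_one _ _)).trans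
        (a.Jnear j y (a.big j (mem_closedBall_zero_iff.2 hy)))
    · rw [cut_zero (by norm_num) (by linarith), zero_smul, norm_zero]
      norm_num
  have p1 := DatA.sum_pos a (r := 1) le_rfl 1
  have p2 := DatA.sum_pos a (r := 9) (by norm_num) 2
  refine ⟨{ a with
    psi := fun j y => cut 1 y • (∑ i, a.ext0 i (cut 1) ((a.e j).symm y) ^ 1)⁻¹
    psi_cc := fun j => h1.cutoff j 2 _ _ (by norm_num) ((cut_cc le_rfl).mono (by norm_num))
      ((hs 1 1 j le_rfl (by norm_num)).inv fun y _ => (p1 _).ne')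
    psi_nn := fun j y => mul_nonneg (cut_nonneg _ _) (inv_nonneg.2 (p1 _).le)
    psi_sum := fun x => ?_
    rho := fun j y => cut 9 y • (√(∑ i, a.ext0 i (cut 9) ((a.e j).symm y) ^ 2))⁻¹
    rho_sm := fun j => (h1.cutoff j 12 _ _ le_rfl ((cut_cc (by norm_num)).mono (by norm_num))
      (((hs 9 2 j (by norm_num) (by norm_num)).sqrt fun y _ => (p2 _).ne').inv
        fun y _ => (Real.sqrt_pos.2 (p2 _)).ne')).1
    rho_pos := fun j y hy => mul_pos (cut_pos (by norm_num) (by linarith))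
      (inv_pos.2 (Real.sqrt_pos.2 (p2 _)))
    rho_zero := fun j y hy => by rw [cut_zero (by norm_num) (by linarith), zero_smul]
    rho_sum := fun x => ?_
    F := fun j => DatA.frame _ (hB j) (hB' j)
    FJ := fun j x hx => DatA.frame_J _ _ _ _ _ (fun v => by simp [Atl.Jc, a.JJ]) (by
      rw [cut_one hx.2, one_smul, (a.e j).left_inv hx.1]) }, rfl⟩
  · refine (Finset.sum_congr rfl fun j _ => DatA.ext0_mul a j (cut 1)
      (fun x => (∑ i, a.ext0 i (cut 1) x ^ 1)⁻¹) x).trans ?_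
    rw [← Finset.sum_mul]
    simpa using mul_inv_cancel₀ (p1 x).ne'
  · refine (Finset.sum_congr rfl fun j _ => congrArg (· ^ 2) (DatA.ext0_mul a j (cut 9)
      (fun x => (√(∑ i, a.ext0 i (cut 9) x ^ 2))⁻¹) x)).trans ?_
    simp only [mul_pow, ← Finset.sum_mul, inv_pow, Real.sq_sqrt (p2 x).le]
    exact mul_inv_cancel₀ (p2 x).ne'

end Vale.Agent.P204
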