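import Mathlib

/-! Smooth two-forms and almost complex structures on a four-manifold, in charts. -/

open scoped Manifold ContDiff

noncomputable section
namespace Vale.Agent.P204

abbrev R4 := EuclideanSpace ℝ (Fin 4)

/-- a field of continuous bilinear forms on the tangent spaces -/
abbrev TwoTensor (X : Type*) [TopologicalSpace X] [ChartedSpace R4 X] :=
  ∀ x : X, TangentSpace (𝓡 4) x →L[ℝ] TangentSpace (𝓡 4) x →L[ℝ] ℝ

/-- a field of endomorphisms of the tangent spaces -/
abbrev EndField (X : Type*) [TopologicalSpace X] [ChartedSpace R4 X] :=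
  ∀ x : X, TangentSpace (𝓡 4) x →L[ℝ] TangentSpace (𝓡 4) x

variable {X : Type*} [TopologicalSpace X] [ChartedSpace R4 X]

/-- the coordinate vector field with constant components `a` in the chart at `p`, at the point
with coordinates `y` -/
def coordVec (p : X) (a y : R4) : TangentSpace (𝓡 4) ((chartAt R4 p).symm y) :=
  mfderiv (𝓡 4) (𝓡 4) (chartAt R4 p).symm y a

/-- the coefficient `α(a, b)` in the chart at `p`, as a function of the coordinates -/
def formCoord (α : TwoTensor X) (p : X) (a b y : R4) : ℝ :=
  α ((chartAt R4 p).symm y) (coordVec p a y) (coordVec p b y)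

/-- the components of `J a` in the chart at `p`, as a function of the coordinates -/
def endCoord (J : EndField X) (p : X) (a y : R4) : R4 :=
  mfderiv (𝓡 4) (𝓡 4) (chartAt R4 p) ((chartAt R4 p).symm y)
    (J ((chartAt R4 p).symm y) (coordVec p a y))

/-- smooth almost complex structure -/
def IsAlmostComplex (J : EndField X) : Prop :=
  (∀ x v, J x (J x v) = -v) ∧
    ∀ p a, ContDiffOn ℝ ∞ (endCoord J p a) (chartAt R4 p).target

/-- smooth two-form -/
def IsSmoothTwoForm (α : TwoTensor X) : Prop :=
  (∀ x u v, α x u v = -α x v u) ∧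
    ∀ p a b, ContDiffOn ℝ ∞ (formCoord α p a b) (chartAt R4 p).target

/-- `dα = 0` -/
def IsClosedTwoForm (α : TwoTensor X) : Prop :=
  ∀ p, ∀ y ∈ (chartAt R4 p).target, ∀ a b c : R4,
    fderiv ℝ (formCoord α p b c) y a + fderiv ℝ (formCoord α p c a) y b
      + fderiv ℝ (formCoord α p a b) y c = 0

/-- smooth, closed and nondegenerate -/
def IsSymplectic (α : TwoTensor X) : Prop :=
  IsSmoothTwoForm α ∧ IsClosedTwoForm α ∧ ∀ x v, (∀ w, α x v w = 0) → v = 0

def Tames (α : TwoTensor X) (J : EndField X) : Prop :=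
  ∀ x v, v ≠ 0 → 0 < α x v (J x v)

def IsCompatible (α : TwoTensor X) (J : EndField X) : Prop :=
  Tames α J ∧ ∀ x u v, α x (J x u) (J x v) = α x u v

end Vale.Agent.P204
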