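import Mathlib
import Vale.Agent.P204.Stm

/-! Definitions for the proof of the tamed-to-compatible theorem in dimension four. -/

set_option maxSynthPendingDepth 3

open scoped Topology ContDiff RealInnerProductSpace
open Set Metric MeasureTheory

noncomputable section
namespace Vale.Agent.P204

abbrev V := EuclideanSpace ℝ (Fin 4)
abbrev E6 := EuclideanSpace ℝ (Fin 6)
abbrev E2 := EuclideanSpace ℝ (Fin 2)
abbrev End := V →L[ℝ] V
abbrev Cov := V →L[ℝ] ℝ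
abbrev Bil := V →L[ℝ] V →L[ℝ] ℝ
/-- operators on two-forms -/
abbrev Op := E6 →L[ℝ] E6

/-! ### linear algebra

A two-form on `V` is an element of `E6`: its coordinates in the basis
`F = e01 + e23`, `G = e02 - e13`, `H = e03 + e12` (self-dual),
`F' = e01 - e23`, `G' = e02 + e13`, `H' = e03 - e12` (anti-self-dual). -/

def bv (i : Fin 4) : V := EuclideanSpace.single i 1
def pr (i : Fin 4) : Cov := EuclideanSpace.proj i
def b6 (k : Fin 6) : E6 := EuclideanSpace.single k 1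
def p6 (k : Fin 6) : E6 →L[ℝ] ℝ := EuclideanSpace.proj k

/-- standard complex structure -/
def J0 : End := (pr 0).smulRight (bv 1) - (pr 1).smulRight (bv 0)
  + (pr 2).smulRight (bv 3) - (pr 3).smulRight (bv 2)

/-- the two-form `e_i ∧ e_j` for `i < j`, zero for `j ≤ i` -/
def el : Fin 4 → Fin 4 → E6 :=
  ![![0, (1/2 : ℝ) • (b6 0 + b6 3), (1/2 : ℝ) • (b6 1 + b6 4), (1/2 : ℝ) • (b6 2 + b6 5)],
    ![0, 0, (1/2 : ℝ) • (b6 2 - b6 5), (1/2 : ℝ) • (b6 4 - b6 1)],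
    ![0, 0, 0, (1/2 : ℝ) • (b6 0 - b6 3)],
    ![0, 0, 0, 0]]

/-- wedge product of two vectors (seen as covectors) -/
def wv : V →L[ℝ] V →L[ℝ] E6 :=
  ∑ i : Fin 4, ∑ j : Fin 4, (pr i).smulRight ((pr j).smulRight (el i j - el j i))

/-- evaluation of a two-form, as a functional of the form -/
def ev (p q : V) : E6 →L[ℝ] ℝ := (2 : ℝ) • innerSL ℝ (wv p q)

/-- evaluation of a two-form on two vectors -/
def ap (h : E6) (p q : V) : ℝ := ev p q h

/-- the two-form `(p, q) ↦ L p q - L q p` -/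
def alt2 : Bil →L[ℝ] E6 :=
  ∑ i : Fin 4, ∑ j : Fin 4, ((ContinuousLinearMap.apply ℝ ℝ (bv j)).comp
    (ContinuousLinearMap.apply ℝ Cov (bv i))).smulRight (el i j - el j i)

/-- wedge of two covectors -/
def w1 (ξ η : Cov) : E6 := alt2 (ξ.smulRight η)

/-- pull-back of two-forms -/
def pull (A : End) : Op :=
  ∑ i : Fin 4, ∑ j : Fin 4, (ev (A (bv i)) (A (bv j))).smulRight (el i j)

/-- diagonal map of `E6` -/
def dg (c : Fin 6 → ℝ) : Op := ∑ k : Fin 6, c k • (p6 k).smulRight (b6 k)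
/-- Hodge star -/
def Q6 : Op := dg ![1, 1, 1, -1, -1, -1]
/-- anti-invariant part -/
def Pm : Op := dg ![0, 1, 1, 0, 0, 0]
/-- invariant part -/
def Po : Op := dg ![1, 0, 0, 1, 1, 1]
/-- anti-self-dual part -/
def Pa : Op := dg ![0, 0, 0, 1, 1, 1]

def B2 : E2 →L[ℝ] E6 := (EuclideanSpace.proj 0 : E2 →L[ℝ] ℝ).smulRight (b6 1)
  + (EuclideanSpace.proj 1 : E2 →L[ℝ] ℝ).smulRight (b6 2)
def cm : E6 →L[ℝ] E2 := (p6 1).smulRight (EuclideanSpace.single 0 (1 : ℝ) : E2)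
  + (p6 2).smulRight (EuclideanSpace.single 1 (1 : ℝ) : E2)

/-- wedge product of two two-forms -/
def wq (g h : E6) : ℝ := 2 * ⟪g, Q6 h⟫

/-- the two-form `D4 p q · ·` -/
def st (p : V) : V →L[ℝ] E6 := Q6.comp (wv p)

/-- the determinant of four vectors -/
def D4 (p q u v : V) : ℝ := ap (st p q) u v

/-- A double form is stored as the operator `β ↦ β ∧ k` (wedge in the first slot).
`sl u v k` is the first-slot two-form obtained by evaluating the second slot on `(u, v)`: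
`wq (sl u v k) β = ap (k β) u v`. -/
def sl (u v : V) : Op →L[ℝ] E6 :=
  ∑ i : Fin 6, ((ev u v).comp (ContinuousLinearMap.apply ℝ E6 (Q6 (b6 i)))).smulRight
    ((1/2 : ℝ) • b6 i)

/-- the double form `(p, q; u, v) ↦ D4 (A p) (A q) (B u) (B v)` -/
def dl2 (A B : End) : Op :=
  (pull B).comp (∑ i : Fin 6, ((2 : ℝ) • innerSL ℝ (Q6 (pull A (Q6 (b6 i))))).smulRight
    ((1/2 : ℝ) • b6 i))

attribute [irreducible] J0 el wv ev ap alt2 w1 pull dg Q6 Pm Po Pa B2 cm wq st D4 sl dl2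

/-! ### calculus on `V` -/

/-- exterior derivative of a one-form -/
def d1 (b : V → Cov) (y : V) : E6 := alt2 (fderiv ℝ b y)

/-- exterior derivative of a two-form -/
def cyc (β : V → E6) (y a b c : V) : ℝ :=
  ap (fderiv ℝ β y a) b c + ap (fderiv ℝ β y b) c a + ap (fderiv ℝ β y c) a b

/-- smooth with support in the closed ball of radius `r` -/
def Cc {E : Type} [NormedAddCommGroup E] [NormedSpace ℝ E] (r : ℝ) (f : V → E) : Prop :=
  ContDiff ℝ ∞ f ∧ ∀ y, r < ‖y‖ → f y = 0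

/-- `C^k` norm -/
def Nk {E : Type} [NormedAddCommGroup E] [NormedSpace ℝ E] (k : ℕ) (f : V → E) : ℝ :=
  ⨆ p : Fin (k + 1) × V, ‖iteratedFDeriv ℝ p.1 f p.2‖

/-- cut-off function, one on the closed ball of radius `r`, zero outside the ball of radius
`r + 1` (for `1 ≤ r`) -/
def cut (r : ℝ) : V → ℝ :=
  (⟨max r 1, max r 1 + 1, lt_of_lt_of_le one_pos (le_max_right _ _), lt_add_one _⟩ :
    ContDiffBump (0 : V))

def nL2 (g : V → ℝ) : ℝ := Real.sqrt (∫ y, g y ^ 2)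

/-- `g` dominates the derivatives of `c` at scale `ε` -/
def Dom {E : Type} [NormedAddCommGroup E] [NormedSpace ℝ E] (M : ℕ) (ε : ℝ) (c : V → E)
    (g : V → ℝ) : Prop :=
  ∀ x z, ‖x - z‖ ≤ ε → ∀ l ≤ M, ε ^ l * ‖iteratedFDeriv ℝ l c x‖ ≤ g z

/-- bound for a functional at scale `ε` -/
def LBd (σ : (V → E2) → ℝ) (M : ℕ) (ε β : ℝ) : Prop :=
  ∀ c g, Cc (7 - ε) c → Dom M ε c g → Integrable (fun y => g y ^ 2) → |σ c| ≤ β * nL2 g

/-- linearity on test functions -/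
def LLin (σ : (V → E2) → ℝ) : Prop :=
  (∀ c c', Cc 7 c → Cc 7 c' → σ (c + c') = σ c + σ c') ∧
    ∀ (a : ℝ) c, Cc 7 c → σ (a • c) = a * σ c

/-- a smooth complex frame on `V` -/
structure Frame where
  A : V → End
  Ai : V → End
  smA : ContDiff ℝ ∞ A
  smAi : ContDiff ℝ ∞ Ai
  inv1 : ∀ y, (Ai y).comp (A y) = ContinuousLinearMap.id ℝ V
  inv2 : ∀ y, (A y).comp (Ai y) = ContinuousLinearMap.id ℝ V
  near : ∀ y, ‖A y - ContinuousLinearMap.id ℝ V‖ ≤ 1 / 4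
  out : ∀ y, 12 < ‖y‖ → A y = ContinuousLinearMap.id ℝ V

namespace Frame
variable (F : Frame)
def J (y : V) : End := (F.Ai y).comp (J0.comp (F.A y))
def cm (y : V) : E6 →L[ℝ] E2 := P204.cm.comp (pull (F.Ai y))
def up (y : V) : E2 →L[ℝ] E6 := (pull (F.A y)).comp B2
end Frame

/-- finite measure on pairs (point, unit vector) with the point in the ball of radius `r` -/
def PM (r : ℝ) (m : Measure (V × V)) : Prop :=
  IsFiniteMeasure m ∧ ∀ᵐ p ∂m, ‖p.1‖ ≤ r ∧ ‖p.2‖ = 1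

/-- mass of a closed ball -/
def mass (m : Measure (V × V)) (y : V) (r : ℝ) : ℝ := m.real {p | ‖p.1 - y‖ ≤ r}

/-- positive current of a measure -/
def TL (F : Frame) (m : Measure (V × V)) (β : V → E6) : ℝ :=
  ∫ p, ap (β p.1) p.2 (F.J p.1 p.2) ∂m

/-- the set where the Newton potential of `m` is finite -/
def Efin (m : Measure (V × V)) : Set V :=
  {y | ∫⁻ p, (ENNReal.ofReal (‖p.1 - y‖ ^ 2))⁻¹ ∂m < ⊤}

def tau (m : Measure (V × V)) (C ε : ℝ) (y : V) : ℝ := (ε ^ 4)⁻¹ * mass m y (C * ε)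

/-! ### finite atlases -/

/-- a finite atlas with frames and an almost complex structure close to the standard one -/
structure Atl (X : Type*) [TopologicalSpace X] where
  n : ℕ
  e : Fin n → OpenPartialHomeomorph X V
  big : ∀ j, closedBall (0 : V) 12 ⊆ (e j).target
  cover : ∀ x, ∃ j, x ∈ (e j).source ∧ ‖e j x‖ < 1
  fr : Fin n → X → V ≃L[ℝ] V
  smooth : ∀ i j, ContDiffOn ℝ ∞ (fun y => e i ((e j).symm y))
    ((e j).target ∩ (e j).symm ⁻¹' (e i).source)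
  deriv : ∀ i j x, x ∈ (e i).source → x ∈ (e j).source →
    HasFDerivAt (fun y => e i ((e j).symm y))
      (((fr i x).symm : End).comp (fr j x : End)) (e j x)
  J : X → End
  JJ : ∀ x v, J x (J x v) = -v
  Jsm : ∀ j, ContDiffOn ℝ ∞ (fun y => ((fr j ((e j).symm y)).symm : End).comp
    ((J ((e j).symm y)).comp (fr j ((e j).symm y) : End))) (e j).target
  Jnear : ∀ j, ∀ y ∈ (e j).target, ‖((fr j ((e j).symm y)).symm : End).comp
    ((J ((e j).symm y)).comp (fr j ((e j).symm y) : End)) - J0‖ ≤ 1 / 2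

abbrev Form (X : Type*) := X → E6

namespace Atl
variable {X : Type*} [TopologicalSpace X] (a : Atl X)

def In (j : Fin a.n) (r : ℝ) (x : X) : Prop := x ∈ (a.e j).source ∧ ‖a.e j x‖ ≤ r
/-- transition map from chart `j` to chart `i` -/
def tm (i j : Fin a.n) (y : V) : V := a.e i ((a.e j).symm y)
/-- its derivative -/
def tr (i j : Fin a.n) (x : X) : End := ((a.fr i x).symm : End).comp (a.fr j x : End)
def Jc (j : Fin a.n) (x : X) : End := ((a.fr j x).symm : End).comp ((a.J x).comp (a.fr j x : End))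

open Classical in
/-- extension by zero of a function given in a chart -/
def ext0 {E : Type} [Zero E] (j : Fin a.n) (f : V → E) (x : X) : E :=
  if x ∈ (a.e j).source then f (a.e j x) else 0

def loc (j : Fin a.n) (α : Form X) (y : V) : E6 :=
  pull (a.fr j ((a.e j).symm y) : End) (α ((a.e j).symm y))

def ext (j : Fin a.n) (β : V → E6) : Form X :=
  fun x => pull ((a.fr j x).symm : End) (a.ext0 j β x)

def Sm (α : Form X) : Prop := ∀ j, ContDiffOn ℝ ∞ (a.loc j α) (a.e j).target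
def Cl (α : Form X) : Prop :=
  ∀ j, ∀ y ∈ (a.e j).target, ∀ u v w, cyc (a.loc j α) y u v w = 0
def Inv (α : Form X) : Prop := ∀ x u v, ap (α x) (a.J x u) (a.J x v) = ap (α x) u v
def Tm (α : Form X) : Prop := ∀ x v, v ≠ 0 → 0 < ap (α x) v (a.J x v)

def nrm (k : ℕ) (α : Form X) : ℝ := ∑ j, Nk k (fun y => cut 2 y • a.loc j α y)

/-- linear on smooth forms -/
def Fn (R : Form X → ℝ) : Prop :=
  (∀ α β, a.Sm α → a.Sm β → R (α + β) = R α + R β) ∧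
    ∀ (c : ℝ) α, a.Sm α → R (c • α) = c * R α
def Ord (R : Form X → ℝ) (k : ℕ) (Λ : ℝ) : Prop := ∀ α, a.Sm α → |R α| ≤ Λ * a.nrm k α
def KillsZ (R : Form X → ℝ) : Prop := ∀ α, a.Sm α → a.Cl α → R α = 0
def KillsD (R : Form X → ℝ) : Prop := ∀ j b, Cc 3 b → R (a.ext j (d1 b)) = 0
def KillsI (R : Form X → ℝ) : Prop := ∀ α, a.Sm α → a.Inv α → R α = 0
end Atl

/-- an atlas together with partitions of unity and frames -/
structure Dat (X : Type*) [TopologicalSpace X] extends Atl X where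
  psi : Fin n → V → ℝ
  psi_cc : ∀ j, Cc 2 (psi j)
  psi_nn : ∀ j y, 0 ≤ psi j y
  psi_sum : ∀ x, ∑ j, toAtl.ext0 j (psi j) x = 1
  rho : Fin n → V → ℝ
  rho_sm : ∀ j, ContDiff ℝ ∞ (rho j)
  rho_pos : ∀ j y, ‖y‖ < 10 → 0 < rho j y
  rho_zero : ∀ j y, 10 ≤ ‖y‖ → rho j y = 0
  rho_sum : ∀ x, ∑ j, toAtl.ext0 j (rho j) x ^ 2 = 1
  F : Fin n → Frame
  FJ : ∀ j x, toAtl.In j 11 x → (F j).J (e j x) = toAtl.Jc j x

namespace Dat
variable {X : Type*} [TopologicalSpace X] (D : Dat X)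

def cj (j : Fin D.n) (α : Form X) (y : V) : E2 := D.psi j y • (D.F j).cm y (D.loc j α y)
def nrmm (k : ℕ) (α : Form X) : ℝ := ∑ j, Nk k (D.cj j α)
def OrdM (s : Form X → ℝ) (k : ℕ) (Λ : ℝ) : Prop := ∀ α, D.Sm α → |s α| ≤ Λ * D.nrmm k α
def upx (j : Fin D.n) (c : V → E2) : Form X := D.ext j (fun y => (D.F j).up y (c y))
def sj (s : Form X → ℝ) (j : Fin D.n) (c : V → E2) : ℝ := s (D.upx j c)
def Bd (s : Form X → ℝ) (M : ℕ) (ε β : ℝ) : Prop := ∀ j, LBd (D.sj s j) M ε β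

def nu (j : Fin D.n) : Measure V :=
  volume.withDensity (fun y => ENNReal.ofReal (D.psi j y * ((D.F j).A y).det))

abbrev H := PiLp 2 (fun j : Fin D.n => Lp E6 2 (D.nu j))

def mapH (L : Op) (h : D.H) : D.H := WithLp.toLp 2 (fun j => L.compLp (h j))
def qH (g h : D.H) : ℝ := 2 * ⟪g, D.mapH Q6 h⟫
def L1 (h : D.H) : ℝ := ∑ j, ∫ y, ‖h j y‖ ∂(D.nu j)

open Classical in
def iota (α : Form X) : D.H := WithLp.toLp 2 (fun j =>
  if hh : MemLp (fun y => pull ((D.F j).Ai y) (D.loc j α y)) 2 (D.nu j) then hh.toLp _ else 0)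

/-- the form defined by an element of `H` -/
def formH (h : D.H) : Form X :=
  fun x => ∑ j, D.ext j (fun y => D.psi j y • pull ((D.F j).A y) (h j y)) x

/-- its expression in the chart `i` -/
def hat (i : Fin D.n) (h : D.H) : V → E6 :=
  (closedBall (0 : V) 9).indicator (D.loc i (D.formH h))

/-- positive current of a family of measures -/
def T (m : Fin D.n → Measure (V × V)) (α : Form X) : ℝ := ∑ i, TL (D.F i) (m i) (D.loc i α)

/-- `mm` are chart measures for the current of `m` -/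
def IsCM (m mm : Fin D.n → Measure (V × V)) : Prop :=
  ∀ j, PM 7 (mm j) ∧ ∀ β : V → E6, Continuous β → (∀ y, 6 < ‖y‖ → β y = 0) →
    D.T m (D.ext j β) = TL (D.F j) (mm j) β
end Dat

/-- kernel in scale form -/
def ksc {E : Type} [NormedAddCommGroup E] [NormedSpace ℝ E] (Hs : V × V × ℝ → E)
    (ε : ℝ) (y z : V) : E :=
  (ε ^ 4)⁻¹ • Hs (y, ε⁻¹ • (z - y), ε)

open Classical in
/-- a chart kernel seen on `X × X` -/
def Atl.KK {X : Type*} [TopologicalSpace X] (a : Atl X) (j : Fin a.n) (k : V → V → Op)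
    (x x' : X) : Op :=
  if x ∈ (a.e j).source ∧ x' ∈ (a.e j).source then
    ((a.fr j x).symm : End).det • (pull ((a.fr j x').symm : End)).comp
      ((k (a.e j x) (a.e j x')).comp (pull (a.fr j x : End)))
  else 0

/-- first closedness identity -/
def ClP (k : V → V → Op) (R : ℝ) : Prop :=
  ∀ z u0 u1 u2 : V, ‖z‖ ≤ 2 → ∃ b : V → Cov, ContDiff ℝ ∞ b ∧ (∀ y, R < ‖y - z‖ → b y = 0) ∧
    ∀ y β, wq (d1 b y) β + cyc (fun z' => k y z' β) z u0 u1 u2 = 0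

/-- second closedness identity -/
def ClP' (k : V → V → Op) (R : ℝ) : Prop :=
  ∀ p0 p1 p2 : V, ∃ b : V × V → Cov, ContDiff ℝ ∞ b ∧ (∀ y z, R < ‖z - y‖ → b (y, z) = 0) ∧
    ∀ y z u v, ‖y‖ ≤ 3 →
      cyc (fun y' => sl u v (k y' z)) y p0 p1 p2 = ap (d1 (fun z' => b (y, z')) z) u v

/-- cone bounds -/
def Cone (F : Frame) (k : V → V → Op) (C ε : ℝ) : Prop :=
  ∀ y z u : V, ‖y‖ ≤ 2 → ‖u‖ = 1 →
    ‖pull (F.Ai y) (sl u (F.J z u) (k y z))‖ ≤ C * (ε ^ 4)⁻¹ ∧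
    ‖Pm (pull (F.Ai y) (sl u (F.J z u) (k y z)))‖ ≤ C * (ε ^ 3)⁻¹ ∧
    ‖Pa (pull (F.Ai y) (sl u (F.J z u) (k y z)))‖
      ≤ pull (F.Ai y) (sl u (F.J z u) (k y z)) 0 + C * (ε ^ 2)⁻¹

/-- scale form data -/
def ScF (Hs : V × V × ℝ → Op) (C0 : ℝ) : Prop :=
  ContDiff ℝ ∞ Hs ∧ (∀ y v ε, C0 < ‖v‖ → Hs (y, v, ε) = 0) ∧
    ∃ h : V → V → ℝ, (∀ y v, ‖y‖ ≤ 9 → Hs (y, v, 0) = h y v • ContinuousLinearMap.id ℝ E6) ∧
      ∀ y, ‖y‖ ≤ 9 → ∫ v, h y v = 1

/-- the global closed smoothing kernel -/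
structure Ker {X : Type*} [TopologicalSpace X] (D : Dat X) where
  C0 : ℝ
  ε0 : ℝ
  Cc : ℝ
  one_le : 1 ≤ C0
  pos : 0 < ε0
  small : C0 * ε0 ≤ 1 / 2
  Hs : Fin D.n → V × V × ℝ → Op
  scf : ∀ j, ScF (Hs j) C0
  clP : ∀ j ε, 0 < ε → ε ≤ ε0 → ClP (ksc (Hs j) ε) (C0 * ε)
  clP' : ∀ j ε, 0 < ε → ε ≤ ε0 → ClP' (ksc (Hs j) ε) (C0 * ε)
  cone : ∀ j ε, 0 < ε → ε ≤ ε0 → Cone (D.F j) (ksc (Hs j) ε) Cc ε
  ind : ∀ i j ε x x', 0 < ε → ε ≤ ε0 → D.In j 2 x → (D.In i 7 x ∨ D.In i 8 x') →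
    D.KK j (ksc (Hs j) ε) x x' = D.KK i (ksc (Hs i) ε) x x'

namespace Ker
variable {X : Type*} [TopologicalSpace X] {D : Dat X} (K : Ker D)

def k (j : Fin D.n) (ε : ℝ) : V → V → Op := ksc (K.Hs j) ε
def Mj (ε : ℝ) (j : Fin D.n) (h : D.H) (z : V) : E6 :=
  ∫ y, K.k j ε y z (D.psi j y • pull ((D.F j).A y) (h j y))
/-- the smoothing operator -/
def M (ε : ℝ) (h : D.H) : Form X := fun x => ∑ j, D.ext j (K.Mj ε j h) x
/-- the smoothing operator in one chart -/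
def Kop (j : Fin D.n) (ε : ℝ) (β : V → E6) (z : V) : E6 := ∫ y, K.k j ε y z (β y)
def IsTh (ε : ℝ) (R : Form X → ℝ) (Θ : D.H) : Prop := ∀ h, D.qH Θ h = R (K.M ε h)
end Ker

/-- operator with a kernel in scale form -/
def Sop {W E : Type} [NormedAddCommGroup W] [NormedSpace ℝ W] [NormedAddCommGroup E]
    [NormedSpace ℝ E] (Hs : V × V × ℝ → W →L[ℝ] E) (ε : ℝ) (w : V → W) (z : V) : E :=
  ∫ y, ksc Hs ε y z (w y)

/-! ### construction of the kernel -/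

/-- normalized bump supported in the unit ball -/
def eta : V → ℝ :=
  (⟨1 / 2, 1, by norm_num, by norm_num⟩ : ContDiffBump (0 : V)).normed volume

/-- data for the kernel in one chart -/
structure KD (n : ℕ) where
  j : Fin n
  rl : Fin n → V → ℝ
  P : Fin n → V → End
  G : Fin n → V → V
  r : V → ℝ
  rl_sm : ∀ l, ContDiff ℝ ∞ (rl l)
  P_sm : ∀ l, ContDiff ℝ ∞ (P l)
  G_sm : ∀ l, ContDiff ℝ ∞ (G l)
  r_sm : ContDiff ℝ ∞ r
  r_pos : ∀ y, 0 < r y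
  hid : ∀ y, ‖y‖ ≤ 9 →
    ∑ l, rl l y • (P l y).comp (fderiv ℝ (G l) y) = ContinuousLinearMap.id ℝ V

namespace KD
variable {n : ℕ} (d : KD n)
def W (y z : V) : V := ∑ l, d.rl l y • d.P l y (d.G l z - d.G l y)
def Psi (y z : V) (ζ : Fin n → V) : V :=
  d.r y • (d.W y z - ∑ l ∈ Finset.univ.erase d.j, d.P l y (ζ l))
def kraw (ε : ℝ) (y z : V) : Op :=
  ∫ u : Fin n → V, ((∏ l, eta (u l)) * ((ε ^ 4)⁻¹ * eta (ε⁻¹ • d.Psi y z (ε • u)))) •
    dl2 (fderiv ℝ (fun y' => d.Psi y' z (ε • u)) y) (fderiv ℝ (fun z' => d.Psi y z' (ε • u)) z)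
def kcut (C ε : ℝ) (y z : V) : Op := cut 1 ((C * ε)⁻¹ • (z - y)) • d.kraw ε y z
/-- the integrand of `kraw` vanishes on an annular region -/
def Far (C1 δ0 : ℝ) : Prop :=
  ∀ (ε : ℝ) (y z : V) (u : Fin n → V), 0 < ε → ε ≤ 1 → ‖y‖ ≤ 9 → ‖z - y‖ ≤ δ0 →
    C1 * ε ≤ ‖z - y‖ → (∀ l, ‖u l‖ ≤ 1) → 1 ≤ ‖ε⁻¹ • d.Psi y z (ε • u)‖
end KD

open Classical in
/-- the chart data come from the atlas -/
def Dat.IsKD {X : Type*} [TopologicalSpace X] (D : Dat X) (j : Fin D.n) (d : KD D.n) : Prop :=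
  d.j = j ∧ (∀ y, ‖y‖ ≤ 9 → d.r y * D.rho j y = 1) ∧
    ∀ x l, D.In j 11 x →
      d.rl l (D.e j x) = D.ext0 l (D.rho l) x ∧
      d.G l (D.e j x) = D.ext0 l (fun w => cut 10 w • w) x ∧
      d.P l (D.e j x) = D.ext0 l (D.rho l) x • D.tr j l x

/-! ### potential theory -/

def nk (δ : ℝ) (w : V) : ℝ := (‖w‖ ^ 2 + δ ^ 2)⁻¹
/-- gradient of `nk` -/
def gk (δ : ℝ) (w : V) : V := (-2 * nk δ w ^ 2) • w
/-- minus the Laplacian of `nk` -/
def hk (δ : ℝ) (w : V) : ℝ := 8 * δ ^ 2 * nk δ w ^ 3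
/-- comparison kernels -/
def kp (δ : ℝ) (k : ℕ) (w : V) : ℝ := ((‖w‖ + δ) ^ k)⁻¹

namespace Frame
variable (F : Frame)
def Ps (x z : V) : V := F.A x (z - x)
/-- derivative of `Ps` in `x` -/
def DPs (x z : V) : End := (fderiv ℝ F.A x).flip (z - x) - F.A x
def Nz (δ : ℝ) (z x : V) : ℝ := nk δ (F.Ps x z)
def U (m : Measure (V × V)) (δ : ℝ) (x : V) : ℝ :=
  1 + ∫ p, cut 5 p.1 * ‖F.A p.1 p.2‖ ^ 2 * F.Nz δ p.1 x ∂m
/-- the current `T + σ` -/
def RR (m : Measure (V × V)) (f : V → E2) (β : V → E6) : ℝ :=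
  TL F m β + ∫ z, ⟪f z, F.cm z (β z)⟫
def k12 (δ : ℝ) (x z : V) : V →L[ℝ] E6 :=
  (pull (F.A x)).comp ((st (gk δ (F.Ps x z))).comp (F.DPs x z))
/-- `k21 δ x z a a' p = D4 (gk ..) (DPs a) (DPs a') (A x p)` -/
def k21 (δ : ℝ) (x z a a' : V) : Cov :=
  ((2 : ℝ) • innerSL ℝ (st (gk δ (F.Ps x z)) (F.DPs x z a))).comp
    ((wv (F.DPs x z a')).comp (F.A x))
def k22 (x z a a' : V) : E6 := pull (F.A x) (st (F.DPs x z a) (F.DPs x z a'))
def S (m : Measure (V × V)) (f : V → E2) (δ : ℝ) (x : V) : Cov :=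
  (∫ p, cut 5 p.1 • (ev p.2 (F.J p.1 p.2)).comp (F.k12 δ x p.1) ∂m)
    + ∫ z, cut 5 z • (innerSL ℝ (f z)).comp ((F.cm z).comp (F.k12 δ x z))
def dc (U : V → ℝ) (x : V) : Cov := -(fderiv ℝ U x).comp (F.J x)
/-- the vector field `A⁻¹ A⁻ᵀ ∇ g` -/
def ag (g : V → ℝ) (x : V) : V := ∑ i, fderiv ℝ g x (F.Ai x (bv i)) • F.Ai x (bv i)
/-- the operator `div (A⁻¹ A⁻ᵀ ∇ g)` -/
def Lop (g : V → ℝ) (x : V) : ℝ := ∑ i, fderiv ℝ (F.ag g) x (bv i) i
/-- test one-form for the monotonicity formula -/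
def tf (y : V) (s : ℝ) (z : V) : Cov :=
  (cut 1 ((2 : ℝ) • (z - y)) * nk s (F.A y (z - y))) •
    (innerSL ℝ (J0 (F.A y (z - y)))).comp (F.A y)
end Frame

/-- potential of `f` against the kernel of order `-3` -/
def ff (f : V → E2) (δ : ℝ) (x : V) : ℝ := ∫ z, cut 5 z * kp δ 3 (x - z) * ‖f z‖

/-- hypotheses of the local removable singularity theorem -/
structure LH (F : Frame) (m : Measure (V × V)) (f : V → E2) (Dn : ℝ) : Prop where
  pm : PM 7 m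
  l2 : MemLp f 2 volume
  cl : ∀ b, Cc 6 b → F.RR m f (d1 b) = 0
  dens : ∀ y r, ‖y‖ ≤ 4 → 0 < r → mass m y r ≤ Dn * r ^ 2

end Vale.Agent.P204
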