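import Vale.Agent.P204.Stmt

/-! The energy estimate. -/

set_option maxSynthPendingDepth 3

open scoped Topology ContDiff RealInnerProductSpace
open Set Metric MeasureTheory Filter

noncomputable section
namespace Vale.Agent.P204

namespace En

lemma alg1 {A A' k1 k2 s1 s2 T φ K C1 C2 : ℝ} (hk1 : |k1| ≤ K) (hk2 : |k2| ≤ 2 * K)
    (hs1 : |s1| ≤ C1 * (1 + φ)) (hs2 : |s2| ≤ 2 * (C1 * (1 + φ))) (hT : T ≤ C2 * (1 + φ))
    (hC2 : 0 ≤ C2) :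
    2 * (k1 * (A + s2) - k2 * (-A' + s1)) - (A ^ 2 + A' ^ 2) - (A * s2 - A' * s1) + T
      ≤ -(1 / 2) * (A ^ 2 + A' ^ 2) + (25 * K ^ 2 + 20 * C1 ^ 2 + 2 * C2) * (1 + φ ^ 2) := by
  have e1 : k1 ^ 2 ≤ K ^ 2 := sq_le_sq' (abs_le.1 hk1).1 (abs_le.1 hk1).2
  have e2 : k2 ^ 2 ≤ (2 * K) ^ 2 := sq_le_sq' (abs_le.1 hk2).1 (abs_le.1 hk2).2
  have e3 : s1 ^ 2 ≤ (C1 * (1 + φ)) ^ 2 := sq_le_sq' (abs_le.1 hs1).1 (abs_le.1 hs1).2
  have e4 : s2 ^ 2 ≤ (2 * (C1 * (1 + φ))) ^ 2 := sq_le_sq' (abs_le.1 hs2).1 (abs_le.1 hs2).2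
  have e5 : (C1 * (1 + φ)) ^ 2 ≤ 2 * C1 ^ 2 * (1 + φ ^ 2) := by nlinarith [sq_nonneg (C1 * (1 - φ))]
  have e6 : C2 * (1 + φ) ≤ C2 * (2 * (1 + φ ^ 2)) :=
    mul_le_mul_of_nonneg_left (by nlinarith [sq_nonneg (1 - φ), sq_nonneg φ]) hC2
  have e7 : 0 ≤ K ^ 2 * φ ^ 2 := by positivity
  nlinarith [sq_nonneg (A / 2 - 2 * k1), sq_nonneg (A / 2 + s2), sq_nonneg (A' / 2 - 2 * k2),
    sq_nonneg (A' / 2 - s1), sq_nonneg (k1 - s2), sq_nonneg (k2 + s1)]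

lemma alg2 {n a b c d e C : ℝ} (hn : 0 ≤ n) (h : n ≤ C * (a + b + c + d) + e) :
    n ^ 2 ≤ 8 * C ^ 2 * (a ^ 2 + b ^ 2 + c ^ 2 + d ^ 2) + 2 * e ^ 2 := by
  have h1 : n ^ 2 ≤ (C * (a + b + c + d) + e) ^ 2 := pow_le_pow_left₀ hn h 2
  have h2 : (a + b + c + d) ^ 2 ≤ 4 * (a ^ 2 + b ^ 2 + c ^ 2 + d ^ 2) := by
    nlinarith [sq_nonneg (a - b), sq_nonneg (a - c), sq_nonneg (a - d), sq_nonneg (b - c),
      sq_nonneg (b - d), sq_nonneg (c - d)]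
  have h3 := mul_le_mul_of_nonneg_left h2 (sq_nonneg C)
  nlinarith [sq_nonneg (C * (a + b + c + d) - e)]

lemma alg3 {z i u D p K C n1 n2 : ℝ} (hz0 : 0 ≤ z) (hz1 : z ≤ 1) (hi0 : 0 ≤ i) (hi1 : i ≤ 1)
    (hu : i * u = 1) (hD : 0 ≤ D) (hp : 0 ≤ p) (hK : 0 ≤ K) (hC : 0 ≤ C)
    (b1 : n1 ≤ 66 * (K * (D * 2 + C * (u + p)))) (b2 : n2 ≤ 66 * (D * (C * (u + p)))) :
    2 * z * i * n1 + (z * i) ^ 2 * n2 ≤
      132 * (K + 1) * (C + 2) * (z * i * D + z + p * z + p * (z * (i ^ 2 * D))) := by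
  have e1 : 2 * z * i * n1 ≤ 132 * K * (2 * (z * i * D) + C * z + C * (p * z * i)) :=
    (mul_le_mul_of_nonneg_left b1 (by positivity)).trans_eq (by linear_combination 132 * K * C * z * hu)
  have e2 : (z * i) ^ 2 * n2 ≤ 66 * C * (z * (z * i * D) + z * (p * (z * (i ^ 2 * D)))) :=
    (mul_le_mul_of_nonneg_left b2 (by positivity)).trans_eq
      (by linear_combination 66 * C * D * z ^ 2 * i * hu)
  have e3 : p * z * i ≤ p * z := mul_le_of_le_one_right (by positivity) hi1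
  have e4 : z * (z * i * D) ≤ z * i * D := mul_le_of_le_one_left (by positivity) hz1
  have e5 : z * (p * (z * (i ^ 2 * D))) ≤ p * (z * (i ^ 2 * D)) :=
    mul_le_of_le_one_left (by positivity) hz1
  have p1 : 0 ≤ z * i * D := by positivity
  have p2 : 0 ≤ p * z := by positivity
  have p3 : 0 ≤ p * (z * (i ^ 2 * D)) := by positivity
  generalize z * i * D = a, p * (z * (i ^ 2 * D)) = d at *
  have e6 : 132 * K * (2 * a + C * z + C * (p * z * i)) ≤ 132 * K * ((C + 2) * (a + z + p * z + d)) :=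
    mul_le_mul_of_nonneg_left (by nlinarith [mul_le_mul_of_nonneg_left e3 hC]) (by positivity)
  have e7 : 66 * C * (z * a + z * d) ≤ 66 * C * (a + z + p * z + d) :=
    mul_le_mul_of_nonneg_left (by linarith) (by positivity)
  have e8 : 66 * C * (a + z + p * z + d) ≤ 132 * (C + 2) * (a + z + p * z + d) :=
    mul_le_mul_of_nonneg_right (by linarith) (by positivity)
  linarith

lemma int_pm {m : Measure (V × V)} (hm : PM 7 m) {h : V × V → ℝ} (hh : Continuous h) :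
    Integrable h m := by
  have := hm.1
  obtain ⟨C, hC⟩ := ((isCompact_closedBall (0 : V) 7).prod
    (isCompact_closedBall (0 : V) 1)).exists_bound_of_continuousOn hh.continuousOn
  refine Integrable.of_bound hh.aestronglyMeasurable C (hm.2.mono fun p hp => hC p ⟨?_, ?_⟩)
  · exact mem_closedBall_zero_iff.2 hp.1
  · exact mem_closedBall_zero_iff.2 hp.2.le

lemma cut_supp {x : V} (hx : cut 3 x ≠ 0) : ‖x‖ ≤ 4 := by
  by_contra h
  exact hx (cut_zero (by norm_num) (by linarith [not_le.1 h]))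

lemma int_cut {h : V → ℝ} (hh : Continuous h) : Integrable (fun x => cut 3 x ^ 2 * h x) := by
  refine Continuous.integrable_of_hasCompactSupport (((cut_sm 3).continuous.pow 2).mul hh)
    (HasCompactSupport.intro (isCompact_closedBall (0 : V) 4) fun x hx => ?_)
  have : cut 3 x = 0 := by
    by_contra h0
    exact hx (mem_closedBall_zero_iff.2 (cut_supp h0))
  simp [this]

variable {F : Frame} {U φ : V → ℝ} {S : V → Cov}

lemma cc_b (hU : ContDiff ℝ ∞ U) (h1 : ∀ x, 1 ≤ U x) (hS : ContDiff ℝ ∞ S) :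
    Cc 6 (fun x => (cut 3 x ^ 2 * (U x)⁻¹) • S x) := by
  refine Cc.smul_right ⟨((cut_sm 3).pow 2).mul (hU.inv fun x => (one_pos.trans_le (h1 x)).ne'),
    fun y hy => ?_⟩ hS
  simp [cut_zero (r := 3) (y := y) (by norm_num) (by linarith)]

lemma d1_b (F : Frame) (hU : ContDiff ℝ ∞ U) (h1 : ∀ x, 1 ≤ U x) (hS : ContDiff ℝ ∞ S) (h : NatS)
    (x : V) : d1 (fun x => (cut 3 x ^ 2 * (U x)⁻¹) • S x) x =
      (2 * cut 3 x * (U x)⁻¹) • w1 (fderiv ℝ (cut 3) x) (S x)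
        - (cut 3 x * (U x)⁻¹) ^ 2 • w1 (fderiv ℝ U x) (F.dc U x)
        - (cut 3 x * (U x)⁻¹) ^ 2 • w1 (fderiv ℝ U x) (S x - F.dc U x)
        + (cut 3 x ^ 2 * (U x)⁻¹) • d1 S x := by
  have hU0 : U x ≠ 0 := (one_pos.trans_le (h1 x)).ne'
  have a1 := ((cut_sm 3).differentiable (by simp) x).hasFDerivAt
  have a2 := (hU.differentiable (by simp) x).hasFDerivAt
  have a3 := (a1.pow 2).fun_mul ((hasDerivAt_inv hU0).comp_hasFDerivAt x a2)
  have a4 : HasFDerivAt (fun x => cut 3 x ^ 2 * (U x)⁻¹) _ x := a3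
  rw [h.d1_smul a4.differentiableAt (hS.differentiable (by simp) x), a4.fderiv]
  refine ap_ext fun p q => ?_
  simp only [ap_add, ap_sub, ap_smul, ap_w1, add_apply,
    smul_apply, sub_apply, smul_eq_mul, Function.comp_apply]
  field_simp
  ring

lemma ptT (hU : ContDiff ℝ ∞ U) (h1 : ∀ x, 1 ≤ U x) (hS : ContDiff ℝ ∞ S) (h : NatS)
    (hφ : ∀ x, 0 ≤ φ x) {K C1 C2 : ℝ} (hK : ∀ x, ‖fderiv ℝ (cut 3) x‖ ≤ K) (hC1 : 0 ≤ C1)
    (hC2 : 0 ≤ C2) {x u : V} (hu : ‖u‖ = 1)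
    (hs : ‖x‖ ≤ 4 → ‖S x - F.dc U x‖ ≤ C1 * (U x + φ x))
    (hd : ‖x‖ ≤ 4 → ap (d1 S x) u (F.J x u) ≤ C2 * (U x + φ x)) :
    ap (d1 (fun x => (cut 3 x ^ 2 * (U x)⁻¹) • S x) x) u (F.J x u) ≤
      -(1 / 2) * (cut 3 x ^ 2 * (U x ^ 2)⁻¹ * (fderiv ℝ U x u ^ 2 + fderiv ℝ U x (F.J x u) ^ 2))
        + (25 * K ^ 2 + 20 * C1 ^ 2 + 2 * C2) * (1 + φ x ^ 2 * (cut 3 x ^ 2 * (U x ^ 2)⁻¹)) := by
  rw [d1_b F hU h1 hS h]
  by_cases h0 : cut 3 x = 0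
  · simp [h0]
    positivity
  have hx := cut_supp h0
  have hU0 : 0 < U x := one_pos.trans_le (h1 x)
  have hz0 := cut_nonneg 3 x
  have hz1 := cut_le_one 3 x
  have hφx := hφ x
  have hJ : ‖F.J x u‖ ≤ 2 := by simpa [hu] using F.norm_J_le x u
  have hw : 0 ≤ cut 3 x * (U x)⁻¹ := by positivity
  have hb : cut 3 x * (U x)⁻¹ * (U x + φ x) ≤ 1 + cut 3 x * (U x)⁻¹ * φ x := by
    rw [mul_add, inv_mul_cancel_right₀ hU0.ne']; linarith
  have hb' : cut 3 x * (U x)⁻¹ * ‖S x - F.dc U x‖ ≤ C1 * (1 + cut 3 x * (U x)⁻¹ * φ x) :=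
    calc _ ≤ cut 3 x * (U x)⁻¹ * (C1 * (U x + φ x)) := mul_le_mul_of_nonneg_left (hs hx) hw
      _ = C1 * (cut 3 x * (U x)⁻¹ * (U x + φ x)) := by ring
      _ ≤ _ := mul_le_mul_of_nonneg_left hb hC1
  have key := alg1 (A := cut 3 x * (U x)⁻¹ * fderiv ℝ U x u)
    (A' := cut 3 x * (U x)⁻¹ * fderiv ℝ U x (F.J x u)) (k1 := fderiv ℝ (cut 3) x u)
    (k2 := fderiv ℝ (cut 3) x (F.J x u)) (s1 := cut 3 x * (U x)⁻¹ * (S x - F.dc U x) u)
    (s2 := cut 3 x * (U x)⁻¹ * (S x - F.dc U x) (F.J x u))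
    (T := cut 3 x ^ 2 * (U x)⁻¹ * ap (d1 S x) u (F.J x u)) (φ := cut 3 x * (U x)⁻¹ * φ x)
    (K := K) (C1 := C1) ?_ ?_ ?_ ?_ ?_ hC2
  · refine le_of_eq_of_le ?_ (key.trans_eq ?_)
    · simp only [ap_add, ap_sub, ap_smul, ap_w1, sub_apply, Frame.dc,
        neg_apply, ContinuousLinearMap.comp_apply, Frame.J_J, map_neg]
      ring
    · ring
  · simpa [hu] using (fderiv ℝ (cut 3) x).le_of_opNorm_le (hK x) u
  · have := (fderiv ℝ (cut 3) x).le_of_opNorm_le_of_le (hK x) hJ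
    rwa [mul_comm] at this
  · rw [abs_mul, abs_of_nonneg hw]
    refine le_trans (mul_le_mul_of_nonneg_left ?_ hw) hb'
    simpa [hu] using (S x - F.dc U x).le_opNorm u
  · rw [abs_mul, abs_of_nonneg hw]
    have := mul_le_mul_of_nonneg_left ((S x - F.dc U x).le_opNorm_of_le hJ) hw
    rw [Real.norm_eq_abs] at this
    linarith
  · calc _ ≤ cut 3 x ^ 2 * (U x)⁻¹ * (C2 * (U x + φ x)) :=
          mul_le_mul_of_nonneg_left (hd hx) (by positivity)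
      _ = C2 * (cut 3 x * (cut 3 x * (U x)⁻¹ * (U x + φ x))) := by ring
      _ ≤ C2 * (1 * (1 + cut 3 x * (U x)⁻¹ * φ x)) := by gcongr
      _ = _ := by rw [one_mul]

lemma cm_w1 (F : Frame) (x : V) (ξ η : Cov) : ‖F.cm x (w1 ξ η)‖ ≤ 66 * (‖ξ‖ * ‖η‖) := by
  have := norm_w1_le ξ η
  have := F.norm_cm_le x (w1 ξ η)
  linarith

lemma ptS (hU : ContDiff ℝ ∞ U) (h1 : ∀ x, 1 ≤ U x) (hS : ContDiff ℝ ∞ S) (h : NatS)
    (hφ : ∀ x, 0 ≤ φ x) {K C1 : ℝ} (hK : ∀ x, ‖fderiv ℝ (cut 3) x‖ ≤ K) (hC1 : 0 ≤ C1)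
    {x : V} (hs : ‖x‖ ≤ 4 → ‖S x - F.dc U x‖ ≤ C1 * (U x + φ x)) :
    ‖F.cm x (d1 (fun x => (cut 3 x ^ 2 * (U x)⁻¹) • S x) x)‖ ^ 2 ≤
      8 * (132 * (K + 1) * (C1 + 2)) ^ 2 *
        (cut 3 x ^ 2 * (U x ^ 2)⁻¹ * ‖fderiv ℝ U x‖ ^ 2 + cut 3 x ^ 2 * 1 + φ x ^ 2 * cut 3 x ^ 2
          + φ x ^ 2 * (cut 3 x ^ 2 * ((U x ^ 4)⁻¹ * ‖fderiv ℝ U x‖ ^ 2)))
        + 2 * (cut 3 x ^ 2 * ‖F.cm x (d1 S x)‖ ^ 2) := by
  rw [d1_b F hU h1 hS h]
  by_cases h0 : cut 3 x = 0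
  · simp [h0]
  have hx := cut_supp h0
  have hU0 : 0 < U x := one_pos.trans_le (h1 x)
  have hz0 := cut_nonneg 3 x
  have hz1 := cut_le_one 3 x
  have hφx := hφ x
  have hK0 : 0 ≤ K := (norm_nonneg _).trans (hK x)
  have hi0 : 0 < (U x)⁻¹ := inv_pos.2 hU0
  have hi1 : (U x)⁻¹ ≤ 1 := inv_le_one_of_one_le₀ (h1 x)
  have hUi : (U x)⁻¹ * U x = 1 := inv_mul_cancel₀ hU0.ne'
  have hdc : ‖F.dc U x‖ ≤ ‖fderiv ℝ U x‖ * 2 := by
    rw [Frame.dc, norm_neg]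
    exact ((fderiv ℝ U x).opNorm_comp_le _).trans
      (mul_le_mul_of_nonneg_left (F.opNorm_J x) (norm_nonneg _))
  have hS' : ‖S x‖ ≤ ‖fderiv ℝ U x‖ * 2 + C1 * (U x + φ x) := by
    have := norm_le_norm_add_norm_sub' (S x) (F.dc U x)
    linarith [hs hx]
  have hz : F.cm x (w1 (fderiv ℝ U x) (F.dc U x)) = 0 := F.cm_w1_J x _
  refine (alg2 (C := 132 * (K + 1) * (C1 + 2)) (a := cut 3 x * (U x)⁻¹ * ‖fderiv ℝ U x‖)
    (b := cut 3 x) (c := φ x * cut 3 x) (d := φ x * (cut 3 x * ((U x)⁻¹ ^ 2 * ‖fderiv ℝ U x‖)))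
    (e := cut 3 x * ‖F.cm x (d1 S x)‖) (norm_nonneg _) ?_).trans_eq (by ring)
  rw [map_add, map_sub, map_sub, map_smul, map_smul, map_smul, map_smul, hz, smul_zero, sub_zero]
  refine (norm_add_le _ _).trans (add_le_add ((norm_sub_le _ _).trans ?_) ?_)
  · rw [norm_smul, norm_smul, Real.norm_of_nonneg (by positivity),
      Real.norm_of_nonneg (by positivity)]
    have b1 : ‖F.cm x (w1 (fderiv ℝ (cut 3) x) (S x))‖ ≤
        66 * (K * (‖fderiv ℝ U x‖ * 2 + C1 * (U x + φ x))) :=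
      (cm_w1 F x _ _).trans (by gcongr; exact hK x)
    have b2 : ‖F.cm x (w1 (fderiv ℝ U x) (S x - F.dc U x))‖ ≤
        66 * (‖fderiv ℝ U x‖ * (C1 * (U x + φ x))) :=
      (cm_w1 F x _ _).trans (by gcongr; exact hs hx)
    exact alg3 hz0 hz1 hi0.le hi1 hUi (norm_nonneg _) hφx hK0 hC1 b1 b2
  · rw [norm_smul, Real.norm_of_nonneg (by positivity)]
    refine mul_le_mul_of_nonneg_right ?_ (norm_nonneg _)
    calc cut 3 x ^ 2 * (U x)⁻¹ = cut 3 x * (cut 3 x * (U x)⁻¹) := by ring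
      _ ≤ cut 3 x * (1 * 1) := by gcongr
      _ = _ := by ring

variable {m : Measure (V × V)} {f : V → E2} {Dn : ℝ}

lemma cont_om (hU : ContDiff ℝ ∞ U) (h1 : ∀ x, 1 ≤ U x) (k : ℕ) :
    Continuous fun x => (U x ^ k)⁻¹ :=
  (hU.continuous.pow k).inv₀ fun x => (pow_pos (one_pos.trans_le (h1 x)) k).ne'

lemma schur_m (h3 : SchurS) (h4 : NewS F) (h5 : USm F) (hL : LH F m f Dn) : ∃ C, 0 ≤ C ∧
    ∀ δ : ℝ, 0 < δ → δ ≤ 1 → Continuous (ff f δ) ∧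
      ∫ p, ff f δ p.1 ^ 2 * (cut 3 p.1 ^ 2 * (F.U m δ p.1 ^ 2)⁻¹) ∂m ≤ C := by
  obtain ⟨C, hC, hS⟩ := h3
  obtain ⟨B, hB, hb⟩ := h4.bd
  have := hL.pm.1
  refine ⟨C * (2 * B) * ∫ z, ‖f z‖ ^ 2,
    mul_nonneg (by positivity) (integral_nonneg fun _ => by positivity), fun δ hδ hδ1 => ?_⟩
  obtain ⟨hU, h1, -, hi, -⟩ := (h5 m f Dn hL).2 δ hδ
  have hc : Continuous fun p : V × V => cut 3 p.1 ^ 2 * (F.U m δ p.1 ^ 2)⁻¹ :=
    (((cut_sm 3).continuous.pow 2).mul (cont_om hU h1 2)).comp continuous_fst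
  have key := hS (V × V) m Prod.fst (fun p => cut 3 p.1 ^ 2 * (F.U m δ p.1 ^ 2)⁻¹) (F.U m δ) f δ
    (2 * B) hδ measurable_fst hc.measurable (fun _ => by positivity) (int_pm hL.pm hc)
    (fun p hp => cut_supp fun h0 => hp (by simp [h0])) hU.continuous h1 hL.l2 (by positivity) ?_
  · exact ⟨key.1, key.2.2⟩
  intro x hx
  have h2 : ∫ p, 2 * B * (cut 5 p.1 * ‖F.A p.1 p.2‖ ^ 2 * F.Nz δ p.1 x) ∂m ≤ 2 * B * F.U m δ x := by
    rw [integral_const_mul, Frame.U]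
    exact mul_le_mul_of_nonneg_left (le_add_of_nonneg_left zero_le_one) (by positivity)
  refine le_trans (integral_mono_of_nonneg (Eventually.of_forall fun p => ?_)
    ((hi x).const_mul _) (hL.pm.2.mono fun p hp => ?_)) h2
  · have := kp_pos hδ 2 (p.1 - x)
    have := h1 p.1
    positivity
  have hN : 0 ≤ F.Nz δ p.1 x := by unfold Frame.Nz nk; positivity
  by_cases h0 : cut 3 p.1 = 0
  · have := cut_nonneg 5 p.1
    simp only [h0, ne_eq, OfNat.ofNat_ne_zero, not_false_eq_true, zero_pow, zero_mul, mul_zero]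
    positivity
  have hp4 := cut_supp h0
  have hk := (hb δ x p.1 hδ hδ1 ((norm_sub_le _ _).trans (by linarith))).1
  have hA : 3 / 4 ≤ ‖F.A p.1 p.2‖ := by simpa [hp.2] using F.le_norm_A p.1 p.2
  have hA2 : 1 ≤ 2 * ‖F.A p.1 p.2‖ ^ 2 := by nlinarith
  have hU1 := h1 p.1
  have hw : F.U m δ p.1 * (cut 3 p.1 ^ 2 * (F.U m δ p.1 ^ 2)⁻¹) ≤ 1 := by
    have e : F.U m δ p.1 * (cut 3 p.1 ^ 2 * (F.U m δ p.1 ^ 2)⁻¹) =
        cut 3 p.1 ^ 2 * (F.U m δ p.1)⁻¹ := by field_simp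
    rw [e]
    exact mul_le_one₀ (pow_le_one₀ (cut_nonneg _ _) (cut_le_one _ _)) (by positivity)
      (inv_le_one_of_one_le₀ hU1)
  simp only
  rw [cut_one (r := 5) (by linarith), mul_assoc, kp_sub]
  refine (mul_le_of_le_one_right (kp_pos hδ 2 _).le hw).trans (hk.trans ?_)
  nlinarith [mul_le_mul_of_nonneg_left hA2 (mul_nonneg hB hN)]

lemma schur_1 (h2 : ConvS) (h3 : SchurS) (hf : MemLp f 2 volume) : ∃ C, 0 ≤ C ∧
    ∀ δ : ℝ, 0 < δ → δ ≤ 1 → ∫ x, ff f δ x ^ 2 * cut 3 x ^ 2 ≤ C := by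
  obtain ⟨C, hC, hS⟩ := h3
  obtain ⟨B, hB, hb⟩ := h2.c1
  refine ⟨C * (9 * B) * ∫ z, ‖f z‖ ^ 2,
    mul_nonneg (by positivity) (integral_nonneg fun _ => by positivity), fun δ hδ hδ1 => ?_⟩
  refine (hS V volume id (fun x => cut 3 x ^ 2) (fun _ => 1) f δ (9 * B) hδ measurable_id
    ((cut_sm 3).continuous.pow 2).measurable (fun _ => by positivity)
    (by simpa using int_cut (h := fun _ => 1) continuous_const)
    (fun p hp => cut_supp (x := p) fun h0 => hp (by simp [h0])) continuous_const (fun _ => le_rfl) hf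
    (by positivity) fun x hx => ?_).2.2
  have hk : Continuous fun z => kp δ 3 (x - z) :=
    (continuous_kp hδ 3).comp (continuous_const.sub continuous_id)
  have h1 : ∫ y, (closedBall x 16).indicator (fun z => 9 * kp δ 3 (x - z)) y ≤ 9 * B * 1 := by
    rw [integral_indicator measurableSet_closedBall, integral_const_mul, mul_one]
    exact mul_le_mul_of_nonneg_left (hb δ x hδ) (by norm_num)
  refine le_trans (integral_mono_of_nonneg (Eventually.of_forall fun y => ?_) ?_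
    (Eventually.of_forall fun y => ?_)) h1
  · have := kp_pos hδ 2 (y - x)
    simp only [id]
    positivity
  · exact (integrable_indicator_iff measurableSet_closedBall).2
      ((continuous_const.mul hk).continuousOn.integrableOn_compact (isCompact_closedBall _ _))
  simp only [id, mul_one]
  have hk3 := kp_pos hδ 3 (x - y)
  by_cases h0 : cut 3 y = 0
  · rw [h0, zero_pow two_ne_zero, mul_zero]
    exact indicator_nonneg (fun z _ => (mul_pos (by norm_num) (kp_pos hδ 3 _)).le) _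
  have hd : ‖x - y‖ ≤ 8 := (norm_sub_le _ _).trans (by linarith [cut_supp h0])
  rw [indicator_of_mem (mem_closedBall_iff_norm'.2 (by linarith)), kp_sub]
  refine (mul_le_of_le_one_right (kp_pos hδ 2 _).le
    (pow_le_one₀ (cut_nonneg _ _) (cut_le_one _ _))).trans ?_
  rw [kp_succ hδ 2]
  exact mul_le_mul_of_nonneg_right (by linarith) hk3.le

lemma schur_2 (h3 : SchurS) (h5 : USm F) (h9 : LebS F) (hL : LH F m f Dn) : ∃ C, 0 ≤ C ∧
    ∀ δ : ℝ, 0 < δ → δ ≤ 1 → ∫ x, ff f δ x ^ 2 *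
      (cut 3 x ^ 2 * ((F.U m δ x ^ 4)⁻¹ * ‖fderiv ℝ (F.U m δ) x‖ ^ 2)) ≤ C := by
  obtain ⟨C, hC, hS⟩ := h3
  obtain ⟨B, hB, hb⟩ := h9 m f Dn hL
  refine ⟨C * B * ∫ z, ‖f z‖ ^ 2,
    mul_nonneg (by positivity) (integral_nonneg fun _ => by positivity), fun δ hδ hδ1 => ?_⟩
  obtain ⟨hU, h1, -⟩ := (h5 m f Dn hL).2 δ hδ
  have hc : Continuous fun x => (F.U m δ x ^ 4)⁻¹ * ‖fderiv ℝ (F.U m δ) x‖ ^ 2 :=
    (cont_om hU h1 4).mul ((cd_fderiv hU).continuous.norm.pow 2)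
  refine (hS V volume id (fun x => cut 3 x ^ 2 * ((F.U m δ x ^ 4)⁻¹ * ‖fderiv ℝ (F.U m δ) x‖ ^ 2))
    (F.U m δ) f δ B hδ measurable_id (((cut_sm 3).continuous.pow 2).mul hc).measurable
    (fun _ => by positivity) (int_cut hc)
    (fun p hp => cut_supp (x := p) fun h0 => hp (by simp [h0]))
    hU.continuous h1 hL.l2 hB fun x hx => le_of_eq_of_le ?_ ((hb δ hδ hδ1).2 x hx)).2.2
  refine integral_congr_ae (Eventually.of_forall fun y => ?_)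
  have := (one_pos.trans_le (h1 y)).ne'
  simp only [id]
  field_simp

lemma int_s3 {g : V → ℝ} (hg : Continuous g) :
    ∫ x, cut 3 x ^ 2 * g x ^ 2 ≤ ∫ x in closedBall (0 : V) 4, g x ^ 2 := by
  rw [← integral_indicator measurableSet_closedBall]
  refine integral_mono (int_cut (hg.pow 2)) ((integrable_indicator_iff measurableSet_closedBall).2
    ((hg.pow 2).continuousOn.integrableOn_compact (isCompact_closedBall _ _))) fun y => ?_
  simp only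
  by_cases h0 : cut 3 y = 0
  · rw [h0, zero_pow two_ne_zero, zero_mul]
    exact indicator_nonneg (fun z _ => sq_nonneg _) _
  rw [indicator_of_mem (mem_closedBall_zero_iff.2 (cut_supp h0))]
  exact mul_le_of_le_one_left (sq_nonneg _) (pow_le_one₀ (cut_nonneg _ _) (cut_le_one _ _))

lemma sigma_le (h1 : NatS) (h2 : ConvS) (h3 : SchurS) (h4 : NewS F) (h5 : USm F) (h6 : S1S F)
    (h8 : S3S F) (h9 : LebS F) (hL : LH F m f Dn) : ∃ C, 0 ≤ C ∧ ∀ δ : ℝ, 0 < δ → δ ≤ 1 →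
      ∫ z, ⟪f z, F.cm z (d1 (fun x => (cut 3 x ^ 2 * (F.U m δ x)⁻¹) • F.S m f δ x) z)⟫ ≤ C := by
  obtain ⟨K, -, hK⟩ := (cut_cc (r := 3) (by norm_num)).fderiv.bounded
  obtain ⟨C0, -, hC0⟩ := schur_m h3 h4 h5 hL
  obtain ⟨C1, p1, hC1⟩ := h6 m f Dn hL
  obtain ⟨C2, p2, hC2⟩ := h9 m f Dn hL
  obtain ⟨C3, p3, hC3⟩ := schur_1 h2 h3 hL.l2
  obtain ⟨C4, p4, hC4⟩ := schur_2 h3 h5 h9 hL
  obtain ⟨C5, p5, hC5⟩ := h8 m f Dn hL
  have p6 : 0 ≤ ∫ z, ‖f z‖ ^ 2 := integral_nonneg fun _ => by positivity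
  have p7 : 0 ≤ ∫ x, cut 3 x ^ 2 * 1 := integral_nonneg fun _ => by positivity
  refine ⟨(∫ z, ‖f z‖ ^ 2) + (8 * (132 * (K + 1) * (C1 + 2)) ^ 2 *
    (C2 + (∫ x, cut 3 x ^ 2 * 1) + C3 + C4) + 2 * C5), by positivity, fun δ hδ hδ1 => ?_⟩
  obtain ⟨hU, hU1, hS, -⟩ := (h5 m f Dn hL).2 δ hδ
  have hb := (cc_b hU hU1 hS).d1
  have hφ := (hC0 δ hδ hδ1).1
  have hφ0 : ∀ x, 0 ≤ ff f δ x := fun x => integral_nonneg fun z =>
    mul_nonneg (mul_nonneg (cut_nonneg _ _) (kp_pos hδ _ _).le) (norm_nonneg _)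
  have hD := (cd_fderiv hU).continuous.norm.pow 2
  have hG : Continuous fun x => ‖F.cm x (d1 (F.S m f δ) x)‖ :=
    (F.sm_cm.clm_apply (cd_d1 hS)).continuous.norm
  have i0 : Integrable fun z => ‖f z‖ ^ 2 := (memLp_two_iff_integrable_sq_norm hL.l2.1).1 hL.l2
  have i1 : Integrable fun x => cut 3 x ^ 2 * (F.U m δ x ^ 2)⁻¹ * ‖fderiv ℝ (F.U m δ) x‖ ^ 2 :=
    (int_cut ((cont_om hU hU1 2).mul hD)).congr (Eventually.of_forall fun x => (mul_assoc _ _ _).symm)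
  have i2 : Integrable fun x => cut 3 x ^ 2 * 1 := int_cut continuous_const
  have i3 : Integrable fun x => ff f δ x ^ 2 * cut 3 x ^ 2 :=
    (int_cut (hφ.pow 2)).congr (Eventually.of_forall fun x => mul_comm _ _)
  have i4 : Integrable fun x => ff f δ x ^ 2 *
      (cut 3 x ^ 2 * ((F.U m δ x ^ 4)⁻¹ * ‖fderiv ℝ (F.U m δ) x‖ ^ 2)) :=
    (int_cut ((hφ.pow 2).mul ((cont_om hU hU1 4).mul hD))).congr
      (Eventually.of_forall fun x => mul_left_comm _ _ _)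
  have i5 : Integrable fun x => cut 3 x ^ 2 * ‖F.cm x (d1 (F.S m f δ) x)‖ ^ 2 := int_cut (hG.pow 2)
  have j1 := i1.fun_add i2
  have j2 := j1.fun_add i3
  have j3 := j2.fun_add i4
  have j4 := (j3.const_mul (8 * (132 * (K + 1) * (C1 + 2)) ^ 2)).fun_add (i5.const_mul 2)
  refine (integral_mono ((h5 m f Dn hL).1 _ hb.continuous fun y hy => hb.2 y (by linarith)).2
    (i0.fun_add j4) fun z => ?_).trans ?_
  · have e1 := ptS hU hU1 hS h1 hφ0 hK p1 (hC1 δ z hδ hδ1)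
    have e2 := real_inner_le_norm (f z)
      (F.cm z (d1 (fun x => (cut 3 x ^ 2 * (F.U m δ x)⁻¹) • F.S m f δ x) z))
    refine e2.trans (le_trans ?_ (add_le_add_right e1 _))
    nlinarith [sq_nonneg (‖f z‖ -
      ‖F.cm z (d1 (fun x => (cut 3 x ^ 2 * (F.U m δ x)⁻¹) • F.S m f δ x) z)‖)]
  · rw [integral_add i0 j4, integral_add (j3.const_mul _) (i5.const_mul 2), integral_const_mul,
      integral_const_mul, integral_add j2 i4, integral_add j1 i3, integral_add i1 i2]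
    have := (hC2 δ hδ hδ1).1
    have := hC3 δ hδ hδ1
    have := hC4 δ hδ hδ1
    have := (int_s3 hG).trans (hC5 δ hδ hδ1)
    gcongr

end En

open En in
theorem enS {F : Frame} (h1 : NatS) (h2 : ConvS) (h3 : SchurS) (h4 : NewS F) (h5 : USm F)
    (h6 : S1S F) (h7 : S2S F) (h8 : S3S F) (h9 : LebS F) : EnS F := by
  intro m f Dn hL
  obtain ⟨K, -, hK⟩ := (cut_cc (r := 3) (by norm_num)).fderiv.bounded
  obtain ⟨C0, p0, hC0⟩ := schur_m h3 h4 h5 hL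
  obtain ⟨C1, p1, hC1⟩ := h6 m f Dn hL
  obtain ⟨C2, p2, hC2⟩ := h7 m f Dn hL
  obtain ⟨C3, p3, hC3⟩ := sigma_le h1 h2 h3 h4 h5 h6 h8 h9 hL
  have := hL.pm.1
  have p4 : 0 ≤ m.real univ := measureReal_nonneg
  refine ⟨2 * ((25 * K ^ 2 + 20 * C1 ^ 2 + 2 * C2) * (m.real univ + C0) + C3), by positivity,
    fun δ hδ hδ1 => ?_⟩
  obtain ⟨hU, hU1, hS, -⟩ := (h5 m f Dn hL).2 δ hδ
  have hb := cc_b hU hU1 hS
  have hφ := (hC0 δ hδ hδ1).1
  have hφ0 : ∀ x, 0 ≤ ff f δ x := fun x => integral_nonneg fun z =>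
    mul_nonneg (mul_nonneg (cut_nonneg _ _) (kp_pos hδ _ _).le) (norm_nonneg _)
  have hc : Continuous fun p : V × V => cut 3 p.1 ^ 2 * (F.U m δ p.1 ^ 2)⁻¹ :=
    (((cut_sm 3).continuous.pow 2).mul (cont_om hU hU1 2)).comp continuous_fst
  have hD := (cd_fderiv hU).continuous.comp (continuous_fst (Y := V))
  have i1 : Integrable (fun p : V × V => cut 3 p.1 ^ 2 * (F.U m δ p.1 ^ 2)⁻¹ *
      (fderiv ℝ (F.U m δ) p.1 p.2 ^ 2 + fderiv ℝ (F.U m δ) p.1 (F.J p.1 p.2) ^ 2)) m :=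
    int_pm hL.pm (hc.mul (((hD.clm_apply continuous_snd).pow 2).add ((hD.clm_apply
      ((F.smJ.continuous.comp continuous_fst).clm_apply continuous_snd)).pow 2)))
  have i2 : Integrable (fun p : V × V =>
      ff f δ p.1 ^ 2 * (cut 3 p.1 ^ 2 * (F.U m δ p.1 ^ 2)⁻¹)) m :=
    int_pm hL.pm (((hφ.comp continuous_fst).pow 2).mul hc)
  have j1 := (integrable_const (μ := m) (1 : ℝ)).fun_add i2
  have e1 := integral_mono_ae
    ((h5 m f Dn hL).1 _ hb.d1.continuous fun y hy => hb.d1.2 y (by linarith)).1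
    ((i1.const_mul (-(1 / 2))).fun_add (j1.const_mul (25 * K ^ 2 + 20 * C1 ^ 2 + 2 * C2)))
    (hL.pm.2.mono fun p hp => ptT hU hU1 hS h1 hφ0 hK p1 p2 hp.2 (hC1 δ p.1 hδ hδ1)
      fun hx => hC2 δ p.1 p.2 hδ hδ1 hx hp.2)
  rw [integral_add (i1.const_mul _) (j1.const_mul _), integral_const_mul, integral_const_mul,
    integral_add (integrable_const _) i2, integral_const, smul_eq_mul, mul_one] at e1
  have e2 := hL.cl _ hb
  rw [Frame.RR, TL] at e2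
  have e3 := hC3 δ hδ hδ1
  have e4 := mul_le_mul_of_nonneg_left (hC0 δ hδ hδ1).2
    (by positivity : 0 ≤ 25 * K ^ 2 + 20 * C1 ^ 2 + 2 * C2)
  linarith

end Vale.Agent.P204
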