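import Vale.Agent.P204.Stmt

/-! Closed taming forms with small anti-invariant part. -/

set_option maxSynthPendingDepth 3

open scoped Topology ContDiff RealInnerProductSpace Manifold
open Set Metric MeasureTheory Filter

noncomputable section
namespace Vale.Agent.P204

namespace F1

section abstract
variable {Y : Type*} [TopologicalSpace Y] [CompactSpace Y]

lemma riesz [T2Space Y] [MeasurableSpace Y] [BorelSpace Y] (L : C(Y, ℝ) →ₗ[ℝ] ℝ)
    (h : ∀ φ, 0 ≤ φ → 0 ≤ L φ) :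
    ∃ μ : Measure Y, IsFiniteMeasure μ ∧ ∀ φ : C(Y, ℝ), ∫ y, φ y ∂μ = L φ := by
  let L' : CompactlySupportedContinuousMap Y ℝ →ₗ[ℝ] ℝ :=
    { toFun := fun f => L f.toContinuousMap
      map_add' := fun f g => by rw [← map_add]; rfl
      map_smul' := fun c f => by rw [← map_smul]; rfl }
  let Λ := PositiveLinearMap.mk₀ L' (fun f hf => h _
    (fun y => CompactlySupportedContinuousMap.le_def.1 hf y))
  refine ⟨RealRMK.rieszMeasure Λ, inferInstance, fun φ => ?_⟩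
  exact RealRMK.integral_rieszMeasure Λ (CompactlySupportedContinuousMap.continuousMapEquiv φ)

def p1 (φ : C(Y, ℝ)) : ℝ := ‖φ ⊔ 0‖

lemma p1_nonneg (φ : C(Y, ℝ)) : 0 ≤ p1 φ := norm_nonneg _

lemma le_p1 (φ : C(Y, ℝ)) (y : Y) : φ y ≤ p1 φ := by
  have := (φ ⊔ 0).norm_coe_le_norm y
  rw [ContinuousMap.sup_apply, Real.norm_eq_abs] at this
  exact le_sup_left.trans ((le_abs_self _).trans this)

lemma p1_le {φ : C(Y, ℝ)} {c : ℝ} (hc : 0 ≤ c) (h : ∀ y, φ y ≤ c) : p1 φ ≤ c := by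
  refine (ContinuousMap.norm_le _ hc).2 fun y => ?_
  rw [ContinuousMap.sup_apply, Real.norm_eq_abs, ContinuousMap.zero_apply,
    abs_of_nonneg (le_max_right _ _)]
  exact max_le (h y) hc

lemma p1_add (φ ψ : C(Y, ℝ)) : p1 (φ + ψ) ≤ p1 φ + p1 ψ :=
  p1_le (add_nonneg (p1_nonneg _) (p1_nonneg _)) fun y => add_le_add (le_p1 φ y) (le_p1 ψ y)

lemma p1_smul {c : ℝ} (hc : 0 < c) (φ : C(Y, ℝ)) : p1 (c • φ) = c * p1 φ := by
  have : (c • φ) ⊔ 0 = c • (φ ⊔ 0) := by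
    ext y
    simp [mul_max_of_nonneg _ _ hc.le]
  rw [p1, this, norm_smul, Real.norm_eq_abs, abs_of_pos hc, p1]

lemma sep {Ω : Type*} [AddCommGroup Ω] [Module ℝ Ω] (N : Ω → ℝ) (h0 : ∀ x, 0 ≤ N x)
    (hadd : ∀ x y, N (x + y) ≤ N x + N y) (hs : ∀ (c : ℝ) x, N (c • x) = |c| * N x)
    (Z : Submodule ℝ Ω) (hat : Ω →ₗ[ℝ] C(Y, ℝ)) {η : ℝ} (hη : 0 < η)
    (hno : ¬ ∃ α ∈ Z, (∀ y, 1 ≤ hat α y) ∧ N α ≤ η) :
    ∃ (L : C(Y, ℝ) →ₗ[ℝ] ℝ) (s : Ω →ₗ[ℝ] ℝ), (∀ φ, 0 ≤ φ → 0 ≤ L φ) ∧ 1 ≤ L 1 ∧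
      (∀ α, |s α| ≤ η⁻¹ * N α) ∧ ∀ α ∈ Z, L (hat α) + s α = 0 := by
  have hN0 : N 0 = 0 := by simpa using hs 0 0
  have hneg : ∀ x, N (-x) = N x := fun x => by simpa using hs (-1) x
  have hp0 : p1 (0 : C(Y, ℝ)) = 0 := by simp [p1]
  obtain ⟨L, hL, hZ, h1⟩ := hb_kill (E := C(Y, ℝ) × Ω) (fun x => p1 x.1 + η⁻¹ * N x.2)
    (Z.map (hat.prod LinearMap.id)) (1, 0) 1
    (fun x => add_nonneg (p1_nonneg _) (mul_nonneg (inv_nonneg.2 hη.le) (h0 _)))
    (fun x y => by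
      have a1 := p1_add x.1 y.1
      have a2 := mul_le_mul_of_nonneg_left (hadd x.2 y.2) (inv_nonneg.2 hη.le)
      simp only [Prod.fst_add, Prod.snd_add]
      linarith)
    (fun c x hc => by
      simp only [Prod.smul_fst, Prod.smul_snd, p1_smul hc, hs, abs_of_pos hc]
      ring)
    (by
      rintro _ ⟨α, hα, rfl⟩
      by_contra hlt
      push Not at hlt
      have hlt' : p1 (1 - hat α) + η⁻¹ * N α < 1 := by simpa [hneg] using hlt
      have hn : 0 ≤ η⁻¹ * N α := mul_nonneg (inv_nonneg.2 hη.le) (h0 _)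
      set d := 1 - p1 (1 - hat α) with hd
      have hdp : 0 < d := by linarith
      refine hno ⟨d⁻¹ • α, Z.smul_mem _ hα, fun y => ?_, ?_⟩
      · have := le_p1 (1 - hat α) y
        simp only [ContinuousMap.sub_apply, ContinuousMap.one_apply] at this
        simp only [map_smul, ContinuousMap.smul_apply, smul_eq_mul]
        rw [le_inv_mul_iff₀ hdp]
        linarith
      · rw [hs, abs_of_pos (inv_pos.2 hdp), inv_mul_le_iff₀ hdp]
        have : η⁻¹ * N α ≤ d := by linarith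
        rw [inv_mul_le_iff₀ hη] at this
        linarith)
  refine ⟨L.comp (LinearMap.inl ℝ _ _), L.comp (LinearMap.inr ℝ _ _), fun φ hφ => ?_, h1,
    fun α => ?_, fun α hα => ?_⟩
  · have a1 := hL (-(φ, 0))
    have a2 : p1 (-φ) ≤ 0 := p1_le le_rfl fun y => by simpa using hφ y
    rw [map_neg] at a1
    simp only [Prod.neg_mk, neg_zero, hN0, mul_zero, add_zero] at a1
    change 0 ≤ L (φ, 0)
    linarith
  · have a1 := hL (0, α)
    have a2 := hL (-(0, α))
    rw [map_neg] at a2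
    simp only [Prod.neg_mk, neg_zero, hp0, zero_add, hneg] at a1 a2
    change |L (0, α)| ≤ _
    exact abs_le.2 ⟨by linarith, a1⟩
  · have := hZ (hat α, α) ⟨α, hα, rfl⟩
    change L (hat α, 0) + L (0, α) = 0
    rw [← map_add]
    simpa using this

/-- extension by zero from one sheet -/
def sheet {ι : Type*} [TopologicalSpace ι] [DiscreteTopology ι] [DecidableEq ι] (j : ι) :
    C(Y, ℝ) →ₗ[ℝ] C(ι × Y, ℝ) where
  toFun φ := ⟨fun q => (if q.1 = j then 1 else 0) * φ q.2,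
    ((continuous_of_discreteTopology (f := fun i : ι => if i = j then (1 : ℝ) else 0)).comp
      continuous_fst).mul (φ.continuous.comp continuous_snd)⟩
  map_add' φ ψ := by ext q; simp [mul_add]
  map_smul' c φ := by ext q; simp

lemma riesz_sheets {ι : Type*} [TopologicalSpace ι] [DiscreteTopology ι] [Fintype ι]
    [T2Space Y] [MeasurableSpace Y] [BorelSpace Y] (L : C(ι × Y, ℝ) →ₗ[ℝ] ℝ)
    (h : ∀ φ, 0 ≤ φ → 0 ≤ L φ) :
    ∃ μ : ι → Measure Y, (∀ j, IsFiniteMeasure (μ j)) ∧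
      ∀ φ : C(ι × Y, ℝ), ∑ j, ∫ y, φ (j, y) ∂(μ j) = L φ := by
  classical
  choose μ hμ using fun j : ι => riesz (L.comp (sheet j)) fun φ hφ => h _ fun q => by
    change (0 : ℝ) ≤ (if q.1 = j then 1 else 0) * φ q.2
    exact mul_nonneg (by split_ifs <;> norm_num) (hφ q.2)
  refine ⟨μ, fun j => (hμ j).1, fun φ => ?_⟩
  have e : ∀ j, ∫ y, φ (j, y) ∂(μ j)
      = L (sheet j (φ.comp ⟨fun y => (j, y), by fun_prop⟩)) := fun j =>
    (hμ j).2 (φ.comp ⟨fun y => (j, y), by fun_prop⟩)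
  simp_rw [e]
  rw [← map_sum]
  congr 1
  ext q
  rw [ContinuousMap.sum_apply, Finset.sum_eq_single q.1]
  · simp [sheet]
  · intro j _ hj
    simp [sheet, hj.symm]
  · simp

end abstract

variable {X : Type*} [TopologicalSpace X] {D : Dat X}

abbrev Kc := closedBall (0 : V) 1 × sphere (0 : V) 1

def emb (q : Kc) : V × V := (q.1, q.2)

lemma emb_closed : Topology.IsClosedEmbedding emb :=
  (isClosed_closedBall.isClosedEmbedding_subtypeVal).prodMap
    (isClosed_sphere.isClosedEmbedding_subtypeVal)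

def Om (h1 : FormS D) : Submodule ℝ (Form X) where
  carrier := {α | D.Sm α}
  add_mem' := fun ha hb => h1.sm_add _ _ ha hb
  zero_mem' := h1.sm_zero
  smul_mem' := fun c _ ha => h1.sm_smul c _ ha

def Zc (h1 : FormS D) : Submodule ℝ (Om h1) where
  carrier := {α | D.Cl α.1}
  add_mem' := fun {a b} ha hb => h1.cl_add _ _ a.2 b.2 ha hb
  zero_mem' := h1.cl_zero
  smul_mem' := fun c a ha => h1.cl_smul c _ a.2 ha

def hat (h1 : FormS D) : Om h1 →ₗ[ℝ] C(Fin D.n × Kc, ℝ) where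
  toFun α := ⟨fun q => ap (D.loc q.1 α.1 q.2.1) q.2.2 ((D.F q.1).J q.2.1 q.2.2), by
    refine continuous_prod_of_discrete_left.2 fun j => ?_
    have c1 : Continuous fun q : Kc => (q.1 : V) := continuous_subtype_val.comp continuous_fst
    have c2 : Continuous fun q : Kc => (q.2 : V) := continuous_subtype_val.comp continuous_snd
    have c3 : Continuous fun q : Kc => D.loc j α.1 q.1 :=
      (α.2 j).continuousOn.comp_continuous c1 fun q =>
        D.big j (closedBall_subset_closedBall (by norm_num) q.1.2)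
    have c4 : Continuous fun q : Kc => (D.F j).J q.1 q.2 :=
      ((D.F j).smJ.continuous.comp c1).clm_apply c2
    exact continuous_ap.comp (c3.prodMk (c2.prodMk c4))⟩
  map_add' α β := by ext q; simp [Atl.loc]
  map_smul' c α := by ext q; simp [Atl.loc]

end F1

variable {X : Type*} [TopologicalSpace X] [T2Space X] {D : Dat X}

theorem f1S (h1 : FormS D) (h2 : SemS D) (h3 : MTS D) : F1S D := by
  classical
  rintro ⟨α0, hs0, hc0, ht0⟩ k η hη
  by_contra hno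
  obtain ⟨L, s, hL, hL1, hs, hZ⟩ := F1.sep (Y := Fin D.n × F1.Kc) (Ω := F1.Om h1)
    (fun α => D.nrmm k α.1) (fun α => h2.nrmm_nn k _) (fun α β => h2.nrmm_add k _ _ α.2 β.2)
    (fun c α => h2.nrmm_smul k c _ α.2) (F1.Zc h1) (F1.hat h1) hη (by
      rintro ⟨α, hα, ha, hb⟩
      exact hno ⟨α.1, α.2, hα, fun j y v hy hv =>
        ha (j, ⟨y, by simpa using hy⟩, ⟨v, by simpa using hv⟩), hb⟩)
  obtain ⟨μ, hμ, hμ'⟩ := F1.riesz_sheets L hL
  let m : Fin D.n → Measure (V × V) := fun j => (μ j).map F1.emb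
  have hm : ∀ j, PM 1 (m j) := fun j => by
    have := hμ j
    refine ⟨inferInstance, ?_⟩
    rw [F1.emb_closed.measurableEmbedding.ae_map_iff]
    exact Eventually.of_forall fun q =>
      ⟨mem_closedBall_zero_iff.1 q.1.2, mem_sphere_zero_iff_norm.1 q.2.2⟩
  have hT : ∀ α : F1.Om h1, D.T m α.1 = L (F1.hat h1 α) := fun α => by
    rw [← hμ']
    refine Finset.sum_congr rfl fun j _ => ?_
    exact F1.emb_closed.integral_map _
  let s' : Form X → ℝ := fun α => if h : D.Sm α then s ⟨α, h⟩ else 0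
  have hs' : ∀ α (h : D.Sm α), s' α = s ⟨α, h⟩ := fun α h => dif_pos h
  have key := h3 m s' k η⁻¹ hm (inv_nonneg.2 hη.le)
    ⟨fun α β ha hb => by
      rw [hs' _ ha, hs' _ hb, hs' _ (h1.sm_add _ _ ha hb), ← map_add]; rfl,
     fun c α ha => by
      rw [hs' _ ha, hs' _ (h1.sm_smul c _ ha), ← smul_eq_mul, ← map_smul]; rfl⟩
    (fun α ha => by rw [hs' _ ha]; exact hs ⟨α, ha⟩)
    (fun α ha hc => by
      change D.T m α + s' α = 0
      rw [hs' _ ha, hT ⟨α, ha⟩]; exact hZ ⟨α, ha⟩ hc) α0 hs0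
  rw [hs' _ hs0] at key
  have h0 := hZ ⟨α0, hs0⟩ hc0
  rw [key, add_zero] at h0
  obtain ⟨c, hc, hc'⟩ := isCompact_univ.exists_forall_le'
    (F1.hat h1 ⟨α0, hs0⟩).continuous.continuousOn (a := 0) fun q _ =>
      h1.tm_loc α0 ht0 q.1 q.2.1 q.2.2 ((mem_closedBall_zero_iff.1 q.2.1.2).trans (by norm_num))
        (ne_zero_of_mem_unit_sphere q.2.2)
  have h4 := hL (F1.hat h1 ⟨α0, hs0⟩ - c • 1) fun q => by simpa using hc' q (mem_univ q)
  rw [map_sub, map_smul, h0, smul_eq_mul] at h4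
  nlinarith

end Vale.Agent.P204
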