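import Vale.Agent.P204.Stmt

/-! Approximation by closed forms and the final iteration. -/

set_option maxSynthPendingDepth 3

open scoped Topology ContDiff RealInnerProductSpace Manifold
open Set Metric MeasureTheory Filter

noncomputable section
namespace Vale.Agent.P204

variable {X : Type*} [TopologicalSpace X]

namespace F2
variable {D : Dat X}

/-- smooth forms -/
def Om (h1 : FormS D) : Submodule ℝ (Form X) where
  carrier := {α | D.Sm α}
  add_mem' := h1.sm_add _ _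
  zero_mem' := h1.sm_zero
  smul_mem' := h1.sm_smul

/-- pairs of opposite closed forms -/
def Zs (h1 : FormS D) : Submodule ℝ (Om h1 × Om h1) where
  carrier := {x | x.1 = -x.2 ∧ D.Cl x.2.1}
  add_mem' := fun {a b} ha hb => ⟨by rw [Prod.fst_add, Prod.snd_add, ha.1, hb.1, neg_add],
    h1.cl_add _ _ a.2.2 b.2.2 ha.2 hb.2⟩
  zero_mem' := ⟨neg_zero.symm, h1.cl_zero⟩
  smul_mem' := fun c a ha => ⟨by rw [Prod.smul_fst, Prod.smul_snd, ha.1, smul_neg],
    h1.cl_smul c _ a.2.2 ha.2⟩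

open Classical in
/-- extension by zero of a functional on smooth forms -/
def ex (h1 : FormS D) (l : Om h1 →ₗ[ℝ] ℝ) (α : Form X) : ℝ := if h : D.Sm α then l ⟨α, h⟩ else 0

lemma ex_eq (h1 : FormS D) (l : Om h1 →ₗ[ℝ] ℝ) {α : Form X} (h : D.Sm α) :
    ex h1 l α = l ⟨α, h⟩ := dif_pos h

lemma ex_fn (h1 : FormS D) (l : Om h1 →ₗ[ℝ] ℝ) : D.Fn (ex h1 l) :=
  ⟨fun α β a b => by rw [ex_eq _ _ a, ex_eq _ _ b, ex_eq _ _ (h1.sm_add _ _ a b), ← map_add]; rfl,
    fun c α a => by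
      rw [ex_eq _ _ a, ex_eq _ _ (h1.sm_smul c _ a), ← smul_eq_mul, ← map_smul]; rfl⟩

lemma sm_sub (h1 : FormS D) {α β : Form X} (a : D.Sm α) (b : D.Sm β) : D.Sm (α - β) :=
  (Om h1).sub_mem a b

lemma cl_sub (h1 : FormS D) {α β : Form X} (a : D.Sm α) (b : D.Sm β) (a' : D.Cl α)
    (b' : D.Cl β) : D.Cl (α - β) := by
  rw [sub_eq_add_neg, ← neg_one_smul ℝ β]
  exact h1.cl_add _ _ a (h1.sm_smul _ _ b) a' (h1.cl_smul _ _ b b')

end F2

variable [T2Space X] {D : Dat X}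

open F2 in
theorem f2S (h1 : FormS D) (h2 : SemS D) (h3 : DES D) : F2S D := by
  intro k k'
  obtain ⟨C, hC, H⟩ := h3 k k'
  refine ⟨C, hC, fun α η hα hη => ?_⟩
  by_contra hn
  set d := C * D.nrmm (k + 5) α + η with hd
  have d0 : 0 ≤ d / η := div_nonneg (by have := h2.nrmm_nn (k + 5) α; positivity) hη.le
  have ps : ∀ (c : ℝ) (x : Om h1 × Om h1), D.nrm k (c • x).1.1 + d / η * D.nrmm k' (c • x).2.1
      = |c| * (D.nrm k x.1.1 + d / η * D.nrmm k' x.2.1) := fun c x => by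
    rw [mul_add, mul_left_comm, ← h2.nrm_smul k c _ x.1.2, ← h2.nrmm_smul k' c _ x.2.2]
    rfl
  obtain ⟨L, l1, l2, l3⟩ := hb_kill
    (fun x : Om h1 × Om h1 => D.nrm k x.1.1 + d / η * D.nrmm k' x.2.1) (Zs h1) (0, ⟨α, hα⟩) d
    (fun x => add_nonneg (h2.nrm_nn _ _) (mul_nonneg d0 (h2.nrmm_nn _ _)))
    (fun x y => by
      have a := h2.nrm_add k _ _ x.1.2 y.1.2
      have b := mul_le_mul_of_nonneg_left (h2.nrmm_add k' _ _ x.2.2 y.2.2) d0
      exact (add_le_add a b).trans_eq (by ring))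
    (fun c x hc => (ps c x).trans (by rw [abs_of_pos hc]))
    (fun z hz => by
      show d ≤ D.nrm k (0 - z.1 : Om h1).1 + d / η * D.nrmm k' (α - z.2.1)
      rw [hz.1, zero_sub, neg_neg]
      by_contra hlt
      have a := h2.nrm_nn k z.2.1
      have b := mul_nonneg d0 (h2.nrmm_nn k' (α - z.2.1))
      refine hn ⟨z.2.1, z.2.2, hz.2, by linarith, not_lt.1 fun h => hlt ?_⟩
      have := mul_le_mul_of_nonneg_left h.le d0
      rw [div_mul_cancel₀ _ hη.ne'] at this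
      linarith)
  have la : ∀ x, |L x| ≤ D.nrm k x.1.1 + d / η * D.nrmm k' x.2.1 := fun x => by
    have := l1 ((-1 : ℝ) • x)
    rw [ps, map_smul, abs_neg, abs_one, one_mul, smul_eq_mul] at this
    exact abs_le.2 ⟨by linarith, l1 x⟩
  have z1 : D.nrm k 0 = 0 := by simpa using h2.nrm_smul k 0 0 h1.sm_zero
  have z2 : D.nrmm k' 0 = 0 := by simpa using h2.nrmm_smul k' 0 0 h1.sm_zero
  have := H _ _ _ d0 (ex_fn h1 (-L.comp (LinearMap.inl ℝ _ _)))
    (ex_fn h1 (L.comp (LinearMap.inr ℝ _ _)))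
    (fun β hβ => by simpa [ex_eq _ _ hβ, z2] using la (⟨β, hβ⟩, 0))
    (fun β hβ => by simpa [ex_eq _ _ hβ, z1] using la (0, ⟨β, hβ⟩))
    (fun β hβ hc => by
      simpa [ex_eq _ _ hβ, ← map_neg, ← map_add] using l2 (-⟨β, hβ⟩, ⟨β, hβ⟩) ⟨rfl, hc⟩) α hα
  rw [ex_eq _ _ hα] at this
  have := (l3.trans (le_abs_self _)).trans this
  linarith

open F2 in
theorem mainS (h1 : FormS D) (h2 : SemS D) (h3 : F1S D) (h4 : F2S D) : MainS D := by
  intro h
  choose C hC H using fun n => h4 n (n + 6)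
  choose! B b1 b2 b3 b4 using H
  let δ : ℕ → ℝ := fun n => (1 / 2) ^ n / (100 * (C n + 1))
  have δ0 : ∀ n, 0 < δ n := fun n => by have := hC n; positivity
  have δ1 : ∀ n, (C n + 1) * δ n = (1 / 2) ^ n / 100 := fun n => by
    have := hC n
    simp only [δ]
    field_simp
  have δ2 : ∀ n, δ n ≤ (1 / 2) ^ n / 100 := fun n => by
    have := mul_nonneg (hC n) (δ0 n).le
    linarith [δ1 n]
  obtain ⟨α0, a1, a2, a3, a4⟩ := h3 h 5 _ (δ0 0)
  let A : ℕ → Form X := fun n => Nat.rec α0 (fun n α => α - B n α (δ (n + 1))) n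
  let β : ℕ → Form X := fun n => B n (A n) (δ (n + 1))
  have hA : ∀ n, D.Sm (A n) ∧ D.nrmm (n + 5) (A n) ≤ δ n := fun n => by
    induction n with
    | zero => exact ⟨a1, a4⟩
    | succ n ih => exact ⟨sm_sub h1 ih.1 (b1 _ _ _ ih.1 (δ0 _)), b4 _ _ _ ih.1 (δ0 _)⟩
  have hA' : ∀ n x, A n x = α0 x - ∑ i ∈ Finset.range n, β i x := fun n x => by
    induction n with
    | zero => exact (sub_zero _).symm
    | succ n ih => rw [Finset.sum_range_succ, ← sub_sub, ← ih]; rfl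
  have s1 : ∀ n, D.Sm (β n) := fun n => b1 _ _ _ (hA n).1 (δ0 _)
  have s2 : ∀ n, D.nrm n (β n) ≤ 1 / 50 * (1 / 2) ^ n := fun n => by
    have e1 := b3 n _ _ (hA n).1 (δ0 (n + 1))
    have e2 := mul_le_mul_of_nonneg_left (hA n).2 (hC n)
    have e3 := δ2 (n + 1)
    have e4 : (0 : ℝ) < (1 / 2) ^ n := by positivity
    rw [pow_succ] at e3
    linarith [δ1 n, δ0 n]
  have s3 := hasSum_geometric_two.mul_left (1 / 50)
  obtain ⟨γ, g1, g2, g3⟩ := h2.series β s1 (fun n => b2 _ _ _ (hA n).1 (δ0 _))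
    (s3.summable.of_nonneg_of_le (fun n => h2.nrm_nn _ _) s2)
  refine ⟨α0 - γ, sm_sub h1 a1 g1, cl_sub h1 a1 g1 a2 g2, h1.tm_of _ fun j y v hy hv => ?_,
    (h1.inv_iff _).2 fun j => funext fun y => ?_⟩
  · have e1 : ‖D.loc j γ y‖ ≤ 1 / 50 * 2 :=
      ((pull _).hasSum (g3 _)).norm_le_of_bounded s3 fun n =>
        (h2.pt n j _ y (s1 n) (by linarith)).trans (s2 n)
    have e2 := abs_ap_le (D.loc j γ y) v ((D.F j).J y v)
    have e3 := (D.F j).norm_J_le y v
    have e4 : D.loc j (α0 - γ) y = D.loc j α0 y - D.loc j γ y := map_sub (pull _) _ _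
    rw [hv] at e2 e3
    rw [e4, ap_sub]
    nlinarith [a3 j y v hy hv, le_abs_self (ap (D.loc j γ y) v ((D.F j).J y v)),
      norm_nonneg ((D.F j).J y v), norm_nonneg (D.loc j γ y)]
  · have e1 : Tendsto (fun n => A n ((D.e j).symm y)) atTop (𝓝 ((α0 - γ) ((D.e j).symm y))) := by
      simp only [hA']
      exact (g3 _).tendsto_sum_nat.const_sub _
    have e2 : Tendsto (fun n => D.cj j (A n) y) atTop (𝓝 (D.cj j (α0 - γ) y)) :=
      ((((D.F j).cm y).continuous.tendsto _).comp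
        (((pull _).continuous.tendsto _).comp e1)).const_smul _
    refine tendsto_nhds_unique e2 (squeeze_zero_norm (fun n => (h2.cjpt _ j _ y (hA n).1).trans
      ((hA n).2.trans (δ2 n))) ?_)
    simpa using (tendsto_pow_atTop_nhds_zero_of_lt_one (r := (1 / 2 : ℝ)) (by norm_num)
      (by norm_num)).div_const 100

end Vale.Agent.P204
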