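import Vale.Agent.P204.Stmt

/-! Basic facts on forms in a finite atlas. -/

set_option maxSynthPendingDepth 3

open scoped Topology ContDiff RealInnerProductSpace Manifold
open Set Metric MeasureTheory Filter

noncomputable section
namespace Vale.Agent.P204

namespace FormAux

variable {X : Type*} [TopologicalSpace X]

lemma pull_fr_symm (L : V ≃L[ℝ] V) (h : E6) : pull (L : End) (pull (L.symm : End) h) = h := by
  rw [pull_pull]; simp

lemma pull_symm_fr (L : V ≃L[ℝ] V) (h : E6) : pull (L.symm : End) (pull (L : End) h) = h := by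
  rw [pull_pull]; simp

lemma cyc_congr {β β' : V → E6} {y : V} (h : β =ᶠ[𝓝 y] β') (u v w : V) :
    cyc β y u v w = cyc β' y u v w := by
  simp only [cyc, h.fderiv_eq]

lemma cyc_zero (y u v w : V) : cyc (fun _ => 0) y u v w = 0 := by
  simp [cyc]

variable (a : Atl X)

lemma ext0_of_mem {E : Type} [Zero E] {j : Fin a.n} (f : V → E) {x : X}
    (hx : x ∈ (a.e j).source) : a.ext0 j f x = f (a.e j x) := if_pos hx

lemma ext0_of_not {E : Type} [Zero E] {j : Fin a.n} (f : V → E) {x : X}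
    (hx : x ∉ (a.e j).source) : a.ext0 j f x = 0 := if_neg hx

lemma ext0_of_not_in {E : Type} [Zero E] {j : Fin a.n} {f : V → E} {r : ℝ}
    (hf : ∀ y, r < ‖y‖ → f y = 0) {x : X} (hx : ¬ a.In j r x) : a.ext0 j f x = 0 := by
  by_cases h : x ∈ (a.e j).source
  · rw [ext0_of_mem a f h]
    exact hf _ (lt_of_not_ge fun h' => hx ⟨h, h'⟩)
  · exact ext0_of_not a f h

lemma mem_target {j : Fin a.n} {y : V} (hy : ‖y‖ ≤ 12) : y ∈ (a.e j).target :=
  a.big j (by simpa using hy)

lemma in_symm {j : Fin a.n} {y : V} {r : ℝ} (hy : ‖y‖ ≤ r) (hr : r ≤ 12) :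
    a.In j r ((a.e j).symm y) := by
  have ht := mem_target a (j := j) (hy.trans hr)
  exact ⟨(a.e j).map_target ht, by rwa [(a.e j).right_inv ht]⟩

lemma loc_apply (j : Fin a.n) (α : Form X) {x : X} (hx : x ∈ (a.e j).source) :
    a.loc j α (a.e j x) = pull (a.fr j x : End) (α x) := by
  rw [Atl.loc, (a.e j).left_inv hx]

lemma loc_ext' (i j : Fin a.n) (β : V → E6) (y : V) : a.loc i (a.ext j β) y
    = pull (a.tr j i ((a.e i).symm y)) (a.ext0 j β ((a.e i).symm y)) := by
  rw [Atl.loc, Atl.ext, pull_pull]; rfl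

lemma loc_ext (j : Fin a.n) (β : V → E6) (y : V) (hy : y ∈ (a.e j).target) :
    a.loc j (a.ext j β) y = β y := by
  rw [Atl.loc, Atl.ext, pull_fr_symm, ext0_of_mem a β ((a.e j).map_target hy),
    (a.e j).right_inv hy]

lemma loc_loc (i j : Fin a.n) (α : Form X) (x : X) (hi : x ∈ (a.e i).source)
    (hj : x ∈ (a.e j).source) :
    a.loc j α (a.e j x) = pull (a.tr i j x) (a.loc i α (a.e i x)) := by
  rw [loc_apply a j α hj, loc_apply a i α hi, pull_pull]
  congr 2
  ext1 v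
  simp [Atl.tr]

lemma loc_dom (i j : Fin a.n) (α : Form X) {y : V} (hy : y ∈ a.dom i j) :
    a.loc j α y = pull (a.tr i j ((a.e j).symm y)) (a.loc i α (a.tm i j y)) := by
  have := loc_loc a i j α _ hy.2 ((a.e j).map_target hy.1)
  rwa [(a.e j).right_inv hy.1] at this

lemma closed_in [T2Space X] (j : Fin a.n) : IsClosed {x | a.In j 12 x} := by
  have : {x | a.In j 12 x} = (a.e j).symm '' closedBall 0 12 := by
    ext x
    constructor
    · rintro ⟨h1, h2⟩
      exact ⟨a.e j x, by simpa using h2, (a.e j).left_inv h1⟩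
    · rintro ⟨y, hy, rfl⟩
      exact in_symm a (by simpa using hy) le_rfl
  rw [this]
  exact ((isCompact_closedBall 0 12).image_of_continuousOn
    ((a.e j).continuousOn_symm.mono (a.big j))).isClosed

lemma loc_add (j : Fin a.n) (α β : Form X) : a.loc j (α + β) = a.loc j α + a.loc j β := by
  funext y; simp [Atl.loc]

lemma loc_smul (j : Fin a.n) (c : ℝ) (α : Form X) : a.loc j (c • α) = c • a.loc j α := by
  funext y; simp [Atl.loc]

lemma loc_zero (j : Fin a.n) : a.loc j 0 = fun _ => 0 := by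
  funext y; simp [Atl.loc]

lemma ext_add (j : Fin a.n) (β γ : V → E6) : a.ext j (β + γ) = a.ext j β + a.ext j γ := by
  funext x
  by_cases h : x ∈ (a.e j).source
  · simp [Atl.ext, ext0_of_mem a _ h]
  · simp [Atl.ext, ext0_of_not a _ h]

lemma ext_smul (j : Fin a.n) (c : ℝ) (β : V → E6) : a.ext j (c • β) = c • a.ext j β := by
  funext x
  by_cases h : x ∈ (a.e j).source
  · simp [Atl.ext, ext0_of_mem a _ h]
  · simp [Atl.ext, ext0_of_not a _ h]

variable {a}

lemma tm_at (g : GeoA a) {i j : Fin a.n} {y : V} (hy : y ∈ a.dom i j) :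
    ContDiffAt ℝ ∞ (a.tm i j) y :=
  (a.smooth i j).contDiffAt ((g.dom_open i j).mem_nhds hy)

lemma sm_at {α : Form X} (h : a.Sm α) {j : Fin a.n} {y : V} (hy : y ∈ (a.e j).target) :
    ContDiffAt ℝ ∞ (a.loc j α) y :=
  (h j).contDiffAt ((a.e j).open_target.mem_nhds hy)

lemma diff_at {α : Form X} (h : a.Sm α) {j : Fin a.n} {y : V} (hy : y ∈ (a.e j).target) :
    DifferentiableAt ℝ (a.loc j α) y :=
  (sm_at h hy).differentiableAt (by simp)

lemma sm_ext (g : GeoA a) (j : Fin a.n) (β : V → E6) (hβ : Cc 12 β) : a.Sm (a.ext j β) := by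
  intro i
  refine g.glue j i _ ?_ fun y _ hy => ?_
  · have h1 := (contDiff_pull (n := ∞)).comp_contDiffOn (g.tr_sm j i)
    have h2 := (g.ext0_sm j i β hβ).mono (inter_subset_left : a.dom j i ⊆ _)
    exact (h1.clm_apply h2).congr fun y _ => loc_ext' a i j β y
  · rw [loc_ext', ext0_of_not_in a hβ.2 hy, map_zero]

/-- closedness passes from one chart to another one -/
lemma cyc_dom (h1 : NatS) (g : GeoA a) {i j : Fin a.n} {Φ β : V → E6} {y : V}
    (hy : y ∈ a.dom i j)
    (hΦ : ∀ y' ∈ a.dom i j, Φ y' = pull (a.tr i j ((a.e j).symm y')) (β (a.tm i j y')))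
    (hβ : DifferentiableAt ℝ β (a.tm i j y)) (hc : ∀ u v w, cyc β (a.tm i j y) u v w = 0)
    (u v w : V) : cyc Φ y u v w = 0 := by
  have e : Φ =ᶠ[𝓝 y] fun y' => pull (fderiv ℝ (a.tm i j) y') (β (a.tm i j y')) := by
    filter_upwards [(g.dom_open i j).mem_nhds hy] with y' hy'
    rw [hΦ y' hy', (g.fderiv_tm i j y' hy').fderiv]
  rw [cyc_congr e, h1.nat ((tm_at g hy).of_le (by norm_cast)) hβ, hc]

lemma cl_ext [T2Space X] (h1 : NatS) (g : GeoA a) (j : Fin a.n) (β : V → E6) (hβ : Cc 12 β)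
    (hc : ∀ y u v w, cyc β y u v w = 0) : a.Cl (a.ext j β) := by
  intro i y hy u v w
  by_cases hx : (a.e i).symm y ∈ (a.e j).source
  · refine cyc_dom h1 g (i := j) (j := i) (β := β) ⟨hy, hx⟩ (fun y' hy' => ?_)
      (hβ.1.differentiable (by simp) _) (hc _) u v w
    rw [loc_ext', ext0_of_mem a β hy'.2]; rfl
  · have hn : {x | a.In j 12 x}ᶜ ∈ 𝓝 ((a.e i).symm y) :=
      (closed_in a j).isOpen_compl.mem_nhds fun h => hx h.1
    have e : a.loc i (a.ext j β) =ᶠ[𝓝 y] fun _ => 0 := by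
      filter_upwards [((a.e i).continuousAt_symm hy).preimage_mem_nhds hn] with y' hy'
      rw [loc_ext', ext0_of_not_in a hβ.2 hy', map_zero]
    rw [cyc_congr e, cyc_zero]

lemma cover' {i : Fin a.n} {y : V} (hy : y ∈ (a.e i).target) :
    ∃ j, y ∈ a.dom j i ∧ a.tm j i y ∈ ball (0 : V) 1 := by
  obtain ⟨j, h1, h2⟩ := a.cover ((a.e i).symm y)
  exact ⟨j, ⟨hy, h1⟩, by simpa [Atl.tm] using h2⟩

lemma sm_of (g : GeoA a) (α : Form X) (h : ∀ j, ContDiffOn ℝ ∞ (a.loc j α) (ball 0 1)) :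
    a.Sm α := by
  intro i y hy
  obtain ⟨j, h1, h2⟩ := cover' hy
  have hn := (g.dom_open j i).mem_nhds h1
  have c1 : ContDiffAt ℝ ∞ (fun y => pull (a.tr j i ((a.e i).symm y))) y :=
    (contDiff_pull (n := ∞)).contDiffAt.comp y ((g.tr_sm j i).contDiffAt hn)
  have c2 : ContDiffAt ℝ ∞ (fun y => a.loc j α (a.tm j i y)) y :=
    ((h j).contDiffAt (isOpen_ball.mem_nhds h2)).comp y (tm_at g h1)
  refine ((c1.clm_apply c2).congr_of_eventuallyEq ?_).contDiffWithinAt
  filter_upwards [hn] with y' hy'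
  exact loc_dom a j i α hy'

lemma cl_of (h1 : NatS) (g : GeoA a) (α : Form X) (hα : a.Sm α)
    (h : ∀ j, ∀ y ∈ ball (0 : V) 1, ∀ u v w, cyc (a.loc j α) y u v w = 0) : a.Cl α := by
  intro i y hy u v w
  obtain ⟨j, h2, h3⟩ := cover' hy
  exact cyc_dom h1 g (β := a.loc j α) h2 (fun y' hy' => loc_dom a j i α hy')
    (diff_at hα ((a.e j).map_source h2.2)) (h j _ h3) u v w

lemma sm_zero : a.Sm 0 := fun j => by rw [loc_zero]; exact contDiffOn_const

lemma sm_add (α β : Form X) (h : a.Sm α) (h' : a.Sm β) : a.Sm (α + β) := fun j => by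
  rw [loc_add]; exact (h j).add (h' j)

lemma sm_smul (c : ℝ) (α : Form X) (h : a.Sm α) : a.Sm (c • α) := fun j => by
  rw [loc_smul]; exact (h j).const_smul c

lemma sm_sum {ι : Type} (t : Finset ι) (α : ι → Form X) (h : ∀ i ∈ t, a.Sm (α i)) :
    a.Sm (fun x => ∑ i ∈ t, α i x) := fun j => by
  have : a.loc j (fun x => ∑ i ∈ t, α i x) = fun y => ∑ i ∈ t, a.loc j (α i) y := by
    funext y; simp [Atl.loc]
  rw [this]
  exact ContDiffOn.sum fun i hi => h i hi j

lemma cl_zero : a.Cl 0 := fun j y _ u v w => by rw [loc_zero, cyc_zero]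

lemma cl_add (α β : Form X) (h : a.Sm α) (h' : a.Sm β) (c : a.Cl α) (c' : a.Cl β) :
    a.Cl (α + β) := fun j y hy u v w => by
  have e1 := c j y hy u v w
  have e2 := c' j y hy u v w
  rw [loc_add]
  simp only [cyc] at e1 e2 ⊢
  rw [fderiv_add (diff_at h hy) (diff_at h' hy)]
  simp only [add_apply, ap_add]
  linarith

lemma cl_smul (c : ℝ) (α : Form X) (h : a.Sm α) (hc : a.Cl α) : a.Cl (c • α) :=
  fun j y hy u v w => by
  have e1 := hc j y hy u v w
  rw [loc_smul]
  simp only [cyc] at e1 ⊢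
  rw [fderiv_const_smul (diff_at h hy)]
  simp only [smul_apply, ap_smul]
  linear_combination c * e1

lemma fn_zero (R : Form X → ℝ) (h : a.Fn R) : R 0 = 0 := by
  have := h.2 0 0 sm_zero
  simpa using this

lemma fn_sum (R : Form X → ℝ) (h : a.Fn R) {ι : Type} (t : Finset ι) (α : ι → Form X)
    (hα : ∀ i ∈ t, a.Sm (α i)) : R (fun x => ∑ i ∈ t, α i x) = ∑ i ∈ t, R (α i) := by
  classical
  induction t using Finset.induction_on with
  | empty => exact fn_zero R h
  | insert i t hi ih =>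
    have h1 : ∀ k ∈ t, a.Sm (α k) := fun k hk => hα k (Finset.mem_insert_of_mem hk)
    have e : (fun x => ∑ k ∈ insert i t, α k x) = α i + fun x => ∑ k ∈ t, α k x := by
      funext x; simp [Finset.sum_insert hi]
    rw [e, h.1 _ _ (hα i (Finset.mem_insert_self _ _)) (sm_sum t α h1), ih h1,
      Finset.sum_insert hi]

variable {D : Dat X}

lemma part (α : Form X) (x : X) :
    α x = ∑ j, D.ext j (fun y => D.psi j y • D.loc j α y) x := by
  have e : ∀ j, D.ext j (fun y => D.psi j y • D.loc j α y) x = D.ext0 j (D.psi j) x • α x := by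
    intro j
    by_cases h : x ∈ (D.e j).source
    · rw [Atl.ext, ext0_of_mem _ _ h, ext0_of_mem _ _ h, loc_apply _ j α h, map_smul,
        pull_symm_fr]
    · simp [Atl.ext, ext0_of_not _ _ h]
  simp only [e]
  rw [← Finset.sum_smul, D.psi_sum, one_smul]

lemma cj_cc (g : GeoA D.toAtl) (j : Fin D.n) (α : Form X) (h : D.Sm α) : Cc 2 (D.cj j α) :=
  g.cutoff j 2 (D.psi j) (fun y => (D.F j).cm y (D.loc j α y)) (by norm_num) (D.psi_cc j)
    ((D.F j).sm_cm.contDiffOn.clm_apply (h j))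

lemma fr_J {j : Fin D.n} {x : X} (hx : D.In j 11 x) (v : V) :
    D.fr j x ((D.F j).J (D.e j x) v) = D.J x (D.fr j x v) := by
  rw [D.FJ j x hx]; simp [Atl.Jc]

lemma inv_at {j : Fin D.n} {x : X} (hx : D.In j 11 x) (α : Form X) :
    (∀ u v, ap (α x) (D.J x u) (D.J x v) = ap (α x) u v) ↔
      (D.F j).cm (D.e j x) (D.loc j α (D.e j x)) = 0 := by
  rw [← Frame.inv_iff, loc_apply _ j α hx.1]
  simp only [ap_pull, ContinuousLinearEquiv.coe_coe, fr_J hx]
  constructor
  · intro H u v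
    exact H _ _
  · intro H u v
    simpa using H ((D.fr j x).symm u) ((D.fr j x).symm v)

lemma psi_le {j : Fin D.n} {y : V} (h : D.psi j y ≠ 0) : ‖y‖ ≤ 2 :=
  le_of_not_gt fun h' => h ((D.psi_cc j).2 y h')

lemma inv_iff (α : Form X) : D.Inv α ↔ ∀ j, D.cj j α = 0 := by
  constructor
  · intro H j
    funext y
    by_cases h : D.psi j y = 0
    · simp [Dat.cj, h]
    · have hy : ‖y‖ ≤ 11 := (psi_le h).trans (by norm_num)
      have := (inv_at (in_symm D.toAtl (j := j) hy (by norm_num)) α).1 (H _)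
      rw [(D.e j).right_inv (mem_target _ (hy.trans (by norm_num)))] at this
      simp [Dat.cj, this]
  · intro H x
    obtain ⟨j, -, hj⟩ := Finset.exists_ne_zero_of_sum_ne_zero
      ((D.psi_sum x).trans_ne one_ne_zero)
    have hx : x ∈ (D.e j).source := by
      by_contra h
      exact hj (ext0_of_not _ _ h)
    rw [ext0_of_mem _ _ hx] at hj
    refine (inv_at ⟨hx, (psi_le hj).trans (by norm_num)⟩ α).2 ?_
    have := congrFun (H j) (D.e j x)
    simpa [Dat.cj, hj] using this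

lemma sm_upx (g : GeoA D.toAtl) (j : Fin D.n) (c : V → E2) (hc : Cc 12 c) : D.Sm (D.upx j c) :=
  sm_ext g j _ (hc.clm (D.F j).sm_up)

lemma s_ext (g : GeoA D.toAtl) (s : Form X → ℝ) (j : Fin D.n) (β : V → E6) (hs : D.Fn s)
    (hI : D.KillsI s) (hβ : Cc 11 β) :
    s (D.ext j β) = D.sj s j (fun y => (D.F j).cm y (β y)) := by
  have c1 : Cc 11 (fun y => (D.F j).cm y (β y)) := hβ.clm (D.F j).sm_cm
  have c2 : Cc 11 (fun y => (D.F j).up y ((D.F j).cm y (β y))) := c1.clm (D.F j).sm_up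
  set γ : V → E6 := β - fun y => (D.F j).up y ((D.F j).cm y (β y)) with hγ
  have c3 : Cc 11 γ := hβ.sub c2
  have s3 : D.Sm (D.ext j γ) := sm_ext g j γ (c3.mono (by norm_num))
  have i3 : D.Inv (D.ext j γ) := by
    intro x
    by_cases hx : D.In j 11 x
    · refine (inv_at hx _).2 ?_
      rw [loc_ext _ j γ _ ((D.e j).map_source hx.1)]
      simp [hγ]
    · intro u v
      simp [Atl.ext, ext0_of_not_in _ c3.2 hx]
  have e : D.ext j β = D.ext j γ + D.upx j (fun y => (D.F j).cm y (β y)) := by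
    rw [Dat.upx, ← ext_add]
    congr 1
    funext y; simp [hγ]
  rw [e, hs.1 _ _ s3 (sm_upx g j _ (c1.mono (by norm_num))), hI _ s3 i3, zero_add]
  rfl

lemma psi_cc (g : GeoA D.toAtl) (j : Fin D.n) (α : Form X) (h : D.Sm α) :
    Cc 2 (fun y => D.psi j y • D.loc j α y) :=
  g.cutoff j 2 (D.psi j) (D.loc j α) (by norm_num) (D.psi_cc j) (h j)

lemma s_sum (g : GeoA D.toAtl) (s : Form X → ℝ) (α : Form X) (hs : D.Fn s) (hI : D.KillsI s)
    (hα : D.Sm α) : s α = ∑ j, D.sj s j (D.cj j α) := by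
  have e : α = fun x => ∑ j, D.ext j (fun y => D.psi j y • D.loc j α y) x := funext (part α)
  have h1 := fn_sum s hs Finset.univ (fun j => D.ext j (fun y => D.psi j y • D.loc j α y))
    fun j _ => sm_ext g j _ ((psi_cc g j α hα).mono (by norm_num))
  rw [← e] at h1
  rw [h1]
  refine Finset.sum_congr rfl fun j _ => ?_
  rw [s_ext g s j _ hs hI ((psi_cc g j α hα).mono (by norm_num))]
  congr 1
  funext y; simp [Dat.cj]

lemma llin (g : GeoA D.toAtl) (s : Form X → ℝ) (j : Fin D.n) (hs : D.Fn s) :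
    LLin (D.sj s j) := by
  constructor
  · intro c c' h h'
    have e : D.upx j (c + c') = D.upx j c + D.upx j c' := by
      rw [Dat.upx, Dat.upx, Dat.upx, ← ext_add]
      congr 1
      funext y; simp
    rw [Dat.sj, e, hs.1 _ _ (sm_upx g j c (h.mono (by norm_num)))
      (sm_upx g j c' (h'.mono (by norm_num)))]
    rfl
  · intro t c h
    have e : D.upx j (t • c) = t • D.upx j c := by
      rw [Dat.upx, Dat.upx, ← ext_smul]
      congr 1
      funext y; simp
    rw [Dat.sj, e, hs.2 _ _ (sm_upx g j c (h.mono (by norm_num)))]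
    rfl

lemma Nk_zero (k : ℕ) : Nk k (0 : V → E2) = 0 := by
  have : ∀ p : Fin (k + 1) × V, ‖iteratedFDeriv ℝ p.1 (0 : V → E2) p.2‖ = 0 := fun p => by
    rw [norm_eq_zero]
    exact congrFun (iteratedFDeriv_fun_zero (𝕜 := ℝ) (E := V) (F := E2) (n := p.1)) p.2
  simp only [Nk, this, ciSup_const]

lemma killsI (s : Form X → ℝ) (k : ℕ) (Λ : ℝ) (h : D.OrdM s k Λ) : D.KillsI s := by
  intro α hα hI
  have := h α hα
  simp only [Dat.nrmm, (inv_iff α).1 hI, Nk_zero, Finset.sum_const_zero, mul_zero] at this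
  exact abs_nonpos_iff.1 this

lemma tm_loc (α : Form X) (h : D.Tm α) (j : Fin D.n) (y v : V) (hy : ‖y‖ ≤ 11) (hv : v ≠ 0) :
    0 < ap (D.loc j α y) v ((D.F j).J y v) := by
  have hx := in_symm D.toAtl (j := j) hy (by norm_num)
  have ht : D.e j ((D.e j).symm y) = y :=
    (D.e j).right_inv (mem_target _ (hy.trans (by norm_num)))
  have h1 := fr_J hx v
  rw [ht] at h1
  rw [Atl.loc, ap_pull]
  simp only [ContinuousLinearEquiv.coe_coe, h1]
  exact h _ _ (by simpa using hv)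

lemma tm_of (α : Form X)
    (h : ∀ j y v, ‖y‖ ≤ 1 → ‖v‖ = 1 → 0 < ap (D.loc j α y) v ((D.F j).J y v)) : D.Tm α := by
  intro x v hv
  obtain ⟨j, h1, h2⟩ := D.cover x
  have hx : D.In j 11 x := ⟨h1, h2.le.trans (by norm_num)⟩
  set w := (D.fr j x).symm v with hw
  have hw0 : 0 < ‖w‖ := norm_pos_iff.2 (by simpa [hw] using hv)
  have h3 := h j (D.e j x) (‖w‖⁻¹ • w) h2.le (by rw [norm_smul]; simp [hw0.ne'])
  rw [map_smul, ap_smul_l, ap_smul_r, loc_apply _ j α h1, ap_pull] at h3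
  simp only [ContinuousLinearEquiv.coe_coe, fr_J hx] at h3
  have h4 : D.fr j x w = v := by simp [hw]
  rw [h4] at h3
  have h5 : 0 < ‖w‖⁻¹ := inv_pos.2 hw0
  exact (mul_pos_iff_of_pos_left h5).1 ((mul_pos_iff_of_pos_left h5).1 h3)

end FormAux

section
variable {X : Type*} [TopologicalSpace X] [T2Space X] {D : Dat X}

theorem formS (h1 : NatS) (h2 : GeoA D.toAtl) : FormS D where
  loc_ext := FormAux.loc_ext _
  loc_ext' := FormAux.loc_ext' _
  loc_loc := FormAux.loc_loc _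
  sm_ext := FormAux.sm_ext h2
  cl_ext := FormAux.cl_ext h1 h2
  sm_of := FormAux.sm_of h2
  cl_of := FormAux.cl_of h1 h2
  sm_zero := FormAux.sm_zero
  sm_add := FormAux.sm_add
  sm_smul := FormAux.sm_smul
  sm_sum := FormAux.sm_sum
  cl_zero := FormAux.cl_zero
  cl_add := FormAux.cl_add
  cl_smul := FormAux.cl_smul
  part := FormAux.part
  cj_cc := FormAux.cj_cc h2
  inv_iff := FormAux.inv_iff
  fn_zero := FormAux.fn_zero
  fn_sum := fun R h _ t α hα => FormAux.fn_sum R h t α hα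
  sm_upx := FormAux.sm_upx h2
  s_ext := FormAux.s_ext h2
  s_sum := FormAux.s_sum h2
  llin := FormAux.llin h2
  killsI := FormAux.killsI
  killsD := fun _ j _ hR hb => hR _ (FormAux.sm_ext h2 j _ hb.d1)
    (FormAux.cl_ext h1 h2 j _ hb.d1 fun _ u v w =>
      h1.dd (hb.1.contDiffAt.of_le (by norm_cast)) u v w)
  tm_loc := FormAux.tm_loc
  tm_of := FormAux.tm_of

end

end Vale.Agent.P204
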