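import Vale.Agent.P204.Stmt

/-! Elementary geometry of a finite atlas. -/

set_option maxSynthPendingDepth 3

open scoped Topology ContDiff RealInnerProductSpace Manifold
open Set Metric MeasureTheory Filter

noncomputable section
namespace Vale.Agent.P204

variable {X : Type*} [TopologicalSpace X]

namespace Geo

lemma mem_tgt (a : Atl X) (j : Fin a.n) {y : V} (hy : ‖y‖ ≤ 12) : y ∈ (a.e j).target :=
  a.big j (mem_closedBall_zero_iff.2 hy)

lemma cpt_In (a : Atl X) (i : Fin a.n) {r : ℝ} (hr : r ≤ 12) : IsCompact {x | a.In i r x} := by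
  have h : closedBall (0 : V) r ⊆ (a.e i).target := (closedBall_subset_closedBall hr).trans (a.big i)
  have e : {x | a.In i r x} = (a.e i).symm '' closedBall 0 r := by
    ext x
    constructor
    · rintro ⟨h1, h2⟩
      exact ⟨a.e i x, mem_closedBall_zero_iff.2 h2, (a.e i).left_inv h1⟩
    · rintro ⟨y, hy, rfl⟩
      exact ⟨(a.e i).map_target (h hy), by
        rw [(a.e i).right_inv (h hy)]; exact mem_closedBall_zero_iff.1 hy⟩
  rw [e]
  exact (isCompact_closedBall 0 r).image_of_continuousOn ((a.e i).continuousOn_symm.mono h)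

lemma dom_open (a : Atl X) (i j : Fin a.n) : IsOpen (a.dom i j) :=
  (a.e j).isOpen_inter_preimage_symm (a.e i).open_source

lemma fderiv_tm (a : Atl X) (i j : Fin a.n) (y : V) (hy : y ∈ a.dom i j) :
    HasFDerivAt (a.tm i j) (a.tr i j ((a.e j).symm y)) y := by
  have := a.deriv i j _ hy.2 ((a.e j).map_target hy.1)
  rwa [(a.e j).right_inv hy.1] at this

lemma tr_sm (a : Atl X) (i j : Fin a.n) :
    ContDiffOn ℝ ∞ (fun y => a.tr i j ((a.e j).symm y)) (a.dom i j) :=
  ((a.smooth i j).fderiv_of_isOpen (dom_open a i j) (by simp)).congr fun y hy =>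
    (fderiv_tm a i j y hy).fderiv.symm

lemma det_comp (A B : End) : (A.comp B).det = A.det * B.det := by
  rw [det_eq_D4, det_eq_D4 B, ← D4_comp]
  rfl

variable [T2Space X]

lemma cpt (a : Atl X) (i j : Fin a.n) (r r' : ℝ) (hr : r ≤ 12) (hr' : r' ≤ 12) :
    IsCompact {y : V | ‖y‖ ≤ r ∧ a.In i r' ((a.e j).symm y)} := by
  have h := ((a.e j).continuousOn_symm.mono ((closedBall_subset_closedBall hr).trans
    (a.big j))).preimage_isClosed_of_isClosed isClosed_closedBall (cpt_In a i hr').isClosed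
  have e : {y : V | ‖y‖ ≤ r ∧ a.In i r' ((a.e j).symm y)} =
      closedBall 0 r ∩ (a.e j).symm ⁻¹' {x | a.In i r' x} := by
    ext y
    simp
  rw [e]
  exact (isCompact_closedBall 0 r).of_isClosed_subset h inter_subset_left

lemma sub_dom (a : Atl X) (i j : Fin a.n) {r r' : ℝ} (hr : r ≤ 12) :
    {y : V | ‖y‖ ≤ r ∧ a.In i r' ((a.e j).symm y)} ⊆ a.dom i j :=
  fun _ hy => ⟨mem_tgt a j (hy.1.trans hr), hy.2.1⟩

lemma bound (a : Atl X) : ∃ C, 0 ≤ C ∧ ∀ i j x, a.In i 12 x → a.In j 12 x → ‖a.tr i j x‖ ≤ C := by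
  choose C hC using fun i j => (cpt a i j 12 12 le_rfl le_rfl).exists_bound_of_continuousOn
    ((tr_sm a i j).continuousOn.mono (sub_dom a i j le_rfl))
  obtain ⟨B, hB⟩ := Finite.bddAbove_range fun p : Fin a.n × Fin a.n => C p.1 p.2
  refine ⟨max B 0, le_max_right _ _, fun i j x hi hj => ?_⟩
  have := hC i j (a.e j x) ⟨hj.2, by rwa [(a.e j).left_inv hj.1]⟩
  rw [(a.e j).left_inv hj.1] at this
  exact this.trans ((hB ⟨(i, j), rfl⟩).trans (le_max_left _ _))

lemma near (a : Atl X) (δ : ℝ) (hδ : 0 < δ) : ∃ δ', 0 < δ' ∧ ∀ i j x x', a.In i 9 x →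
    a.In j 9 x → x' ∈ (a.e j).source → ‖a.e j x' - a.e j x‖ ≤ δ' →
    x' ∈ (a.e i).source ∧ ‖a.e i x' - a.e i x‖ ≤ δ := by
  have key : ∀ i j, ∀ᶠ δ' in 𝓝[>] (0 : ℝ), ∀ y y' : V, ‖y‖ ≤ 9 → a.In i 9 ((a.e j).symm y) →
      ‖y' - y‖ ≤ δ' → y' ∈ a.dom i j ∧ ‖a.tm i j y' - a.tm i j y‖ ≤ δ := fun i j => by
    have hK := cpt a i j 9 9 (by norm_num) (by norm_num)
    have hs := sub_dom a i j (r := 9) (r' := 9) (by norm_num)
    obtain ⟨ε, h1, h2⟩ := hK.exists_thickening_subset_open (dom_open a i j) hs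
    obtain ⟨ε', h3, h4⟩ := Metric.mem_uniformity_dist.1 (hK.uniformContinuousAt_of_continuousAt
      (a.tm i j) (fun y hy => (fderiv_tm a i j y (hs hy)).continuousAt) (dist_mem_uniformity hδ))
    filter_upwards [Ioo_mem_nhdsGT (lt_min h1 h3)] with δ' h5 y y' h6 h7 h8
    have h9 : dist y' y < min ε ε' := by rw [dist_eq_norm]; exact h8.trans_lt h5.2
    refine ⟨h2 (mem_thickening_iff.2 ⟨y, ⟨h6, h7⟩, h9.trans_le (min_le_left _ _)⟩), ?_⟩
    rw [← dist_eq_norm, dist_comm]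
    exact le_of_lt (h4 (a := y) (b := y') (by rw [dist_comm]; exact h9.trans_le (min_le_right _ _))
      ⟨h6, h7⟩)
  obtain ⟨δ', h1, h2⟩ := ((eventually_all.2 fun i => eventually_all.2 (key i)).and
    self_mem_nhdsWithin).exists
  refine ⟨δ', h2, fun i j x x' hi hj hx h => ?_⟩
  obtain ⟨h3, h4⟩ := h1 i j (a.e j x) (a.e j x') hj.2 (by rwa [(a.e j).left_inv hj.1]) h
  have h5 := h3.2
  simp only [Atl.tm, mem_preimage, (a.e j).left_inv hj.1, (a.e j).left_inv hx] at h4 h5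
  exact ⟨h5, h4⟩

lemma glue (a : Atl X) {E : Type} [NormedAddCommGroup E] [NormedSpace ℝ E] (i j : Fin a.n)
    (Φ : V → E) (h1 : ContDiffOn ℝ ∞ Φ (a.dom i j))
    (h2 : ∀ y ∈ (a.e j).target, ¬ a.In i 12 ((a.e j).symm y) → Φ y = 0) :
    ContDiffOn ℝ ∞ Φ (a.e j).target := fun y hy => by
  by_cases h : a.In i 12 ((a.e j).symm y)
  · exact (h1.contDiffAt ((dom_open a i j).mem_nhds ⟨hy, h.1⟩)).contDiffWithinAt
  · refine (contDiffAt_const (c := (0 : E))).congr_of_eventuallyEq ?_ |>.contDiffWithinAt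
    filter_upwards [((a.e j).isOpen_inter_preimage_symm
      (cpt_In a i le_rfl).isClosed.isOpen_compl).mem_nhds ⟨hy, h⟩] with z hz
    exact h2 z hz.1 hz.2

omit [T2Space X] in
lemma cutoff (a : Atl X) {E : Type} [NormedAddCommGroup E] [NormedSpace ℝ E] (j : Fin a.n) (r : ℝ)
    (g : V → ℝ) (Φ : V → E) (hr : r ≤ 12) (hg : Cc r g) (h : ContDiffOn ℝ ∞ Φ (a.e j).target) :
    Cc r (fun y => g y • Φ y) := by
  refine ⟨contDiff_iff_contDiffAt.2 fun y => ?_, fun y hy => by simp [hg.2 y hy]⟩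
  by_cases hy : ‖y‖ ≤ 12
  · exact hg.1.contDiffAt.smul (h.contDiffAt ((a.e j).open_target.mem_nhds (mem_tgt a j hy)))
  · refine (contDiffAt_const (c := (0 : E))).congr_of_eventuallyEq ?_
    filter_upwards [hg.eventually_zero (hr.trans_lt (not_le.1 hy))] with z hz
    simp [hz]

end Geo

variable [T2Space X]

theorem geoA (a : Atl X) : GeoA a where
  dom_open := Geo.dom_open a
  fderiv_tm := Geo.fderiv_tm a
  tr_sm := Geo.tr_sm a
  cpt := Geo.cpt a
  bound := Geo.bound a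
  near := Geo.near a
  glue := Geo.glue a
  cutoff := Geo.cutoff a
  ext0_sm i j f hf := Geo.glue a i j _
    ((hf.1.comp_contDiffOn (a.smooth i j)).congr fun y hy => if_pos hy.2) fun y _ h => by
      unfold Atl.ext0
      split_ifs with h'
      exacts [hf.2 _ (not_le.1 fun h'' => h ⟨h', h''⟩), rfl]

theorem geoD (D : Dat X) : GeoD D := by
  have comm : ∀ i j x, D.In i 11 x → D.In j 11 x →
      ((((D.F i).A (D.e i x)).comp ((D.tr i j x).comp ((D.F j).Ai (D.e j x)))).comp J0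
        = J0.comp (((D.F i).A (D.e i x)).comp ((D.tr i j x).comp ((D.F j).Ai (D.e j x))))) :=
    fun i j x hi hj => by
      ext1 v
      simp only [ContinuousLinearMap.comp_apply]
      rw [← Frame.J_Ai, ← Frame.A_J, D.FJ i x hi, D.FJ j x hj]
      simp [Atl.tr, Atl.Jc]
  refine ⟨comm, fun i j x hi hj => ?_⟩
  have h1 := det_nonneg_of_comm (comm i j x hi hj)
  rw [Geo.det_comp, Geo.det_comp] at h1
  have h2 := (D.F i).det_pos (D.e i x)
  have h3 : 0 < ((D.F j).Ai (D.e j x)).det :=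
    (pos_iff_pos_of_mul_pos (((D.F j).det_mul _).symm ▸ one_pos)).2 ((D.F j).det_pos (D.e j x))
  have h4 : (D.tr j i x).comp (D.tr i j x) = ContinuousLinearMap.id ℝ V := by
    ext1 v
    simp [Atl.tr]
  have h5 := congrArg ContinuousLinearMap.det h4
  rw [Geo.det_comp] at h5
  refine lt_of_le_of_ne (nonneg_of_mul_nonneg_left (nonneg_of_mul_nonneg_right h1 h2) h3) fun h => ?_
  simp [← h, ContinuousLinearMap.det] at h5

end Vale.Agent.P204
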