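import Vale.Agent.P204.HatA

/-! The chart expression of an element of the Hilbert space. -/

set_option maxSynthPendingDepth 3

open scoped Topology ContDiff RealInnerProductSpace
open Set Metric MeasureTheory Filter

noncomputable section
namespace Vale.Agent.P204
namespace Hat

variable {X : Type*} [TopologicalSpace X] {D : Dat X}

/-- the localized component -/
def wj (D : Dat X) (h : D.H) (j : Fin D.n) (y : V) : E6 :=
  D.psi j y • pull ((D.F j).A y) (h j y)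

lemma wj_zero (h : D.H) (j : Fin D.n) (y : V) (hy : 2 < ‖y‖) : wj D h j y = 0 := by
  rw [wj, (D.psi_cc j).2 y hy, zero_smul]

lemma hat_eq (h3 : FormS D) (i : Fin D.n) (h : D.H) :
    D.hat i h = fun y => ∑ j, pull (D.tr j i ((D.e i).symm y)) (Tp D i j (wj D h j) y) :=
  funext fun y => loc_sum h3 i (wj_zero h) y

lemma pull_le {A : End} {C : ℝ} (hA : ‖A‖ ≤ C) (g : E6) : ‖pull A g‖ ≤ 6 * C ^ 2 * ‖g‖ := by
  refine ((pull A).le_opNorm g).trans ?_
  gcongr
  refine (norm_pull_le A).trans ?_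
  gcongr

lemma qH_Q6 (h4 : HilS D) (g : D.H) : D.qH g (D.mapH Q6 g) = 2 * ‖g‖ ^ 2 := by
  rw [(h4.qH_eq _ _).2, (h4.norm_sq g).2, Finset.mul_sum]
  refine Finset.sum_congr rfl fun j _ => ?_
  rw [← integral_const_mul]
  refine integral_congr_ae ?_
  filter_upwards [h4.map_ae Q6 g j] with y hy
  rw [hy, wq_eq, Q6_Q6, real_inner_self_eq_norm_sq]

lemma Q6_le (h4 : HilS D) (g : D.H) : ‖D.mapH Q6 g‖ ≤ ‖g‖ := by
  have h : ‖Q6‖ ≤ 1 := Q6.opNorm_le_bound zero_le_one fun v => by rw [norm_Q6, one_mul]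
  exact (h4.map_norm Q6 g).trans (mul_le_of_le_one_left (norm_nonneg _) h)

lemma sq_int {β : V → E6} {r : ℝ} (hβ : Cc r β) : Integrable fun y => ‖β y‖ ^ 2 := by
  have h : HasCompactSupport fun y => ‖β y‖ ^ 2 :=
    hβ.hcs.comp_left (g := fun v : E6 => ‖v‖ ^ 2) (by simp)
  exact (hβ.continuous.norm.pow 2).integrable_of_hasCompactSupport h

lemma absorb {β u : V → E6} {C a : ℝ} (hC : 0 ≤ C) (ha : 0 ≤ a)
    (i2 : Integrable fun y => ‖β y‖ ^ 2) (i1 : Integrable fun y => ‖u y‖ ^ 2)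
    (e : 2 * a ^ 2 = ∫ y, wq (β y) (u y)) (b1 : nL2 (fun y => ‖u y‖) ≤ C * a) :
    a ≤ (C + 1) * nL2 (fun y => ‖β y‖) := by
  have t0 : 0 < C ^ 2 + 1 := by positivity
  have s1 : ∀ f : V → ℝ, ∫ y, f y ^ 2 = nL2 f ^ 2 := fun f =>
    (Real.sq_sqrt (integral_nonneg fun _ => sq_nonneg _)).symm
  have k : 2 * a ^ 2 ≤ (C ^ 2 + 1) * nL2 (fun y => ‖β y‖) ^ 2 +
      (C ^ 2 + 1)⁻¹ * nL2 (fun y => ‖u y‖) ^ 2 := by
    rw [e, ← s1, ← s1, ← integral_const_mul, ← integral_const_mul,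
      ← integral_add (i2.const_mul _) (i1.const_mul _)]
    refine (Real.le_norm_self _).trans (norm_integral_le_of_norm_le
      (g := fun y => (C ^ 2 + 1) * ‖β y‖ ^ 2 + (C ^ 2 + 1)⁻¹ * ‖u y‖ ^ 2)
      ((i2.const_mul _).add (i1.const_mul _)) (.of_forall fun y => ?_))
    refine (abs_wq_le (β y) (u y)).trans ?_
    have : 0 ≤ (C ^ 2 + 1)⁻¹ * ((C ^ 2 + 1) * ‖β y‖ - ‖u y‖) ^ 2 := by positivity
    have e3 : (C ^ 2 + 1)⁻¹ * ((C ^ 2 + 1) * ‖β y‖ - ‖u y‖) ^ 2 = (C ^ 2 + 1) * ‖β y‖ ^ 2 +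
      (C ^ 2 + 1)⁻¹ * ‖u y‖ ^ 2 - 2 * ‖β y‖ * ‖u y‖ := by field_simp; ring
    linarith
  have n1 := nL2_nonneg fun y => ‖u y‖
  have n2 := nL2_nonneg fun y => ‖β y‖
  have k2 : (C ^ 2 + 1)⁻¹ * nL2 (fun y => ‖u y‖) ^ 2 ≤ a ^ 2 := by
    rw [inv_mul_le_iff₀ t0]
    calc _ ≤ (C * a) ^ 2 := by gcongr
      _ ≤ _ := by nlinarith [sq_nonneg a]
  refine (pow_le_pow_iff_left₀ ha (by positivity) two_ne_zero).1 ?_
  have : (C ^ 2 + 1) * nL2 (fun y => ‖β y‖) ^ 2 ≤ (C + 1) ^ 2 * nL2 (fun y => ‖β y‖) ^ 2 := by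
    gcongr
    nlinarith
  rw [mul_pow]
  linarith

section
variable (h1 : GeoA D.toAtl) (h2 : GeoD D) (h3 : FormS D) (h4 : HilS D)

include h4 in
lemma wt_le : ∃ C, 0 ≤ C ∧ ∀ j (g a : V → ℝ), Integrable g (D.nu j) → AEStronglyMeasurable a →
    (∀ y, 0 ≤ g y) → (∀ y, 0 ≤ a y) → (∀ y, a y ≤ D.psi j y * g y) →
    Integrable a ∧ ∫ y, a y ≤ C * ∫ y, g y ∂(D.nu j) := by
  obtain ⟨C, hC, H⟩ := h4.wt
  refine ⟨C, hC, fun j g a hg ha g0 a0 hle => ?_⟩
  have hi := ((h4.intg j g).1 hg).const_mul C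
  have hb : ∀ y, a y ≤ C * ((D.psi j y * ((D.F j).A y).det) • g y) := fun y => by
    rw [smul_eq_mul, ← mul_assoc]
    exact (hle y).trans (mul_le_mul_of_nonneg_right (H j y).2.2 (g0 y))
  have hia : Integrable a :=
    hi.mono' ha (.of_forall fun y => by rw [Real.norm_of_nonneg (a0 y)]; exact hb y)
  rw [h4.int, ← integral_const_mul]
  exact ⟨hia, integral_mono hia hi hb⟩

include h1 h2 h4 in
lemma gen_le : ∃ C, 0 ≤ C ∧ ∀ (i : Fin D.n) (L : Op) (h : D.H) (f : V → ℝ) (B : ℝ), 0 ≤ B →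
    AEStronglyMeasurable f → (∀ y, 0 ≤ f y) →
    (∀ y, f y ≤ B * ∑ j, Tp D i j (fun z => D.psi j z * ‖L (h j z)‖) y) →
    Integrable (fun y => f y ^ 2) ∧ nL2 f ≤ C * B * ‖D.mapH L h‖ ∧
      ∫ y, f y ≤ C * B * D.L1 (D.mapH L h) := by
  obtain ⟨C1, hC1, H1⟩ := Tp_le h1 h2
  obtain ⟨C2, hC2, H2⟩ := wt_le h4
  refine ⟨(D.n + 1) * (C1 * C2 + 1), by positivity, fun i L h f B hB hf f0 hle => ?_⟩
  have e1 : ∀ j, (fun y => ‖D.mapH L h j y‖) =ᵐ[D.nu j] fun y => ‖L (h j y)‖ := fun j => by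
    filter_upwards [h4.map_ae L h j] with y hy using by rw [hy]
  have e2 : ∀ j, (fun y => ‖D.mapH L h j y‖ ^ 2) =ᵐ[D.nu j] fun y => ‖L (h j y)‖ ^ 2 := fun j => by
    filter_upwards [h4.map_ae L h j] with y hy using by rw [hy]
  set a : Fin D.n → V → ℝ := fun j z => D.psi j z * ‖L (h j z)‖ with ha
  have a0 : ∀ j z, 0 ≤ a j z := fun j z => mul_nonneg (D.psi_nn j z) (norm_nonneg _)
  have am : ∀ j, AEStronglyMeasurable (a j) := fun j => by
    have : a j = fun z => ‖L (pull ((D.F j).Ai z) (wj D h j z))‖ := funext fun z => by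
      rw [wj, map_smul, map_smul, Frame.pull_Ai_A, norm_smul, Real.norm_of_nonneg (D.psi_nn j z)]
    rw [this]
    exact (L.continuous.comp_aestronglyMeasurable
      (isBoundedBilinearMap_apply.continuous.comp_aestronglyMeasurable
        ((cd_pull (D.F j).smAi).continuous.aestronglyMeasurable.prodMk (h4.h_int h j).2.1))).norm
  have i1 := fun j => H2 j _ (a j) ((h4.h_int (D.mapH L h) j).1.norm.congr (e1 j)) (am j)
    (fun _ => norm_nonneg _) (a0 j) fun _ => le_rfl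
  have i2 := fun j => H2 j _ (fun z => a j z ^ 2) (((h4.norm_sq (D.mapH L h)).1 j).congr (e2 j))
    ((am j).pow 2) (fun _ => sq_nonneg _) (fun _ => sq_nonneg _) fun z => by
      simp only [ha, mul_pow]
      refine mul_le_mul_of_nonneg_right ?_ (sq_nonneg _)
      nlinarith [D.psi_nn j z, psi_le_one j z]
  have t1 := fun j => Tp_int h1 h2 i j (i1 j).1
  have t2 := fun j => Tp_int h1 h2 i j (i2 j).1
  have T0 : ∀ j y, 0 ≤ Tp D i j (a j) y := fun j y => indicator_nonneg (fun _ _ => a0 _ _) y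
  have sq : ∀ y, f y ^ 2 ≤ B ^ 2 * D.n * ∑ j, Tp D i j (fun z => a j z ^ 2) y := fun y => by
    have e : ∀ j, Tp D i j (fun z => a j z ^ 2) y = Tp D i j (a j) y ^ 2 := fun j => by
      by_cases hy : y ∈ S D j i 9 2
      · rw [Tp_of_mem _ hy, Tp_of_mem _ hy]
      · rw [Tp_of_not _ hy, Tp_of_not _ hy]
        norm_num
    have := sq_sum_le_card_mul_sum_sq (s := Finset.univ) (f := fun j => Tp D i j (a j) y)
    simp only [Finset.card_univ, Fintype.card_fin] at this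
    calc f y ^ 2 ≤ (B * ∑ j, Tp D i j (a j) y) ^ 2 := pow_le_pow_left₀ (f0 y) (hle y) 2
      _ ≤ _ := by
        rw [mul_pow, mul_assoc]
        simp only [e]
        gcongr
  have s1 := (integrable_finset_sum Finset.univ fun j _ => t1 j).const_mul B
  have s2 := (integrable_finset_sum Finset.univ fun j _ => t2 j).const_mul (B ^ 2 * D.n)
  have j1 : Integrable f :=
    s1.mono' hf (.of_forall fun y => by rw [Real.norm_of_nonneg (f0 y)]; exact hle y)
  have j2 : Integrable fun y => f y ^ 2 :=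
    s2.mono' (hf.pow 2) (.of_forall fun y => by rw [Real.norm_of_nonneg (sq_nonneg _)]; exact sq y)
  have n0 : (0 : ℝ) ≤ D.n := Nat.cast_nonneg _
  have c0 : 0 ≤ C1 * C2 := mul_nonneg hC1 hC2
  refine ⟨j2, ?_, ?_⟩
  · refine Real.sqrt_le_iff.2 ⟨by positivity, (integral_mono j2 s2 sq).trans ?_⟩
    rw [integral_const_mul, integral_finset_sum _ fun j _ => t2 j]
    calc _ ≤ B ^ 2 * D.n * ∑ j, C1 * (C2 * ∫ y, ‖D.mapH L h j y‖ ^ 2 ∂(D.nu j)) := by
          gcongr with j _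
          refine (H1 i j _ (i2 j).1 fun _ => sq_nonneg _).trans ?_
          rw [integral_congr_ae (e2 j)]
          gcongr
          exact (i2 j).2
      _ = B ^ 2 * (D.n * (C1 * C2)) * ‖D.mapH L h‖ ^ 2 := by
          rw [(h4.norm_sq _).2]
          simp only [← Finset.mul_sum]
          ring
      _ ≤ B ^ 2 * ((D.n + 1) * (C1 * C2 + 1)) ^ 2 * ‖D.mapH L h‖ ^ 2 := by
          gcongr
          rw [mul_pow]
          gcongr <;> nlinarith
      _ = _ := by ring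
  · refine (integral_mono j1 s1 hle).trans ?_
    rw [integral_const_mul, integral_finset_sum _ fun j _ => t1 j]
    have l0 : 0 ≤ D.L1 (D.mapH L h) :=
      Finset.sum_nonneg fun j _ => integral_nonneg fun _ => norm_nonneg _
    calc _ ≤ B * ∑ j, C1 * (C2 * ∫ y, ‖D.mapH L h j y‖ ∂(D.nu j)) := by
          gcongr with j _
          refine (H1 i j _ (i1 j).1 (a0 j)).trans ?_
          rw [integral_congr_ae (e1 j)]
          gcongr
          exact (i1 j).2
      _ = C1 * C2 * B * D.L1 (D.mapH L h) := by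
          simp only [Dat.L1, ← Finset.mul_sum]
          ring
      _ ≤ _ := by
          refine mul_le_mul_of_nonneg_right (mul_le_mul_of_nonneg_right ?_ hB) l0
          nlinarith

include h1 h2 h4 in
lemma term_int {E : Type} [NormedAddCommGroup E] [NormedSpace ℝ E] (i j : Fin D.n) (h : D.H)
    {k : V → E6 →L[ℝ] E} (hk : Continuous k) : Integrable fun y =>
      k y (pull (D.tr j i ((D.e i).symm y)) (Tp D i j (wj D h j) y)) :=
  Tp_clm h1 h2 i j (L := fun y => (k y).comp (pull (D.tr j i ((D.e i).symm y))))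
    (hk.continuousOn.clm_comp (continuous_pull.comp_continuousOn (cont_tr h1 j i (by norm_num))))
    (h4.h_int h j).2

include h1 h2 h3 h4 in
lemma hat_int (i : Fin D.n) (h : D.H) : Integrable (D.hat i h) := by
  rw [hat_eq h3]
  exact integrable_finset_sum _ fun j _ => term_int h1 h2 h4 i j h
    (k := fun _ => ContinuousLinearMap.id ℝ E6) continuous_const

include h1 h2 h3 in
lemma pt_le : ∃ B, 0 ≤ B ∧ ∀ (i : Fin D.n) (h : D.H) (y : V),
    ‖D.hat i h y‖ ≤ B * ∑ j, Tp D i j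
      (fun z => D.psi j z * ‖ContinuousLinearMap.id ℝ E6 (h j z)‖) y ∧
    ‖(D.F i).cm y (D.hat i h y)‖ ≤ B * ∑ j, Tp D i j (fun z => D.psi j z * ‖Pm (h j z)‖) y := by
  obtain ⟨C, hC, H⟩ := h1.bound
  refine ⟨11 * (6 * C ^ 2 * 11), by positivity, fun i h y => ?_⟩
  rw [hat_eq h3]
  simp only [map_sum, Finset.mul_sum]
  refine ⟨(norm_sum_le _ _).trans (Finset.sum_le_sum fun j _ => ?_),
    (norm_sum_le _ _).trans (Finset.sum_le_sum fun j _ => ?_)⟩
  all_goals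
    by_cases hy : y ∈ S D j i 9 2
    swap
    · simp [Tp_of_not _ hy]
    have a1 := In_self (D := D) (j := i) (by norm_num) hy.1
    have hb := H j i _ (In_mono hy.2 (by norm_num)) (In_mono a1 (by norm_num))
    have p0 := D.psi_nn j (D.tm j i y)
    rw [Tp_of_mem _ hy, Tp_of_mem _ hy, wj]
  · rw [map_smul, norm_smul, Real.norm_of_nonneg p0, ContinuousLinearMap.id_apply]
    have := (pull_le hb _).trans
      (mul_le_mul_of_nonneg_left ((D.F j).norm_pull_A (D.tm j i y) (h j (D.tm j i y))) (by positivity))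
    have n0 := norm_nonneg (h j (D.tm j i y))
    calc _ ≤ D.psi j (D.tm j i y) * (6 * C ^ 2 * (11 * ‖h j (D.tm j i y)‖)) := by gcongr
      _ = 1 * (6 * C ^ 2 * 11) * (D.psi j (D.tm j i y) * ‖h j (D.tm j i y)‖) := by ring
      _ ≤ _ := by gcongr; norm_num
  · have hc := h2.comm j i _ (In_mono hy.2 (by norm_num)) (In_mono a1 (by norm_num))
    rw [(D.e i).right_inv (mem_target i (hy.1.trans (by norm_num)))] at hc
    rw [map_smul, map_smul, norm_smul, Real.norm_of_nonneg p0, Frame.cm_apply, norm_cm,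
      pull_pull, pull_pull, Atl.tm, (comm_pull hc _).1, ← pull_pull, ← pull_pull]
    have := ((D.F i).norm_pull_Ai y _).trans (mul_le_mul_of_nonneg_left ((pull_le hb _).trans
      (mul_le_mul_of_nonneg_left ((D.F j).norm_pull_A (D.tm j i y) (Pm (h j (D.tm j i y))))
        (by positivity))) (by norm_num))
    calc _ ≤ D.psi j (D.tm j i y) * (11 * (6 * C ^ 2 * (11 * ‖Pm (h j (D.tm j i y))‖))) :=
          mul_le_mul_of_nonneg_left this p0
      _ = _ := by rw [Atl.tm]; ring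

include h1 h2 h3 h4 in
lemma hat_bd : ∃ C, 0 ≤ C ∧ ∀ i h, Integrable (fun y => ‖D.hat i h y‖ ^ 2) ∧
    nL2 (fun y => ‖D.hat i h y‖) ≤ C * ‖h‖ ∧
    nL2 (fun y => ‖(D.F i).cm y (D.hat i h y)‖) ≤ C * ‖D.mapH Pm h‖ ∧
    ∫ y, ‖D.hat i h y‖ ≤ C * D.L1 h ∧
    ∫ y, ‖(D.F i).cm y (D.hat i h y)‖ ≤ C * D.L1 (D.mapH Pm h) := by
  obtain ⟨C, hC, H⟩ := gen_le h1 h2 h4
  obtain ⟨B, hB, H'⟩ := pt_le h1 h2 h3
  refine ⟨C * B, by positivity, fun i h => ?_⟩
  have m := (hat_int h1 h2 h3 h4 i h).1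
  have e : D.mapH (ContinuousLinearMap.id ℝ E6) h = h :=
    PiLp.ext fun j => Lp.ext (h4.map_ae _ h j)
  have a := H i _ h _ B hB m.norm (fun _ => norm_nonneg _) fun y => (H' i h y).1
  have b := H i _ h _ B hB (isBoundedBilinearMap_apply.continuous.comp_aestronglyMeasurable
    ((D.F i).sm_cm.continuous.aestronglyMeasurable.prodMk m)).norm (fun _ => norm_nonneg _)
    fun y => (H' i h y).2
  rw [e] at a
  exact ⟨a.1, a.2.1, b.2.1, a.2.2, b.2.2⟩

include h1 h2 h3 h4 in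
lemma pair {E : Type} [NormedAddCommGroup E] [NormedSpace ℝ E] (i) (h : D.H)
    (k : V → E6 →L[ℝ] E) (hk : Continuous k) (hk0 : ∀ y, 9 < ‖y‖ → k y = 0) :
    ∑ j, ∫ y, (D.tr i j ((D.e j).symm y)).det • D.ext0 i k ((D.e j).symm y)
        (pull (D.tr j i ((D.e j).symm y)) (D.psi j y • pull ((D.F j).A y) (h j y)))
      = ∫ y, k y (D.hat i h y) := by
  rw [hat_eq h3]
  simp only [map_sum]
  rw [integral_finset_sum _ fun j _ => term_int h1 h2 h4 i j h hk]
  exact Finset.sum_congr rfl fun j _ => pair_one h1 h2 i j (wj_zero h j) hk0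

include h1 h2 h3 h4 in
lemma pair' (i) (h : D.H) (β : V → E6) (hβ : Cc 9 β) :
    D.qH (D.iota (D.ext i β)) h = ∫ y, wq (β y) (D.hat i h y) := by
  have := pair h1 h2 h3 h4 i h (fun y => wqL (β y)) (wqL.continuous.comp hβ.continuous)
    fun y hy => by rw [hβ.2 y hy, map_zero]
  simp only [wqL_apply] at this
  rw [← this, (h4.qH_eq _ _).2]
  refine Finset.sum_congr rfl fun j _ => ?_
  rw [integral_congr_ae (g := fun y => wq (pull ((D.F j).Ai y) (D.loc j (D.ext i β) y)) (h j y))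
    (by filter_upwards [h4.iota_ae _ j (h3.sm_ext i β (hβ.mono (by norm_num)))] with y hy
        using by rw [hy]), h4.int]
  refine integral_congr_ae (.of_forall fun y => ?_)
  have e : ∀ v, D.ext0 i (fun y => wqL (β y)) ((D.e j).symm y) v =
      wq (D.ext0 i β ((D.e j).symm y)) v := fun v => by
    unfold Atl.ext0
    split_ifs <;> simp
  simp only [e, h3.loc_ext', wq_pull_inv _ _ ((D.F j).inv2 y), wq_pull_inv _ _ (tr_tr i j _),
    map_smul, wq_smul_r, smul_eq_mul]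
  linear_combination (D.psi j y * (D.tr i j ((D.e j).symm y)).det *
    wq (D.ext0 i β ((D.e j).symm y)) (pull (D.tr j i ((D.e j).symm y))
      (pull ((D.F j).A y) (h j y)))) * (D.F j).det_mul y

include h1 h3 h4 in
lemma iota (i) (α : Form X) (hα : D.Sm α) :
    D.hat i (D.iota α) =ᵐ[volume] (closedBall (0 : V) 9).indicator (D.loc i α) := by
  have e : ∀ j, wj D (D.iota α) j =ᵐ[volume] fun y => D.psi j y • D.loc j α y := fun j => by
    filter_upwards [(h4.ae j _).1 (h4.iota_ae α j hα)] with y hy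
    by_cases h0 : D.psi j y = 0
    · simp [wj, h0]
    · rw [wj, hy h0, Frame.pull_A_Ai]
  have e2 : α = fun x => ∑ j, D.ext j (fun y => D.psi j y • D.loc j α y) x := funext (h3.part α)
  filter_upwards [ae_all_iff.2 fun j => Tp_ae h1 (i := i) (j := j) (e j)] with y hy
  rw [hat_eq h3]
  conv_rhs => rw [e2, loc_sum h3 i fun j y hy => by rw [(D.psi_cc j).2 y hy, zero_smul]]
  simp only [hy]

include h1 h2 h3 h4 in
lemma iota_l2 : ∃ C, 0 ≤ C ∧ ∀ i β, Cc 9 β →
    ‖D.iota (D.ext i β)‖ ≤ C * nL2 (fun y => ‖β y‖) := by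
  obtain ⟨C, hC, H⟩ := hat_bd h1 h2 h3 h4
  refine ⟨C + 1, by positivity, fun i β hβ => ?_⟩
  have e1 := pair' h1 h2 h3 h4 i (D.mapH Q6 (D.iota (D.ext i β))) β hβ
  rw [qH_Q6 h4] at e1
  have b := H i (D.mapH Q6 (D.iota (D.ext i β)))
  exact absorb hC (norm_nonneg _) (sq_int hβ) b.1 e1
    (b.2.1.trans (mul_le_mul_of_nonneg_left (Q6_le h4 _) hC))

include h2 h3 h4 in
lemma iota_upx (i) (c : V → E2) (hc : Cc 9 c) : D.mapH Po (D.iota (D.upx i c)) = 0 := by
  refine PiLp.ext fun j => Lp.ext ?_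
  filter_upwards [h4.map_ae Po (D.iota (D.upx i c)) j,
    h4.iota_ae _ j (h3.sm_upx i c (hc.mono (by norm_num))), h4.supp j,
    Lp.coeFn_zero E6 2 (D.nu j)] with y a b hy z
  refine (a.trans ?_).trans z.symm
  show Po (D.iota (D.upx i c) j y) = 0
  rw [b, Dat.upx, h3.loc_ext', Atl.ext0]
  split_ifs with h
  · by_cases h9 : ‖D.e i ((D.e j).symm y)‖ ≤ 9
    · have hc := h2.comm i j _ ⟨h, h9.trans (by norm_num)⟩
        (In_self (by norm_num) (hy.trans (by norm_num)))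
      rw [(D.e j).right_inv (mem_target j (hy.trans (by norm_num)))] at hc
      rw [Frame.up_apply, pull_pull, pull_pull, (comm_pull hc _).2, Po_B2, map_zero]
    · simp [hc.2 _ (not_le.1 h9)]
  · simp

end
end Hat

theorem hatS {X : Type*} [TopologicalSpace X] [T2Space X] {D : Dat X} (h1 : GeoA D.toAtl)
    (h2 : GeoD D) (h3 : FormS D) (h4 : HilS D) : HatS D where
  int i h := ⟨Hat.hat_int h1 h2 h3 h4 i h, ((Hat.hat_bd h1 h2 h3 h4).choose_spec.2 i h).1⟩
  bd := by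
    obtain ⟨C, hC, H⟩ := Hat.hat_bd h1 h2 h3 h4
    exact ⟨C, hC, fun i h => (H i h).2⟩
  pair i h k := Hat.pair h1 h2 h3 h4 i h k
  pair' := Hat.pair' h1 h2 h3 h4
  iota := Hat.iota h1 h3 h4
  iota_l2 := Hat.iota_l2 h1 h2 h3 h4
  iota_upx := Hat.iota_upx h2 h3 h4

end Vale.Agent.P204
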