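import Vale.Agent.P204.Stmt

/-! Change of variables between two charts. -/

set_option maxSynthPendingDepth 3

open scoped Topology ContDiff RealInnerProductSpace
open Set Metric MeasureTheory Filter

noncomputable section
namespace Vale.Agent.P204.Hat

variable {X : Type*} [TopologicalSpace X] {D : Dat X}

/-- overlap region in the chart `j` -/
def S (D : Dat X) (i j : Fin D.n) (r r' : ℝ) : Set V :=
  {y | ‖y‖ ≤ r ∧ D.In i r' ((D.e j).symm y)}

lemma mem_target (j : Fin D.n) {y : V} (h : ‖y‖ ≤ 12) : y ∈ (D.e j).target :=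
  D.big j (by simpa using h)

lemma S_sub {i j : Fin D.n} {r r' : ℝ} (hr : r ≤ 12) : S D i j r r' ⊆ D.dom i j :=
  fun _ hy => ⟨mem_target j (hy.1.trans hr), hy.2.1⟩

lemma symm_tm {i j : Fin D.n} {y : V} (hy : y ∈ D.dom i j) :
    (D.e i).symm (D.tm i j y) = (D.e j).symm y := (D.e i).left_inv hy.2

lemma tm_tm {i j : Fin D.n} {y : V} (hy : y ∈ D.dom i j) : D.tm j i (D.tm i j y) = y := by
  rw [Atl.tm, symm_tm hy, (D.e j).right_inv hy.1]

lemma In_self {j : Fin D.n} {y : V} {r : ℝ} (hr : r ≤ 12) (hy : ‖y‖ ≤ r) :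
    D.In j r ((D.e j).symm y) := by
  have h := mem_target j (hy.trans hr)
  exact ⟨(D.e j).map_target h, by rwa [(D.e j).right_inv h]⟩

lemma In_mono {j : Fin D.n} {x : X} {r r' : ℝ} (h : D.In j r x) (hr : r ≤ r') : D.In j r' x :=
  ⟨h.1, h.2.trans hr⟩

lemma tm_mem {i j : Fin D.n} {r r' : ℝ} (hr : r ≤ 12) {y : V} (hy : y ∈ S D i j r r') :
    D.tm i j y ∈ S D j i r' r :=
  ⟨hy.2.2, by rw [symm_tm (S_sub hr hy)]; exact In_self hr hy.1⟩

lemma image_S {i j : Fin D.n} {r r' : ℝ} (hr : r ≤ 12) (hr' : r' ≤ 12) :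
    D.tm i j '' S D i j r r' = S D j i r' r :=
  Subset.antisymm (by rintro _ ⟨y, hy, rfl⟩; exact tm_mem hr hy)
    fun y hy => ⟨_, tm_mem hr' hy, tm_tm (S_sub hr' hy)⟩

lemma tr_tr (i j : Fin D.n) (x : X) :
    (D.tr j i x).comp (D.tr i j x) = ContinuousLinearMap.id ℝ V := by
  ext1 v
  simp [Atl.tr]

lemma psi_le_one (j : Fin D.n) (y : V) : D.psi j y ≤ 1 := by
  by_cases hy : ‖y‖ ≤ 2
  · have h := In_self (D := D) (j := j) (by norm_num) hy
    have h1 := D.psi_sum ((D.e j).symm y)
    have h2 := Finset.single_le_sum (f := fun l => D.ext0 l (D.psi l) ((D.e j).symm y))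
      (s := Finset.univ) (fun l _ => by
        unfold Atl.ext0
        split_ifs
        exacts [D.psi_nn _ _, le_rfl]) (Finset.mem_univ j)
    rw [h1, Atl.ext0, if_pos h.1, (D.e j).right_inv (mem_target j (by linarith))] at h2
    exact h2
  · rw [(D.psi_cc j).2 y (not_le.1 hy)]
    exact zero_le_one

/-- transport of a function from the chart `j` to the chart `i` -/
def Tp (D : Dat X) (i j : Fin D.n) {E : Type} [Zero E] (a : V → E) : V → E :=
  (S D j i 9 2).indicator fun y => a (D.tm j i y)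

lemma Tp_of_not {i j : Fin D.n} {E : Type} [Zero E] (a : V → E) {y : V} (hy : y ∉ S D j i 9 2) :
    Tp D i j a y = 0 := indicator_of_notMem hy _

lemma Tp_of_mem {i j : Fin D.n} {E : Type} [Zero E] (a : V → E) {y : V} (hy : y ∈ S D j i 9 2) :
    Tp D i j a y = a (D.tm j i y) := indicator_of_mem hy _

lemma Tp_tm {i j : Fin D.n} {E : Type} [Zero E] (a : V → E) {y : V} (hy : y ∈ S D i j 2 9) :
    Tp D i j a (D.tm i j y) = a y := by
  rw [Tp_of_mem a (tm_mem (by norm_num) hy), tm_tm (S_sub (by norm_num) hy)]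

lemma loc_sum (h3 : FormS D) (i : Fin D.n) {w : Fin D.n → V → E6}
    (hw : ∀ j y, 2 < ‖y‖ → w j y = 0) (y : V) :
    (closedBall (0 : V) 9).indicator (D.loc i fun x => ∑ j, D.ext j (w j) x) y =
      ∑ j, pull (D.tr j i ((D.e i).symm y)) (Tp D i j (w j) y) := by
  by_cases hy : ‖y‖ ≤ 9
  · rw [indicator_of_mem (by simpa using hy), Atl.loc, map_sum]
    refine Finset.sum_congr rfl fun j _ => (h3.loc_ext' i j (w j) y).trans ?_
    congr 1
    by_cases h : y ∈ S D j i 9 2
    · rw [Tp_of_mem _ h, Atl.ext0, if_pos h.2.1, Atl.tm]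
    · rw [Tp_of_not _ h, Atl.ext0]
      split_ifs with h'
      · exact hw _ _ (not_le.1 fun h2 => h ⟨hy, h', h2⟩)
      · rfl
  · rw [indicator_of_notMem (by simpa using hy)]
    exact (Finset.sum_eq_zero fun j _ => by rw [Tp_of_not _ fun h => hy h.1, map_zero]).symm

section
variable (h1 : GeoA D.toAtl) (h2 : GeoD D) {E : Type} [NormedAddCommGroup E] [NormedSpace ℝ E]
include h1

lemma cptS (i j : Fin D.n) : IsCompact (S D i j 2 9) ∧ IsCompact (S D j i 9 2) :=
  ⟨h1.cpt i j 2 9 (by norm_num) (by norm_num), h1.cpt j i 9 2 (by norm_num) (by norm_num)⟩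

lemma cont_tr (i j : Fin D.n) {r r' : ℝ} (hr : r ≤ 12) :
    ContinuousOn (fun y => D.tr i j ((D.e j).symm y)) (S D i j r r') :=
  (h1.tr_sm i j).continuousOn.mono (S_sub hr)

lemma Tp_ae {i j : Fin D.n} {a a' : V → E} (h : a =ᵐ[volume] a') :
    Tp D i j a =ᵐ[volume] Tp D i j a' := by
  have h0 : volume ({y | ¬ a y = a' y} ∩ S D i j 2 9) = 0 := measure_mono_null inter_subset_left h
  have := addHaar_image_eq_zero_of_differentiableOn_of_addHaar_eq_zero volume (f := D.tm i j)
    (fun y hy => (h1.fderiv_tm i j y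
      (S_sub (by norm_num) hy.2)).differentiableAt.differentiableWithinAt) h0
  refine measure_mono_null (fun y hy => ?_) this
  by_cases hS : y ∈ S D j i 9 2
  · refine ⟨D.tm j i y, ⟨fun h => hy ?_, tm_mem (by norm_num) hS⟩, tm_tm (S_sub (by norm_num) hS)⟩
    exact (Tp_of_mem _ hS).trans (h.trans (Tp_of_mem _ hS).symm)
  · exact absurd ((Tp_of_not _ hS).trans (Tp_of_not _ hS).symm) hy

include h2

lemma cv (i j : Fin D.n) (G : V → E) :
    (IntegrableOn G (S D j i 9 2) ↔ IntegrableOn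
      (fun y => (D.tr i j ((D.e j).symm y)).det • G (D.tm i j y)) (S D i j 2 9)) ∧
    ∫ y in S D j i 9 2, G y =
      ∫ y in S D i j 2 9, (D.tr i j ((D.e j).symm y)).det • G (D.tm i j y) := by
  have hm := (cptS h1 i j).1.measurableSet
  have hd : ∀ y ∈ S D i j 2 9, HasFDerivWithinAt (D.tm i j) (D.tr i j ((D.e j).symm y))
      (S D i j 2 9) y := fun y hy =>
    (h1.fderiv_tm i j y (S_sub (by norm_num) hy)).hasFDerivWithinAt
  have hi : InjOn (D.tm i j) (S D i j 2 9) := fun y hy y' hy' h => by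
    rw [← tm_tm (S_sub (by norm_num) hy), h, tm_tm (S_sub (by norm_num) hy')]
  have e : EqOn (fun y => |(D.tr i j ((D.e j).symm y)).det| • G (D.tm i j y))
      (fun y => (D.tr i j ((D.e j).symm y)).det • G (D.tm i j y)) (S D i j 2 9) := fun y hy => by
    simp only [abs_of_pos (h2.det_pos i j _ (In_mono hy.2 (by norm_num))
      (In_mono (In_self (by norm_num) hy.1) (by norm_num)))]
  rw [← image_S (i := i) (j := j) (r := 2) (r' := 9) (by norm_num) (by norm_num),
    integrableOn_image_iff_integrableOn_abs_det_fderiv_smul volume hm hd hi,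
    integral_image_eq_integral_abs_det_fderiv_smul volume hm hd hi,
    integrableOn_congr_fun e hm, setIntegral_congr_fun hm e]
  exact ⟨Iff.rfl, rfl⟩

lemma Tp_int (i j : Fin D.n) {a : V → E} (ha : Integrable a) : Integrable (Tp D i j a) := by
  have hc := cptS h1 i j
  refine IntegrableOn.integrable_of_forall_notMem_eq_zero ((cv h1 h2 i j _).1.2 ?_)
    fun y hy => Tp_of_not a hy
  refine (ha.integrableOn.continuousOn_smul ((contDiff_det (n := 0)).continuous.comp_continuousOn
    (cont_tr h1 i j (by norm_num))) hc.1).congr_fun (fun y hy => ?_) hc.1.measurableSet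
  simp only [Tp_tm a hy, Function.comp]

lemma Tp_clm {E' : Type} [NormedAddCommGroup E'] [NormedSpace ℝ E'] (i j : Fin D.n)
    {L : V → E →L[ℝ] E'} (hL : ContinuousOn L (S D j i 9 2)) {a : V → E} (ha : Integrable a) :
    Integrable fun y => L y (Tp D i j a y) := by
  have hc := (cptS h1 i j).2
  have h := Tp_int h1 h2 i j ha
  obtain ⟨C, hC⟩ := hc.exists_bound_of_continuousOn hL
  refine IntegrableOn.integrable_of_forall_notMem_eq_zero (s := S D j i 9 2) ?_
    fun y hy => by rw [Tp_of_not a hy, map_zero]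
  refine Integrable.mono' (h.norm.const_mul C).integrableOn
    (isBoundedBilinearMap_apply.continuous.comp_aestronglyMeasurable
      ((hL.aestronglyMeasurable_of_isCompact hc hc.measurableSet).prodMk h.1.restrict)) ?_
  filter_upwards [ae_restrict_mem hc.measurableSet] with y hy
  exact ((L y).le_opNorm _).trans (mul_le_mul_of_nonneg_right (hC y hy) (norm_nonneg _))

lemma Tp_le : ∃ C, 0 ≤ C ∧ ∀ (i j : Fin D.n) (a : V → ℝ), Integrable a → (∀ y, 0 ≤ a y) →
    ∫ y, Tp D i j a y ≤ C * ∫ y, a y := by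
  obtain ⟨C, hC, H⟩ := h1.bound
  refine ⟨2 * C * C * C * C, by positivity, fun i j a ha h0 => ?_⟩
  have hc := cptS h1 i j
  rw [← setIntegral_eq_integral_of_forall_compl_eq_zero fun y hy => Tp_of_not a hy,
    (cv h1 h2 i j _).2, ← integral_const_mul]
  refine le_trans (setIntegral_mono_on ((cv h1 h2 i j _).1.1 (Tp_int h1 h2 i j ha).integrableOn)
    (ha.const_mul _).integrableOn hc.1.measurableSet fun y hy => ?_)
    (setIntegral_le_integral (ha.const_mul _) (.of_forall fun y => ?_))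
  · rw [Tp_tm a hy, smul_eq_mul]
    refine mul_le_mul_of_nonneg_right ((le_abs_self _).trans ?_) (h0 y)
    have hb := H i j _ (In_mono hy.2 (by norm_num))
      (In_mono (In_self (by norm_num) hy.1) (by norm_num))
    have e : ∀ l, ‖D.tr i j ((D.e j).symm y) (bv l)‖ ≤ C := fun l => by
      have := (D.tr i j ((D.e j).symm y)).le_opNorm (bv l)
      rw [norm_bv] at this
      linarith
    rw [det_eq_D4]
    refine (abs_D4_le _ _ _ _).trans ?_
    gcongr <;> exact e _
  · have := h0 y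
    simp only [Pi.zero_apply]
    positivity

lemma pair_one {E : Type} [NormedAddCommGroup E] [NormedSpace ℝ E] (i j : Fin D.n) {w : V → E6}
    (hw : ∀ y, 2 < ‖y‖ → w y = 0) {k : V → E6 →L[ℝ] E} (hk : ∀ y, 9 < ‖y‖ → k y = 0) :
    ∫ y, (D.tr i j ((D.e j).symm y)).det • D.ext0 i k ((D.e j).symm y)
        (pull (D.tr j i ((D.e j).symm y)) (w y)) =
      ∫ y, k y (pull (D.tr j i ((D.e i).symm y)) (Tp D i j w y)) := by
  have hc := cptS h1 i j
  rw [← setIntegral_eq_integral_of_forall_compl_eq_zero (s := S D j i 9 2)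
    (f := fun y => k y (pull (D.tr j i ((D.e i).symm y)) (Tp D i j w y)))
    fun y hy => by rw [Tp_of_not w hy, map_zero, map_zero], (cv h1 h2 i j _).2,
    ← setIntegral_eq_integral_of_forall_compl_eq_zero (s := S D i j 2 9)]
  · refine setIntegral_congr_fun hc.1.measurableSet fun y hy => ?_
    simp only [Tp_tm w hy, symm_tm (S_sub (by norm_num) hy)]
    rw [Atl.ext0, if_pos hy.2.1, Atl.tm]
  · intro y hy
    by_cases h : ‖y‖ ≤ 2
    · rw [Atl.ext0]
      split_ifs with h'
      · rw [hk _ (not_le.1 fun h9 => hy ⟨h, h', h9⟩)]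
        simp
      · simp
    · simp [hw y (not_le.1 h)]

end

end Vale.Agent.P204.Hat
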