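import Vale.Agent.P204.Stmt

/-! The Hilbert space of families of square integrable forms. -/

set_option maxSynthPendingDepth 3

open scoped Topology ContDiff RealInnerProductSpace
open Set Metric MeasureTheory Filter

noncomputable section
namespace Vale.Agent.P204

namespace Hil

variable {X : Type*} [TopologicalSpace X] (D : Dat X)

lemma w_cc (j : Fin D.n) : Cc 2 fun y => D.psi j y * ((D.F j).A y).det :=
  (D.psi_cc j).smul_right (cd_det (D.F j).smA)

lemma w_nn (j : Fin D.n) (y : V) : 0 ≤ D.psi j y * ((D.F j).A y).det :=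
  mul_nonneg (D.psi_nn j y) ((D.F j).det_pos y).le

lemma w_meas (j : Fin D.n) :
    Measurable fun y => ENNReal.ofReal (D.psi j y * ((D.F j).A y).det) :=
  (w_cc D j).continuous.measurable.ennreal_ofReal

instance fin (j : Fin D.n) : IsFiniteMeasure (D.nu j) :=
  isFiniteMeasure_withDensity_ofReal (w_cc D j).integrable.2

lemma ae (j : Fin D.n) (P : V → Prop) : (∀ᵐ y ∂(D.nu j), P y) ↔ ∀ᵐ y, D.psi j y ≠ 0 → P y := by
  rw [Dat.nu, ae_withDensity_iff (w_meas D j)]
  refine eventually_congr (Eventually.of_forall fun y => imp_congr_left ?_)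
  rw [ENNReal.ofReal_ne_zero_iff, mul_pos_iff_of_pos_right ((D.F j).det_pos y)]
  exact ⟨fun h => h.ne', (D.psi_nn j y).lt_of_ne'⟩

lemma supp (j : Fin D.n) : ∀ᵐ y ∂(D.nu j), ‖y‖ ≤ 2 :=
  (ae D j _).2 (Eventually.of_forall fun y h => not_lt.1 fun h' => h ((D.psi_cc j).2 y h'))

lemma intg {E : Type} [NormedAddCommGroup E] [NormedSpace ℝ E] (j : Fin D.n) (f : V → E) :
    Integrable f (D.nu j) ↔ Integrable (fun y => (D.psi j y * ((D.F j).A y).det) • f y) := by
  rw [Dat.nu, integrable_withDensity_iff_integrable_smul' (w_meas D j)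
    (Eventually.of_forall fun _ => ENNReal.ofReal_lt_top)]
  simp only [ENNReal.toReal_ofReal (w_nn D j _)]

variable {D}

lemma map_ae (L : Op) (h : D.H) (j : Fin D.n) : D.mapH L h j =ᵐ[D.nu j] fun y => L (h j y) :=
  L.coeFn_compLp (h j)

lemma map_add' (L : Op) (g h : D.H) : D.mapH L (g + h) = D.mapH L g + D.mapH L h :=
  PiLp.ext fun j => map_add (L.compLpₗ 2 (D.nu j)) (g j) (h j)

lemma map_smul' (L : Op) (c : ℝ) (h : D.H) : D.mapH L (c • h) = c • D.mapH L h :=
  PiLp.ext fun j => map_smul (L.compLpₗ 2 (D.nu j)) c (h j)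

lemma map_norm (L : Op) (h : D.H) : ‖D.mapH L h‖ ≤ ‖L‖ * ‖h‖ := by
  refine le_of_pow_le_pow_left₀ two_ne_zero (by positivity) ?_
  rw [mul_pow, PiLp.norm_sq_eq_of_L2, PiLp.norm_sq_eq_of_L2, Finset.mul_sum]
  refine Finset.sum_le_sum fun j _ => ?_
  rw [← mul_pow]
  exact pow_le_pow_left₀ (norm_nonneg _) (L.norm_compLp_le (h j)) 2

lemma map_map {L L' L'' : Op} (e : ∀ a, L (L' a) = L'' a) (h : D.H) :
    D.mapH L (D.mapH L' h) = D.mapH L'' h :=
  PiLp.ext fun j => Lp.ext (by
    filter_upwards [map_ae L (D.mapH L' h) j, map_ae L' h j, map_ae L'' h j] with y h1 h2 h3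
    rw [h1, h2, h3, e])

lemma map_id (h : D.H) : D.mapH (ContinuousLinearMap.id ℝ E6) h = h :=
  PiLp.ext fun j => Lp.ext (map_ae _ h j)

lemma map_zero' (h : D.H) : D.mapH 0 h = 0 :=
  norm_le_zero_iff.1 ((map_norm 0 h).trans_eq (by rw [norm_zero, zero_mul]))

lemma split (h : D.H) : D.mapH Pm h + D.mapH Po h = h :=
  PiLp.ext fun j => Lp.ext (by
    filter_upwards [map_ae Pm h j, map_ae Po h j, Lp.coeFn_add (D.mapH Pm h j) (D.mapH Po h j)]
      with y h1 h2 h3
    rw [PiLp.add_apply, h3, Pi.add_apply, h1, h2, Pm_add_Po])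

lemma adj {L : Op} (e : ∀ a b, ⟪L a, b⟫ = ⟪a, L b⟫) (g h : D.H) :
    ⟪D.mapH L g, h⟫ = ⟪g, D.mapH L h⟫ := by
  rw [PiLp.inner_apply, PiLp.inner_apply]
  refine Finset.sum_congr rfl fun j _ => ?_
  rw [L2.inner_def, L2.inner_def]
  refine integral_congr_ae ?_
  filter_upwards [map_ae L g j, map_ae L h j] with y h1 h2
  rw [h1, h2, e]

lemma adjQ (g h : D.H) : ⟪D.mapH Q6 g, h⟫ = ⟪g, D.mapH Q6 h⟫ :=
  adj (fun a b => by simp [inner_E6]) g h

lemma adjM (g h : D.H) : ⟪D.mapH Pm g, h⟫ = ⟪g, D.mapH Pm h⟫ :=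
  adj (fun a b => by simp [inner_E6]) g h

lemma adjO (g h : D.H) : ⟪D.mapH Po g, h⟫ = ⟪g, D.mapH Po h⟫ :=
  adj (fun a b => by simp [inner_E6]) g h

lemma QQ (h : D.H) : D.mapH Q6 (D.mapH Q6 h) = h := (map_map Q6_Q6 h).trans (map_id h)

lemma QM (h : D.H) : D.mapH Q6 (D.mapH Pm h) = D.mapH Pm h :=
  map_map (fun a => by apply E6_ext <;> simp) h

lemma MQ (h : D.H) : D.mapH Pm (D.mapH Q6 h) = D.mapH Pm h :=
  map_map (fun a => by apply E6_ext <;> simp) h

lemma MM (h : D.H) : D.mapH Pm (D.mapH Pm h) = D.mapH Pm h :=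
  map_map (fun a => by apply E6_ext <;> simp) h

lemma OO (h : D.H) : D.mapH Po (D.mapH Po h) = D.mapH Po h :=
  map_map (fun a => by apply E6_ext <;> simp) h

lemma MO (h : D.H) : D.mapH Pm (D.mapH Po h) = 0 :=
  (map_map (fun a => by apply E6_ext <;> simp) h).trans (map_zero' h)

lemma normQ (h : D.H) : ‖D.mapH Q6 h‖ = ‖h‖ :=
  norm_eq_of_sq (by rw [← real_inner_self_eq_norm_sq, adjQ, QQ, real_inner_self_eq_norm_sq])

lemma qH_le (g h : D.H) : |D.qH g h| ≤ 2 * ‖g‖ * ‖h‖ := by
  rw [Dat.qH, abs_mul, abs_two, mul_assoc, ← normQ h]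
  exact mul_le_mul_of_nonneg_left (abs_real_inner_le_norm _ _) zero_le_two

end Hil

open Hil in
theorem hilS {X : Type*} [TopologicalSpace X] [T2Space X] {D : Dat X} (h1 : GeoA D.toAtl) :
    HilS D where
  fin := Hil.fin D
  supp := supp D
  wt := by
    choose B b0 b1 using fun j => (w_cc D j).bounded
    refine ⟨∑ j, B j + 7, add_nonneg (Finset.sum_nonneg fun j _ => b0 j) (by norm_num),
      fun j y => ⟨w_nn D j y, ?_, ?_⟩⟩
    · linarith [(le_abs_self _).trans (b1 j y),
        Finset.single_le_sum (fun j _ => b0 j) (Finset.mem_univ j)]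
    · nlinarith [mul_nonneg (Finset.sum_nonneg fun j (_ : j ∈ Finset.univ) => b0 j) (w_nn D j y),
        mul_le_mul_of_nonneg_left ((D.F j).le_det y) (D.psi_nn j y)]
  int j f := by
    rw [Dat.nu, integral_withDensity_eq_integral_toReal_smul (w_meas D j)
      (Eventually.of_forall fun _ => ENNReal.ofReal_lt_top)]
    simp only [ENNReal.toReal_ofReal (w_nn D j _)]
  intg := intg D
  ae := Hil.ae D
  h_int h j := by
    have a1 := (Lp.memLp (h j)).integrable one_le_two
    have c1 : Continuous fun y => ((D.F j).A y).det := (cd_det (D.F j).smA).continuous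
    have a2 : Integrable (fun y => (((D.F j).A y).det)⁻¹ • pull ((D.F j).A y) (h j y)) (D.nu j) := by
      refine (a1.norm.const_mul 77).mono' ((c1.inv₀ fun y =>
        ((D.F j).det_pos y).ne').aestronglyMeasurable.smul
        (isBoundedBilinearMap_apply.continuous.comp_aestronglyMeasurable
          ((cd_pull (D.F j).smA).continuous.aestronglyMeasurable.prodMk a1.1)))
        (Eventually.of_forall fun y => ?_)
      rw [norm_smul, norm_inv, Real.norm_of_nonneg ((D.F j).det_pos y).le]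
      refine (mul_le_mul ((inv_le_comm₀ ((D.F j).det_pos y) (by norm_num : (0 : ℝ) < 7)).2
        ((one_div _).ge.trans ((D.F j).le_det y))) ((D.F j).norm_pull_A y _) (norm_nonneg _)
        (by norm_num)).trans_eq (by ring)
    refine ⟨a1, ((intg D j _).1 a2).congr (Eventually.of_forall fun y => ?_)⟩
    beta_reduce
    rw [smul_smul, mul_inv_cancel_right₀ ((D.F j).det_pos y).ne']
  l1_le := by
    refine ⟨∑ j, (D.nu j univ ^ (1 / (1 : ENNReal).toReal - 1 / (2 : ENNReal).toReal)).toReal,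
      Finset.sum_nonneg fun _ _ => ENNReal.toReal_nonneg, fun h => ?_⟩
    rw [Dat.L1, Finset.sum_mul]
    refine Finset.sum_le_sum fun j _ => ?_
    rw [integral_norm_eq_lintegral_enorm (Lp.aestronglyMeasurable _),
      ← eLpNorm_one_eq_lintegral_enorm, mul_comm]
    refine (ENNReal.toReal_mono (ENNReal.mul_ne_top (Lp.eLpNorm_ne_top _)
      (ENNReal.rpow_ne_top_of_nonneg (by norm_num) (measure_ne_top _ _)))
      (eLpNorm_le_eLpNorm_mul_rpow_measure_univ one_le_two (Lp.aestronglyMeasurable _))).trans ?_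
    rw [ENNReal.toReal_mul, ← Lp.norm_def]
    exact mul_le_mul_of_nonneg_right (PiLp.norm_apply_le h j) ENNReal.toReal_nonneg
  map_ae := map_ae
  map_add := map_add'
  map_smul := map_smul'
  map_norm := map_norm
  norm_sq h := by
    refine ⟨fun j => by simpa using L2.integrable_inner (𝕜 := ℝ) (h j) (h j), ?_⟩
    rw [← real_inner_self_eq_norm_sq, PiLp.inner_apply]
    simp only [L2.inner_def, real_inner_self_eq_norm_sq]
  qH_eq g h := by
    have e : ∀ j, (fun y => 2 * ⟪g j y, D.mapH Q6 h j y⟫) =ᵐ[D.nu j]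
        fun y => wq (g j y) (h j y) := fun j => by
      filter_upwards [map_ae Q6 h j] with y hy
      rw [hy, wq_eq]
    refine ⟨fun j => ((L2.integrable_inner (𝕜 := ℝ) (g j) _).const_mul 2).congr (e j), ?_⟩
    rw [Dat.qH, PiLp.inner_apply, Finset.mul_sum]
    refine Finset.sum_congr rfl fun j _ => ?_
    rw [L2.inner_def, ← integral_const_mul, integral_congr_ae (e j)]
  qH_symm g h := by rw [Dat.qH, Dat.qH, ← adjQ, real_inner_comm]
  qH_add g g' h := by rw [Dat.qH, Dat.qH, Dat.qH, inner_add_left, mul_add]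
  qH_inj g g' h := ext_inner_right ℝ fun v => by
    simpa only [Dat.qH, QQ, mul_right_inj' (two_ne_zero (α := ℝ))] using h (D.mapH Q6 v)
  qH_le := qH_le
  qH_minus g h e := by
    have a := split h
    rw [e, add_zero] at a
    refine (congrArg abs ?_).trans_le (qH_le (D.mapH Pm g) h)
    rw [Dat.qH, Dat.qH, adjM, MQ, ← QM, a]
  qH_self g := by
    have a := (abs_le.1 (qH_le (D.mapH Po g) (D.mapH Po g))).1
    have b : D.qH g g = 2 * ‖D.mapH Pm g‖ ^ 2 + D.qH (D.mapH Po g) (D.mapH Po g) := by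
      rw [Dat.qH, Dat.qH, ← real_inner_self_eq_norm_sq, adjM, MM, ← mul_add]
      nth_rw 2 [← split g]
      rw [map_add', QM, inner_add_right]
      nth_rw 3 [← split g]
      rw [inner_add_left, adjM, MQ, MO, inner_zero_right, zero_add]
    linarith
  qH_dual g := ⟨D.mapH Q6 (D.mapH Po g), by rw [MQ, MO], normQ _, by
    rw [Dat.qH, QQ, ← real_inner_self_eq_norm_sq, adjO, OO]⟩
  proj g := ⟨(map_norm _ g).trans (mul_le_of_le_one_left (norm_nonneg _)
      (Pm.opNorm_le_bound zero_le_one fun a => (norm_Pm_le a).trans (one_mul _).ge)),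
    (map_norm _ g).trans (mul_le_of_le_one_left (norm_nonneg _)
      (Po.opNorm_le_bound zero_le_one fun a => (norm_Po_le a).trans (one_mul _).ge)),
    (congrArg norm (split g)).ge.trans (norm_add_le _ _)⟩
  riesz l C hC a1 a2 a3 := by
    let L : D.H →ₗ[ℝ] ℝ := ⟨⟨l, a1⟩, a2⟩
    refine ⟨(1 / 2 : ℝ) • D.mapH Q6 ((InnerProductSpace.toDual ℝ D.H).symm (L.mkContinuous C a3)),
      ?_, fun h => ?_⟩
    · rw [norm_smul, normQ, LinearIsometryEquiv.norm_map]
      exact (mul_le_of_le_one_left (norm_nonneg _) (by norm_num)).trans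
        (L.mkContinuous_norm_le hC a3)
    · rw [Dat.qH, real_inner_smul_left, adjQ, QQ, InnerProductSpace.toDual_symm_apply,
        ← mul_assoc, mul_one_div_cancel two_ne_zero, one_mul]
      rfl
  iota_ae α j hα := by
    have c := (h1.cutoff j _ _ _ (by norm_num) (cut_cc one_le_two) (hα j)).clm (cd_pull (D.F j).smAi)
    have m : MemLp (fun y => pull ((D.F j).Ai y) (D.loc j α y)) 2 (D.nu j) :=
      (c.continuous.memLp_of_hasCompactSupport c.hcs).ae_eq ((supp D j).mono fun y hy => by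
        simp only [cut_one hy, one_smul])
    simp only [Dat.iota, dif_pos m]
    exact m.coeFn_toLp

end Vale.Agent.P204
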