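import Vale.Agent.P204.KConeA

/-! Closedness of the kernel in one chart. -/

set_option maxSynthPendingDepth 3

open scoped Topology ContDiff RealInnerProductSpace
open Set Metric MeasureTheory Filter

noncomputable section
namespace Vale.Agent.P204
namespace KCl
open KCone
variable {n : ℕ} (d : KD n)

/-- the four-form on `V × V` before integration -/
def om (ε : ℝ) (a b c e : V × V) (q : (V × V) × (Fin n → V)) : ℝ :=
  sc d ε q * D4 (Dd d (q.1, ε • q.2) a) (Dd d (q.1, ε • q.2) b) (Dd d (q.1, ε • q.2) c)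
    (Dd d (q.1, ε • q.2) e)
/-- after integration -/
def Om (ε : ℝ) (a b c e : V × V) (p : V × V) : ℝ := ∫ v, wt v • om d ε a b c e (p, v)
/-- the cut-off -/
def chi (C ε : ℝ) (p : V × V) : ℝ := cut 1 ((C * ε)⁻¹ • (p.2 - p.1))
/-- after the cut-off -/
def Oc (C ε : ℝ) (a b c e : V × V) (p : V × V) : ℝ := chi C ε p * Om d ε a b c e p

lemma om_sm (ε : ℝ) (a b c e : V × V) : ContDiff ℝ ∞ (om d ε a b c e) := by
  have h := (Dd_sm d).comp (scale_sm (n := n) ε)
  exact (sc_sm d ε).mul (cd_D4 (h.clm_apply contDiff_const) (h.clm_apply contDiff_const)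
    (h.clm_apply contDiff_const) (h.clm_apply contDiff_const))

lemma avg (h1 : AvgS) {E : Type} [NormedAddCommGroup E] [NormedSpace ℝ E] [CompleteSpace E]
    {G : (V × V) × (Fin n → V) → E} (hG : ContDiff ℝ ∞ G) :
    ContDiff ℝ ∞ (fun p => ∫ v, wt v • G (p, v)) ∧
      ∀ p, Integrable (fun v => wt v • fderiv ℝ (fun p' => G (p', v)) p) ∧
        fderiv ℝ (fun p => ∫ v, wt v • G (p, v)) p = ∫ v, wt v • fderiv ℝ (fun p' => G (p', v)) p := by
  have i2 : Integrable (wt : (Fin n → V) → ℝ) := by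
    simpa using wt_int (n := n) (continuous_const (y := (1 : ℝ)))
  have := h1.smul volume G id wt (closedBall 0 1) hG (isCompact_closedBall _ _)
    aestronglyMeasurable_id i2 (ae_of_all _ fun v => wt_ball)
  exact ⟨this.1, this.2.2.1⟩

lemma Om_sm (h1 : AvgS) (ε : ℝ) (a b c e : V × V) : ContDiff ℝ ∞ (Om d ε a b c e) :=
  (avg h1 (om_sm d ε a b c e)).1

lemma Om_fd (h1 : AvgS) (ε : ℝ) (a b c e p x : V × V) :
    Integrable (fun v => wt v * fderiv ℝ (fun p' => om d ε a b c e (p', v)) p x) ∧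
      fderiv ℝ (Om d ε a b c e) p x = ∫ v, wt v * fderiv ℝ (fun p' => om d ε a b c e (p', v)) p x := by
  obtain ⟨i1, e1⟩ := (avg h1 (om_sm d ε a b c e)).2 p
  refine ⟨i1.apply_continuousLinearMap x, ?_⟩
  exact (congrArg (fun L : V × V →L[ℝ] ℝ => L x) e1).trans (ContinuousLinearMap.integral_apply i1 x)

lemma Om_cl (h1 : AvgS) (h2 : NatS) (ε : ℝ) (p x0 x1 x2 x3 x4 : V × V) :
    fderiv ℝ (Om d ε x1 x2 x3 x4) p x0 - fderiv ℝ (Om d ε x0 x2 x3 x4) p x1
      + fderiv ℝ (Om d ε x0 x1 x3 x4) p x2 - fderiv ℝ (Om d ε x0 x1 x2 x4) p x3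
      + fderiv ℝ (Om d ε x0 x1 x2 x3) p x4 = 0 := by
  obtain ⟨i0, e0⟩ := Om_fd d h1 ε x1 x2 x3 x4 p x0
  obtain ⟨i1, e1⟩ := Om_fd d h1 ε x0 x2 x3 x4 p x1
  obtain ⟨i2, e2⟩ := Om_fd d h1 ε x0 x1 x3 x4 p x2
  obtain ⟨i3, e3⟩ := Om_fd d h1 ε x0 x1 x2 x4 p x3
  obtain ⟨i4, e4⟩ := Om_fd d h1 ε x0 x1 x2 x3 p x4
  rw [e0, e1, e2, e3, e4, ← integral_sub' i0 i1, ← integral_add' (i0.sub i1) i2,
    ← integral_sub' ((i0.sub i1).add i2) i3, ← integral_add' (((i0.sub i1).add i2).sub i3) i4]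
  refine integral_eq_zero_of_ae (ae_of_all _ fun v => ?_)
  have hΨ : ContDiff ℝ ∞ (fun p' : V × V => Ps d (p', ε • v)) :=
    (Ps_sm d).comp (contDiff_id.prodMk contDiff_const)
  have hη : ContDiff ℝ ∞ (fun w : V => (ε ^ 4)⁻¹ * eta (ε⁻¹ • w)) :=
    contDiff_const.mul (eta_sm.comp (contDiff_id.const_smul ε⁻¹))
  have key := h2.p4 (p := p) (hΨ.contDiffAt.of_le (WithTop.coe_le_coe.2 (le_top (a := (2 : ℕ∞)))))
    (hη.differentiable (by simp) _) (fun a b c e p' => om d ε a b c e (p', v))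
    (fun a b c e p' => by rw [(has_Dd d p' (ε • v)).fderiv]; rfl) x0 x1 x2 x3 x4
  simp only [Pi.add_apply, Pi.sub_apply, Pi.zero_apply]
  linear_combination wt v * key

lemma Om_zero {C1 δ0 ε : ℝ} (hF : d.Far C1 δ0) (h0 : 0 < ε) (h1 : ε ≤ 1) (a b c e : V × V)
    {p : V × V} (k1 : ‖p.1‖ ≤ 9) (k2 : ‖p.2 - p.1‖ ≤ δ0) (k3 : C1 * ε ≤ ‖p.2 - p.1‖) :
    Om d ε a b c e p = 0 := by
  refine integral_eq_zero_of_ae (ae_of_all _ fun v => ?_)
  by_cases hv : wt v = 0
  · simp [hv]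
  simp only [om, sc, Ps, eta_zero (hF ε p.1 p.2 v h0 h1 k1 k2 k3 (wt_ne hv)), mul_zero, zero_mul,
    smul_zero, Pi.zero_apply]

lemma chi_sm (C ε : ℝ) : ContDiff ℝ ∞ (chi C ε) :=
  (cut_sm 1).comp ((contDiff_snd.sub contDiff_fst).const_smul _)

lemma chi_norm {C ε : ℝ} (h : 0 < C * ε) (p : V × V) :
    ‖(C * ε)⁻¹ • (p.2 - p.1)‖ = ‖p.2 - p.1‖ / (C * ε) := by
  rw [norm_smul, norm_inv, Real.norm_of_nonneg h.le, div_eq_inv_mul]

lemma chi_one {C ε : ℝ} (h : 0 < C * ε) {p : V × V} (k : ‖p.2 - p.1‖ ≤ C * ε) : chi C ε p = 1 :=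
  cut_one (by rwa [chi_norm h, div_le_one h])

lemma chi_zero {C ε : ℝ} (h : 0 < C * ε) {p : V × V} (k : 2 * C * ε ≤ ‖p.2 - p.1‖) :
    chi C ε p = 0 :=
  cut_zero le_rfl (by rw [chi_norm h, le_div_iff₀ h]; linarith)

lemma Oc_sm (h1 : AvgS) (C ε : ℝ) (a b c e : V × V) : ContDiff ℝ ∞ (Oc d C ε a b c e) :=
  (chi_sm C ε).mul (Om_sm d h1 ε a b c e)

lemma Oc_cl (h1 : AvgS) (h2 : NatS) {C1 δ0 C ε : ℝ} (c1 : 1 ≤ C1) (hF : d.Far C1 δ0)
    (c2 : 2 * C1 ≤ C) (h0 : 0 < ε) (c3 : 2 * C * ε ≤ 1 / 2) (c4 : 2 * C * ε < δ0) {p : V × V}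
    (hp : ‖p.1‖ < 9 ∨ 2 * C * ε < ‖p.2 - p.1‖) (x0 x1 x2 x3 x4 : V × V) :
    fderiv ℝ (Oc d C ε x1 x2 x3 x4) p x0 - fderiv ℝ (Oc d C ε x0 x2 x3 x4) p x1
      + fderiv ℝ (Oc d C ε x0 x1 x3 x4) p x2 - fderiv ℝ (Oc d C ε x0 x1 x2 x4) p x3
      + fderiv ℝ (Oc d C ε x0 x1 x2 x3) p x4 = 0 := by
  have hC : 0 < C * ε := mul_pos (by linarith) h0
  have cn : Continuous fun p : V × V => ‖p.2 - p.1‖ := by fun_prop
  have cf : Continuous fun p : V × V => ‖p.1‖ := by fun_prop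
  have zero : (∀ a b c e, Oc d C ε a b c e =ᶠ[𝓝 p] fun _ => 0) →
      fderiv ℝ (Oc d C ε x1 x2 x3 x4) p x0 - fderiv ℝ (Oc d C ε x0 x2 x3 x4) p x1
      + fderiv ℝ (Oc d C ε x0 x1 x3 x4) p x2 - fderiv ℝ (Oc d C ε x0 x1 x2 x4) p x3
      + fderiv ℝ (Oc d C ε x0 x1 x2 x3) p x4 = 0 := fun h => by
    simp only [(h _ _ _ _).fderiv_eq, fderiv_fun_const, Pi.zero_apply, zero_apply]
    norm_num
  rcases lt_or_ge (2 * C * ε) ‖p.2 - p.1‖ with k | k
  · refine zero fun a b c e => ?_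
    filter_upwards [cn.continuousAt.eventually (lt_mem_nhds k)] with q hq
    rw [Oc, chi_zero hC hq.le, zero_mul]
  have hp1 := hp.resolve_right (not_lt.2 k)
  rcases lt_or_ge ‖p.2 - p.1‖ (C * ε) with j | j
  · have e : ∀ a b c e, Oc d C ε a b c e =ᶠ[𝓝 p] Om d ε a b c e := fun a b c e => by
      filter_upwards [cn.continuousAt.eventually (gt_mem_nhds j)] with q hq
      rw [Oc, chi_one hC hq.le, one_mul]
    simp only [(e _ _ _ _).fderiv_eq]
    exact Om_cl d h1 h2 ε p x0 x1 x2 x3 x4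
  · refine zero fun a b c e => ?_
    have j1 : C1 * ε < ‖p.2 - p.1‖ := by nlinarith
    filter_upwards [cn.continuousAt.eventually (lt_mem_nhds j1),
      cn.continuousAt.eventually (gt_mem_nhds (k.trans_lt c4)),
      cf.continuousAt.eventually (gt_mem_nhds hp1)] with q q1 q2 q3
    rw [Oc, Om_zero d hF h0 (by nlinarith) a b c e q3.le q2.le q1.le, mul_zero]

lemma G_sm (ε : ℝ) : ContDiff ℝ ∞ (fun q => sc d ε q • df d ε q) := (sc_sm d ε).smul (df_sm d ε)

lemma k_sm (h1 : AvgS) (C ε : ℝ) : ContDiff ℝ ∞ (fun p : V × V => d.kcut C ε p.1 p.2) := by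
  simp only [KD.kcut, kraw_eq]
  exact (chi_sm C ε).smul (avg h1 (G_sm d ε)).1

lemma k_ap (C ε : ℝ) (y z p q u v : V) : ap (d.kcut C ε y z (st p q)) u v =
    Oc d C ε (p, 0) (q, 0) (0, u) (0, v) (y, z) := by
  have c3 : Continuous fun w : Fin n → V => (((y, z), w) : (V × V) × (Fin n → V)) := by fun_prop
  rw [KD.kcut, smul_apply, ap_smul, Oc, kraw_eq]
  congr 1
  rw [← ev_apply]
  refine (((ev u v).comp (ContinuousLinearMap.apply ℝ E6 (st p q))).integral_comp_comm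
    (wt_int ((G_sm d ε).continuous.comp c3))).symm.trans ?_
  refine integral_congr_ae (ae_of_all _ fun w => ?_)
  simp only [Function.comp_apply, map_smul, ContinuousLinearMap.comp_apply,
    ContinuousLinearMap.apply_apply, ev_apply, df, ap_dl2, om, smul_eq_mul, Pd, Qd,
    ContinuousLinearMap.inl_apply, ContinuousLinearMap.inr_apply]

lemma fd_left {E : Type*} [NormedAddCommGroup E] [NormedSpace ℝ E] {f : V × V → E}
    (hf : ContDiff ℝ ∞ f) (y z a : V) :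
    DifferentiableAt ℝ (fun y' => f (y', z)) y ∧
      fderiv ℝ (fun y' => f (y', z)) y a = fderiv ℝ f (y, z) (a, 0) := by
  have := HasFDerivAt.comp (f := fun e => (e, z)) y
    (hf.differentiable (by simp) (y, z)).hasFDerivAt (hasFDerivAt_prodMk_left y z)
  exact ⟨this.differentiableAt, congrArg (fun L : V →L[ℝ] E => L a) this.fderiv⟩

lemma fd_right {E : Type*} [NormedAddCommGroup E] [NormedSpace ℝ E] {f : V × V → E}
    (hf : ContDiff ℝ ∞ f) (y z a : V) :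
    DifferentiableAt ℝ (fun z' => f (y, z')) z ∧
      fderiv ℝ (fun z' => f (y, z')) z a = fderiv ℝ f (y, z) (0, a) := by
  have := HasFDerivAt.comp (f := fun e => (y, e)) z
    (hf.differentiable (by simp) (y, z)).hasFDerivAt (hasFDerivAt_prodMk_right y z)
  exact ⟨this.differentiableAt, congrArg (fun L : V →L[ℝ] E => L a) this.fderiv⟩

/-- the covector field with given components -/
def cv {P : Type*} (f : Fin 4 → P → ℝ) (p : P) : Cov := ∑ i, f i p • pr i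

lemma cv_bv {P : Type*} (f : Fin 4 → P → ℝ) (p : P) (j : Fin 4) : cv f p (bv j) = f j p := by
  simp [cv, pr_apply, bv_apply]

lemma cv_sm {P : Type*} [NormedAddCommGroup P] [NormedSpace ℝ P] {f : Fin 4 → P → ℝ}
    (hf : ∀ i, ContDiff ℝ ∞ (f i)) : ContDiff ℝ ∞ (cv f) :=
  ContDiff.sum fun i _ => (hf i).smul contDiff_const

lemma cv_d1 {f : Fin 4 → V → ℝ} {y : V} (hf : ∀ i, DifferentiableAt ℝ (f i) y) (i j : Fin 4) :
    ap (d1 (cv f) y) (bv i) (bv j) = fderiv ℝ (f j) y (bv i) - fderiv ℝ (f i) y (bv j) := by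
  have h : DifferentiableAt ℝ (cv f) y :=
    DifferentiableAt.fun_sum fun i _ => (hf i).smul_const _
  rw [ap_d1, ← fderiv_app h, ← fderiv_app h]
  simp only [cv_bv]

lemma st_swap (p q : V) : st p q = -st q p :=
  ap_ext fun u v => by rw [ap_neg, ← D4_eq, ← D4_eq, D4_apply, D4_apply]; ring

lemma basis_ext {g h : E6} (H : ∀ i j, ap g (bv i) (bv j) = ap h (bv i) (bv j)) : g = h :=
  E6_ext (by rw [coord_0, coord_0 h, H, H]) (by rw [coord_1, coord_1 h, H, H])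
    (by rw [coord_2, coord_2 h, H, H]) (by rw [coord_3, coord_3 h, H, H])
    (by rw [coord_4, coord_4 h, H, H]) (by rw [coord_5, coord_5 h, H, H])

end KCl
open KCl

theorem kClS (h1 : AvgS) (h2 : NatS) : KClS := by
  intro n d C1 δ0 C ε c1 hF c2 h0 c3 c4
  have hC : 0 < C * ε := mul_pos (by linarith) h0
  have hk := k_sm d h1 C ε
  have ho := Oc_sm d h1 C ε
  have dl : ∀ y z a p q u v : V, ap (fderiv ℝ (fun y' => d.kcut C ε y' z) y a (st p q)) u v =
      fderiv ℝ (Oc d C ε (p, 0) (q, 0) (0, u) (0, v)) (y, z) (a, 0) := fun y z a p q u v => by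
    have k := (fd_left hk y z a).1
    rw [← fderiv_app k, ← fderiv_ap (k.clm_apply (differentiableAt_const _)), ← (fd_left (ho ..) y z a).2]
    simp only [k_ap]
  have dr : ∀ y z a p q u v : V, ap (fderiv ℝ (d.kcut C ε y) z a (st p q)) u v =
      fderiv ℝ (Oc d C ε (p, 0) (q, 0) (0, u) (0, v)) (y, z) (0, a) := fun y z a p q u v => by
    have k : DifferentiableAt ℝ (d.kcut C ε y) z := (fd_right hk y z a).1
    rw [← fderiv_app k, ← fderiv_ap (k.clm_apply (differentiableAt_const _)), ← (fd_right (ho ..) y z a).2]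
    simp only [k_ap]
  refine ⟨fun z u0 u1 u2 hz => ?_, fun p0 p1 p2 => ?_⟩
  · refine ⟨cv fun i y => Oc d C ε (bv i, 0) (0, u0) (0, u1) (0, u2) (y, z),
      cv_sm fun i => (ho ..).comp (contDiff_id.prodMk contDiff_const), fun y hy => ?_,
      fun y β => ?_⟩
    · rw [norm_sub_rev] at hy
      simp only [cv, Oc, chi_zero hC (p := (y, z)) hy.le, zero_mul, zero_smul,
        Finset.sum_const_zero]
    have k : DifferentiableAt ℝ (d.kcut C ε y) z := (fd_right hk y z 0).1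
    have good : ‖y‖ < 9 ∨ 2 * C * ε < ‖z - y‖ := by
      rcases lt_or_ge (2 * C * ε) ‖z - y‖ with j | j
      · exact Or.inr j
      · exact Or.inl (by linarith [norm_le_norm_add_norm_sub' y z, norm_sub_rev y z])
    rw [cyc, fderiv_app k, fderiv_app k, fderiv_app k]
    set g := d1 (cv fun i y => Oc d C ε (bv i, 0) (0, u0) (0, u1) (0, u2) (y, z)) y with hg
    set K := fderiv ℝ (d.kcut C ε y) z with hK
    have key : ∀ i j, (wqL g + ((ev u1 u2).comp (K u0) + (ev u2 u0).comp (K u1) +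
        (ev u0 u1).comp (K u2))) (st (bv i) (bv j)) = 0 := fun i j => by
      simp only [add_apply, ContinuousLinearMap.comp_apply, wqL_apply, ev_apply]
      rw [wq_st, hg, cv_d1 (fun i => (fd_left (ho ..) y z 0).1), (fd_left (ho ..) y z _).2,
        (fd_left (ho ..) y z _).2, ap_swap _ u2 u0, hK, dr, dr, dr]
      linear_combination Oc_cl d h1 h2 c1 hF c2 h0 c3 c4 (p := (y, z)) good (bv i, 0) (bv j, 0)
        (0, u0) (0, u1) (0, u2)
    have fin : (wqL g + ((ev u1 u2).comp (K u0) + (ev u2 u0).comp (K u1) +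
        (ev u0 u1).comp (K u2))) β = 0 := by
      rw [st_span β]
      simp only [map_add, map_sub, map_smul, key, smul_zero, add_zero, sub_zero]
    simpa only [add_apply, ContinuousLinearMap.comp_apply, wqL_apply, ev_apply] using fin
  · refine ⟨cv fun i p => Oc d C ε (p0, 0) (p1, 0) (p2, 0) (0, bv i) p, cv_sm fun i => ho ..,
      fun y z hy => ?_, fun y z u v hy => ?_⟩
    · simp only [cv, Oc, chi_zero hC (p := (y, z)) hy.le, zero_mul, zero_smul,
        Finset.sum_const_zero]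
    have k := (fd_left hk y z 0).1
    set K := fderiv ℝ (fun y' => d.kcut C ε y' z) y with hK
    have e : ∀ a, fderiv ℝ (fun y' => sl u v (d.kcut C ε y' z)) y a = sl u v (K a) := fun a =>
      congrArg (fun L : V →L[ℝ] E6 => L a) ((sl u v).hasFDerivAt.comp y k.hasFDerivAt).fderiv
    rw [cyc, e, e, e, ap_sl, ap_sl, ap_sl, ← ap_add, ← ap_add]
    congr 1
    refine basis_ext fun i j => ?_
    have e2 := cv_d1 (f := fun i z' => Oc d C ε (p0, 0) (p1, 0) (p2, 0) (0, bv i) (y, z')) (y := z)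
      (fun i => (fd_right (ho ..) y z 0).1) i j
    rw [(fd_right (ho ..) y z _).2, (fd_right (ho ..) y z _).2] at e2
    refine Eq.trans ?_ e2.symm
    rw [ap_add, ap_add, st_swap p2 p0, map_neg, ap_neg, hK, dl, dl, dl]
    linear_combination Oc_cl d h1 h2 c1 hF c2 h0 c3 c4 (p := (y, z)) (Or.inl (by linarith))
      (p0, 0) (p1, 0) (p2, 0) (0, bv i) (0, bv j)

end Vale.Agent.P204
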