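import Vale.Agent.P204.KConeA

/-! Support and cone bounds for the kernel in one chart. -/

set_option maxSynthPendingDepth 3

open scoped Topology ContDiff RealInnerProductSpace
open Set Metric MeasureTheory Filter

noncomputable section
namespace Vale.Agent.P204
namespace KCone
variable {n : ℕ} (d : KD n)

lemma W_low : ∃ δ0, 0 < δ0 ∧ ∀ y z : V, ‖y‖ ≤ 9 → ‖z - y‖ ≤ δ0 →
    1 / 2 * ‖z - y‖ ≤ ‖d.W y z‖ := by
  have hs : ContDiff ℝ ∞ (fun p : V × V =>
      ∑ l, d.rl l p.1 • (d.P l p.1).comp (fderiv ℝ (d.G l) p.2)) :=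
    ContDiff.sum fun l _ => ((d.rl_sm l).comp contDiff_fst).smul
      (((d.P_sm l).comp contDiff_fst).clm_comp ((cd_fderiv (d.G_sm l)).comp contDiff_snd))
  obtain ⟨L, L0, hL⟩ := lip hs 10
  refine ⟨min 1 (1 / (2 * (L + 1))), by positivity, fun y z hy hz => ?_⟩
  have key : ‖(d.W y z - z) - (d.W y y - y)‖ ≤ 1 / 2 * ‖z - y‖ := by
    refine (convex_closedBall y (min 1 (1 / (2 * (L + 1))))).norm_image_sub_le_of_norm_hasFDerivWithin_le
      (f := fun x => d.W y x - x) (fun x _ => ((has_W d y x).sub (hasFDerivAt_id x)).hasFDerivWithinAt)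
      (fun x hx => ?_) (mem_closedBall_self (by positivity)) (mem_closedBall_iff_norm.2 hz)
    rw [mem_closedBall_iff_norm, le_min_iff] at hx
    have h1 : ‖x‖ ≤ 10 := by linarith [norm_le_norm_add_norm_sub' x y, hx.1]
    have h2 := hL (y, x) (y, y) (by rw [Prod.norm_def]; exact max_le (by linarith) h1)
      (by rw [Prod.norm_def]; exact max_le (by linarith) (by linarith))
    simp only [d.hid y hy, Prod.mk_sub_mk, sub_self, Prod.norm_def, norm_zero,
      max_eq_right (norm_nonneg _)] at h2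
    refine h2.trans ((mul_le_mul_of_nonneg_left hx.2 L0).trans ?_)
    rw [mul_one_div, div_le_iff₀ (by positivity)]
    linarith
  have e : d.W y z - z - (d.W y y - y) = d.W y z - (z - y) := by
    simp only [KD.W, sub_self, map_zero, smul_zero, Finset.sum_const_zero]
    abel
  rw [e] at key
  linarith [norm_sub_norm_le (z - y) (d.W y z), norm_sub_rev (z - y) (d.W y z)]

lemma P_bd : ∃ B, 0 ≤ B ∧ ∀ (y : V) (ζ : Fin n → V) (ε : ℝ), ‖y‖ ≤ 9 → (∀ l, ‖ζ l‖ ≤ ε) →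
    ‖∑ l ∈ Finset.univ.erase d.j, d.P l y (ζ l)‖ ≤ B * ε := by
  choose M M0 hM using fun l => bdd (d.P_sm l).continuous 9
  refine ⟨∑ l ∈ Finset.univ.erase d.j, M l, Finset.sum_nonneg fun l _ => M0 l,
    fun y ζ ε hy hζ => ?_⟩
  rw [Finset.sum_mul]
  exact (norm_sum_le _ _).trans (Finset.sum_le_sum fun l _ => ((d.P l y).le_opNorm _).trans
    (mul_le_mul (hM l y hy) (hζ l) (norm_nonneg _) (M0 l)))

/-- the form in the first slot, before integration -/
def Th (F : Frame) (q : ((V × V) × (Fin n → V)) × V) : E6 :=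
  pull (F.Ai q.1.1.1) (sl q.2 (F.J q.1.1.2 q.2) (dl2 (Pd d q.1) (Qd d q.1)))

lemma Th_sm (F : Frame) : ContDiff ℝ ∞ (Th d F) := by
  have h1 : ContDiff ℝ ∞ (fun q : ((V × V) × (Fin n → V)) × V => q.1.1) :=
    contDiff_fst.comp contDiff_fst
  exact (cd_pull (F.smAi.comp (contDiff_fst.comp h1))).clm_apply
    ((cd_sl contDiff_snd ((F.smJ.comp (contDiff_snd.comp h1)).clm_apply contDiff_snd)).clm_apply
      (cd_dl2 ((Pd_sm d).comp contDiff_fst) ((Qd_sm d).comp contDiff_fst)))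

lemma Th_wq (F : Frame) (q : ((V × V) × (Fin n → V)) × V) : wq (Th d F q) (Th d F q) = 0 := by
  rw [Th, sl_dl2, wq_pull, wq_pull, wq_st_self, mul_zero, mul_zero]

lemma Th_diag (F : Frame) {y : V} (hy : ‖y‖ ≤ 9) (u : V) : Th d F (((y, y), 0), u) =
    (d.r y ^ 4 * (F.Ai y).det) • st (F.A y u) (J0 (F.A y u)) := by
  rw [Th, Pd_diag d hy, Qd_diag d hy, ← neg_smul, dl2_smul_id, ← F.A_J,
    ← pull_st (F.A y) (F.Ai y) (F.inv1 y), smul_smul, mul_assoc, F.det_mul, mul_one, map_smul,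
    map_smul, show (-d.r y) ^ 2 * d.r y ^ 2 = d.r y ^ 4 by ring]
  congr 2
  exact ap_ext fun p q => by rw [ap_sl, ContinuousLinearMap.id_apply, ← D4_eq, ← D4_eq, D4_swap]

lemma Th_bd (F : Frame) : ∃ K ρ, 0 ≤ K ∧ 0 < ρ ∧ ρ ≤ 1 ∧ ∀ (y z u : V) (ζ : Fin n → V) (t : ℝ),
    ‖y‖ ≤ 2 → ‖u‖ = 1 → ‖z - y‖ ≤ t → ‖ζ‖ ≤ t → t ≤ ρ →
      ‖Th d F (((y, z), ζ), u)‖ ≤ K ∧ ‖Pm (Th d F (((y, z), ζ), u))‖ ≤ K * t ∧
      ‖Pa (Th d F (((y, z), ζ), u))‖ ≤ Th d F (((y, z), ζ), u) 0 + K * t ^ 2 := by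
  obtain ⟨M, M0, hM⟩ := bdd (Th_sm d F).continuous 3
  obtain ⟨L, L0, hL⟩ := lip (Th_sm d F) 3
  obtain ⟨c, c0, hc⟩ := low d.r_sm.continuous d.r_pos 2
  set a := c ^ 4 / 50 with ha
  have a0 : 0 < a := by positivity
  refine ⟨M + L + L ^ 2 / a, min 1 (a / (L + 1)), by positivity, by positivity, min_le_left _ _,
    fun y z u ζ t hy hu hz hζ ht => ?_⟩
  rw [le_min_iff] at ht
  have t0 : 0 ≤ t := (norm_nonneg _).trans hz
  have n1 : ‖(((y, z), ζ), u)‖ ≤ 3 := by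
    simp only [Prod.norm_def, max_le_iff]
    exact ⟨⟨⟨by linarith, by linarith [norm_le_norm_add_norm_sub' z y, ht.1]⟩, by linarith [ht.1]⟩,
      by linarith⟩
  have n2 : ‖(((y, y), (0 : Fin n → V)), u)‖ ≤ 3 := by
    simp only [Prod.norm_def, max_le_iff, norm_zero]
    exact ⟨⟨⟨by linarith, by linarith⟩, by norm_num⟩, by linarith⟩
  have h1 := (hL _ _ n1 n2).trans (mul_le_mul_of_nonneg_left (show _ ≤ t by
    simp only [Prod.mk_sub_mk, sub_self, sub_zero, Prod.norm_def, norm_zero, max_le_iff]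
    exact ⟨⟨⟨t0, hz⟩, hζ⟩, t0⟩) L0)
  rw [Th_diag d F (by linarith)] at h1
  have hw := Th_wq d F (((y, z), ζ), u)
  have h0 := hM _ n1
  generalize Th d F (((y, z), ζ), u) = θ at *
  set θ0 := (d.r y ^ 4 * (F.Ai y).det) • st (F.A y u) (J0 (F.A y u)) with hθ0
  have b1 : Pm θ0 = 0 := by rw [← B2_cm, hθ0, map_smul, cm_st_J0, smul_zero, map_zero]
  have b2 : 2 * a ≤ θ0 0 := by
    have k1 := F.le_norm_A y u
    have k2 : 1 / 7 ≤ (F.Ai y).det := by
      have := F.det_mul y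
      nlinarith [F.det_le y, F.det_pos y]
    have k3 : c ^ 4 ≤ d.r y ^ 4 := pow_le_pow_left₀ c0.le (hc y hy) 4
    have k4 : 9 / 16 ≤ ‖F.A y u‖ ^ 2 := by rw [hu] at k1; nlinarith
    have k5 : c ^ 4 * (1 / 7) ≤ d.r y ^ 4 * (F.Ai y).det :=
      mul_le_mul k3 k2 (by norm_num) (by positivity)
    rw [hθ0, PiLp.smul_apply, st_J0_0, smul_eq_mul]
    nlinarith [pow_pos c0 4]
  have b3 : ‖Pm θ‖ ≤ L * t := by
    rw [← sub_zero (Pm θ), ← b1, ← map_sub]
    exact (norm_Pm_le _).trans h1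
  have b4 : a ≤ θ 0 := by
    have k1 : |(θ - θ0) 0| ≤ L * t := (PiLp.norm_apply_le (θ - θ0) 0).trans h1
    have k2 : L * t ≤ a := by
      have := ht.2
      rw [le_div_iff₀ (by positivity)] at this
      nlinarith
    rw [PiLp.sub_apply, abs_le] at k1
    linarith [k1.1]
  have p1 : 0 ≤ L ^ 2 / a := by positivity
  refine ⟨by linarith, by nlinarith, ?_⟩
  rw [wq_split, real_inner_self_eq_norm_sq, real_inner_self_eq_norm_sq] at hw
  have b5 : ‖Pa θ‖ ≤ θ 0 + L ^ 2 / a * t ^ 2 := by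
    refine abs_le_of_sq_le_sq' ?_ (by linarith [mul_nonneg p1 (sq_nonneg t)]) |>.2
    have k1 : ‖Pm θ‖ ^ 2 ≤ (L * t) ^ 2 := pow_le_pow_left₀ (norm_nonneg _) b3 2
    have k2 : a * (L ^ 2 / a * t ^ 2) = (L * t) ^ 2 := by field_simp
    have k3 : 0 ≤ L ^ 2 / a * t ^ 2 := by positivity
    nlinarith [mul_le_mul_of_nonneg_right b4 k3]
  nlinarith [mul_nonneg (add_nonneg M0 L0) (sq_nonneg t)]

lemma int_bd {w : (Fin n → V) → ℝ} {θ : (Fin n → V) → E6} (hw : Continuous w) (hθ : Continuous θ)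
    {B K χ : ℝ} (w0 : ∀ v, 0 ≤ w v) (wB : ∀ v, w v ≤ B) (K0 : 0 ≤ K) (χ0 : 0 ≤ χ) (χ1 : χ ≤ 1)
    (T : Op) (l : E6 →L[ℝ] ℝ) (h : ∀ v, (∀ i, ‖v i‖ ≤ 1) → ‖T (θ v)‖ ≤ l (θ v) + K) :
    ‖T (χ • ∫ v, wt v • (w v • θ v))‖ ≤
      l (χ • ∫ v, wt v • (w v • θ v)) + K * B * ∫ v : Fin n → V, wt v := by
  have i1 : Integrable fun v => wt v • (w v • θ v) := wt_int (hw.smul hθ)
  have i2 : Integrable (wt : (Fin n → V) → ℝ) := by
    simpa using wt_int (n := n) (continuous_const (y := (1 : ℝ)))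
  have B0 : 0 ≤ B := (w0 0).trans (wB 0)
  have I0 : 0 ≤ K * B * ∫ v : Fin n → V, wt v :=
    mul_nonneg (mul_nonneg K0 B0) (integral_nonneg wt_nonneg)
  have key : ‖T (∫ v, wt v • (w v • θ v))‖ ≤
      l (∫ v, wt v • (w v • θ v)) + K * B * ∫ v : Fin n → V, wt v := by
    rw [← T.integral_comp_comm i1, ← l.integral_comp_comm i1, ← integral_const_mul,
      ← integral_add (l.integrable_comp i1) (i2.const_mul _)]
    refine norm_integral_le_of_norm_le ((l.integrable_comp i1).add (i2.const_mul _))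
      (ae_of_all _ fun v => ?_)
    by_cases hv : wt v = 0
    · simp [hv]
    simp only [map_smul, norm_smul, smul_eq_mul, Real.norm_of_nonneg (wt_nonneg v),
      Real.norm_of_nonneg (w0 v)]
    have k1 := mul_le_mul_of_nonneg_left (h v (wt_ne hv)) (w0 v)
    have k2 := mul_le_mul_of_nonneg_left (wB v) K0
    nlinarith [mul_le_mul_of_nonneg_left (show w v * ‖T (θ v)‖ ≤ w v * l (θ v) + K * B by linarith)
      (wt_nonneg v)]
  rw [map_smul, map_smul, norm_smul, Real.norm_of_nonneg χ0, smul_eq_mul]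
  nlinarith [mul_le_mul_of_nonneg_left key χ0]

end KCone
open KCone

theorem kSupS : KSupS := by
  intro n d
  obtain ⟨δ0, h0, hW⟩ := W_low d
  obtain ⟨B, B0, hB⟩ := P_bd d
  obtain ⟨c, c0, hc⟩ := low d.r_sm.continuous d.r_pos 9
  refine ⟨2 * (B + c⁻¹) + 1, δ0, by linarith [inv_pos.2 c0], h0,
    fun ε y z u hε _ hy hz h1 hu => ?_⟩
  have k1 := hW y z hy hz
  have k2 := hB y (ε • u) ε hy fun l => by
    rw [Pi.smul_apply, norm_smul, Real.norm_of_nonneg hε.le]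
    exact mul_le_of_le_one_right hε.le (hu l)
  have k3 := norm_sub_norm_le (d.W y z) (∑ l ∈ Finset.univ.erase d.j, d.P l y ((ε • u) l))
  rw [KD.Psi, norm_smul, norm_smul, norm_inv, Real.norm_of_nonneg hε.le,
    Real.norm_of_nonneg (d.r_pos y).le, ← div_eq_inv_mul, le_div_iff₀ hε]
  calc 1 * ε = c * (c⁻¹ * ε) := by field_simp
    _ ≤ _ := mul_le_mul (hc y hy) (by linarith) (by positivity) (d.r_pos y).le

theorem kConeS : KConeS := by
  intro n d F C hC
  obtain ⟨K, ρ, K0, ρ0, ρ1, hK⟩ := Th_bd d F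
  obtain ⟨E, E0, hE⟩ := eta_cc.bounded
  set I := ∫ v : Fin n → V, wt v with hI
  have I0 : 0 ≤ I := integral_nonneg wt_nonneg
  refine ⟨K * (2 * C) ^ 2 * E * I, ρ / (2 * C), by positivity, fun ε hε h1 y z u hy hu => ?_⟩
  rw [le_div_iff₀ (by positivity)] at h1
  have c1 : 1 ≤ 2 * C := by linarith
  have c2 : 2 * C ≤ (2 * C) ^ 2 := by nlinarith
  have p0 : 0 ≤ K * E * I := by positivity
  rcases le_total (2 * C * ε) ‖z - y‖ with hz | hz
  · have : d.kcut C ε y z = 0 := by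
      rw [KD.kcut, cut_zero le_rfl, zero_smul]
      rw [norm_smul, norm_inv, Real.norm_of_nonneg (by positivity), ← div_eq_inv_mul,
        le_div_iff₀ (by positivity)]
      linarith
    simp only [this, map_zero, norm_zero, PiLp.zero_apply, zero_add]
    exact ⟨by positivity, by positivity, by positivity⟩
  have c3 : Continuous fun v : Fin n → V => (((y, z), v) : (V × V) × (Fin n → V)) := by fun_prop
  have c4 := (sc_sm d ε).continuous.comp c3
  have c5 : Continuous fun v : Fin n → V => Th d F (((y, z), ε • v), u) :=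
    (Th_sm d F).continuous.comp (by fun_prop)
  have e : pull (F.Ai y) (sl u (F.J z u) (d.kcut C ε y z)) = cut 1 ((C * ε)⁻¹ • (z - y)) •
      ∫ v, wt v • (sc d ε ((y, z), v) • Th d F (((y, z), ε • v), u)) := by
    rw [KD.kcut, map_smul, map_smul, kraw_eq]
    congr 1
    refine (((pull (F.Ai y)).comp (sl u (F.J z u))).integral_comp_comm
      (wt_int (c4.smul ((df_sm d ε).continuous.comp c3)))).symm.trans ?_
    refine integral_congr_ae (ae_of_all _ fun v => ?_)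
    simp only [Pi.smul_apply', Function.comp_apply, map_smul, ContinuousLinearMap.comp_apply, Th, df]
  have hb := fun v : Fin n → V => fun hv : ∀ i, ‖v i‖ ≤ 1 =>
    hK y z u (ε • v) (2 * C * ε) hy hu hz (by
      rw [norm_smul, Real.norm_of_nonneg hε.le]
      nlinarith [(pi_norm_le_iff_of_nonneg zero_le_one).2 hv, norm_nonneg v]) (by linarith)
  have main := fun (K' : ℝ) (K0' : 0 ≤ K') => int_bd (B := (ε ^ 4)⁻¹ * E) c4 c5
    (fun v => mul_nonneg (by positivity) (eta_nonneg _))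
    (fun v => mul_le_mul_of_nonneg_left ((le_abs_self _).trans (hE _)) (by positivity)) K0'
    (cut_nonneg 1 ((C * ε)⁻¹ • (z - y))) (cut_le_one 1 _)
  rw [e]
  refine ⟨(main K K0 (ContinuousLinearMap.id ℝ E6) 0 fun v hv => by simpa using (hb v hv).1).trans ?_,
    (main (K * (2 * C * ε)) (by positivity) Pm 0 fun v hv => by simpa using (hb v hv).2.1).trans ?_,
    (main (K * (2 * C * ε) ^ 2) (by positivity) Pa (p6 0) fun v hv => by
      simpa only [p6_apply] using (hb v hv).2.2).trans ?_⟩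
  · rw [zero_apply, zero_add, ← hI]
    calc _ = K * E * I * 1 * (ε ^ 4)⁻¹ := by ring
      _ ≤ K * E * I * (2 * C) ^ 2 * (ε ^ 4)⁻¹ := by gcongr; exact c1.trans c2
      _ = _ := by ring
  · rw [zero_apply, zero_add, ← hI]
    calc _ = K * E * I * (2 * C) * (ε ^ 3)⁻¹ := by field_simp
      _ ≤ K * E * I * (2 * C) ^ 2 * (ε ^ 3)⁻¹ := by gcongr
      _ = _ := by ring
  · rw [p6_apply, ← hI]
    refine add_le_add le_rfl (le_of_eq ?_)
    field_simp

end Vale.Agent.P204
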