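import Vale.Agent.P204.Stmt

/-! The map `Psi` as a jointly smooth function, and the integrand of the kernel. -/

set_option maxSynthPendingDepth 3

open scoped Topology ContDiff RealInnerProductSpace
open Set Metric MeasureTheory Filter

noncomputable section
namespace Vale.Agent.P204
namespace KCone

section gen
variable {E F : Type*} [NormedAddCommGroup E] [NormedSpace ℝ E] [FiniteDimensional ℝ E]
  [NormedAddCommGroup F] [NormedSpace ℝ F]

omit [NormedSpace ℝ F] in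
lemma bdd {f : E → F} (hf : Continuous f) (R : ℝ) :
    ∃ M, 0 ≤ M ∧ ∀ a, ‖a‖ ≤ R → ‖f a‖ ≤ M := by
  have := FiniteDimensional.proper_real E
  obtain ⟨M, hM⟩ := (isCompact_closedBall (0 : E) R).exists_bound_of_continuousOn hf.continuousOn
  exact ⟨max M 0, le_max_right _ _, fun a ha =>
    (hM a (mem_closedBall_zero_iff.2 ha)).trans (le_max_left _ _)⟩

lemma lip {f : E → F} (hf : ContDiff ℝ ∞ f) (R : ℝ) :
    ∃ L, 0 ≤ L ∧ ∀ a b, ‖a‖ ≤ R → ‖b‖ ≤ R → ‖f a - f b‖ ≤ L * ‖a - b‖ := by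
  obtain ⟨M, h0, hM⟩ := bdd (cd_fderiv hf).continuous R
  exact ⟨M, h0, fun a b ha hb => (convex_closedBall (0 : E) R).norm_image_sub_le_of_norm_fderiv_le
    (fun x _ => hf.differentiable (by simp) x) (fun x hx => hM x (mem_closedBall_zero_iff.1 hx))
    (mem_closedBall_zero_iff.2 hb) (mem_closedBall_zero_iff.2 ha)⟩

lemma low {f : E → ℝ} (hf : Continuous f) (h : ∀ a, 0 < f a) (R : ℝ) :
    ∃ c, 0 < c ∧ ∀ a, ‖a‖ ≤ R → c ≤ f a := by
  obtain ⟨M, h0, hM⟩ := bdd (hf.inv₀ fun a => (h a).ne') R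
  refine ⟨(M + 1)⁻¹, by positivity, fun a ha => ?_⟩
  have := hM a ha
  rw [Pi.inv_apply, Real.norm_of_nonneg (inv_pos.2 (h a)).le] at this
  exact inv_le_of_inv_le₀ (h a) (by linarith)
end gen

variable {n : ℕ} (d : KD n)

/-- `Psi` as a function of all its variables -/
def Ps (p : (V × V) × (Fin n → V)) : V := d.Psi p.1.1 p.1.2 p.2

lemma Ps_sm : ContDiff ℝ ∞ (Ps d) := by
  have h1 : ContDiff ℝ ∞ (fun p : (V × V) × (Fin n → V) => p.1.1) := contDiff_fst.comp contDiff_fst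
  have h2 : ContDiff ℝ ∞ (fun p : (V × V) × (Fin n → V) => p.1.2) := contDiff_snd.comp contDiff_fst
  unfold Ps KD.Psi KD.W
  refine (d.r_sm.comp h1).smul (ContDiff.sub (ContDiff.sum fun l _ => ((d.rl_sm l).comp h1).smul
    (((d.P_sm l).comp h1).clm_apply (((d.G_sm l).comp h2).sub ((d.G_sm l).comp h1))))
    (ContDiff.sum fun l _ => ((d.P_sm l).comp h1).clm_apply ?_))
  exact (contDiff_apply ℝ V l).comp contDiff_snd

/-- derivative in the two space variables -/
def Dd (p : (V × V) × (Fin n → V)) : V × V →L[ℝ] V :=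
  (fderiv ℝ (Ps d) p).comp (ContinuousLinearMap.inl ℝ (V × V) (Fin n → V))
def Pd (p : (V × V) × (Fin n → V)) : End := (Dd d p).comp (ContinuousLinearMap.inl ℝ V V)
def Qd (p : (V × V) × (Fin n → V)) : End := (Dd d p).comp (ContinuousLinearMap.inr ℝ V V)

lemma Dd_sm : ContDiff ℝ ∞ (Dd d) := (cd_fderiv (Ps_sm d)).clm_comp contDiff_const
lemma Pd_sm : ContDiff ℝ ∞ (Pd d) := (Dd_sm d).clm_comp contDiff_const
lemma Qd_sm : ContDiff ℝ ∞ (Qd d) := (Dd_sm d).clm_comp contDiff_const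

lemma has_Dd (p : V × V) (ζ : Fin n → V) :
    HasFDerivAt (fun p' => Ps d (p', ζ)) (Dd d (p, ζ)) p :=
  HasFDerivAt.comp (f := fun e => (e, ζ)) p
    ((Ps_sm d).differentiable (by simp) (p, ζ)).hasFDerivAt (hasFDerivAt_prodMk_left p ζ)
lemma has_Pd (y z : V) (ζ : Fin n → V) :
    HasFDerivAt (fun y' => d.Psi y' z ζ) (Pd d ((y, z), ζ)) y :=
  HasFDerivAt.comp (f := fun e => (e, z)) y (has_Dd d (y, z) ζ) (hasFDerivAt_prodMk_left y z)
lemma has_Qd (y z : V) (ζ : Fin n → V) :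
    HasFDerivAt (fun z' => d.Psi y z' ζ) (Qd d ((y, z), ζ)) z :=
  HasFDerivAt.comp (f := fun e => (y, e)) z (has_Dd d (y, z) ζ) (hasFDerivAt_prodMk_right y z)

lemma has_W (y z : V) :
    HasFDerivAt (d.W y) (∑ l, d.rl l y • (d.P l y).comp (fderiv ℝ (d.G l) z)) z := by
  unfold KD.W
  exact HasFDerivAt.fun_sum fun l _ => ((d.P l y).hasFDerivAt.comp z
    ((((d.G_sm l).differentiable (by simp) z).hasFDerivAt).sub_const (d.G l y))).const_smul
      (d.rl l y)

lemma Qd_diag {y : V} (hy : ‖y‖ ≤ 9) :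
    Qd d ((y, y), 0) = d.r y • ContinuousLinearMap.id ℝ V := by
  refine (has_Qd d y y 0).unique ?_
  have := (has_W d y y).const_smul (d.r y)
  rw [d.hid y hy] at this
  refine this.congr_of_eventuallyEq (Eventually.of_forall fun z => ?_)
  simp [KD.Psi]

lemma Pd_diag {y : V} (hy : ‖y‖ ≤ 9) :
    Pd d ((y, y), 0) = -(d.r y • ContinuousLinearMap.id ℝ V) := by
  have h1 := HasFDerivAt.comp (f := fun x : V => (id x, id x)) y (has_Dd d (y, y) 0)
    ((hasFDerivAt_id y).prodMk (hasFDerivAt_id y))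
  have h2 : HasFDerivAt ((fun p' => Ps d (p', 0)) ∘ fun x : V => (id x, id x))
      (0 : End) y := (hasFDerivAt_const (0 : V) y).congr_of_eventuallyEq
        (Eventually.of_forall fun z => by simp [Ps, KD.Psi, KD.W])
  have h3 := h1.unique h2
  rw [← Qd_diag d hy, eq_neg_iff_add_eq_zero, ← h3]
  ext1 v
  simp only [Pd, Qd, add_apply, ContinuousLinearMap.comp_apply,
    ContinuousLinearMap.inl_apply, ContinuousLinearMap.inr_apply, ← map_add, Prod.mk_add_mk,
    add_zero, zero_add, ContinuousLinearMap.prod_apply, ContinuousLinearMap.id_apply]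

/-- the weight -/
def wt (v : Fin n → V) : ℝ := ∏ l, eta (v l)

lemma wt_nonneg (v : Fin n → V) : 0 ≤ wt v := Finset.prod_nonneg fun _ _ => eta_nonneg _
lemma wt_cont : Continuous (wt : (Fin n → V) → ℝ) :=
  continuous_finsetProd _ fun l _ => eta_sm.continuous.comp (continuous_apply l)
lemma wt_ne {v : Fin n → V} (h : wt v ≠ 0) (l : Fin n) : ‖v l‖ ≤ 1 :=
  not_lt.1 fun k => h (Finset.prod_eq_zero (Finset.mem_univ l) (eta_zero k.le))
lemma wt_ball {v : Fin n → V} (h : wt v ≠ 0) : v ∈ closedBall (0 : Fin n → V) 1 :=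
  mem_closedBall_zero_iff.2 ((pi_norm_le_iff_of_nonneg zero_le_one).2 (wt_ne h))
lemma wt_int {E : Type*} [NormedAddCommGroup E] [NormedSpace ℝ E] {f : (Fin n → V) → E}
    (hf : Continuous f) : Integrable (fun v => wt v • f v) :=
  (wt_cont.smul hf).integrable_of_hasCompactSupport
    (HasCompactSupport.intro (isCompact_closedBall 0 1) fun v hv => by
      rw [Pi.smul_apply', not_not.1 (mt wt_ball hv), zero_smul])

/-- the scalar factor of the integrand -/
def sc (ε : ℝ) (q : (V × V) × (Fin n → V)) : ℝ := (ε ^ 4)⁻¹ * eta (ε⁻¹ • Ps d (q.1, ε • q.2))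
/-- the double form in the integrand -/
def df (ε : ℝ) (q : (V × V) × (Fin n → V)) : Op :=
  dl2 (Pd d (q.1, ε • q.2)) (Qd d (q.1, ε • q.2))

lemma scale_sm (ε : ℝ) :
    ContDiff ℝ ∞ (fun q : (V × V) × (Fin n → V) => (q.1, ε • q.2)) :=
  contDiff_fst.prodMk (contDiff_snd.const_smul ε)
lemma sc_sm (ε : ℝ) : ContDiff ℝ ∞ (sc d ε) :=
  contDiff_const.mul (eta_sm.comp (((Ps_sm d).comp (scale_sm ε)).const_smul ε⁻¹))
lemma df_sm (ε : ℝ) : ContDiff ℝ ∞ (df d ε) :=
  cd_dl2 ((Pd_sm d).comp (scale_sm ε)) ((Qd_sm d).comp (scale_sm ε))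

lemma kraw_eq (ε : ℝ) (y z : V) :
    d.kraw ε y z = ∫ v, wt v • (sc d ε ((y, z), v) • df d ε ((y, z), v)) := by
  unfold KD.kraw
  refine integral_congr_ae (ae_of_all _ fun v => ?_)
  simp only [(has_Pd d y z _).fderiv, (has_Qd d y z _).fderiv, mul_smul]
  simp only [wt, sc, df, Ps, mul_smul]

end KCone
end Vale.Agent.P204
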