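import Vale.Agent.P204.Stmt

/-! The chart data of the kernel. -/

set_option maxSynthPendingDepth 3

open scoped Topology ContDiff RealInnerProductSpace Manifold
open Set Metric MeasureTheory Filter

noncomputable section
namespace Vale.Agent.P204

namespace KDa
variable {X : Type*} [TopologicalSpace X]

lemma tr_tr (a : Atl X) (i j l : Fin a.n) (x : X) :
    (a.tr i j x).comp (a.tr j l x) = a.tr i l x := by
  ext1 v; simp [Atl.tr]

lemma tr_self (a : Atl X) (i : Fin a.n) (x : X) : a.tr i i x = ContinuousLinearMap.id ℝ V := by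
  ext1 v; simp [Atl.tr]

lemma mem_target (a : Atl X) (j : Fin a.n) {y : V} (hy : ‖y‖ ≤ 12) : y ∈ (a.e j).target :=
  a.big j (by simpa using hy)

lemma rho_ne (D : Dat X) {l : Fin D.n} {x : X} (h : D.ext0 l (D.rho l) x ≠ 0) :
    x ∈ (D.e l).source ∧ ‖D.e l x‖ < 10 := by
  unfold Atl.ext0 at h
  split_ifs at h with h1
  · exact ⟨h1, not_le.1 fun h2 => h (D.rho_zero l _ h2)⟩
  · exact absurd rfl h

lemma tr_sm' {a : Atl X} (h1 : GeoA a) (l j : Fin a.n) :
    ContDiffOn ℝ ∞ (fun y => a.tr j l ((a.e j).symm y)) (a.dom l j) := by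
  refine ((h1.tr_sm j l).comp (a.smooth l j) fun y hy => ⟨(a.e l).map_source hy.2, ?_⟩).congr
    fun y hy => ?_
  · rw [mem_preimage, (a.e l).left_inv hy.2]
    exact (a.e j).map_target hy.1
  · rw [Function.comp, (a.e l).left_inv hy.2]

/-- where `rho l` does not vanish, the extension of the coordinate is the transition map -/
lemma ev_tm {a : Atl X} (h1 : GeoA a) {l j : Fin a.n} {y : V} (hy : y ∈ a.dom l j)
    (h : ‖a.tm l j y‖ < 10) :
    (fun y' => a.ext0 l (fun w => cut 10 w • w) ((a.e j).symm y')) =ᶠ[𝓝 y] a.tm l j := by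
  filter_upwards [(h1.dom_open l j).mem_nhds hy,
    (h1.fderiv_tm l j y hy).continuousAt.norm.eventually_lt continuousAt_const h] with z h2 h3
  rw [Atl.ext0, if_pos (show _ ∈ (a.e l).source from h2.2)]
  exact (congrArg (· • _) (cut_one (le_of_lt h3))).trans (one_smul _ _)

end KDa
open KDa

variable {X : Type*} [TopologicalSpace X] [T2Space X] {D : Dat X}

theorem kdS (h1 : GeoA D.toAtl) : KDS D := by
  intro j
  have c11 : Cc 12 (cut 11) := (cut_cc (by norm_num)).mono (by norm_num)
  have hρ : ∀ l, Cc 12 (D.rho l) := fun l =>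
    ⟨D.rho_sm l, fun y hy => D.rho_zero l y (by linarith)⟩
  have hG : Cc 12 (fun w : V => cut 10 w • w) :=
    ((cut_cc (by norm_num)).smul_right contDiff_id).mono (by norm_num)
  have hr : ∀ y, 0 < D.rho j y + 1 - cut 9 y := fun y => by
    rcases lt_or_ge ‖y‖ 10 with h | h
    · linarith [D.rho_pos j y h, cut_le_one 9 y]
    · rw [D.rho_zero j y h, cut_zero (by norm_num) (by linarith)]; norm_num
  refine ⟨⟨j, fun l y => cut 11 y • D.ext0 l (D.rho l) ((D.e j).symm y),
    fun l y => cut 11 y • (D.ext0 l (D.rho l) ((D.e j).symm y) • D.tr j l ((D.e j).symm y)),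
    fun l y => cut 11 y • D.ext0 l (fun w => cut 10 w • w) ((D.e j).symm y),
    fun y => (D.rho j y + 1 - cut 9 y)⁻¹,
    fun l => (h1.cutoff j 12 _ _ le_rfl c11 (h1.ext0_sm l j _ (hρ l))).1,
    fun l => (h1.cutoff j 12 _ _ le_rfl c11 (h1.glue l j _
      (((h1.ext0_sm l j _ (hρ l)).mono inter_subset_left).smul (tr_sm' h1 l j))
      fun y _ hy => ?_)).1,
    fun l => (h1.cutoff j 12 _ _ le_rfl c11 (h1.ext0_sm l j _ hG)).1,
    (((D.rho_sm j).add contDiff_const).sub (cut_sm 9)).inv fun y => (hr y).ne',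
    fun y => inv_pos.2 (hr y), fun y hy => ?_⟩, rfl, fun y hy => ?_, fun x l hx => ?_⟩
  · rw [Pi.smul_apply', show D.ext0 l (D.rho l) ((D.e j).symm y) = 0 from by_contra fun h =>
      hy ⟨(rho_ne D h).1, by linarith [(rho_ne D h).2]⟩, zero_smul]
  · have h2 := D.rho_sum ((D.e j).symm y)
    rw [← one_smul ℝ (ContinuousLinearMap.id ℝ V), ← h2, Finset.sum_smul]
    refine Finset.sum_congr rfl fun l _ => ?_
    rw [cut_one (by linarith), one_smul, one_smul]
    by_cases h : D.ext0 l (D.rho l) ((D.e j).symm y) = 0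
    · simp [h]
    · have h3 : y ∈ D.dom l j := ⟨mem_target _ j (by linarith), (rho_ne D h).1⟩
      have h4 : (fun y => cut 11 y • D.ext0 l (fun w => cut 10 w • w) ((D.e j).symm y))
          =ᶠ[𝓝 y] D.tm l j := by
        filter_upwards [ev_tm h1 h3 (rho_ne D h).2, (isOpen_lt continuous_norm
          continuous_const).mem_nhds (show ‖y‖ < 11 by linarith)] with z h5 h6
        rw [h5, cut_one (le_of_lt h6), one_smul]
      rw [h4.fderiv_eq, (h1.fderiv_tm l j y h3).fderiv, ContinuousLinearMap.smul_comp, tr_tr,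
        tr_self, smul_smul, sq]
  · have := D.rho_pos j y (by linarith)
    simp only [cut_one hy, add_sub_cancel_right]
    exact inv_mul_cancel₀ this.ne'
  · simp only [cut_one hx.2, one_smul, (D.e j).left_inv hx.1, and_self]

end Vale.Agent.P204
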