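import Vale.Agent.P204.KD

/-! The kernel does not depend on the chart. -/

set_option maxSynthPendingDepth 3

open scoped Topology ContDiff RealInnerProductSpace Manifold
open Set Metric MeasureTheory Filter

noncomputable section
namespace Vale.Agent.P204

namespace KInd
open KDa

/-- the integrand of `kraw` -/
def itg {n : ℕ} (Ψ : V → V → (Fin n → V) → V) (ε : ℝ) (y z : V) (u : Fin n → V) : Op :=
  ((∏ l, eta (u l)) * ((ε ^ 4)⁻¹ * eta (ε⁻¹ • Ψ y z (ε • u)))) •
    dl2 (fderiv ℝ (fun y' => Ψ y' z (ε • u)) y) (fderiv ℝ (fun z' => Ψ y z' (ε • u)) z)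

lemma det_smul (c : ℝ) (A : End) : (c • A).det = c ^ 4 * A.det := by
  simp only [det_eq_D4, D4_apply, smul_apply, PiLp.smul_apply, smul_eq_mul]
  ring

lemma psi_sm {n : ℕ} (d : KD n) {P : Type} [NormedAddCommGroup P] [NormedSpace ℝ P]
    {a b : P → V} {c : P → Fin n → V} (h1 : ContDiff ℝ ∞ a) (h2 : ContDiff ℝ ∞ b)
    (h3 : ContDiff ℝ ∞ c) : ContDiff ℝ ∞ fun p => d.Psi (a p) (b p) (c p) := by
  refine (d.r_sm.comp h1).smul (ContDiff.sub (ContDiff.sum fun l _ => ?_)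
    (ContDiff.sum fun l _ => ?_))
  · exact ((d.rl_sm l).comp h1).smul (((d.P_sm l).comp h1).clm_apply
      (((d.G_sm l).comp h2).sub ((d.G_sm l).comp h1)))
  · exact ((d.P_sm l).comp h1).clm_apply ((contDiff_apply ℝ V l).comp h3)

lemma itg_cont {n : ℕ} (d : KD n) (ε : ℝ) (y z : V) : Continuous (itg d.Psi ε y z) := by
  have h0 : ContDiff ℝ ∞ fun p : (Fin n → V) × V => ε • p.1 := contDiff_fst.const_smul ε
  have h1 : ContDiff ℝ 0 fun u : Fin n → V => fderiv ℝ (fun y' => d.Psi y' z (ε • u)) y :=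
    ContDiff.fderiv (m := ∞) (f := fun u y' => d.Psi y' z (ε • u))
      (psi_sm d contDiff_snd contDiff_const h0) contDiff_const (by simp)
  have h2 : ContDiff ℝ 0 fun u : Fin n → V => fderiv ℝ (fun z' => d.Psi y z' (ε • u)) z :=
    ContDiff.fderiv (m := ∞) (f := fun u z' => d.Psi y z' (ε • u))
      (psi_sm d contDiff_const contDiff_snd h0) contDiff_const (by simp)
  have h3 : Continuous fun u : Fin n → V => d.Psi y z (ε • u) :=
    (psi_sm d contDiff_const contDiff_const (contDiff_id.const_smul ε)).continuous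
  have h4 := (cd_dl2 h1 h2).continuous
  have h5 : Continuous fun u : Fin n → V => eta (ε⁻¹ • d.Psi y z (ε • u)) :=
    eta_sm.continuous.comp' (h3.fun_const_smul _)
  have h6 : Continuous fun u : Fin n → V => ∏ l, eta (u l) :=
    continuous_finsetProd _ fun l _ => eta_sm.continuous.comp' (continuous_apply l)
  exact (h6.fun_mul (continuous_const.fun_mul h5)).fun_smul h4

lemma itg_int {n : ℕ} (d : KD n) (ε : ℝ) (y z : V) : Integrable (itg d.Psi ε y z) := by
  refine (itg_cont d ε y z).integrable_of_hasCompactSupport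
    (HasCompactSupport.intro (isCompact_closedBall 0 1) fun u hu => ?_)
  rw [mem_closedBall_zero_iff, pi_norm_le_iff_of_nonneg zero_le_one, not_forall] at hu
  obtain ⟨l, hl⟩ := hu
  rw [itg, Finset.prod_eq_zero (Finset.mem_univ l) (eta_zero (not_le.1 hl).le), zero_mul,
    zero_smul]

lemma psi_upd {n : ℕ} (d : KD n) (y z : V) (ζ : Fin n → V) (w : V) :
    d.Psi y z (Function.update ζ d.j w) = d.Psi y z ζ := by
  unfold KD.Psi
  rw [Finset.sum_congr rfl fun l hl => by rw [Function.update_of_ne (Finset.ne_of_mem_erase hl)]]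

/-- the change of variables -/
lemma core (h1 : CVpiS) {n : ℕ} {i j : Fin n} (hij : i ≠ j) {Ψ Ψ' : V → V → (Fin n → V) → V}
    {ε : ℝ} (hε : 0 < ε) {y z : V} {M : V → End}
    (u1 : ∀ y z ζ w, Ψ y z (Function.update ζ i w) = Ψ y z ζ)
    (u2 : ∀ y z ζ w, Ψ' y z (Function.update ζ j w) = Ψ' y z ζ)
    (hM : DifferentiableAt ℝ M y) (hd : 0 < (M y).det)
    (e1 : ∀ᶠ y1 in 𝓝 y, ∀ ζ, Ψ' y1 z ζ = ζ j + M y1 (Ψ y1 z ζ - ζ i))
    (e2 : ∀ᶠ z1 in 𝓝 z, ∀ ζ, Ψ' y z1 ζ = ζ j + M y (Ψ y z1 ζ - ζ i))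
    (d1 : ∀ ζ, DifferentiableAt ℝ (fun y' => Ψ y' z ζ) y)
    (d2 : ∀ ζ, DifferentiableAt ℝ (fun z' => Ψ y z' ζ) z)
    (c1 : Continuous (Ψ y z)) (c2 : Continuous (itg Ψ ε y z)) :
    ∫ u, itg Ψ ε y z u = ∫ u, itg Ψ' ε y z u := by
  have e0 := e1.self_of_nhds
  have su : ∀ (u : Fin n → V) k w, ε • Function.update u k w = Function.update (ε • u) k (ε • w) :=
    fun u k w => (Function.update_smul ε u k w).symm
  have hc : ∀ u : Fin n → V, (-M y) (u i) + (u j + M y (ε⁻¹ • Ψ y z (ε • u))) =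
      ε⁻¹ • Ψ' y z (ε • u) := fun u => by
    simp only [e0, smul_add, map_sub, map_smul, Pi.smul_apply, smul_sub, inv_smul_smul₀ hε.ne',
      neg_apply]
    abel
  have hd' : (-M y).det = (M y).det := by rw [← neg_one_smul ℝ, det_smul]; norm_num
  have hi : ∀ v, M y v = 0 → v = 0 := fun v hv =>
    (LinearMap.equivOfDetNeZero (M y : V →ₗ[ℝ] V) hd.ne').injective (hv.trans (map_zero _).symm)
  rw [h1 n i j (-M y) (fun u => u j + M y (ε⁻¹ • Ψ y z (ε • u))) _ hij (hd' ▸ hd.ne')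
    (by fun_prop) (fun u w => by rw [su, u1, Function.update_of_ne hij.symm])
    (fun u w => by
      rw [← add_right_inj ((-M y) (u i)), hc, ← u2 _ _ _ (ε • w), ← su, ← hc,
        Function.update_of_ne hij]) c2, hd', abs_of_pos hd, ← integral_smul]
  refine integral_congr_ae (Eventually.of_forall fun u => ?_)
  simp only [hc]
  generalize hζ : Function.update (ε • u) j (Ψ' y z (ε • u)) = ζ
  have k1 : ∀ y z, Ψ' y z (ε • u) = Ψ' y z ζ := fun y z => by rw [← hζ, u2]
  have k2 : ∀ y' z', Ψ y' z' (ε • Function.update (Function.update u j (ε⁻¹ • Ψ' y z (ε • u))) i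
      (u j)) = Ψ y' z' ζ := fun y' z' => by rw [su, u1, su, smul_inv_smul₀ hε.ne', hζ]
  have k3 : ζ j = Ψ' y z ζ := by rw [← k1, ← hζ, Function.update_self]
  have k4 : Ψ y z ζ - ζ i = 0 := hi _ (left_eq_add.1 (k3.trans (e0 ζ)))
  have k5 : ε⁻¹ • Ψ y z ζ = u i := by
    rw [sub_eq_zero.1 k4, ← hζ, Function.update_of_ne hij, Pi.smul_apply, inv_smul_smul₀ hε.ne']
  have k6 : fderiv ℝ (fun y' => Ψ' y' z ζ) y = (M y).comp (fderiv ℝ (fun y' => Ψ y' z ζ) y) := by
    have := ((hM.hasFDerivAt.clm_apply ((d1 ζ).hasFDerivAt.sub_const (ζ i))).const_add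
      (ζ j)).congr_of_eventuallyEq (e1.mono fun y1 h => h ζ)
    rw [this.fderiv, k4, map_zero, add_zero]
  have k7 : fderiv ℝ (fun z' => Ψ' y z' ζ) z = (M y).comp (fderiv ℝ (fun z' => Ψ y z' ζ) z) :=
    ((((M y).hasFDerivAt.comp z ((d2 ζ).hasFDerivAt.sub_const (ζ i))).const_add
      (ζ j)).congr_of_eventuallyEq (e2.mono fun z1 h => h ζ)).fderiv
  have k8 : ∀ w, (∏ l, eta (Function.update (Function.update u j w) i (u j) l)) * eta (u i) =
      (∏ l, eta (u l)) * eta w := fun w => by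
    have m1 : j ∈ Finset.univ.erase i := Finset.mem_erase.2 ⟨hij.symm, Finset.mem_univ _⟩
    rw [← Finset.mul_prod_erase _ _ (Finset.mem_univ i), ← Finset.mul_prod_erase _ _ m1,
      ← Finset.mul_prod_erase _ (fun l => eta (u l)) (Finset.mem_univ i),
      ← Finset.mul_prod_erase _ (fun l => eta (u l)) m1, Function.update_self,
      Function.update_of_ne hij.symm, Function.update_self, Finset.prod_congr rfl fun l hl => by
        rw [Function.update_of_ne (Finset.ne_of_mem_erase (Finset.mem_of_mem_erase hl)),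
          Function.update_of_ne (Finset.ne_of_mem_erase hl)]]
    ring
  rw [itg, itg]
  simp only [k2, k5]
  simp only [k1]
  rw [k6, k7, dl2_left, smul_comm, mul_left_comm, k8, mul_left_comm]

variable {X : Type*} [TopologicalSpace X] {D : Dat X}

lemma psi_sub {i : Fin D.n} {d : KD D.n} (h : D.IsKD i d) {x : X} (hx : D.In i 9 x) (z : V)
    (ζ : Fin D.n → V) : d.Psi (D.e i x) z ζ - ζ i =
      d.r (D.e i x) • (d.W (D.e i x) z - ∑ l, d.P l (D.e i x) (ζ l)) := by
  have h1 := (h.2.2 x i ⟨hx.1, by linarith [hx.2]⟩).2.2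
  rw [Atl.ext0, if_pos hx.1, tr_self] at h1
  rw [KD.Psi, h.1, ← Finset.sum_erase_add _ _ (Finset.mem_univ i), h1, ← sub_sub, smul_sub _ _
    ((D.rho i (D.e i x) • ContinuousLinearMap.id ℝ V) (ζ i)), smul_apply,
    smul_smul, h.2.1 _ hx.2, one_smul]
  rfl

lemma rel {i j : Fin D.n} {d d' : KD D.n} (h : D.IsKD i d) (h' : D.IsKD j d') {x x' : X}
    (h1 : D.In i 9 x) (h2 : D.In j 9 x) (h3 : D.In i 11 x') (h4 : D.In j 11 x') (ζ : Fin D.n → V) :
    d'.Psi (D.e j x) (D.e j x') ζ = ζ j + ((d'.r (D.e j x) * D.rho i (D.e i x)) • D.tr j i x)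
      (d.Psi (D.e i x) (D.e i x') ζ - ζ i) := by
  have a1 := fun l => h.2.2 x l ⟨h1.1, by linarith [h1.2]⟩
  have a2 := fun l => h'.2.2 x l ⟨h2.1, by linarith [h2.2]⟩
  have a3 : ∀ l v, d'.P l (D.e j x) v = D.tr j i x (d.P l (D.e i x) v) := fun l v => by
    rw [(a1 l).2.2, (a2 l).2.2, ← tr_tr _ j i l]
    simp
  rw [← sub_eq_iff_eq_add', psi_sub h' h2, psi_sub h h1, smul_apply, map_smul,
    smul_smul, mul_assoc, mul_comm (D.rho _ _), h.2.1 _ h1.2, mul_one, KD.W, KD.W]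
  simp only [map_sub (D.tr j i x), map_sum, map_smul, a3, (a1 _).1, (a2 _).1, (a1 _).2.1,
    (a2 _).2.1, (h.2.2 x' _ h3).2.1, (h'.2.2 x' _ h4).2.1]

lemma ev_in (h2 : GeoA D.toAtl) {i j : Fin D.n} {x : X} {r : ℝ} (hi : x ∈ (D.e i).source)
    (hj : x ∈ (D.e j).source) (ri : ‖D.e i x‖ < r) (rj : ‖D.e j x‖ < r) :
    ∀ᶠ y in 𝓝 (D.e i x), D.e i ((D.e i).symm y) = y ∧ D.In i r ((D.e i).symm y) ∧
      D.In j r ((D.e i).symm y) := by
  have h3 : D.e i x ∈ D.dom j i := ⟨(D.e i).map_source hi, by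
    rwa [mem_preimage, (D.e i).left_inv hi]⟩
  filter_upwards [(h2.dom_open j i).mem_nhds h3,
    (h2.fderiv_tm j i _ h3).continuousAt.norm.eventually_lt continuousAt_const
      (show ‖D.tm j i (D.e i x)‖ < r by rwa [Atl.tm, (D.e i).left_inv hi]),
    (isOpen_lt continuous_norm continuous_const).mem_nhds ri] with y k1 k2 k3
  have k4 := (D.e i).right_inv k1.1
  exact ⟨k4, ⟨(D.e i).map_target k1.1, by rw [k4]; exact le_of_lt k3⟩, k1.2, k2.le⟩

end KInd
open KDa KInd

variable {X : Type*} [TopologicalSpace X] [T2Space X] {D : Dat X}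

theorem kIndS (h1 : CVpiS) (h2 : GeoA D.toAtl) (h3 : GeoD D) : KIndS D := by
  intro i j d d' ε x x' hij hd hd' hε si sj si' sj' ri rj ri' rj'
  have t1 : D.tm j i (D.e i x) = D.e j x := by rw [Atl.tm, (D.e i).left_inv si]
  have t2 : D.tm j i (D.e i x') = D.e j x' := by rw [Atl.tm, (D.e i).left_inv si']
  have m1 : D.e i x ∈ D.dom j i := ⟨(D.e i).map_source si, by
    rwa [mem_preimage, (D.e i).left_inv si]⟩
  have m2 : D.e i x' ∈ D.dom j i := ⟨(D.e i).map_source si', by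
    rwa [mem_preimage, (D.e i).left_inv si']⟩
  have f1 := h2.fderiv_tm j i _ m1
  have f2 := h2.fderiv_tm j i _ m2
  rw [(D.e i).left_inv si] at f1
  rw [(D.e i).left_inv si'] at f2
  have dy : ∀ (d : KD D.n) y z ζ, DifferentiableAt ℝ (fun y' => d.Psi y' z ζ) y := fun d y z ζ =>
    (psi_sm d contDiff_id contDiff_const contDiff_const).differentiable (by simp) y
  have dz : ∀ (d : KD D.n) y z ζ, DifferentiableAt ℝ (fun z' => d.Psi y z' ζ) z := fun d y z ζ =>
    (psi_sm d contDiff_const contDiff_id contDiff_const).differentiable (by simp) z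
  have key := core h1 hij (Ψ := d.Psi) (Ψ' := fun y z => d'.Psi (D.tm j i y) (D.tm j i z)) hε
    (y := D.e i x) (z := D.e i x')
    (M := fun y => (d'.r (D.tm j i y) * D.rho i y) • D.tr j i ((D.e i).symm y))
    (fun y z ζ w => hd.1 ▸ psi_upd d y z ζ w) (fun y z ζ w => hd'.1 ▸ psi_upd d' _ _ ζ w)
    ((((d'.r_sm.differentiable (by simp) _).comp _ f1.differentiableAt).mul
      ((D.rho_sm i).differentiable (by simp) _)).smul (((h2.tr_sm j i).contDiffAt
        ((h2.dom_open j i).mem_nhds m1)).differentiableAt (by simp)))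
    (by
      rw [det_smul, (D.e i).left_inv si]
      exact mul_pos (pow_pos (mul_pos (d'.r_pos _) (D.rho_pos i _ (by linarith))) _)
        (h3.det_pos j i x ⟨sj, by linarith⟩ ⟨si, by linarith⟩))
    ((ev_in h2 si sj ri rj).mono fun y k ζ => by
      have := rel hd hd' k.2.1 k.2.2 ⟨si', ri'.le⟩ ⟨sj', rj'.le⟩ ζ
      rw [k.1] at this
      rw [t2]
      exact this)
    ((ev_in h2 si' sj' ri' rj').mono fun z k ζ => by
      have := rel hd hd' ⟨si, ri.le⟩ ⟨sj, rj.le⟩ k.2.1 k.2.2 ζ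
      rw [k.1] at this
      rw [t1, (D.e i).left_inv si]
      exact this)
    (dy d _ _) (dz d _ _) (psi_sm d contDiff_const contDiff_const contDiff_id).continuous
    (itg_cont d ε _ _)
  let Λ : Op →L[ℝ] Op := (D.tr j i x).det •
    (ContinuousLinearMap.compL ℝ E6 E6 E6 (pull (D.tr j i x'))).comp
      ((ContinuousLinearMap.compL ℝ E6 E6 E6).flip (pull (D.tr i j x)))
  have hΛ : ∀ k, Λ k = (D.tr j i x).det • (pull (D.tr j i x')).comp (k.comp (pull (D.tr i j x))) :=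
    fun k => rfl
  have k1 : d.kraw ε (D.e i x) (D.e i x') = Λ (d'.kraw ε (D.e j x) (D.e j x')) := by
    refine key.trans (Eq.trans (integral_congr_ae (Eventually.of_forall fun u => ?_))
      (Λ.integral_comp_comm (itg_int d' ε (D.e j x) (D.e j x'))))
    have g1 := (t1 ▸ (dy d' (D.e j x) (D.e j x') (ε • u)).hasFDerivAt :
      HasFDerivAt _ _ (D.tm j i (D.e i x))).comp _ f1
    have g2 := (t2 ▸ (dz d' (D.e j x) (D.e j x') (ε • u)).hasFDerivAt :
      HasFDerivAt _ _ (D.tm j i (D.e i x'))).comp _ f2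
    simp only [itg, t1, t2, map_smul]
    rw [show fderiv ℝ (fun y' => d'.Psi (D.tm j i y') (D.e j x') (ε • u)) (D.e i x) = _ from
      g1.fderiv, show fderiv ℝ (fun z' => d'.Psi (D.e j x) (D.tm j i z') (ε • u)) (D.e i x') = _
      from g2.fderiv, dl2_right _ _ _ (D.tr i j x) _ ((tr_tr _ _ _ _ _).trans (tr_self _ _ _)), hΛ,
      t1, t2]
  rw [Atl.KK, Atl.KK, if_pos ⟨si, si'⟩, if_pos ⟨sj, sj'⟩, k1, hΛ]
  have b1 : (D.tr j i x').comp ((D.fr i x').symm : End) = (D.fr j x').symm := by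
    ext1 v; simp [Atl.tr]
  have b2 : (D.fr i x : End).comp (D.tr i j x) = D.fr j x := by ext1 v; simp [Atl.tr]
  have b3 : ((D.fr i x).symm : End).det * (D.tr j i x).det = ((D.fr j x).symm : End).det := by
    rw [mul_comm, ← show (D.tr j i x).comp ((D.fr i x).symm : End) = (D.fr j x).symm by
      ext1 v; simp [Atl.tr]]
    exact (LinearMap.det_comp _ _).symm
  rw [← b1, ← b2, ← b3, pull_comp, pull_comp]
  ext1 h
  simp [smul_smul]

end Vale.Agent.P204
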