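import Vale.Agent.P204.Stmt

/-! The chart kernel in scale form. -/

set_option maxSynthPendingDepth 3

open scoped Topology ContDiff RealInnerProductSpace
open Set Metric MeasureTheory Filter

noncomputable section
namespace Vale.Agent.P204

namespace KSc

/-- the difference quotient along a ray -/
def dq (G : V → V) (p : V × V × ℝ) : V :=
  ∫ s in Ioc (0 : ℝ) 1, (1 : ℝ) • fderiv ℝ G (p.1 + s • p.2.2 • p.2.1) p.2.1

lemma dq_sm (h : AvgS) {G : V → V} (hG : ContDiff ℝ ∞ G) : ContDiff ℝ ∞ (dq G) := by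
  have c := cd_fderiv hG
  exact (h.smul (volume.restrict (Ioc (0 : ℝ) 1))
    (fun q : (V × V × ℝ) × ℝ => fderiv ℝ G (q.1.1 + q.2 • q.1.2.2 • q.1.2.1) q.1.2.1) id
    (fun _ => 1) (Icc 0 1) (by fun_prop) isCompact_Icc aestronglyMeasurable_id (integrable_const _)
    ((ae_restrict_mem measurableSet_Ioc).mono fun _ h _ => Ioc_subset_Icc_self h)).1

lemma dq_zero (G : V → V) (y v : V) : dq G (y, v, 0) = fderiv ℝ G y v := by
  simp [dq]

lemma dq_eq {G : V → V} (hG : ContDiff ℝ ∞ G) (y v : V) (t : ℝ) :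
    G (y + t • v) - G y = t • dq G (y, v, t) := by
  have c := (cd_fderiv hG).continuous
  have h := intervalIntegral.integral_eq_sub_of_hasDerivAt (a := 0) (b := 1)
    (f := fun s : ℝ => G (y + s • t • v)) (f' := fun s => t • fderiv ℝ G (y + s • t • v) v)
    (fun s _ => ((hG.differentiable (by simp) _).hasFDerivAt.comp_hasDerivAt s
      (((hasDerivAt_id' s).smul_const (t • v)).const_add y)).congr_deriv (by simp))
    (Continuous.intervalIntegrable (by fun_prop) _ _)
  rw [intervalIntegral.integral_smul, intervalIntegral.integral_of_le zero_le_one] at h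
  simpa [dq] using h.symm

variable {n : ℕ} (d : KD n)

/-- the rescaled defining function -/
def ps (p : V × V × ℝ) (u : Fin n → V) : V :=
  d.r p.1 • (∑ l, d.rl l p.1 • d.P l p.1 (dq (d.G l) p) -
    ∑ l ∈ Finset.univ.erase d.j, d.P l p.1 (u l))

lemma ps_sm (h : AvgS) : ContDiff ℝ ∞ fun q : (V × V × ℝ) × (Fin n → V) => ps d q.1 q.2 := by
  have := d.r_sm
  have := d.rl_sm
  have := d.P_sm
  have := fun l => dq_sm h (d.G_sm l)
  unfold ps
  fun_prop

lemma ps_eq (y v : V) {t : ℝ} (ht : t ≠ 0) (u : Fin n → V) :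
    t⁻¹ • d.Psi y (y + t • v) (t • u) = ps d (y, v, t) u := by
  simp only [KD.Psi, KD.W, ps, dq_eq (d.G_sm _), Pi.smul_apply, map_smul, smul_comm _ t,
    ← Finset.smul_sum, ← smul_sub, inv_smul_smul₀ ht, smul_inv_smul₀ ht]

lemma ps_zero {y : V} (hy : ‖y‖ ≤ 9) (v : V) (u : Fin n → V) :
    ps d (y, v, 0) u = d.r y • (v - ∑ l ∈ Finset.univ.erase d.j, d.P l y (u l)) := by
  have h := congrArg (fun T : End => T v) (d.hid y hy)
  simp only [sum_apply, smul_apply,
    ContinuousLinearMap.comp_apply, ContinuousLinearMap.id_apply] at h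
  simp only [ps, dq_zero, h]

lemma psi_sm {P : Type} [NormedAddCommGroup P] [NormedSpace ℝ P] {y z : P → V}
    {ζ : P → Fin n → V} (hy : ContDiff ℝ ∞ y) (hz : ContDiff ℝ ∞ z) (hζ : ContDiff ℝ ∞ ζ) :
    ContDiff ℝ ∞ fun p => d.Psi (y p) (z p) (ζ p) := by
  have := d.r_sm
  have := d.rl_sm
  have := d.P_sm
  have := d.G_sm
  unfold KD.Psi KD.W
  fun_prop

/-- the double form of the construction -/
def db (y z : V) (ζ : Fin n → V) : Op :=
  dl2 (fderiv ℝ (fun y' => d.Psi y' z ζ) y) (fderiv ℝ (fun z' => d.Psi y z' ζ) z)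

lemma db_sm : ContDiff ℝ ∞ fun q : (V × V × ℝ) × (Fin n → V) =>
    db d q.1.1 (q.1.1 + q.1.2.2 • q.1.2.1) (q.1.2.2 • q.2) :=
  cd_dl2 (ContDiff.fderiv (m := ∞) (psi_sm d (by fun_prop) (by fun_prop) (by fun_prop))
    (by fun_prop) (by simp))
    (ContDiff.fderiv (m := ∞) (psi_sm d (by fun_prop) (by fun_prop) (by fun_prop))
      (by fun_prop) (by simp))

lemma db_zero {y : V} (hy : ‖y‖ ≤ 9) :
    db d y y 0 = (d.r y ^ 4) • ContinuousLinearMap.id ℝ E6 := by
  have e : ∀ y z, d.Psi y z 0 = ∑ l, (d.r y • d.rl l y • d.P l y) (d.G l z - d.G l y) :=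
    fun y z => by simp [KD.Psi, KD.W, Finset.smul_sum]
  have g := fun l => ((d.G_sm l).differentiable (by simp) y).hasFDerivAt
  have c := fun l => ((d.r_sm.smul ((d.rl_sm l).smul (d.P_sm l))).differentiable
    (by simp) y).hasFDerivAt
  have h1 := (HasFDerivAt.fun_sum fun l (_ : l ∈ Finset.univ) =>
    (c l).clm_apply ((g l).const_sub (d.G l y))).fderiv
  have h2 := (HasFDerivAt.fun_sum fun l (_ : l ∈ Finset.univ) =>
    (d.r y • d.rl l y • d.P l y).hasFDerivAt.comp y ((g l).sub_const (d.G l y))).fderiv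
  simp only [sub_self, map_zero, add_zero, ContinuousLinearMap.comp_neg, Finset.sum_neg_distrib,
    Pi.smul_apply', ContinuousLinearMap.smul_comp, ← Finset.smul_sum, d.hid y hy,
    ← neg_smul] at h1 h2
  rw [db, funext fun y' => e y' y, funext (e y)]
  refine (congrArg₂ dl2 h1 h2).trans ((dl2_smul_id _ _).trans ?_)
  congr 1
  ring

lemma far {C1 δ0 : ℝ} (h : AvgS) (h0 : 0 < δ0) (hF : d.Far C1 δ0) {y v : V} (hy : ‖y‖ ≤ 9)
    (hv : C1 ≤ ‖v‖) {u : Fin n → V} (hu : ∀ l, ‖u l‖ ≤ 1) : 1 ≤ ‖ps d (y, v, 0) u‖ := by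
  have c : Continuous fun t : ℝ => ‖ps d (y, v, t) u‖ :=
    ((ps_sm d h).continuous.comp (by fun_prop : Continuous fun t : ℝ => ((y, v, t), u))).norm
  refine ge_of_tendsto ((c.tendsto 0).mono_left (nhdsWithin_le_nhds (s := Ioi 0))) ?_
  filter_upwards [Ioc_mem_nhdsGT one_pos, nhdsWithin_le_nhds
    ((by fun_prop : Continuous fun t : ℝ => t * ‖v‖).continuousAt.eventually_lt
      continuousAt_const (by rwa [zero_mul]))] with t h1 h2
  have e : ‖y + t • v - y‖ = t * ‖v‖ := by
    rw [add_sub_cancel_left, norm_smul, Real.norm_of_nonneg h1.1.le]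
  rw [← ps_eq d y v h1.1.ne']
  exact hF t y _ u h1.1 h1.2 hy (e.trans_le h2.le)
    (e ▸ (mul_comm _ _).trans_le (mul_le_mul_of_nonneg_left hv h1.1.le)) hu

lemma prod_ne {u : Fin n → V} (h : ∏ l, eta (u l) ≠ 0) (l : Fin n) : ‖u l‖ ≤ 1 :=
  not_lt.1 fun h' => h (Finset.prod_eq_zero (Finset.mem_univ l) (eta_zero h'.le))

end KSc

open KSc in
theorem kScS (h1 : AvgS) : KScS := by
  intro n d C1 δ0 C c1 d0 hF c2
  have c0 : 0 < C := by linarith
  have := eta_sm
  refine ⟨fun p => cut 1 (C⁻¹ • p.2.1) • ∫ u : Fin n → V, (∏ l, eta (u l)) •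
    (eta (ps d p u) • db d p.1 (p.1 + p.2.2 • p.2.1) (p.2.2 • u)),
    ⟨((cut_sm 1).comp (by fun_prop)).smul (h1.smul volume _ id _ (closedBall 0 1)
      ((eta_sm.comp (ps_sm d h1)).smul (db_sm d)) (isCompact_closedBall _ _)
      aestronglyMeasurable_id (Integrable.fintype_prod fun _ => eta_cc.integrable)
      (Eventually.of_forall fun u hu => mem_closedBall_zero_iff.2
        ((pi_norm_le_iff_of_nonneg zero_le_one).2 (prod_ne hu)))).1, fun y v ε hv => ?_,
    fun y v => cut 1 (C⁻¹ • v) * ∫ u : Fin n → V, (∏ l, eta (u l)) *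
      (eta (ps d (y, v, 0) u) * d.r y ^ 4), fun y v hy => ?_, fun y hy => ?_⟩, fun ε hε => ?_⟩
  · beta_reduce
    rw [cut_zero le_rfl, zero_smul]
    rw [norm_smul, Real.norm_of_nonneg (inv_nonneg.2 c0.le), le_inv_mul_iff₀ c0]
    linarith
  · simp only [zero_smul, add_zero, db_zero d hy, smul_smul, integral_smul_const]
  · have z : ∀ (v : V) (u : Fin n → V), C < ‖v‖ ∨ 1 < ‖u‖ →
        (∏ l, eta (u l)) * (eta (ps d (y, v, 0) u) * d.r y ^ 4) = 0 := fun v u h => by
      by_cases h0 : ∏ l, eta (u l) = 0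
      · rw [h0, zero_mul]
      · have hv : C < ‖v‖ :=
          h.resolve_right ((pi_norm_le_iff_of_nonneg zero_le_one).2 (prod_ne h0)).not_gt
        rw [eta_zero (far d h1 d0 hF hy (v := v) (by linarith) (prod_ne h0)), zero_mul, mul_zero]
    have r0 := d.r_pos y
    have e := eta_sm.continuous
    rw [integral_congr_ae (g := fun v => ∫ u : Fin n → V, (∏ l, eta (u l)) *
      (eta (ps d (y, v, 0) u) * d.r y ^ 4)) (Eventually.of_forall fun v => ?_),
      integral_integral_swap_of_hasCompactSupport (f := fun (v : V) (u : Fin n → V) =>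
        (∏ l, eta (u l)) * (eta (ps d (y, v, 0) u) * d.r y ^ 4)) ?_ (HasCompactSupport.intro
        ((isCompact_closedBall (0 : V) C).prod (isCompact_closedBall (0 : Fin n → V) 1))
        fun q hq => z q.1 q.2 (by simpa [not_and_or, -not_and] using hq))]
    · simp only [ps_zero d hy, integral_const_mul, integral_mul_const,
        integral_sub_right_eq_self fun v => eta (d.r y • v), Measure.integral_comp_smul, eta_int,
        integral_fintype_prod_volume_eq_prod, finrank_euclideanSpace_fin]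
      rw [Finset.prod_const_one, one_mul, smul_eq_mul, mul_one, abs_of_pos (by positivity),
        inv_mul_cancel₀ (by positivity)]
    · simp only [ps_zero d hy]
      fun_prop
    · beta_reduce
      rcases le_or_gt ‖v‖ C with h | h
      · rw [cut_one, one_mul]
        rwa [norm_smul, Real.norm_of_nonneg (inv_nonneg.2 c0.le), inv_mul_le_iff₀ c0, mul_one]
      · simp only [z v _ (Or.inl h), integral_zero, mul_zero]
  · funext y z
    obtain ⟨v, rfl⟩ : ∃ v, z = y + ε • v :=
      ⟨ε⁻¹ • (z - y), by rw [smul_inv_smul₀ hε.ne', add_sub_cancel]⟩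
    simp only [ksc, KD.kcut, KD.kraw, add_sub_cancel_left, inv_smul_smul₀ hε.ne', mul_inv,
      mul_smul, ps_eq d y v hε.ne', db]
    rw [smul_comm, ← integral_smul]
    simp only [smul_comm (ε ^ 4)⁻¹]

end Vale.Agent.P204
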