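import Vale.Agent.P204.Stmt

/-! The global smoothing kernel. -/

set_option maxSynthPendingDepth 3

open scoped Topology ContDiff RealInnerProductSpace Manifold
open Set Metric MeasureTheory Filter

noncomputable section
namespace Vale.Agent.P204

namespace KerA

lemma exists_low {n : ℕ} (f : Fin n → ℝ) (hf : ∀ j, 0 < f j) : ∃ a, 0 < a ∧ ∀ j, a ≤ f j := by
  have h0 : ∀ j, 0 ≤ (f j)⁻¹ := fun j => (inv_pos.mpr (hf j)).le
  have h1 : 0 ≤ ∑ j, (f j)⁻¹ := Finset.sum_nonneg fun j _ => h0 j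
  refine ⟨(1 + ∑ j, (f j)⁻¹)⁻¹, by positivity, fun j => ?_⟩
  have h2 : (f j)⁻¹ ≤ ∑ j, (f j)⁻¹ :=
    Finset.single_le_sum (fun j _ => h0 j) (Finset.mem_univ j)
  rw [inv_le_comm₀ (by positivity) (hf j)]
  linarith

lemma exists_up {n : ℕ} (f : Fin n → ℝ) : ∃ a, 1 ≤ a ∧ ∀ j, f j ≤ a := by
  have h1 : 0 ≤ ∑ j, |f j| := Finset.sum_nonneg fun j _ => abs_nonneg _
  refine ⟨1 + ∑ j, |f j|, by linarith, fun j => ?_⟩
  have h2 : |f j| ≤ ∑ j, |f j| :=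
    Finset.single_le_sum (f := fun j => |f j|) (fun j _ => abs_nonneg _) (Finset.mem_univ j)
  linarith [le_abs_self (f j)]

lemma cone_mono {F : Frame} {k : V → V → Op} {C C' ε : ℝ} (hε : 0 < ε) (h : Cone F k C ε)
    (hC : C ≤ C') : Cone F k C' ε := by
  intro y z u hy hu
  obtain ⟨h1, h2, h3⟩ := h y z u hy hu
  refine ⟨h1.trans (mul_le_mul_of_nonneg_right hC (by positivity)),
    h2.trans (mul_le_mul_of_nonneg_right hC (by positivity)), h3.trans ?_⟩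
  have h4 : C * (ε ^ 2)⁻¹ ≤ C' * (ε ^ 2)⁻¹ := mul_le_mul_of_nonneg_right hC (by positivity)
  linarith

lemma kcut_eq {n : ℕ} (d : KD n) {C1 δ0 C ε : ℝ} (hF : d.Far C1 δ0) (hC : 0 < C) (hC1 : C1 ≤ C)
    (hε : 0 < ε) (hε1 : ε ≤ 1) {y z : V} (hy : ‖y‖ ≤ 9) (hz : ‖z - y‖ ≤ δ0) :
    d.kcut C ε y z = d.kraw ε y z := by
  have hCε : 0 < C * ε := mul_pos hC hε
  unfold KD.kcut
  by_cases h : ‖z - y‖ ≤ C * ε
  · rw [cut_one, one_smul]
    rw [norm_smul, norm_inv, Real.norm_eq_abs, abs_of_pos hCε, inv_mul_le_iff₀ hCε, mul_one]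
    exact h
  · have h1 : C1 * ε ≤ ‖z - y‖ :=
      (mul_le_mul_of_nonneg_right hC1 hε.le).trans (not_le.mp h).le
    have h2 : d.kraw ε y z = 0 := by
      unfold KD.kraw
      refine integral_eq_zero_of_ae (ae_of_all _ fun u => ?_)
      have h3 : (∏ l, eta (u l)) * ((ε ^ 4)⁻¹ * eta (ε⁻¹ • d.Psi y z (ε • u))) = 0 := by
        by_cases hu : ∀ l, ‖u l‖ ≤ 1
        · rw [eta_zero (hF ε y z u hε hε1 hy hz h1 hu), mul_zero, mul_zero]
        · obtain ⟨l, hl⟩ := not_forall.mp hu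
          rw [Finset.prod_eq_zero (Finset.mem_univ l) (eta_zero (not_le.mp hl).le), zero_mul]
      simp only [h3, zero_smul, Pi.zero_apply]
    rw [h2, smul_zero]

lemma kcut_ne {n : ℕ} (d : KD n) {C ε : ℝ} (hC : 0 < C) (hε : 0 < ε) {y z : V}
    (h : d.kcut C ε y z ≠ 0) : ‖z - y‖ ≤ 2 * C * ε := by
  have hCε : 0 < C * ε := mul_pos hC hε
  by_contra h1
  apply h
  unfold KD.kcut
  rw [cut_zero le_rfl, zero_smul]
  rw [norm_smul, norm_inv, Real.norm_eq_abs, abs_of_pos hCε, le_inv_mul_iff₀ hCε]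
  linarith [not_le.mp h1]

variable {X : Type*} [TopologicalSpace X]

lemma KK_congr (a : Atl X) (j : Fin a.n) {k k' : V → V → Op} {x x' : X}
    (h : k (a.e j x) (a.e j x') = k' (a.e j x) (a.e j x')) : a.KK j k x x' = a.KK j k' x x' := by
  unfold Atl.KK
  rw [h]

lemma KK_ne (a : Atl X) (j : Fin a.n) {k : V → V → Op} {x x' : X} (h : a.KK j k x x' ≠ 0) :
    x ∈ (a.e j).source ∧ x' ∈ (a.e j).source ∧ k (a.e j x) (a.e j x') ≠ 0 := by
  unfold Atl.KK at h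
  split_ifs at h with h1
  · refine ⟨h1.1, h1.2, fun h2 => h ?_⟩
    rw [h2, ContinuousLinearMap.zero_comp, ContinuousLinearMap.comp_zero, smul_zero]
  · exact absurd rfl h

end KerA

variable {X : Type*} [TopologicalSpace X] [T2Space X] {D : Dat X}

theorem kerS (h1 : KSupS) (h2 : KScS) (h3 : KClS) (h4 : KConeS) (h5 : GeoA D.toAtl) (h6 : KDS D)
    (h7 : KIndS D) : KerS D := by
  choose d hd using h6
  choose C1 δ0 hC1 hδ0 hF using fun j => h1 D.n (d j)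
  obtain ⟨B, hB1, hB⟩ := KerA.exists_up C1
  have hC : 0 < 2 * B := by linarith
  choose Hs hHs hk using fun j => h2 D.n (d j) (C1 j) (δ0 j) (2 * B) (hC1 j) (hδ0 j) (hF j)
    (by linarith [hB j])
  choose C' ε1 hε1 hcone using fun j => h4 D.n (d j) (D.F j) (2 * B) (by linarith)
  obtain ⟨Cc, -, hCc⟩ := KerA.exists_up C'
  obtain ⟨e1, he1, he1'⟩ := KerA.exists_low ε1 hε1
  obtain ⟨δ1, hδ1, hδ1'⟩ := KerA.exists_low δ0 hδ0
  obtain ⟨δ, hδ, hδa, hδb⟩ : ∃ δ : ℝ, 0 < δ ∧ δ ≤ δ1 / 2 ∧ δ ≤ 1 / 2 :=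
    ⟨min (δ1 / 2) (1 / 2), by positivity, min_le_left _ _, min_le_right _ _⟩
  obtain ⟨δ', hδ', hnear⟩ := h5.near δ hδ
  obtain ⟨ε0, hε0, ha, hb, hc⟩ : ∃ ε0 : ℝ, 0 < ε0 ∧ ε0 ≤ e1 ∧ 2 * (2 * B) * ε0 ≤ δ ∧
      2 * (2 * B) * ε0 ≤ δ' := by
    refine ⟨min e1 (min δ δ' / (2 * (2 * B))), by positivity, min_le_left _ _, ?_⟩
    have h8 := min_le_right e1 (min δ δ' / (2 * (2 * B)))
    rw [le_div_iff₀' (by positivity)] at h8
    exact ⟨h8.trans (min_le_left _ _), h8.trans (min_le_right _ _)⟩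
  have hsm : ∀ ε, ε ≤ ε0 → 2 * (2 * B) * ε ≤ δ ∧ 2 * (2 * B) * ε ≤ δ' := by
    intro ε hε
    have h8 : 2 * (2 * B) * ε ≤ 2 * (2 * B) * ε0 := mul_le_mul_of_nonneg_left hε (by positivity)
    exact ⟨h8.trans hb, h8.trans hc⟩
  have hcl : ∀ j ε, 0 < ε → ε ≤ ε0 → ClP ((d j).kcut (2 * B) ε) (2 * (2 * B) * ε) ∧
      ClP' ((d j).kcut (2 * B) ε) (2 * (2 * B) * ε) := fun j ε hε hε' =>
    h3 D.n (d j) (C1 j) (δ0 j) (2 * B) ε (hC1 j) (hF j) (by linarith [hB j]) hε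
      ((hsm ε hε').1.trans hδb) (by linarith [(hsm ε hε').1, hδ1' j])
  refine ⟨⟨2 * (2 * B), ε0, Cc, by linarith, hε0, hb.trans hδb, Hs, hHs, fun j ε hε hε' => ?_,
    fun j ε hε hε' => ?_, fun j ε hε hε' => ?_, fun i j ε x x' hε hε' hj hi => ?_⟩⟩
  · rw [hk j ε hε]
    exact (hcl j ε hε hε').1
  · rw [hk j ε hε]
    exact (hcl j ε hε hε').2
  · rw [hk j ε hε]
    exact KerA.cone_mono hε (hcone j ε hε (hε'.trans (ha.trans (he1' j)))) (hCc j)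
  by_cases hij : i = j
  · rw [hij]
  rw [hk j ε hε, hk i ε hε]
  obtain ⟨hs1, hs2⟩ := hsm ε hε'
  have hε1' : ε ≤ 1 := by nlinarith
  have key : x ∈ (D.e i).source → x' ∈ (D.e i).source → x' ∈ (D.e j).source →
      ‖D.e i x' - D.e i x‖ ≤ δ → ‖D.e j x' - D.e j x‖ ≤ δ →
      D.KK j ((d j).kcut (2 * B) ε) x x' = D.KK i ((d i).kcut (2 * B) ε) x x' := by
    intro a1 a2 a3 a4 a5
    have b1 : ‖D.e i x‖ ≤ 17 / 2 := by
      rcases hi with hi | hi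
      · linarith [hi.2]
      · linarith [hi.2, norm_sub_norm_le (D.e i x) (D.e i x'), norm_sub_rev (D.e i x) (D.e i x')]
    have b2 := norm_sub_norm_le (D.e i x') (D.e i x)
    have b3 := norm_sub_norm_le (D.e j x') (D.e j x)
    have b4 := hj.2
    rw [KerA.KK_congr D.toAtl j (KerA.kcut_eq (d j) (hF j) hC (by linarith [hB j]) hε hε1'
        (by linarith) (by linarith [hδ1' j])),
      KerA.KK_congr D.toAtl i (KerA.kcut_eq (d i) (hF i) hC (by linarith [hB i]) hε hε1'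
        (by linarith) (by linarith [hδ1' i]))]
    exact (h7 i j (d i) (d j) ε x x' hij (hd i) (hd j) hε a1 hj.1 a2 a3 (by linarith)
      (by linarith) (by linarith) (by linarith)).symm
  have hj9 : D.In j 9 x := ⟨hj.1, by linarith [hj.2]⟩
  by_cases c1 : D.KK j ((d j).kcut (2 * B) ε) x x' = 0
  · by_cases c2 : D.KK i ((d i).kcut (2 * B) ε) x x' = 0
    · rw [c1, c2]
    · obtain ⟨a1, a2, a3⟩ := KerA.KK_ne D.toAtl i c2
      have a4 := KerA.kcut_ne (d i) hC hε a3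
      have hi9 : D.In i 9 x := by
        refine ⟨a1, ?_⟩
        rcases hi with hi | hi
        · linarith [hi.2]
        · linarith [hi.2, norm_sub_norm_le (D.e i x) (D.e i x'),
            norm_sub_rev (D.e i x) (D.e i x')]
      obtain ⟨a5, a6⟩ := hnear j i x x' hj9 hi9 a2 (a4.trans hs2)
      exact key a1 a2 a5 (a4.trans hs1) a6
  · obtain ⟨a1, a2, a3⟩ := KerA.KK_ne D.toAtl j c1
    have a4 := KerA.kcut_ne (d j) hC hε a3
    rcases hi with hi' | hi'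
    · obtain ⟨a5, a6⟩ := hnear i j x x' ⟨hi'.1, by linarith [hi'.2]⟩ hj9 a2 (a4.trans hs2)
      exact key hi'.1 a5 a2 a6 (a4.trans hs1)
    · obtain ⟨a5, a6⟩ := hnear i j x' x ⟨hi'.1, by linarith [hi'.2]⟩
        ⟨a2, by linarith [hj.2, norm_sub_norm_le (D.e j x') (D.e j x)]⟩ a1
        (by rw [norm_sub_rev]; exact a4.trans hs2)
      exact key a5 hi'.1 a2 (by rw [norm_sub_rev]; exact a6) (a4.trans hs1)

end Vale.Agent.P204
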