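import Vale.Agent.P204.Stmt

/-! Orthogonality of the smoothed currents. -/

set_option maxSynthPendingDepth 3

open scoped Topology ContDiff RealInnerProductSpace Manifold
open Set Metric MeasureTheory Filter

noncomputable section
namespace Vale.Agent.P204

namespace Key

/-- the cyclic sum as a functional of the derivative -/
def cycL (a b c : V) : (V →L[ℝ] E6) →L[ℝ] ℝ :=
  (ev b c).comp (ContinuousLinearMap.apply ℝ E6 a)
    + (ev c a).comp (ContinuousLinearMap.apply ℝ E6 b)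
    + (ev a b).comp (ContinuousLinearMap.apply ℝ E6 c)

lemma cyc_eq (β : V → E6) (y a b c : V) : cyc β y a b c = cycL a b c (fderiv ℝ β y) := by
  simp [cyc, cycL]

lemma one (h1 : AvgS) {B : V × V → Cov} {R : ℝ} (hB : ContDiff ℝ ∞ B) (hR : R ≤ 1)
    (h0 : ∀ y z, R < ‖z - y‖ → B (y, z) = 0) {w : V → ℝ} (hw : Cc 2 w) :
    ∃ c : V → Cov, Cc 3 c ∧ ∀ z u v,
      Integrable (fun y => w y * ap (d1 (fun z' => B (y, z')) z) u v) ∧
      ap (d1 c z) u v = ∫ y, w y * ap (d1 (fun z' => B (y, z')) z) u v := by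
  obtain ⟨a1, -, a3, -⟩ := h1.smul volume (fun p : V × V => B (p.2, p.1)) id w (closedBall 0 2)
    (hB.comp (contDiff_snd.prodMk contDiff_fst)) (isCompact_closedBall _ _)
    aestronglyMeasurable_id hw.integrable (Eventually.of_forall fun y hy =>
      mem_closedBall_zero_iff.2 (not_lt.1 fun h => hy (hw.2 y h)))
  simp only [id] at a1 a3
  refine ⟨_, ⟨a1, fun z hz => ?_⟩, fun z u v => ?_⟩
  · refine (integral_congr_ae (Eventually.of_forall fun y => ?_)).trans (integral_zero _ _)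
    by_cases hy : 2 < ‖y‖
    · simp [hw.2 y hy]
    · have := norm_sub_norm_le z y
      simp [h0 y z (by linarith [not_lt.1 hy])]
  · have e : ∀ y, w y * ap (d1 (fun z' => B (y, z')) z) u v =
        ((ev u v).comp alt2) (w y • fderiv ℝ (fun z' => B (y, z')) z) := fun y => by
      simp [d1]
    simp only [e]
    refine ⟨ContinuousLinearMap.integrable_comp _ (a3 z).1, ?_⟩
    rw [ContinuousLinearMap.integral_comp_comm _ (a3 z).1, ← (a3 z).2]
    simp [d1]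

lemma int4 {f0 f1 f2 f3 : V → ℝ} (h0 : Integrable f0) (h1 : Integrable f1) (h2 : Integrable f2)
    (h3 : Integrable f3) : ∫ y, (f0 y - f1 y + f2 y - f3 y) =
      (∫ y, f0 y) - (∫ y, f1 y) + (∫ y, f2 y) - ∫ y, f3 y := by
  rw [← integral_sub h0 h1, ← integral_add (f := fun y => f0 y - f1 y) (h0.sub h1) h2,
    ← integral_sub (f := fun y => f0 y - f1 y + f2 y) ((h0.sub h1).add h2) h3]

lemma kop_d1 (h1 : AvgS) (h2 : NatS) {k : V → V → Op} {R : ℝ} (hR : R ≤ 1) (hk : ClP' k R)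
    (hs : ∀ z, ContDiff ℝ ∞ fun y => k y z) {b : V → Cov} (hb : Cc 2 b) :
    ∃ b' : V → Cov, Cc 3 b' ∧ (fun z => ∫ y, k y z (d1 b y)) = d1 b' := by
  have hw : ∀ i, Cc 2 fun y => b y (bv i) := fun i =>
    ⟨hb.1.clm_apply contDiff_const, fun y hy => by simp [hb.2 y hy]⟩
  obtain ⟨B0, s0, z0, e0⟩ := hk (bv 1) (bv 2) (bv 3)
  obtain ⟨B1, s1, z1, e1⟩ := hk (bv 0) (bv 2) (bv 3)
  obtain ⟨B2, s2, z2, e2⟩ := hk (bv 0) (bv 1) (bv 3)
  obtain ⟨B3, s3, z3, e3⟩ := hk (bv 0) (bv 1) (bv 2)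
  obtain ⟨c0, k0, f0⟩ := one h1 s0 hR z0 (hw 0)
  obtain ⟨c1, k1, f1⟩ := one h1 s1 hR z1 (hw 1)
  obtain ⟨c2, k2, f2⟩ := one h1 s2 hR z2 (hw 2)
  obtain ⟨c3, k3, f3⟩ := one h1 s3 hR z3 (hw 3)
  refine ⟨c0 - c1 + c2 - c3, ((k0.sub k1).add k2).sub k3, funext fun z => ap_ext fun u v => ?_⟩
  have d : ∀ {c : V → Cov}, Cc 3 c → DifferentiableAt ℝ c z := fun h =>
    h.1.differentiable (by simp) z
  have i1 : Integrable fun y => k y z (d1 b y) := (Cc.clm (hs z) hb.d1).integrable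
  have r1 : ap (d1 (c0 - c1 + c2 - c3) z) u v =
      ap (d1 c0 z) u v - ap (d1 c1 z) u v + ap (d1 c2 z) u v - ap (d1 c3 z) u v := by
    simp only [d1]
    rw [fderiv_sub (((d k0).sub (d k1)).add (d k2)) (d k3), fderiv_add ((d k0).sub (d k1)) (d k2),
      fderiv_sub (d k0) (d k1)]
    simp
  rw [r1, (f0 z u v).2, (f1 z u v).2, (f2 z u v).2, (f3 z u v).2,
    ← int4 (f0 z u v).1 (f1 z u v).1 (f2 z u v).1 (f3 z u v).1,
    ← ev_apply, ← ContinuousLinearMap.integral_comp_comm _ i1]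
  simp only [ev_apply, ← wq_sl]
  rw [h2.ibp (β := fun y => sl u v (k y z)) hb ((sl u v).contDiff.comp (hs z))]
  refine integral_congr_ae (Eventually.of_forall fun y => ?_)
  by_cases hy : 2 < ‖y‖
  · simp [hb.2 y hy]
  · have hy' : ‖y‖ ≤ 3 := by linarith [not_lt.1 hy]
    simp only [e0 y z u v hy', e1 y z u v hy', e2 y z u v hy', e3 y z u v hy']

lemma ksc_sm {Hs : V × V × ℝ → Op} (h : ContDiff ℝ ∞ Hs) (ε : ℝ) (z : V) :
    ContDiff ℝ ∞ fun y => ksc Hs ε y z :=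
  (h.comp (contDiff_id.prodMk (((contDiff_const.sub contDiff_id).const_smul ε⁻¹).prodMk
    contDiff_const))).const_smul _

end Key

variable {X : Type*} [TopologicalSpace X] [T2Space X] {D : Dat X} {K : Ker D}

open Key in
theorem keyS (h1 : AvgS) (h2 : NatS) (h3 : ScaleS) (h4 : FormS D) (h5 : HilS D) (h6 : HatS D)
    (h7 : MS K) : KeyS K := by
  intro ε R1 R2 Θ1 Θ2 h0 h0' z1 z2 t1 t2
  have hR : K.C0 * ε ≤ 1 / 2 :=
    (mul_le_mul_of_nonneg_left h0' (zero_le_one.trans K.one_le)).trans K.small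
  rw [t1 Θ2]
  refine z1 _ (h7.sm ε Θ2 h0 h0') (h4.cl_of _ (h7.sm ε Θ2 h0 h0') fun j z hz u0 u1 u2 => ?_)
  have hz' := mem_ball_zero_iff.1 hz
  have e1 : D.loc j (K.M ε Θ2) =ᶠ[𝓝 z] Sop (K.Hs j) ε (D.hat j Θ2) := by
    filter_upwards [isOpen_ball.mem_nhds hz] with y hy
    exact h7.m3 ε j Θ2 y h0 h0' (by linarith [mem_ball_zero_iff.1 hy])
  obtain ⟨-, -, hs⟩ := h3.sm (K.Hs j) K.C0 ε 9 (D.hat j Θ2) (K.scf j).1 (K.scf j).2.1 h0
    (h6.int j Θ2).1 (fun y hy => indicator_of_notMem (by simpa using hy) _)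
  obtain ⟨b, b1, b2, b3⟩ := K.clP j ε h0 h0' z u0 u1 u2 (by linarith)
  have hb : Cc 2 b := ⟨b1, fun y hy => b2 y (by linarith [norm_sub_norm_le y z])⟩
  rw [cyc_eq, e1.fderiv_eq, (hs z).2, ← ContinuousLinearMap.integral_comp_comm _ (hs z).1]
  have e2 : ∀ y, cycL u0 u1 u2 (fderiv ℝ (fun z' => ksc (K.Hs j) ε y z' (D.hat j Θ2 y)) z) =
      -wq (d1 b y) (D.hat j Θ2 y) := fun y => by
    rw [← cyc_eq]
    linarith [b3 y (D.hat j Θ2 y)]
  simp only [e2]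
  obtain ⟨b', hb', e3⟩ := kop_d1 h1 h2 (by linarith) (K.clP' j ε h0 h0') (ksc_sm (K.scf j).1 ε) hb
  have e4 : K.Kop j ε (d1 b) = d1 b' := e3
  rw [integral_neg, ← h6.pair' j Θ2 _ (hb.d1.mono (by norm_num)), h5.qH_symm, t2,
    h7.mext ε j _ h0 h0' (hb.d1.mono (by norm_num)), e4, z2 j b' hb', neg_zero]

end Vale.Agent.P204
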