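import Vale.Agent.P204.Stmt

/-! Square integrable representation of a functional bounded at all scales. -/

set_option maxSynthPendingDepth 3

open scoped Topology ContDiff RealInnerProductSpace Manifold
open Set Metric MeasureTheory Filter

noncomputable section
namespace Vale.Agent.P204

namespace L2A

lemma memLp {c : V → E2} {r : ℝ} (hc : Cc r c) : MemLp c 2 volume :=
  hc.continuous.memLp_of_hasCompactSupport hc.hcs

lemma int_sq {c : V → E2} {r : ℝ} (hc : Cc r c) : Integrable (fun y => ‖c y‖ ^ 2) :=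
  (memLp hc).norm.integrable_sq

lemma dom (h1 : NkS) {c : V → E2} (hc : Cc 6 c) (M : ℕ) {ε : ℝ} (hε : 0 < ε) (hε1 : ε ≤ 1) :
    Dom M ε c (fun z => ‖c z‖ + ε * (closedBall (0 : V) 8).indicator (fun _ => Nk (M + 1) c) z) := by
  intro x z hxz l hl
  have hN := h1.nonneg (M + 1) c
  by_cases hz : z ∈ closedBall (0 : V) 8
  · simp only [indicator_of_mem hz]
    rcases Nat.eq_zero_or_pos l with rfl | hl0
    · rw [pow_zero, one_mul, norm_iteratedFDeriv_zero]
      have h2 : ∀ y ∈ (univ : Set V), ‖fderiv ℝ c y‖ ≤ Nk (M + 1) c := by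
        intro y _
        have h3 := h1.le_nk (k := M + 1) (l := 1) hc (by omega) y
        rwa [norm_iteratedFDeriv_one] at h3
      have h4 := convex_univ.norm_image_sub_le_of_norm_fderiv_le
        (fun y _ => hc.1.differentiable (by simp) y) h2 (mem_univ z) (mem_univ x)
      have h5 := mul_le_mul_of_nonneg_left hxz hN
      linarith [norm_sub_norm_le (c x) (c z)]
    · have h2 : ε ^ l ≤ ε := pow_le_of_le_one hε.le hε1 hl0.ne'
      have h3 := h1.le_nk (k := M + 1) (l := l) hc (by omega) x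
      have h4 := mul_le_mul h2 h3 (norm_nonneg _) hε.le
      linarith [norm_nonneg (c z)]
  · have h2 : 8 < ‖z‖ := not_le.mp fun h => hz (mem_closedBall_zero_iff.mpr h)
    have h3 : 6 < ‖x‖ := by
      linarith [norm_sub_norm_le z x, norm_sub_rev z x]
    rw [hc.iteratedFDeriv_zero l h3, norm_zero, mul_zero]
    simp only [indicator_of_notMem hz]
    positivity

lemma bound (h1 : NkS) {σ : (V → E2) → ℝ} {M : ℕ} {ε1 B : ℝ} (hε1 : 0 < ε1)
    (hB : ∀ ε, 0 < ε → ε ≤ ε1 → LBd σ M ε B) {c : V → E2} (hc : Cc 6 c) :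
    |σ c| ≤ |B| * Real.sqrt (∫ y, ‖c y‖ ^ 2) := by
  set N := Nk (M + 1) c with hNd
  have hN : 0 ≤ N := h1.nonneg (M + 1) c
  have hcN : ∀ y, ‖c y‖ ≤ N := by
    intro y
    have h3 := h1.le_nk (k := M + 1) (l := 0) hc (by omega) y
    rwa [norm_iteratedFDeriv_zero] at h3
  set χ : V → ℝ := (closedBall (0 : V) 8).indicator (fun _ => 3 * N ^ 2) with hχ
  have hχi : Integrable χ := (integrable_indicator_iff measurableSet_closedBall).mpr
    (integrableOn_const measure_closedBall_lt_top.ne)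
  have key : ∀ ε, 0 < ε → ε ≤ ε1 → ε ≤ 1 →
      |σ c| ≤ |B| * Real.sqrt ((∫ y, ‖c y‖ ^ 2) + ε * ∫ y, χ y) := by
    intro ε hε hεa hεb
    have hle : ∀ z, (‖c z‖ + ε * (closedBall (0 : V) 8).indicator (fun _ => N) z) ^ 2
        ≤ ‖c z‖ ^ 2 + ε * χ z := by
      intro z
      by_cases hz : z ∈ closedBall (0 : V) 8
      · rw [hχ, indicator_of_mem hz, indicator_of_mem hz]
        have h2 : ε * (‖c z‖ * N) ≤ ε * (N * N) :=
          mul_le_mul_of_nonneg_left (mul_le_mul_of_nonneg_right (hcN z) hN) hε.le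
        have h3 : ε * (ε * N ^ 2) ≤ ε * (1 * N ^ 2) :=
          mul_le_mul_of_nonneg_left (mul_le_mul_of_nonneg_right hεb (sq_nonneg _)) hε.le
        nlinarith
      · rw [hχ, indicator_of_notMem hz, indicator_of_notMem hz]
        simp
    have hi2 : Integrable (fun z => ‖c z‖ ^ 2 + ε * χ z) := (int_sq hc).add (hχi.const_mul ε)
    have hm : Measurable
        (fun z => (‖c z‖ + ε * (closedBall (0 : V) 8).indicator (fun _ => N) z) ^ 2) :=
      (hc.continuous.norm.measurable.add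
        ((measurable_const.indicator measurableSet_closedBall).const_mul ε)).pow_const 2
    have hi : Integrable
        (fun z => (‖c z‖ + ε * (closedBall (0 : V) 8).indicator (fun _ => N) z) ^ 2) :=
      hi2.mono' hm.aestronglyMeasurable (ae_of_all _ fun z => by
        rw [Real.norm_eq_abs, abs_of_nonneg (sq_nonneg _)]
        exact hle z)
    refine (hB ε hε hεa c _ (hc.mono (by linarith)) (dom h1 hc M hε hεb) hi).trans ?_
    refine mul_le_mul (le_abs_self B) (Real.sqrt_le_sqrt ?_) (nL2_nonneg _) (abs_nonneg B)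
    rw [← integral_const_mul, ← integral_add (int_sq hc) (hχi.const_mul ε)]
    exact integral_mono hi hi2 hle
  have hcont : Continuous (fun ε : ℝ => |B| * Real.sqrt ((∫ y, ‖c y‖ ^ 2) + ε * ∫ y, χ y)) := by
    fun_prop
  have ht := (hcont.tendsto 0).mono_left (nhdsWithin_le_nhds (s := Ioi (0 : ℝ)))
  rw [zero_mul, add_zero] at ht
  refine ge_of_tendsto ht ?_
  filter_upwards [Ioc_mem_nhdsGT (lt_min hε1 one_pos)] with ε hε
  exact key ε hε.1 (hε.2.trans (min_le_left _ _)) (hε.2.trans (min_le_right _ _))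

lemma norm_eq {c : V → E2} {u : Lp E2 2 (volume : Measure V)} (h : u =ᵐ[volume] c) :
    ‖u‖ = Real.sqrt (∫ y, ‖c y‖ ^ 2) := by
  rw [← Real.sqrt_sq (norm_nonneg u), ← real_inner_self_eq_norm_sq, L2.inner_def]
  congr 1
  refine integral_congr_ae ?_
  filter_upwards [h] with y hy
  rw [hy, real_inner_self_eq_norm_sq]

/-- the graph of minus the functional -/
def graph {σ : (V → E2) → ℝ} (hσ : LLin σ) : Submodule ℝ (Lp E2 2 (volume : Measure V) × ℝ) where
  carrier := {p | ∃ c, Cc 6 c ∧ p.1 =ᵐ[volume] c ∧ p.2 = -σ c}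
  add_mem' := by
    rintro p q ⟨c, hc, h1, h2⟩ ⟨c', hc', h1', h2'⟩
    refine ⟨c + c', hc.add hc', (Lp.coeFn_add p.1 q.1).trans (h1.add h1'), ?_⟩
    rw [hσ.1 c c' (hc.mono (by norm_num)) (hc'.mono (by norm_num)), Prod.snd_add, h2, h2', neg_add]
  zero_mem' := by
    refine ⟨0, Cc.zero, Lp.coeFn_zero _ _ _, ?_⟩
    have h := hσ.2 0 0 Cc.zero
    rw [zero_smul, zero_mul] at h
    rw [h, neg_zero, Prod.snd_zero]
  smul_mem' := by
    rintro a p ⟨c, hc, h1, h2⟩
    refine ⟨a • c, hc.const_smul a, (Lp.coeFn_smul a p.1).trans (h1.const_smul a), ?_⟩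
    rw [hσ.2 a c (hc.mono (by norm_num)), Prod.smul_snd, h2, smul_eq_mul, mul_neg]

end L2A

theorem l2S (h1 : NkS) : L2S := by
  intro σ M ε1 B hε1 hσ hB
  obtain ⟨L, hL1, hL2, hL3⟩ := hb_kill
    (fun p : Lp E2 2 (volume : Measure V) × ℝ => |B| * ‖p.1‖ + |p.2|) (L2A.graph hσ) (0, 1) 1
    (fun p => by positivity)
    (fun p q => by
      have a1 := mul_le_mul_of_nonneg_left (norm_add_le p.1 q.1) (abs_nonneg B)
      have a2 := abs_add_le p.2 q.2
      simp only [Prod.fst_add, Prod.snd_add]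
      linarith)
    (fun a p ha => by
      simp only [Prod.smul_fst, Prod.smul_snd, norm_smul, smul_eq_mul, abs_mul, Real.norm_eq_abs,
        abs_of_pos ha]
      ring)
    (by
      rintro z ⟨c, hc, a1, a2⟩
      have a3 := L2A.bound h1 hε1 hB hc
      rw [← L2A.norm_eq a1] at a3
      simp only [Prod.fst_sub, Prod.snd_sub, zero_sub, norm_neg, a2]
      linarith [le_abs_self (1 - -σ c), neg_abs_le (σ c)])
  have e1 : L (0, 1) = 1 := by
    refine le_antisymm ?_ hL3
    simpa using hL1 (0, 1)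
  have e2 : ∀ u : Lp E2 2 (volume : Measure V),
      ‖(L.comp (LinearMap.inl ℝ _ ℝ)) u‖ ≤ |B| * ‖u‖ := by
    intro u
    have a1 := hL1 (u, 0)
    have a2 := hL1 (-(u, 0))
    rw [map_neg] at a2
    simp only [Prod.neg_mk, norm_neg, neg_zero, abs_zero, add_zero] at a1 a2
    rw [Real.norm_eq_abs, LinearMap.comp_apply, LinearMap.inl_apply]
    exact abs_le.mpr ⟨by linarith, a1⟩
  set f := (InnerProductSpace.toDual ℝ (Lp E2 2 (volume : Measure V))).symm
    (LinearMap.mkContinuous _ |B| e2) with hf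
  refine ⟨f, Lp.memLp f, fun c hc => ?_⟩
  have a1 := (L2A.memLp hc).coeFn_toLp
  set u := (L2A.memLp hc).toLp c
  have a2 : ⟪f, u⟫ = L (u, 0) := by
    rw [hf, InnerProductSpace.toDual_symm_apply]
    rfl
  have a3 : L (u, -σ c) = 0 := hL2 _ ⟨c, hc, a1, rfl⟩
  have a4 : ((u, -σ c) : Lp E2 2 (volume : Measure V) × ℝ) = (u, 0) + (-σ c) • (0, 1) := by
    simp
  rw [a4, map_add, map_smul, e1, smul_eq_mul, mul_one, ← a2, L2.inner_def] at a3
  have a5 : ∫ y, ⟪f y, u y⟫ = ∫ y, ⟪f y, c y⟫ := by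
    refine integral_congr_ae ?_
    filter_upwards [a1] with y hy
    rw [hy]
  linarith

end Vale.Agent.P204
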