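import Vale.Agent.P204.Stmt

/-! The smoothing operator almost preserves types. -/

set_option maxSynthPendingDepth 3

open scoped Topology ContDiff RealInnerProductSpace Manifold
open Set Metric MeasureTheory Filter

noncomputable section
namespace Vale.Agent.P204

namespace LeakA

lemma exists_up {n : ℕ} (f : Fin n → ℝ) : ∃ a, 0 ≤ a ∧ ∀ j, f j ≤ a := by
  refine ⟨∑ j, |f j|, Finset.sum_nonneg fun j _ => abs_nonneg _, fun j => ?_⟩
  exact (le_abs_self _).trans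
    (Finset.single_le_sum (f := fun j => |f j|) (fun j _ => abs_nonneg _) (Finset.mem_univ j))

lemma comb {a b : V → ℝ} {α β : ℝ} (hα : 0 ≤ α) (hβ : 0 ≤ β) (ha : Integrable a)
    (hb : Integrable b) (ha2 : Integrable (fun z => a z ^ 2))
    (hb2 : Integrable (fun z => b z ^ 2)) :
    Integrable (fun z => α * a z + β * b z) ∧ Integrable (fun z => (α * a z + β * b z) ^ 2) ∧
      nL2 (fun z => α * a z + β * b z) ≤ 2 * (α * nL2 a + β * nL2 b) ∧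
      ∫ z, (α * a z + β * b z) = α * (∫ z, a z) + β * ∫ z, b z := by
  have h1 : Integrable (fun z => α * a z + β * b z) := (ha.const_mul α).add (hb.const_mul β)
  have h2 : Integrable (fun z => 2 * α ^ 2 * a z ^ 2 + 2 * β ^ 2 * b z ^ 2) :=
    (ha2.const_mul _).add (hb2.const_mul _)
  have hle : ∀ z, (α * a z + β * b z) ^ 2 ≤ 2 * α ^ 2 * a z ^ 2 + 2 * β ^ 2 * b z ^ 2 :=
    fun z => by nlinarith [sq_nonneg (α * a z - β * b z)]
  have h3 : Integrable (fun z => (α * a z + β * b z) ^ 2) :=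
    h2.mono' (h1.aestronglyMeasurable.pow 2) (ae_of_all _ fun z => by
      rw [Real.norm_eq_abs, abs_of_nonneg (sq_nonneg _)]
      exact hle z)
  refine ⟨h1, h3, ?_, ?_⟩
  · have h4 := integral_mono h3 h2 hle
    rw [integral_add (ha2.const_mul _) (hb2.const_mul _), integral_const_mul,
      integral_const_mul] at h4
    have h5 : nL2 a ^ 2 = ∫ z, a z ^ 2 := Real.sq_sqrt (integral_nonneg fun z => sq_nonneg _)
    have h6 : nL2 b ^ 2 = ∫ z, b z ^ 2 := Real.sq_sqrt (integral_nonneg fun z => sq_nonneg _)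
    have h7 := mul_nonneg hα (nL2_nonneg a)
    have h8 := mul_nonneg hβ (nL2_nonneg b)
    refine Real.sqrt_le_iff.mpr ⟨by positivity, h4.trans ?_⟩
    rw [← h5, ← h6]
    nlinarith [mul_nonneg h7 h8, sq_nonneg (α * nL2 a), sq_nonneg (β * nL2 b)]
  · rw [integral_add (ha.const_mul α) (hb.const_mul β), integral_const_mul, integral_const_mul]

/-- kernel followed by the localized anti-invariant projection -/
def H0 (ψ : V → ℝ) (F : Frame) (Hs : V × V × ℝ → Op) (p : V × V × ℝ) : E6 →L[ℝ] E2 :=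
  ψ (p.1 + p.2.2 • p.2.1) • (F.cm (p.1 + p.2.2 • p.2.1)).comp (Hs p)

def H1 (ψ : V → ℝ) (F : Frame) (Hs : V × V × ℝ → Op) (p : V × V × ℝ) : E2 →L[ℝ] E2 :=
  (H0 ψ F Hs p).comp (F.up p.1)

def H2 (ψ : V → ℝ) (F : Frame) (Hs : V × V × ℝ → Op) (p : V × V × ℝ) : E6 →L[ℝ] E2 :=
  (H0 ψ F Hs p).comp (ContinuousLinearMap.id ℝ E6 - (F.up p.1).comp (F.cm p.1))

variable {ψ : V → ℝ} {F : Frame} {Hs : V × V × ℝ → Op} {C0 : ℝ}

lemma H0_sm (hψ : ContDiff ℝ ∞ ψ) (hH : ContDiff ℝ ∞ Hs) : ContDiff ℝ ∞ (H0 ψ F Hs) := by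
  have h1 : ContDiff ℝ ∞ (fun p : V × V × ℝ => p.1 + p.2.2 • p.2.1) :=
    contDiff_fst.add (contDiff_snd.snd.smul contDiff_snd.fst)
  exact (hψ.comp h1).smul ((F.sm_cm.comp h1).clm_comp hH)

lemma H1_sm (hψ : ContDiff ℝ ∞ ψ) (hH : ContDiff ℝ ∞ Hs) : ContDiff ℝ ∞ (H1 ψ F Hs) :=
  (H0_sm hψ hH).clm_comp (F.sm_up.comp contDiff_fst)

lemma H2_sm (hψ : ContDiff ℝ ∞ ψ) (hH : ContDiff ℝ ∞ Hs) : ContDiff ℝ ∞ (H2 ψ F Hs) :=
  (H0_sm hψ hH).clm_comp (contDiff_const.sub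
    ((F.sm_up.comp contDiff_fst).clm_comp (F.sm_cm.comp contDiff_fst)))

lemma H0_zero {p : V × V × ℝ} (h : Hs p = 0) : H0 ψ F Hs p = 0 := by
  unfold H0
  rw [h, ContinuousLinearMap.comp_zero, smul_zero]

lemma H1_zero {p : V × V × ℝ} (h : Hs p = 0) : H1 ψ F Hs p = 0 := by
  unfold H1
  rw [H0_zero h, ContinuousLinearMap.zero_comp]

lemma H2_zero {p : V × V × ℝ} (h : Hs p = 0) : H2 ψ F Hs p = 0 := by
  unfold H2
  rw [H0_zero h, ContinuousLinearMap.zero_comp]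

lemma H2_at_zero {y v : V} {a : ℝ} (h : Hs (y, v, 0) = a • ContinuousLinearMap.id ℝ E6) :
    H2 ψ F Hs (y, v, 0) = 0 := by
  ext1 w
  simp [H2, H0, h]

lemma split {ε : ℝ} (hε : 0 < ε) (y z : V) (w : E6) :
    ksc (H1 ψ F Hs) ε y z (F.cm y w) + ksc (H2 ψ F Hs) ε y z w
      = (ψ z • F.cm z) (ksc Hs ε y z w) := by
  have e : y + ε • ε⁻¹ • (z - y) = z := by
    rw [smul_smul, mul_inv_cancel₀ hε.ne', one_smul, add_sub_cancel]
  simp only [ksc, H1, H2, H0, e]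
  generalize ε⁻¹ • (z - y) = v
  simp only [smul_apply, ContinuousLinearMap.comp_apply, sub_apply,
    ContinuousLinearMap.id_apply, map_sub, map_smul, smul_sub]
  rw [add_sub_cancel, smul_comm]

lemma cm_int (F : Frame) {w : V → E6} (hw : Integrable w)
    (hw2 : Integrable (fun y => ‖w y‖ ^ 2)) :
    Integrable (fun y => F.cm y (w y)) ∧ Integrable (fun y => ‖F.cm y (w y)‖ ^ 2) := by
  have hm : AEStronglyMeasurable (fun y => F.cm y (w y)) volume :=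
    isBoundedBilinearMap_apply.continuous.comp_aestronglyMeasurable
      (F.sm_cm.continuous.aestronglyMeasurable.prodMk hw.aestronglyMeasurable)
  refine ⟨(hw.norm.const_mul 11).mono' hm (ae_of_all _ fun y => F.norm_cm_le y _),
    (hw2.const_mul (11 ^ 2)).mono' (hm.norm.pow 2) (ae_of_all _ fun y => ?_)⟩
  rw [Real.norm_eq_abs, abs_of_nonneg (sq_nonneg _), ← mul_pow]
  exact pow_le_pow_left₀ (norm_nonneg _) (F.norm_cm_le y _) 2

lemma ball_mono {w : V → ℝ} (hw : Integrable w) (h0 : ∀ y, 0 ≤ w y) {x z : V} {C0 ε : ℝ}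
    (h : ‖x - z‖ ≤ ε) :
    ∫ y in closedBall x (C0 * ε), w y ≤ ∫ y in closedBall z ((C0 + 1) * ε), w y := by
  refine setIntegral_mono_set hw.integrableOn (ae_of_all _ h0) (LE.le.eventuallyLE ?_)
  refine closedBall_subset_closedBall' ?_
  rw [dist_eq_norm]
  linarith

variable {X : Type*} [TopologicalSpace X] {D : Dat X} {K : Ker D}

lemma eps_le (K : Ker D) : K.ε0 ≤ 1 / 2 := by
  have h1 := K.small
  have h2 := K.one_le
  have h3 := K.pos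
  nlinarith

lemma gen1 (h1 : ScaleS) (h4 : HatS D) (h5 : MS K) (M : ℕ) (i : Fin D.n) : ∃ C, 0 ≤ C ∧
    ∀ ε h, 0 < ε → ε ≤ K.ε0 → Dom M ε (D.cj i (K.M ε h)) (fun z =>
      C * ((ε ^ 4)⁻¹ * ∫ y in closedBall z ((K.C0 + 1) * ε), ‖(D.F i).cm y (D.hat i h y)‖)
      + C * ε * ((ε ^ 4)⁻¹ * ∫ y in closedBall z ((K.C0 + 1) * ε), ‖D.hat i h y‖)) := by
  obtain ⟨hH, hH0, hh, hH1, -⟩ := K.scf i
  have hψ := (D.psi_cc i).1
  have s1 : ∀ y v t, K.C0 < ‖v‖ → H1 (D.psi i) (D.F i) (K.Hs i) (y, v, t) = 0 :=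
    fun y v t hv => H1_zero (hH0 y v t hv)
  have s2 : ∀ y v t, K.C0 < ‖v‖ → H2 (D.psi i) (D.F i) (K.Hs i) (y, v, t) = 0 :=
    fun y v t hv => H2_zero (hH0 y v t hv)
  obtain ⟨C1, hC1, hb1⟩ := h1.bd _ K.C0 M (H1_sm hψ hH) s1
  obtain ⟨C2, hC2, hb2⟩ := h1.gain _ K.C0 M (H2_sm hψ hH) s2
    (fun y v hy => H2_at_zero (hH1 y v hy))
  refine ⟨C1 + C2, by positivity, fun ε h hε hε' => ?_⟩
  have hε1 : ε ≤ 1 := by linarith [eps_le K]
  obtain ⟨i1, i2⟩ := h4.int i h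
  obtain ⟨j1, -⟩ := cm_int (D.F i) i1 i2
  have z1 : ∀ y, 9 < ‖y‖ → D.hat i h y = 0 := fun y hy =>
    indicator_of_notMem (fun hm => absurd (mem_closedBall_zero_iff.mp hm) (not_le.mpr hy)) _
  have z2 : ∀ y, 9 < ‖y‖ → (D.F i).cm y (D.hat i h y) = 0 := fun y hy => by
    rw [z1 y hy, map_zero]
  obtain ⟨a1, a2, -⟩ := h1.sm _ K.C0 ε 9 _ (H1_sm (F := D.F i) hψ hH) s1 hε j1 z2
  obtain ⟨b1, b2, -⟩ := h1.sm _ K.C0 ε 9 _ (H2_sm (F := D.F i) hψ hH) s2 hε i1 z1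
  obtain ⟨-, c2, -⟩ := h1.sm _ K.C0 ε 9 _ hH hH0 hε i1 z1
  have e : D.cj i (K.M ε h)
      = Sop (H1 (D.psi i) (D.F i) (K.Hs i)) ε (fun y => (D.F i).cm y (D.hat i h y))
        + Sop (H2 (D.psi i) (D.F i) (K.Hs i)) ε (D.hat i h) := by
    funext z
    have e1 : (Sop (H1 (D.psi i) (D.F i) (K.Hs i)) ε (fun y => (D.F i).cm y (D.hat i h y))
        + Sop (H2 (D.psi i) (D.F i) (K.Hs i)) ε (D.hat i h)) z
        = D.psi i z • (D.F i).cm z (K.Kop i ε (D.hat i h) z) := by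
      rw [Pi.add_apply]
      unfold Sop
      rw [← integral_add (a2 z) (b2 z)]
      simp only [split hε]
      rw [ContinuousLinearMap.integral_comp_comm _ (c2 z)]
      rfl
    rw [e1]
    unfold Dat.cj
    by_cases hz : ‖z‖ ≤ 8
    · rw [h5.m3 ε i h z hε hε' hz]
    · rw [(D.psi_cc i).2 z (by linarith [not_le.mp hz]), zero_smul, zero_smul]
  intro x z hxz l hl
  have hl' : (l : WithTop ℕ∞) ≤ ∞ := by exact_mod_cast le_top
  rw [e, iteratedFDeriv_add_apply (a1.1.of_le hl').contDiffAt (b1.1.of_le hl').contDiffAt]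
  have d1 := hb1 ε _ hε hε1 j1 z2 x l hl
  have d2 := hb2 ε _ hε hε1 i1 z1 x l hl
  have d3 := ball_mono j1.norm (fun y => norm_nonneg _) (C0 := K.C0) hxz
  have d4 := ball_mono i1.norm (fun y => norm_nonneg _) (C0 := K.C0) hxz
  have d5 := mul_le_mul_of_nonneg_left (norm_add_le
    (iteratedFDeriv ℝ l
      (Sop (H1 (D.psi i) (D.F i) (K.Hs i)) ε (fun y => (D.F i).cm y (D.hat i h y))) x)
    (iteratedFDeriv ℝ l (Sop (H2 (D.psi i) (D.F i) (K.Hs i)) ε (D.hat i h)) x))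
    (pow_pos hε l).le
  have p1 : 0 ≤ ∫ y in closedBall z ((K.C0 + 1) * ε), ‖(D.F i).cm y (D.hat i h y)‖ :=
    integral_nonneg fun y => norm_nonneg _
  have p2 : 0 ≤ ∫ y in closedBall z ((K.C0 + 1) * ε), ‖D.hat i h y‖ :=
    integral_nonneg fun y => norm_nonneg _
  have d6 := mul_le_mul_of_nonneg_left d3 (show 0 ≤ C1 * (ε ^ 4)⁻¹ by positivity)
  have d7 := mul_le_mul_of_nonneg_left d4 (show 0 ≤ C2 * ε * (ε ^ 4)⁻¹ by positivity)
  have d8 := mul_nonneg (show 0 ≤ C2 * (ε ^ 4)⁻¹ by positivity) p1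
  have d9 := mul_nonneg (show 0 ≤ C1 * ε * (ε ^ 4)⁻¹ by positivity) p2
  show _ ≤ (C1 + C2) * _ + (C1 + C2) * ε * _
  linarith

lemma gen (h1 : ScaleS) (h4 : HatS D) (h5 : MS K) (M : ℕ) :
    ∃ C, 0 ≤ C ∧ ∀ ε h i, 0 < ε → ε ≤ K.ε0 → ∃ g : V → ℝ,
    Dom M ε (D.cj i (K.M ε h)) g ∧ Integrable g ∧ Integrable (fun y => g y ^ 2) ∧
    nL2 g ≤ C * (‖D.mapH Pm h‖ + ε * ‖h‖) ∧
      ∫ y, g y ≤ C * (D.L1 (D.mapH Pm h) + ε * D.L1 h) := by
  choose C hC hd using gen1 h1 h4 h5 M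
  obtain ⟨B, hB, hCB⟩ := exists_up C
  obtain ⟨Ca, hCa, havg⟩ := h1.avg (K.C0 + 1) (by linarith [K.one_le])
  obtain ⟨Cb, hCb, hbd⟩ := h4.bd
  refine ⟨2 * (B * (Ca * Cb)), by positivity, fun ε h i hε hε' => ?_⟩
  obtain ⟨i1, i2⟩ := h4.int i h
  obtain ⟨j1, j2⟩ := cm_int (D.F i) i1 i2
  obtain ⟨a1, a2, a3, a4⟩ := havg ε _ hε (fun y => norm_nonneg _) j1.norm j2
  obtain ⟨b1, b2, b3, b4⟩ := havg ε _ hε (fun y => norm_nonneg _) i1.norm i2
  obtain ⟨c1, c2, c3, c4⟩ := hbd i h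
  have hCi := hC i
  obtain ⟨d1, d2, d3, d4⟩ := comb hCi (mul_nonneg hCi hε.le) a1 b1 a2 b2
  have hL : ∀ g : D.H, 0 ≤ D.L1 g := fun g =>
    Finset.sum_nonneg fun j _ => integral_nonneg fun y => norm_nonneg _
  have fin : ∀ a b a' b' : ℝ, 0 ≤ a' → 0 ≤ b' → a ≤ Ca * (Cb * a') → b ≤ Ca * (Cb * b') →
      C i * a + C i * ε * b ≤ B * (Ca * Cb) * (a' + ε * b') := by
    intro a b a' b' ha' hb' ha hb
    have e1 := mul_le_mul_of_nonneg_left ha hCi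
    have e2 := mul_le_mul_of_nonneg_left hb (mul_nonneg hCi hε.le)
    have e3 := mul_le_mul_of_nonneg_right (hCB i)
      (show 0 ≤ Ca * Cb * (a' + ε * b') by positivity)
    linarith
  refine ⟨_, hd i ε h hε hε', d1, d2, d3.trans ?_, ?_⟩
  · have e1 := fin _ _ _ _ (norm_nonneg _) (norm_nonneg _)
      (a4.trans (mul_le_mul_of_nonneg_left c2 hCa)) (b4.trans (mul_le_mul_of_nonneg_left c1 hCa))
    linarith
  · have e1 := fin _ _ _ _ (hL _) (hL _)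
      (a3.trans (mul_le_mul_of_nonneg_left c4 hCa)) (b3.trans (mul_le_mul_of_nonneg_left c3 hCa))
    have e2 : 0 ≤ B * (Ca * Cb) * (D.L1 (D.mapH Pm h) + ε * D.L1 h) := by
      have := hL (D.mapH Pm h)
      have := hL h
      positivity
    rw [d4]
    linarith

end LeakA

variable {X : Type*} [TopologicalSpace X] [T2Space X] {D : Dat X} {K : Ker D}

theorem leakS (h1 : ScaleS) (h2 : FormS D) (h3 : HilS D) (h4 : HatS D) (h5 : MS K) :
    LeakS K := by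
  refine ⟨LeakA.gen h1 h4 h5, fun M => ?_⟩
  obtain ⟨C, hC, hg⟩ := LeakA.gen h1 h4 h5 M
  refine ⟨D.n * C, by positivity, fun ε β s Θ hε hε' hβ hs hI hΘ hb => ?_⟩
  obtain ⟨h, a1, a2, a3⟩ := h3.qH_dual Θ
  have hsm := h5.sm ε h hε hε'
  rw [hΘ h, h2.s_sum s _ hs hI hsm] at a3
  have b1 : ∀ j, D.sj s j (D.cj j (K.M ε h)) ≤ β * (C * (ε * ‖D.mapH Po Θ‖)) := by
    intro j
    obtain ⟨g, c1, -, c3, c4, -⟩ := hg ε h j hε hε'
    rw [a1, norm_zero, zero_add, a2] at c4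
    exact (le_abs_self _).trans ((hb j _ g ((h2.cj_cc j _ hsm).mono
      (by linarith [LeakA.eps_le K])) c1 c3).trans (mul_le_mul_of_nonneg_left c4 hβ))
  have b2 := Finset.sum_le_sum fun j (_ : j ∈ Finset.univ) => b1 j
  rw [a3, Finset.sum_const, Finset.card_univ, Fintype.card_fin, nsmul_eq_mul] at b2
  have b3 : 0 ≤ D.n * C * ε * β := by positivity
  rcases (norm_nonneg (D.mapH Po Θ)).eq_or_lt with h0 | h0
  · rw [← h0]
    exact b3
  · refine le_of_mul_le_mul_right ?_ h0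
    nlinarith

end Vale.Agent.P204
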