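import Vale.Agent.P204.LebA

/-! Energy bounds for the potential with respect to Lebesgue measure. -/

set_option maxSynthPendingDepth 3

open scoped Topology ContDiff RealInnerProductSpace Manifold
open Set Metric MeasureTheory Filter

noncomputable section
namespace Vale.Agent.P204
namespace Leb
open LebA

def II (m : Measure (V × V)) (δ : ℝ) (x : V) : ℝ := ∫ p, cut 5 p.1 * kp δ 3 (x - p.1) ∂m

variable {F : Frame} {m : Measure (V × V)} {δ : ℝ}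

lemma II_nonneg (hδ : 0 < δ) (x : V) : 0 ≤ II m δ x :=
  integral_nonneg fun _ => mul_nonneg (cut_nonneg _ _) (kp_pos hδ _ _).le

lemma ker_bd (hδ : 0 < δ) (a b : V) : ‖cut 5 a * kp δ 3 b‖ ≤ (δ ^ 3)⁻¹ := by
  rw [Real.norm_eq_abs, abs_of_nonneg (mul_nonneg (cut_nonneg _ _) (kp_pos hδ _ _).le)]
  exact (mul_le_of_le_one_left (kp_pos hδ _ _).le (cut_le_one _ _)).trans (kp_le hδ _ _)

lemma II_int [IsFiniteMeasure m] (hδ : 0 < δ) (x : V) :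
    Integrable (fun p : V × V => cut 5 p.1 * kp δ 3 (x - p.1)) m :=
  Integrable.of_bound (((cut_sm 5).continuous.comp continuous_fst).mul
    ((continuous_kp hδ 3).comp (continuous_const.sub continuous_fst))).aestronglyMeasurable _
    (Eventually.of_forall fun _ => ker_bd hδ _ _)

lemma fub [IsFiniteMeasure m] (hδ : 0 < δ) {w : V → ℝ} (hw : Integrable w) :
    Integrable (fun x => w x * II m δ x) ∧
    ∫ x, w x * II m δ x = ∫ p, cut 5 p.1 * (∫ x, w x * kp δ 3 (x - p.1)) ∂m := by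
  have hc : Continuous fun q : V × V × V => cut 5 q.2.1 * kp δ 3 (q.1 - q.2.1) :=
    ((cut_sm 5).continuous.comp (continuous_fst.comp continuous_snd)).mul
      ((continuous_kp hδ 3).comp (continuous_fst.sub (continuous_fst.comp continuous_snd)))
  have H : Integrable (fun q : V × V × V => w q.1 * (cut 5 q.2.1 * kp δ 3 (q.1 - q.2.1)))
      (volume.prod m) :=
    (hw.comp_fst m).mul_bdd hc.aestronglyMeasurable (Eventually.of_forall fun _ => ker_bd hδ _ _)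
  have e : ∀ x, w x * II m δ x = ∫ p, w x * (cut 5 p.1 * kp δ 3 (x - p.1)) ∂m := fun x =>
    (integral_const_mul _ _).symm
  simp_rw [e]
  refine ⟨H.integral_prod_left, ?_⟩
  rw [integral_integral_swap (f := fun x (p : V × V) => w x * (cut 5 p.1 * kp δ 3 (x - p.1))) H]
  refine integral_congr_ae (Eventually.of_forall fun p => ?_)
  simp only
  rw [← integral_const_mul]
  exact integral_congr_ae (Eventually.of_forall fun x => by ring)

lemma c1' {C : ℝ} (hC : ∀ (δ : ℝ) (x : V), 0 < δ → ∫ z in closedBall x 16, kp δ 3 (x - z) ≤ C)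
    (hδ : 0 < δ) {w : V → ℝ} (h0 : ∀ x, 0 ≤ w x) (h1 : ∀ x, w x ≤ 1)
    (h2 : ∀ x, 5 < ‖x‖ → w x = 0) {z : V} (hz : ‖z‖ ≤ 7) :
    ∫ x, w x * kp δ 3 (x - z) ≤ C := by
  refine le_trans ?_ (hC δ z hδ)
  rw [← integral_indicator measurableSet_closedBall]
  have hc : Continuous fun x => kp δ 3 (z - x) :=
    (continuous_kp hδ 3).comp (continuous_const.sub continuous_id)
  refine integral_mono_of_nonneg
    (Eventually.of_forall fun x => mul_nonneg (h0 x) (kp_pos hδ _ _).le)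
    ((integrable_indicator_iff measurableSet_closedBall).2
      (hc.continuousOn.integrableOn_compact (isCompact_closedBall z 16)))
    (Eventually.of_forall fun x => ?_)
  by_cases hx : 5 < ‖x‖
  · simp only [h2 x hx, zero_mul]
    exact indicator_nonneg (fun a _ => (kp_pos hδ _ _).le) x
  · have : x ∈ closedBall z 16 := by
      rw [mem_closedBall, dist_eq_norm]
      linarith [norm_sub_le x z]
    simp only [indicator_of_mem this]
    rw [kp_sub δ 3 z x]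
    exact mul_le_of_le_one_left (kp_pos hδ _ _).le (h1 x)

lemma normA {p : V × V} (hp : ‖p.2‖ = 1) : 1 / 2 ≤ ‖F.A p.1 p.2‖ ^ 2 ∧ ‖F.A p.1 p.2‖ ^ 2 ≤ 2 := by
  have h1 := F.norm_A_le p.1 p.2
  have h2 := F.le_norm_A p.1 p.2
  rw [hp] at h1 h2
  constructor <;> nlinarith

lemma lopU {C : ℝ} (hC : 0 ≤ C) (hL : ∀ (x z : V), ‖x - z‖ ≤ 16 →
      F.Lop (F.Nz δ z) x ≤ C * kp δ 3 (x - z)) (hm : PM 7 m) (hδ : 0 < δ) {x : V} (hx : ‖x‖ ≤ 4)
    (hi : Integrable (fun p : V × V => cut 5 p.1 * ‖F.A p.1 p.2‖ ^ 2 * F.Lop (F.Nz δ p.1) x) m) :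
    ∫ p, cut 5 p.1 * ‖F.A p.1 p.2‖ ^ 2 * F.Lop (F.Nz δ p.1) x ∂m ≤ 2 * C * II m δ x := by
  have := hm.1
  rw [II, ← integral_const_mul]
  refine integral_mono_ae hi ((II_int hδ x).const_mul _) ?_
  filter_upwards [hm.2] with p hp
  have h1 := hL x p.1 (by linarith [norm_sub_le x p.1, hp.1])
  have h2 := (normA (F := F) hp.2).2
  have h3 := cut_nonneg 5 p.1
  have h4 := (kp_pos hδ 3 (x - p.1)).le
  calc cut 5 p.1 * ‖F.A p.1 p.2‖ ^ 2 * F.Lop (F.Nz δ p.1) x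
      ≤ cut 5 p.1 * ‖F.A p.1 p.2‖ ^ 2 * (C * kp δ 3 (x - p.1)) := by gcongr
    _ ≤ cut 5 p.1 * 2 * (C * kp δ 3 (x - p.1)) := by gcongr
    _ = _ := by ring

lemma z_cc : Cc 4 (cut 3) := (cut_cc (r := 3) (by norm_num)).mono (by norm_num)
lemma z2_cc : Cc 4 (fun x => cut 3 x ^ 2) :=
  ⟨(cut_sm 3).pow 2, fun y hy => by simp [z_cc.2 y hy]⟩
lemma z2_le (x : V) : cut 3 x ^ 2 ≤ 1 := pow_le_one₀ (cut_nonneg _ _) (cut_le_one _ _)

lemma first (h1 : NatS) {U : V → ℝ} {C c1 : ℝ} (hC : 0 ≤ C) (hc : 0 ≤ c1)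
    (hc1 : ∀ (δ : ℝ) (x : V), 0 < δ → ∫ z in closedBall x 16, kp δ 3 (x - z) ≤ c1)
    (hm : PM 7 m) (hδ : 0 < δ) (hU : ContDiff ℝ ∞ U) (hU1 : ∀ x, 1 ≤ U x)
    (hL : ∀ x, ‖x‖ ≤ 4 → F.Lop U x ≤ C * II m δ x) :
    ∫ x, cut 3 x ^ 2 * (U x ^ 2)⁻¹ * ‖fderiv ℝ U x‖ ^ 2
      ≤ 4 * (2 * (∫ x, Qf F (cut 3) (cut 3) x) + C * (c1 * m.real univ)) := by
  have := hm.1
  have cY : Cc 4 (fun y => (cut 3 y ^ 2 * (U y ^ 1)⁻¹) • F.ag U y) :=
    Cc.smul_right (z2_cc.smul_right (inv_sm hU hU1 1)) (ag_sm hU)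
  have i1 := (dv_cc cY).integrable
  have i2 := (Qf_cc (F := F) z_cc (cut_sm 3)).integrable
  obtain ⟨i3, e3⟩ := fub (m := m) hδ z2_cc.integrable
  have d0 : ∫ x, dv (fun y => (cut 3 y ^ 2 * (U y ^ 1)⁻¹) • F.ag U y) x = 0 := h1.div cY
  set Y := fun y => (cut 3 y ^ 2 * (U y ^ 1)⁻¹) • F.ag U y with hY
  have j1 : Integrable (fun x => -dv Y x) := i1.neg
  have j2 : Integrable (fun x => 2 * Qf F (cut 3) (cut 3) x) := i2.const_mul _
  have j3 : Integrable (fun x => C * (cut 3 x ^ 2 * II m δ x)) := i3.const_mul _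
  have j4 : Integrable (fun x => -dv Y x + 2 * Qf F (cut 3) (cut 3) x) := j1.add j2
  have j5 : Integrable (fun x => -dv Y x + 2 * Qf F (cut 3) (cut 3) x
      + C * (cut 3 x ^ 2 * II m δ x)) := j4.add j3
  have b3 : ∫ x, cut 3 x ^ 2 * II m δ x ≤ c1 * m.real univ := by
    rw [e3, mul_comm c1, ← smul_eq_mul, ← integral_const]
    refine integral_mono_of_nonneg (Eventually.of_forall fun p => mul_nonneg (cut_nonneg _ _)
      (integral_nonneg fun x => mul_nonneg (sq_nonneg _) (kp_pos hδ _ _).le))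
      (integrable_const _) ?_
    filter_upwards [hm.2] with p hp
    have := c1' hc1 hδ (fun x => sq_nonneg (cut 3 x)) z2_le
      (fun x hx => z2_cc.2 x (by linarith)) hp.1
    calc _ ≤ cut 5 p.1 * c1 := mul_le_mul_of_nonneg_left this (cut_nonneg _ _)
      _ ≤ c1 := mul_le_of_le_one_left hc (cut_le_one _ _)
  refine (integral_mono_of_nonneg (Eventually.of_forall fun x => by positivity) (j5.const_mul 4)
    (Eventually.of_forall fun x => (pt1 (F := F) hU hU1 (cut_sm 3) x).trans ?_)).trans ?_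
  · have hI := II_nonneg (m := m) hδ x
    have : cut 3 x ^ 2 * (U x)⁻¹ * F.Lop U x ≤ C * (cut 3 x ^ 2 * II m δ x) := by
      by_cases hx : ‖x‖ ≤ 4
      · have a1 := hL x hx
        have a2 : (U x)⁻¹ ≤ 1 := inv_le_one_of_one_le₀ (hU1 x)
        have a3 : 0 < U x := one_pos.trans_le (hU1 x)
        calc _ ≤ cut 3 x ^ 2 * (U x)⁻¹ * (C * II m δ x) := by gcongr
          _ ≤ cut 3 x ^ 2 * 1 * (C * II m δ x) := by gcongr
          _ = _ := by ring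
      · simp [z_cc.2 x (not_le.1 hx)]
    simp only [← hY]
    linarith
  · rw [integral_const_mul, integral_add j4 j3, integral_add j1 j2, integral_neg, d0,
      integral_const_mul, integral_const_mul]
    have := mul_le_mul_of_nonneg_left b3 hC
    linarith

lemma kp23 (hδ : 0 < δ) (hδ1 : δ ≤ 1) {w : V} (hw : ‖w‖ ≤ 16) : kp δ 2 w ≤ 17 * kp δ 3 w := by
  rw [kp_succ hδ 2 w]
  exact mul_le_mul_of_nonneg_right (by linarith) (kp_pos hδ _ _).le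

/-- the bound for `Lop` of the weight -/
lemma lop_w {N : V → ℝ} {C B1 B2 k : ℝ} {x : V} (hN : ContDiff ℝ ∞ N) (hC : 0 ≤ C) (hk : 0 ≤ k)
    (hB1 : ‖fderiv ℝ (fun x => cut 3 x ^ 2) x‖ ≤ B1) (hB2 : ‖F.Lop (fun x => cut 3 x ^ 2) x‖ ≤ B2)
    (h0 : 0 ≤ N x) (h1 : N x ≤ C * k) (h2 : ‖fderiv ℝ N x‖ ≤ C * k) (h3 : F.Lop N x ≤ C * k) :
    F.Lop (fun y => cut 3 y ^ 2 * N y) x ≤ C * (1 + 16 * B1 + B2) * k := by
  rw [lop_mul z2_cc.1 hN]
  have a1 : cut 3 x ^ 2 * F.Lop N x ≤ C * k :=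
    (mul_le_mul_of_nonneg_left h3 (sq_nonneg _)).trans
      (mul_le_of_le_one_left (by positivity) (z2_le x))
  have hB1' : 0 ≤ B1 := (norm_nonneg _).trans hB1
  have hB2' : 0 ≤ B2 := (norm_nonneg _).trans hB2
  have a2 : Qf F (fun x => cut 3 x ^ 2) N x ≤ 8 * B1 * (C * k) :=
    (le_abs_self _).trans ((abs_Qf_le _ _ _).trans (by gcongr))
  have a3 : N x * F.Lop (fun x => cut 3 x ^ 2) x ≤ C * k * B2 :=
    (mul_le_mul_of_nonneg_left ((le_abs_self _).trans hB2) h0).trans (by gcongr)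
  linarith

lemma conv_bd {C c2 : ℝ} (hC : 0 ≤ C) (hc : 0 ≤ c2) (hm : PM 7 m) (hδ : 0 < δ) {y : V}
    (hy : ‖y‖ ≤ 4)
    (hc2 : ∀ x y : V, Integrable (fun z => kp δ 3 (x - z) * kp δ 3 (y - z)) ∧
      ∫ z, kp δ 3 (x - z) * kp δ 3 (y - z) ≤ c2 * kp δ 2 (x - y))
    (hb : ∀ x z : V, ‖x - z‖ ≤ 16 → kp δ 2 (x - z) ≤ C * F.Nz δ z x)
    (hi : Integrable (fun p : V × V => cut 5 p.1 * ‖F.A p.1 p.2‖ ^ 2 * F.Nz δ p.1 y) m) :
    ∫ p, cut 5 p.1 * (∫ x, (cut 3 x ^ 2 * kp δ 3 (x - y)) * kp δ 3 (x - p.1)) ∂m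
      ≤ 2 * c2 * C * F.U m δ y := by
  have e : ∫ p, 2 * c2 * C * (cut 5 p.1 * ‖F.A p.1 p.2‖ ^ 2 * F.Nz δ p.1 y) ∂m
      ≤ 2 * c2 * C * F.U m δ y := by
    rw [integral_const_mul, Frame.U]
    gcongr
    linarith
  refine le_trans (integral_mono_of_nonneg (Eventually.of_forall fun p =>
    mul_nonneg (cut_nonneg _ _) (integral_nonneg fun x => mul_nonneg
      (mul_nonneg (sq_nonneg _) (kp_pos hδ _ _).le) (kp_pos hδ _ _).le)) (hi.const_mul _) ?_) e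
  filter_upwards [hm.2] with p hp
  have a1 : ∫ x, (cut 3 x ^ 2 * kp δ 3 (x - y)) * kp δ 3 (x - p.1) ≤ c2 * kp δ 2 (y - p.1) := by
    refine le_trans (integral_mono_of_nonneg (Eventually.of_forall fun x => mul_nonneg
      (mul_nonneg (sq_nonneg _) (kp_pos hδ _ _).le) (kp_pos hδ _ _).le) (hc2 y p.1).1
      (Eventually.of_forall fun x => ?_)) (hc2 y p.1).2
    simp only
    rw [kp_sub δ 3 y x, kp_sub δ 3 p.1 x, mul_assoc]
    exact mul_le_of_le_one_left (mul_nonneg (kp_pos hδ _ _).le (kp_pos hδ _ _).le) (z2_le x)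
  have a2 := hb y p.1 (by linarith [norm_sub_le y p.1, hp.1])
  have a3 := (normA (F := F) hp.2).1
  have a4 := cut_nonneg 5 p.1
  have a5 : 0 ≤ C * F.Nz δ p.1 y := (kp_pos hδ _ _).le.trans a2
  calc cut 5 p.1 * ∫ x, (cut 3 x ^ 2 * kp δ 3 (x - y)) * kp δ 3 (x - p.1)
      ≤ cut 5 p.1 * (c2 * (C * F.Nz δ p.1 y)) := by
        gcongr
        exact a1.trans (by gcongr)
    _ = 2 * c2 * cut 5 p.1 * (C * F.Nz δ p.1 y) * (1 / 2) := by ring
    _ ≤ 2 * c2 * cut 5 p.1 * (C * F.Nz δ p.1 y) * ‖F.A p.1 p.2‖ ^ 2 := by gcongr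
    _ = _ := by ring

lemma second (h1 : NatS) {U N : V → ℝ} {C C3 c1 A : ℝ} {y : V} (hC : 0 ≤ C) (hC3 : 0 ≤ C3)
    (hc1 : ∀ (δ : ℝ) (x : V), 0 < δ → ∫ z in closedBall x 16, kp δ 3 (x - z) ≤ c1)
    (hm : PM 7 m) (hδ : 0 < δ) (hy : ‖y‖ ≤ 4) (hU : ContDiff ℝ ∞ U) (hU1 : ∀ x, 1 ≤ U x)
    (hN : ContDiff ℝ ∞ N) (hL : ∀ x, ‖x‖ ≤ 4 → F.Lop U x ≤ C * II m δ x)
    (hN0 : ∀ x, ‖x‖ ≤ 4 → 0 ≤ N x) (hN1 : ∀ x, ‖x‖ ≤ 4 → kp δ 2 (x - y) ≤ C * N x)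
    (hN2 : ∀ x, ‖x‖ ≤ 4 → N x ≤ C * kp δ 3 (x - y))
    (hw : ∀ x, ‖x‖ ≤ 4 → F.Lop (fun y => cut 3 y ^ 2 * N y) x ≤ C3 * kp δ 3 (x - y))
    (hA : ∫ p, cut 5 p.1 * (∫ x, (cut 3 x ^ 2 * kp δ 3 (x - y)) * kp δ 3 (x - p.1)) ∂m ≤ A) :
    ∫ x, kp δ 2 (x - y) * (cut 3 x ^ 2 * (U x ^ 3)⁻¹ * ‖fderiv ℝ U x‖ ^ 2)
      ≤ C * (C * C * A + C3 * c1) := by
  have := hm.1
  have cw : Cc 4 (fun y => cut 3 y ^ 2 * N y) := z2_cc.smul_right hN
  have p2 := pt2 (F := F) hU hU1 cw.1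
  set w := fun y => cut 3 y ^ 2 * N y with hwd
  have cY1 : Cc 4 (fun y => (w y * (U y ^ 2)⁻¹) • F.ag U y) :=
    Cc.smul_right (cw.smul_right (inv_sm hU hU1 2)) (ag_sm hU)
  have cY2 : Cc 4 (fun y => (U y ^ 1)⁻¹ • F.ag w y) := (ag_cc cw).smul_left (inv_sm hU hU1 1)
  have d1 : ∫ x, dv (fun y => (w y * (U y ^ 2)⁻¹) • F.ag U y) x = 0 := h1.div cY1
  have d2 : ∫ x, dv (fun y => (U y ^ 1)⁻¹ • F.ag w y) x = 0 := h1.div cY2
  have i1 := (dv_cc cY1).integrable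
  have i2 := (dv_cc cY2).integrable
  generalize dv (fun y => (w y * (U y ^ 2)⁻¹) • F.ag U y) = D1 at p2 d1 i1
  generalize dv (fun y => (U y ^ 1)⁻¹ • F.ag w y) = D2 at p2 d2 i2
  have hk : Continuous fun x => kp δ 3 (x - y) :=
    (continuous_kp hδ 3).comp (continuous_id.sub continuous_const)
  have c4 : Cc 5 (cut 4) := (cut_cc (r := 4) (by norm_num)).mono (by norm_num)
  have i3' : Integrable (fun x => cut 3 x ^ 2 * kp δ 3 (x - y)) :=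
    (z2_cc.continuous.mul hk).integrable_of_hasCompactSupport z2_cc.hcs.mul_right
  have i4 : Integrable (fun x => cut 4 x * kp δ 3 (x - y)) :=
    (c4.continuous.mul hk).integrable_of_hasCompactSupport c4.hcs.mul_right
  obtain ⟨i3, e3⟩ := fub (m := m) hδ i3'
  have b4 := c1' hc1 hδ (cut_nonneg 4) (cut_le_one 4) c4.2 (hy.trans (by norm_num))
  have j0 : Integrable (fun x => -D1 x) := i1.neg
  have j1 : Integrable (fun x => -D1 x - D2 x) := j0.sub i2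
  have j2 : Integrable (fun x => C * C * (cut 3 x ^ 2 * kp δ 3 (x - y) * II m δ x)) :=
    i3.const_mul _
  have j3 : Integrable (fun x => C3 * (cut 4 x * kp δ 3 (x - y))) := i4.const_mul _
  have j4 : Integrable (fun x => -D1 x - D2 x
      + C * C * (cut 3 x ^ 2 * kp δ 3 (x - y) * II m δ x)) := j1.add j2
  have j5 : Integrable (fun x => -D1 x - D2 x
      + C * C * (cut 3 x ^ 2 * kp δ 3 (x - y) * II m δ x) + C3 * (cut 4 x * kp δ 3 (x - y))) :=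
    j4.add j3
  refine (integral_mono_of_nonneg (Eventually.of_forall fun x => ?_) (j5.const_mul C)
    (Eventually.of_forall fun x => ?_)).trans ?_
  · have := kp_pos hδ 2 (x - y)
    have : 0 < U x := one_pos.trans_le (hU1 x)
    positivity
  · have hI := II_nonneg (m := m) hδ x
    have hp : 0 < U x := one_pos.trans_le (hU1 x)
    have k2 := (kp_pos hδ 2 (x - y)).le
    have k3 := (kp_pos hδ 3 (x - y)).le
    have q := p2 x
    by_cases hx : ‖x‖ ≤ 4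
    · have n0 := hN0 x hx
      have a1 : kp δ 2 (x - y) * (cut 3 x ^ 2 * (U x ^ 3)⁻¹ * ‖fderiv ℝ U x‖ ^ 2)
          ≤ C * (2 * (w x * (U x ^ 3)⁻¹) * Qf F U U x) := by
        calc _ ≤ (C * N x) * (cut 3 x ^ 2 * (U x ^ 3)⁻¹ * (2 * Qf F U U x)) := by
              gcongr
              · exact hN1 x hx
              · exact normsq_le U x
          _ = _ := by simp only [hwd]; ring
      have a2 : w x * (U x ^ 2)⁻¹ * F.Lop U x
          ≤ C * C * (cut 3 x ^ 2 * kp δ 3 (x - y) * II m δ x) := by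
        have u1 : (U x ^ 2)⁻¹ ≤ 1 := inv_le_one_of_one_le₀ (one_le_pow₀ (hU1 x))
        calc cut 3 x ^ 2 * N x * (U x ^ 2)⁻¹ * F.Lop U x
            ≤ cut 3 x ^ 2 * N x * (U x ^ 2)⁻¹ * (C * II m δ x) := by gcongr; exact hL x hx
          _ ≤ cut 3 x ^ 2 * (C * kp δ 3 (x - y)) * 1 * (C * II m δ x) := by
              gcongr; exact hN2 x hx
          _ = _ := by ring
      have a3 : (U x)⁻¹ * F.Lop w x ≤ C3 * (cut 4 x * kp δ 3 (x - y)) := by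
        have u1 : (U x)⁻¹ ≤ 1 := inv_le_one_of_one_le₀ (hU1 x)
        rw [cut_one hx, one_mul]
        calc _ ≤ (U x)⁻¹ * (C3 * kp δ 3 (x - y)) := by gcongr; exact hw x hx
          _ ≤ _ := mul_le_of_le_one_left (by positivity) u1
      refine a1.trans (mul_le_mul_of_nonneg_left ?_ hC)
      linarith
    · have z0 : cut 3 x = 0 := z_cc.2 x (not_le.1 hx)
      have l0 : F.Lop w x = 0 := (lop_cc cw).2 x (not_le.1 hx)
      rw [z0, l0] at q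
      have c0 := cut_nonneg 4 x
      have a1 : 0 ≤ C3 * (cut 4 x * kp δ 3 (x - y)) := by positivity
      simp only [z0]
      have a2 : 0 ≤ -D1 x - D2 x + C * C * (0 ^ 2 * kp δ 3 (x - y) * II m δ x)
          + C3 * (cut 4 x * kp δ 3 (x - y)) := by linarith
      have a3 := mul_nonneg hC a2
      linarith
  · rw [integral_const_mul, integral_add j4 j3, integral_add j1 j2, integral_sub j0 i2,
      integral_neg, d1, d2, integral_const_mul, integral_const_mul, e3]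
    refine mul_le_mul_of_nonneg_left ?_ hC
    have a1 := mul_le_mul_of_nonneg_left hA (mul_nonneg hC hC)
    have a2 := mul_le_mul_of_nonneg_left b4 hC3
    linarith

lemma second' (h1 : NatS) {C Cb CL c1 c2 B1 B2 : ℝ} {y : V} (hc1 : 0 ≤ c1) (hc2 : 0 ≤ c2)
    (hCb : 0 ≤ Cb) (hCL : 0 ≤ CL) (hB1 : 0 ≤ B1) (hB2 : 0 ≤ B2) (hC : C = 17 * Cb + 2 * CL)
    (H1 : ∀ (δ : ℝ) (x : V), 0 < δ → ∫ z in closedBall x 16, kp δ 3 (x - z) ≤ c1)
    (H2 : ∀ x y : V, Integrable (fun z => kp δ 3 (x - z) * kp δ 3 (y - z)) ∧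
      ∫ z, kp δ 3 (x - z) * kp δ 3 (y - z) ≤ c2 * kp δ 2 (x - y))
    (Hb1 : ∀ x z : V, ‖x - z‖ ≤ 16 → kp δ 2 (x - z) ≤ Cb * F.Nz δ z x)
    (Hb2 : ∀ x z : V, ‖x - z‖ ≤ 16 → F.Nz δ z x ≤ Cb * kp δ 2 (x - z))
    (Hb3 : ∀ x z : V, ‖x - z‖ ≤ 16 → ‖fderiv ℝ (F.Nz δ z) x‖ ≤ Cb * kp δ 3 (x - z))
    (HL : ∀ x z : V, ‖x - z‖ ≤ 16 → F.Lop (F.Nz δ z) x ≤ CL * kp δ 3 (x - z))
    (HB1 : ∀ x, ‖fderiv ℝ (fun x => cut 3 x ^ 2) x‖ ≤ B1)
    (HB2 : ∀ x, ‖F.Lop (fun x => cut 3 x ^ 2) x‖ ≤ B2)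
    (hm : PM 7 m) (hδ : 0 < δ) (hδ1 : δ ≤ 1) (hy : ‖y‖ ≤ 4) (hU : ContDiff ℝ ∞ (F.U m δ))
    (hU1 : ∀ x, 1 ≤ F.U m δ x) (hN : ContDiff ℝ ∞ (F.Nz δ y))
    (hL : ∀ x, ‖x‖ ≤ 4 → F.Lop (F.U m δ) x ≤ C * II m δ x)
    (hi : Integrable (fun p : V × V => cut 5 p.1 * ‖F.A p.1 p.2‖ ^ 2 * F.Nz δ p.1 y) m) :
    ∫ x, kp δ 2 (x - y) * (cut 3 x ^ 2 * (F.U m δ x ^ 3)⁻¹ * ‖fderiv ℝ (F.U m δ) x‖ ^ 2)
      ≤ C * (C * C * (2 * c2 * Cb) + C * (1 + 16 * B1 + B2) * c1) * F.U m δ y := by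
  have hC0 : 0 ≤ C := by linarith
  have hCb' : Cb ≤ C := by linarith
  have hCL' : CL ≤ C := by linarith
  have hxy : ∀ x : V, ‖x‖ ≤ 4 → ‖x - y‖ ≤ 16 := fun x hx => by linarith [norm_sub_le x y]
  have hN0 : ∀ x, 0 ≤ F.Nz δ y x := fun x => by unfold Frame.Nz nk; positivity
  have hN2 : ∀ x, ‖x‖ ≤ 4 → F.Nz δ y x ≤ C * kp δ 3 (x - y) := fun x hx => by
    have a1 := Hb2 x y (hxy x hx)
    have a2 := mul_le_mul_of_nonneg_left (kp23 hδ hδ1 (hxy x hx)) hCb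
    have a3 := mul_nonneg hCL (kp_pos hδ 3 (x - y)).le
    rw [hC]; linarith
  have hw : ∀ x, ‖x‖ ≤ 4 → F.Lop (fun x => cut 3 x ^ 2 * F.Nz δ y x) x
      ≤ C * (1 + 16 * B1 + B2) * kp δ 3 (x - y) := fun x hx =>
    lop_w hN hC0 (kp_pos hδ 3 (x - y)).le (HB1 x) (HB2 x) (hN0 x) (hN2 x hx)
      ((Hb3 x y (hxy x hx)).trans (mul_le_mul_of_nonneg_right hCb' (kp_pos hδ _ _).le))
      ((HL x y (hxy x hx)).trans (mul_le_mul_of_nonneg_right hCL' (kp_pos hδ _ _).le))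
  have h3 : 0 ≤ C * (1 + 16 * B1 + B2) := by positivity
  have key := second h1 hC0 h3 H1 hm hδ hy hU hU1 hN hL (fun x _ => hN0 x)
    (fun x hx => (Hb1 x y (hxy x hx)).trans (mul_le_mul_of_nonneg_right hCb' (hN0 x))) hN2 hw
    (conv_bd hCb hc2 hm hδ hy H2 Hb1 hi)
  refine key.trans ?_
  have u1 := hU1 y
  generalize F.U m δ y = u at u1
  have h4 : C * (1 + 16 * B1 + B2) * c1 ≤ C * (1 + 16 * B1 + B2) * c1 * u :=
    le_mul_of_one_le_right (by positivity) u1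
  have h5 := mul_le_mul_of_nonneg_left h4 hC0
  linarith

end Leb

open LebA Leb in
theorem lebS {F : Frame} (h1 : NatS) (h2 : ConvS) (h3 : NewS F) (h4 : LopS F) (h5 : USm F) :
    LebS F := by
  intro m f Dn hLH
  obtain ⟨c1, hc1, H1⟩ := h2.c1
  obtain ⟨c2, hc2, H2⟩ := h2.c2
  obtain ⟨Cb, hCb, Hb⟩ := h3.bd
  obtain ⟨CL, hCL, HL⟩ := h4
  obtain ⟨B1, hB1, HB1⟩ := z2_cc.fderiv.bounded
  obtain ⟨B2, hB2, HB2⟩ := (lop_cc (F := F) z2_cc).bounded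
  have hQ : 0 ≤ ∫ x, Qf F (cut 3) (cut 3) x := integral_nonneg fun x => Qf_nonneg _ x
  have hmr : 0 ≤ m.real univ := measureReal_nonneg
  obtain ⟨C, hC⟩ : ∃ C, C = 17 * Cb + 2 * CL := ⟨_, rfl⟩
  have hC0 : 0 ≤ C := by linarith
  have hCL' : 2 * CL ≤ C := by linarith
  have p1 : 0 ≤ 4 * (2 * (∫ x, Qf F (cut 3) (cut 3) x) + C * (c1 * m.real univ)) := by positivity
  have p2 : 0 ≤ C * (C * C * (2 * c2 * Cb) + C * (1 + 16 * B1 + B2) * c1) := by positivity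
  refine ⟨_, add_nonneg p1 p2, fun δ hδ hδ1 => ?_⟩
  obtain ⟨hU, hU1, -, hi, -, hLU, -⟩ := (h5 m f Dn hLH).2 δ hδ
  have hL : ∀ x, ‖x‖ ≤ 4 → F.Lop (F.U m δ) x ≤ C * II m δ x := fun x hx => by
    rw [(hLU x).2]
    refine (lopU hCL (fun x z h => HL δ x z hδ hδ1 h) hLH.pm hδ hx (hLU x).1).trans ?_
    exact mul_le_mul_of_nonneg_right hCL' (II_nonneg hδ x)
  refine ⟨(first h1 hC0 hc1 H1 hLH.pm hδ hU hU1 hL).trans (le_add_of_nonneg_right p2),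
    fun y hy => ?_⟩
  have hN : ContDiff ℝ ∞ (F.Nz δ y) := by
    have := (h3.sm δ hδ).1.comp (contDiff_id.prodMk (contDiff_const (c := y)))
    simpa only [Function.comp_def, id] using this
  refine (second' h1 hc1 hc2 hCb hCL hB1 hB2 hC H1 (fun x y => H2 δ x y hδ)
    (fun x z h => (Hb δ x z hδ hδ1 h).1) (fun x z h => (Hb δ x z hδ hδ1 h).2.1)
    (fun x z h => (Hb δ x z hδ hδ1 h).2.2.2.1) (fun x z h => HL δ x z hδ hδ1 h) HB1 HB2 hLH.pm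
    hδ hδ1 hy hU hU1 hN hL (hi y)).trans ?_
  exact mul_le_mul_of_nonneg_right (le_add_of_nonneg_left p1) (zero_le_one.trans (hU1 y))

end Vale.Agent.P204
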