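import Vale.Agent.P204.Stmt

/-! Calculus for the operator `Lop`. -/

set_option maxSynthPendingDepth 3

open scoped Topology ContDiff RealInnerProductSpace Manifold
open Set Metric MeasureTheory Filter

noncomputable section
namespace Vale.Agent.P204
namespace LebA

def dv (Y : V → V) (x : V) : ℝ := ∑ i, fderiv ℝ Y x (bv i) i

def Qf (F : Frame) (g h : V → ℝ) (x : V) : ℝ :=
  ∑ i, fderiv ℝ g x (F.Ai x (bv i)) * fderiv ℝ h x (F.Ai x (bv i))

variable {F : Frame} {r : ℝ} {g h φ : V → ℝ} {x : V} {Y Y' : V → V}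

lemma lop_eq (g : V → ℝ) (x : V) : F.Lop g x = dv (F.ag g) x := rfl

lemma dv_sm (hY : ContDiff ℝ ∞ Y) : ContDiff ℝ ∞ (dv Y) := by
  unfold dv
  exact ContDiff.sum fun i _ =>
    (pr i).contDiff.comp ((cd_fderiv hY).clm_apply contDiff_const)

lemma dv_cc (hY : Cc r Y) : Cc r (dv Y) :=
  ⟨dv_sm hY.1, fun y hy => by simp [dv, hY.fderiv.2 y hy]⟩

lemma cov_sum (l : Cov) (v : V) : ∑ i, l (bv i) * v i = l v := by
  conv_rhs => rw [V_sum v]
  simp [Fin.sum_univ_four, mul_comm]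

lemma dv_smul (hφ : DifferentiableAt ℝ φ x) (hY : DifferentiableAt ℝ Y x) :
    dv (fun y => φ y • Y y) x = fderiv ℝ φ x (Y x) + φ x * dv Y x := by
  unfold dv
  rw [fderiv_fun_smul hφ hY, ← cov_sum (fderiv ℝ φ x), Finset.mul_sum, ← Finset.sum_add_distrib]
  refine Finset.sum_congr rfl fun i _ => ?_
  simp [add_comm]

lemma dv_add (hY : DifferentiableAt ℝ Y x) (hY' : DifferentiableAt ℝ Y' x) :
    dv (fun y => Y y + Y' y) x = dv Y x + dv Y' x := by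
  unfold dv
  rw [fderiv_fun_add hY hY', ← Finset.sum_add_distrib]
  simp

lemma ag_sm (hg : ContDiff ℝ ∞ g) : ContDiff ℝ ∞ (F.ag g) := by
  unfold Frame.ag
  exact ContDiff.sum fun i _ => ((cd_fderiv hg).clm_apply (F.smAi.clm_apply contDiff_const)).smul
    (F.smAi.clm_apply contDiff_const)

lemma ag_cc (hg : Cc r g) : Cc r (F.ag g) :=
  ⟨ag_sm hg.1, fun y hy => by simp [Frame.ag, hg.fderiv.2 y hy]⟩

lemma lop_sm (hg : ContDiff ℝ ∞ g) : ContDiff ℝ ∞ (F.Lop g) := dv_sm (ag_sm hg)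
lemma lop_cc (hg : Cc r g) : Cc r (F.Lop g) := dv_cc (ag_cc hg)

lemma Qf_symm (g h : V → ℝ) (x : V) : Qf F g h x = Qf F h g x :=
  Finset.sum_congr rfl fun _ _ => mul_comm _ _

lemma Qf_sm (hg : ContDiff ℝ ∞ g) (hh : ContDiff ℝ ∞ h) : ContDiff ℝ ∞ (Qf F g h) := by
  unfold Qf
  exact ContDiff.sum fun i _ => ((cd_fderiv hg).clm_apply (F.smAi.clm_apply contDiff_const)).mul
    ((cd_fderiv hh).clm_apply (F.smAi.clm_apply contDiff_const))

lemma Qf_cc (hg : Cc r g) (hh : ContDiff ℝ ∞ h) : Cc r (Qf F g h) :=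
  ⟨Qf_sm hg.1 hh, fun y hy => by simp [Qf, hg.fderiv.2 y hy]⟩

lemma dv_ag (hφ : ContDiff ℝ ∞ φ) (hg : ContDiff ℝ ∞ g) (x : V) :
    dv (fun y => φ y • F.ag g y) x = Qf F φ g x + φ x * F.Lop g x := by
  rw [dv_smul (hφ.differentiable (by simp) x) ((ag_sm hg).differentiable (by simp) x), lop_eq]
  congr 1
  simp [Frame.ag, Qf, mul_comm]

lemma lop_mul (hg : ContDiff ℝ ∞ g) (hh : ContDiff ℝ ∞ h) (x : V) :
    F.Lop (fun y => g y * h y) x = g x * F.Lop h x + 2 * Qf F g h x + h x * F.Lop g x := by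
  have e : F.ag (fun y => g y * h y) = fun y => g y • F.ag h y + h y • F.ag g y := by
    funext y
    unfold Frame.ag
    rw [fderiv_fun_mul (hg.differentiable (by simp) y) (hh.differentiable (by simp) y),
      Finset.smul_sum, Finset.smul_sum, ← Finset.sum_add_distrib]
    refine Finset.sum_congr rfl fun i _ => ?_
    simp [add_smul, smul_smul]
  have s1 : ContDiff ℝ ∞ (fun y => g y • F.ag h y) := hg.smul (ag_sm hh)
  have s2 : ContDiff ℝ ∞ (fun y => h y • F.ag g y) := hh.smul (ag_sm hg)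
  rw [lop_eq, e, dv_add (s1.differentiable (by simp) x) (s2.differentiable (by simp) x),
    dv_ag hg hh, dv_ag hh hg, Qf_symm h g]
  ring

lemma abs_Qf_le (g h : V → ℝ) (x : V) :
    |Qf F g h x| ≤ 8 * ‖fderiv ℝ g x‖ * ‖fderiv ℝ h x‖ := by
  have e : ∀ (l : Cov) i, |l (F.Ai x (bv i))| ≤ ‖l‖ * (4 / 3) := fun l i => by
    have h1 := l.le_opNorm (F.Ai x (bv i))
    have h2 := F.norm_Ai_le x (bv i)
    rw [norm_bv, mul_one] at h2
    exact h1.trans (mul_le_mul_of_nonneg_left h2 (norm_nonneg _))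
  have e2 : ∀ i ∈ Finset.univ, |fderiv ℝ g x (F.Ai x (bv i)) * fderiv ℝ h x (F.Ai x (bv i))|
      ≤ 2 * ‖fderiv ℝ g x‖ * ‖fderiv ℝ h x‖ := fun i _ => by
    rw [abs_mul]
    have := mul_le_mul (e (fderiv ℝ g x) i) (e (fderiv ℝ h x) i) (abs_nonneg _) (by positivity)
    have h0 : 0 ≤ ‖fderiv ℝ g x‖ * ‖fderiv ℝ h x‖ := by positivity
    linarith
  refine (Finset.abs_sum_le_sum_abs _ _).trans ((Finset.sum_le_sum e2).trans (le_of_eq ?_))
  simp only [Finset.sum_const, Finset.card_univ, Fintype.card_fin, nsmul_eq_mul]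
  push_cast
  ring

lemma Qf_nonneg (g : V → ℝ) (x : V) : 0 ≤ Qf F g g x :=
  Finset.sum_nonneg fun _ _ => mul_self_nonneg _

lemma normsq_le (g : V → ℝ) (x : V) : ‖fderiv ℝ g x‖ ^ 2 ≤ 2 * Qf F g g x := by
  have h0 := Qf_nonneg (F := F) g x
  have key : ‖fderiv ℝ g x‖ ≤ Real.sqrt (2 * Qf F g g x) := by
    refine ContinuousLinearMap.opNorm_le_bound _ (Real.sqrt_nonneg _) fun v => ?_
    have e : fderiv ℝ g x v = ∑ i, fderiv ℝ g x (F.Ai x (bv i)) * F.A x v i := by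
      have := cov_sum ((fderiv ℝ g x).comp (F.Ai x)) (F.A x v)
      simpa using this.symm
    have h1 := Finset.sum_mul_sq_le_sq_mul_sq Finset.univ
      (fun i => fderiv ℝ g x (F.Ai x (bv i))) (fun i => F.A x v i)
    have h2 : ∑ i, F.A x v i ^ 2 = ‖F.A x v‖ ^ 2 := by rw [normsq_V, Fin.sum_univ_four]
    have h3 : ∑ i, fderiv ℝ g x (F.Ai x (bv i)) ^ 2 = Qf F g g x :=
      Finset.sum_congr rfl fun _ _ => sq _
    have h4 : ‖F.A x v‖ ^ 2 ≤ (5 / 4 * ‖v‖) ^ 2 := by gcongr; exact F.norm_A_le x v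
    rw [← e, h2, h3] at h1
    rw [← Real.sqrt_sq (norm_nonneg v), ← Real.sqrt_mul (by positivity), Real.norm_eq_abs]
    refine Real.abs_le_sqrt (h1.trans ?_)
    have h5 : ‖F.A x v‖ ^ 2 ≤ 2 * ‖v‖ ^ 2 := by nlinarith [sq_nonneg ‖v‖]
    calc _ ≤ Qf F g g x * (2 * ‖v‖ ^ 2) := by gcongr
      _ = _ := by ring
  calc _ ≤ Real.sqrt (2 * Qf F g g x) ^ 2 := by gcongr
    _ = _ := Real.sq_sqrt (by positivity)

/-- `Qf` when the first function has a derivative of a special form -/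
lemma Qf_comb {a b : ℝ} {g1 g2 : V → ℝ}
    (e : fderiv ℝ φ x = a • fderiv ℝ g1 x + b • fderiv ℝ g2 x) (h : V → ℝ) :
    Qf F φ h x = a * Qf F g1 h x + b * Qf F g2 h x := by
  unfold Qf
  rw [e, Finset.mul_sum, Finset.mul_sum, ← Finset.sum_add_distrib]
  refine Finset.sum_congr rfl fun i _ => ?_
  simp only [add_apply, smul_apply, smul_eq_mul]
  ring

lemma Qf_amgm (a : ℝ) (g h : V → ℝ) (x : V) :
    2 * a * Qf F g h x ≤ a ^ 2 * Qf F h h x / 2 + 2 * Qf F g g x := by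
  unfold Qf
  rw [Finset.mul_sum, Finset.mul_sum, Finset.mul_sum, Finset.sum_div, ← Finset.sum_add_distrib]
  refine Finset.sum_le_sum fun i _ => ?_
  nlinarith [sq_nonneg (a * fderiv ℝ h x (F.Ai x (bv i)) - 2 * fderiv ℝ g x (F.Ai x (bv i)))]

lemma inv_sm {U : V → ℝ} (hU : ContDiff ℝ ∞ U) (h1 : ∀ x, 1 ≤ U x) (k : ℕ) :
    ContDiff ℝ ∞ (fun x => (U x ^ k)⁻¹) :=
  (hU.pow k).inv fun x => (pow_pos (one_pos.trans_le (h1 x)) k).ne'

/-- first pointwise identity -/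
lemma pt1 {U z : V → ℝ} (hU : ContDiff ℝ ∞ U) (h1 : ∀ x, 1 ≤ U x) (hz : ContDiff ℝ ∞ z) (x : V) :
    z x ^ 2 * (U x ^ 2)⁻¹ * ‖fderiv ℝ U x‖ ^ 2
      ≤ 4 * (-dv (fun y => (z y ^ 2 * (U y ^ 1)⁻¹) • F.ag U y) x + 2 * Qf F z z x
        + z x ^ 2 * (U x)⁻¹ * F.Lop U x) := by
  have hp : 0 < U x := one_pos.trans_le (h1 x)
  have dU := (hU.differentiable (by simp) x).hasFDerivAt
  have dz := (hz.differentiable (by simp) x).hasFDerivAt
  have e : fderiv ℝ (fun y => z y ^ 2 * (U y ^ 1)⁻¹) x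
      = (2 * (z x * (U x)⁻¹)) • fderiv ℝ z x + (-(z x ^ 2 * (U x ^ 2)⁻¹)) • fderiv ℝ U x := by
    have d1 := (hasDerivAt_inv hp.ne').comp_hasFDerivAt x dU
    have d2 := ((dz.pow 2).mul d1).fderiv
    simp only [pow_one]
    refine Eq.trans d2 ?_
    ext v
    simp
    ring
  rw [dv_ag ((hz.pow 2).mul (inv_sm hU h1 1)) hU, Qf_comb e]
  have a1 := Qf_amgm (F := F) (z x * (U x)⁻¹) z U x
  have a2 := normsq_le (F := F) U x
  have a3 : (z x * (U x)⁻¹) ^ 2 = z x ^ 2 * (U x ^ 2)⁻¹ := by rw [mul_pow, inv_pow]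
  rw [a3] at a1
  have a4 : 0 ≤ z x ^ 2 * (U x ^ 2)⁻¹ := by positivity
  have a5 := mul_le_mul_of_nonneg_left a2 a4
  simp only [pow_one]
  linarith

/-- second pointwise identity -/
lemma pt2 {U w : V → ℝ} (hU : ContDiff ℝ ∞ U) (h1 : ∀ x, 1 ≤ U x) (hw : ContDiff ℝ ∞ w) (x : V) :
    2 * (w x * (U x ^ 3)⁻¹) * Qf F U U x
      = -dv (fun y => (w y * (U y ^ 2)⁻¹) • F.ag U y) x - dv (fun y => (U y ^ 1)⁻¹ • F.ag w y) x
        + w x * (U x ^ 2)⁻¹ * F.Lop U x + (U x)⁻¹ * F.Lop w x := by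
  have hp : 0 < U x := one_pos.trans_le (h1 x)
  have dU := (hU.differentiable (by simp) x).hasFDerivAt
  have dw := (hw.differentiable (by simp) x).hasFDerivAt
  have e1 : fderiv ℝ (fun y => w y * (U y ^ 2)⁻¹) x
      = ((U x ^ 2)⁻¹) • fderiv ℝ w x + (-(2 * (w x * (U x ^ 3)⁻¹))) • fderiv ℝ U x := by
    have d1 := (hasDerivAt_inv (pow_pos hp 2).ne').comp_hasFDerivAt x (dU.pow 2)
    have d2 := (dw.mul d1).fderiv
    refine Eq.trans d2 ?_
    ext v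
    simp
    field_simp
    ring
  have e2 : fderiv ℝ (fun y => (U y ^ 1)⁻¹) x
      = (-(U x ^ 2)⁻¹) • fderiv ℝ U x + (0 : ℝ) • fderiv ℝ U x := by
    have d1 := ((hasDerivAt_inv hp.ne').comp_hasFDerivAt x dU).fderiv
    simp only [pow_one]
    refine Eq.trans d1 ?_
    simp
  rw [dv_ag (hw.mul (inv_sm hU h1 2)) hU, dv_ag (inv_sm hU h1 1) hw, Qf_comb e1, Qf_comb e2,
    Qf_symm U w]
  simp only [pow_one]
  ring

end LebA
end Vale.Agent.P204
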