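import Vale.Agent.P204.Stmt

/-! The removable singularity theorem. -/

set_option maxSynthPendingDepth 3

open scoped Topology ContDiff RealInnerProductSpace Manifold
open Set Metric MeasureTheory Filter

noncomputable section
namespace Vale.Agent.P204
namespace Loc

lemma dct {Y : Type} [MeasurableSpace Y] {μ : Measure Y} {φ : ℕ → Y → ℝ} {g h : Y → ℝ}
    (hh : Integrable h μ) (hm : ∀ n, AEStronglyMeasurable (fun y => φ n y * h y) μ)
    (hb : ∀ n y, |φ n y| ≤ 1)
    (hl : ∀ y, h y ≠ 0 → Tendsto (fun n => φ n y) atTop (𝓝 (g y))) :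
    AEStronglyMeasurable (fun y => g y * h y) μ ∧
      Tendsto (fun n => ∫ y, φ n y * h y ∂μ) atTop (𝓝 (∫ y, g y * h y ∂μ)) := by
  have hl' : ∀ y, Tendsto (fun n => φ n y * h y) atTop (𝓝 (g y * h y)) := fun y => by
    by_cases h0 : h y = 0
    · simp [h0]
    · exact (hl y h0).mul_const _
  refine ⟨aestronglyMeasurable_of_tendsto_ae atTop hm (ae_of_all _ hl'),
    tendsto_integral_of_dominated_convergence _ hm hh.norm (fun n => ae_of_all _ fun y => ?_)
      (ae_of_all _ hl')⟩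
  rw [norm_mul]
  exact mul_le_of_le_one_left (norm_nonneg _) (hb n y)

lemma dct2 {Y : Type} [MeasurableSpace Y] {μ : Measure Y} {π : Y → V} (hπ : Measurable π)
    {φ : ℕ → ℕ → V → ℝ} {g : ℕ → V → ℝ} {χ : V → ℝ} {h : Y → ℝ} (hh : Integrable h μ)
    (hm : ∀ k n, Continuous (φ k n)) (hb : ∀ k n y, |φ k n y| ≤ 1) (hb' : ∀ k y, |g k y| ≤ 1)
    (hl : ∀ k y, h y ≠ 0 → Tendsto (fun n => φ k n (π y)) atTop (𝓝 (g k (π y))))
    (hl' : ∀ y, Tendsto (fun k => g k y) atTop (𝓝 (χ y))) :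
    (∀ k, Tendsto (fun n => ∫ y, φ k n (π y) * h y ∂μ) atTop (𝓝 (∫ y, g k (π y) * h y ∂μ))) ∧
      Tendsto (fun k => ∫ y, g k (π y) * h y ∂μ) atTop (𝓝 (∫ y, χ (π y) * h y ∂μ)) :=
  have A := fun k => dct hh
    (fun n => ((hm k n).measurable.comp hπ).aestronglyMeasurable.mul hh.1)
    (fun n y => hb k n (π y)) (hl k)
  ⟨fun k => (A k).2, (dct hh (fun k => (A k).1) (fun k y => hb' k (π y)) fun _ _ => hl' _).2⟩

lemma pm_int {m : Measure (V × V)} (hm : PM 7 m) {g : V × V → ℝ} (hg : Continuous g) :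
    Integrable g m := by
  have := hm.1
  obtain ⟨C, hC⟩ := ((isCompact_closedBall (0 : V) 7).prod
    (isCompact_closedBall (0 : V) 1)).exists_bound_of_continuousOn hg.continuousOn
  refine Integrable.of_bound hg.aestronglyMeasurable C ?_
  filter_upwards [hm.2] with p hp
  exact hC p ⟨by simpa using hp.1, by simpa using hp.2.le⟩

def dl (n : ℕ) : ℝ := 1 / ((n : ℝ) + 1)

lemma dl_pos (n : ℕ) : 0 < dl n := Nat.one_div_pos_of_nat
lemma dl_le (n : ℕ) : dl n ≤ 1 := by
  unfold dl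
  rw [div_le_one (by positivity)]
  linarith [n.cast_nonneg (α := ℝ)]
lemma dl_lim : Tendsto dl atTop (𝓝 0) := tendsto_one_div_add_atTop_nhds_zero_nat

variable {F : Frame} {m : Measure (V × V)} {f : V → E2} {Dn : ℝ}

lemma w_nonneg (δ : ℝ) (x : V) (p : V × V) :
    0 ≤ cut 5 p.1 * ‖F.A p.1 p.2‖ ^ 2 * F.Nz δ p.1 x := by
  have := cut_nonneg 5 p.1
  unfold Frame.Nz nk
  positivity

lemma U_mono (h3 : USm F) (H : LH F m f Dn) (x : V) : Monotone (fun n => F.U m (dl n) x) := by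
  intro n k hnk
  have hi := fun n => ((h3 m f Dn H).2 _ (dl_pos n)).2.2.2.1 x
  refine add_le_add_right (integral_mono (hi n) (hi k) fun p => ?_) _
  have := cut_nonneg 5 p.1
  have := dl_pos k
  have : dl k ≤ dl n := Nat.one_div_le_one_div hnk
  simp only [Frame.Nz, nk]
  gcongr

lemma U_bdd (h3 : USm F) (H : LH F m f Dn) {x : V} (hx : x ∈ Efin m) :
    BddAbove (range fun n => F.U m (dl n) x) := by
  refine ⟨1 + (3 * ∫⁻ p, (ENNReal.ofReal (‖p.1 - x‖ ^ 2))⁻¹ ∂m).toReal, ?_⟩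
  rintro _ ⟨n, rfl⟩
  have hi := ((h3 m f Dn H).2 _ (dl_pos n)).2.2.2.1 x
  refine add_le_add_right ((ENNReal.ofReal_le_iff_le_toReal
    (ENNReal.mul_ne_top (by simp) (ne_of_lt hx))).1 ?_) _
  rw [ofReal_integral_eq_lintegral_ofReal hi (ae_of_all _ (w_nonneg _ x)),
    ← lintegral_const_mul' _ _ (by simp)]
  refine lintegral_mono_ae ?_
  filter_upwards [H.pm.2] with p hp
  rcases (norm_nonneg (p.1 - x)).eq_or_lt with h0 | h0
  · simp [← h0]
  rw [← ENNReal.ofReal_inv_of_pos (by positivity), ← ENNReal.ofReal_ofNat 3,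
    ← ENNReal.ofReal_mul (by norm_num)]
  refine ENNReal.ofReal_le_ofReal ?_
  have a1 := F.norm_A_le p.1 p.2
  have a2 : 3 / 4 * ‖p.1 - x‖ ≤ ‖F.Ps x p.1‖ := F.le_norm_A x _
  have a3 := cut_nonneg 5 p.1
  have a4 := cut_le_one 5 p.1
  have a5 := dl_pos n
  rw [hp.2] at a1
  calc _ ≤ 1 * (5 / 4 * 1) ^ 2 * ((3 / 4 * ‖p.1 - x‖) ^ 2 + 0 ^ 2)⁻¹ := by
        simp only [Frame.Nz, nk]
        gcongr
    _ = 25 / 9 * (‖p.1 - x‖ ^ 2)⁻¹ := by field_simp; ring
    _ ≤ _ := by gcongr; norm_num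

lemma U_unb (h3 : USm F) (H : LH F m f Dn) {x : V} (h : ‖x‖ ≤ 3)
    (hb : BddAbove (range fun n => F.U m (dl n) x)) : x ∈ Efin m := by
  have := H.pm.1
  obtain ⟨M, hM⟩ := hb
  have hl : ∀ p : V × V, (ENNReal.ofReal (‖p.1 - x‖ ^ 2))⁻¹
      = liminf (fun n => (ENNReal.ofReal (‖p.1 - x‖ ^ 2 + dl n ^ 2))⁻¹) atTop := fun p => by
    refine (Tendsto.liminf_eq (ENNReal.tendsto_inv_iff.2 (ENNReal.tendsto_ofReal ?_))).symm
    simpa using (dl_lim.pow 2).const_add (‖p.1 - x‖ ^ 2)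
  simp_rw [Efin, mem_setOf_eq, hl]
  refine ((lintegral_liminf_le fun n => by fun_prop).trans (liminf_le_of_frequently_le'
    (Frequently.of_forall fun n => ?_))).trans_lt
    (ENNReal.ofReal_lt_top (r := 3 * M + m.real univ))
  have hi := ((h3 m f Dn H).2 _ (dl_pos n)).2.2.2.1 x
  have h1 : F.U m (dl n) x ≤ M := hM ⟨n, rfl⟩
  have h2 := ofReal_integral_eq_lintegral_ofReal ((hi.const_mul 3).add (integrable_const 1))
    (ae_of_all _ fun p => add_nonneg (mul_nonneg (by norm_num) (w_nonneg _ x p)) zero_le_one)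
  refine (lintegral_mono_ae ?_).trans (h2.symm.le.trans (ENNReal.ofReal_le_ofReal ?_))
  · filter_upwards [H.pm.2] with p hp
    have a5 := dl_pos n
    rw [← ENNReal.ofReal_inv_of_pos (by positivity)]
    refine ENNReal.ofReal_le_ofReal ?_
    have a0 := w_nonneg (F := F) (dl n) x p
    simp only [Pi.add_apply]
    rcases le_or_gt ‖p.1‖ 5 with h5 | h5
    · have a1 := F.le_norm_A p.1 p.2
      have a2 : ‖F.Ps x p.1‖ ≤ 5 / 4 * ‖p.1 - x‖ := F.norm_A_le x _
      rw [hp.2] at a1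
      have : 9 / 25 * (‖p.1 - x‖ ^ 2 + dl n ^ 2)⁻¹
          ≤ cut 5 p.1 * ‖F.A p.1 p.2‖ ^ 2 * F.Nz (dl n) p.1 x :=
        calc _ = 1 * (3 / 4 * 1) ^ 2 * ((5 / 4 * ‖p.1 - x‖) ^ 2 + (5 / 4 * dl n) ^ 2)⁻¹ := by
              field_simp; ring
          _ ≤ _ := by
            simp only [Frame.Nz, nk, cut_one h5]
            gcongr
            linarith
      have : 0 ≤ (‖p.1 - x‖ ^ 2 + dl n ^ 2)⁻¹ := by positivity
      linarith
    · have := norm_sub_norm_le p.1 x
      have : (‖p.1 - x‖ ^ 2 + dl n ^ 2)⁻¹ ≤ 1 := inv_le_one_of_one_le₀ (by nlinarith)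
      linarith
  · simp only [Pi.add_apply]
    rw [integral_add (hi.const_mul 3) (integrable_const 1), integral_const_mul, integral_const]
    unfold Frame.U at h1
    simp only [smul_eq_mul]
    linarith

lemma bound (h1 : NatS) (h3 : USm F) (h4 : LebS F) (h5 : EnS F) (H : LH F m f Dn) {b : V → Cov}
    (hb : Cc 3 b) : ∃ K, ∀ δ a : ℝ, 0 < δ → δ ≤ 1 → 0 < a →
      |F.RR m f (fun z => F.U m δ z ^ (-a) • d1 b z)| ≤ a * K := by
  have := H.pm.1
  obtain ⟨C4, -, h4⟩ := h4 m f Dn H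
  obtain ⟨C5, -, h5⟩ := h5 m f Dn H
  obtain ⟨B, hB, hB'⟩ := hb.bounded
  obtain ⟨i1, i2⟩ := h3 m f Dn H
  refine ⟨B * (2 * m.real univ + C5) + 33 * B * ((∫ z, ‖f z‖ ^ 2) + C4), fun δ a hδ hδ1 ha => ?_⟩
  obtain ⟨u1, u2, -⟩ := i2 δ hδ
  clear i2
  replace h4 := (h4 δ hδ hδ1).1
  replace h5 := h5 δ hδ hδ1
  generalize F.U m δ = U at *
  have u3 : ∀ x, U x ≠ 0 := fun x => by linarith [u2 x]
  have hφ : ContDiff ℝ ∞ (fun z => U z ^ (-a)) := u1.rpow_const_of_ne u3
  have hd : ∀ z, fderiv ℝ (fun z => U z ^ (-a)) z = (-a * U z ^ (-a - 1)) • fderiv ℝ U z :=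
    fun z => ((u1.differentiable (by simp) z).hasFDerivAt.rpow_const (Or.inl (u3 z))).fderiv
  have hc : ∀ z, |-a * U z ^ (-a - 1)| ≤ a * (U z)⁻¹ := fun z => by
    rw [abs_mul, abs_neg, abs_of_pos ha, abs_of_nonneg (Real.rpow_nonneg (by linarith [u2 z]) _),
      ← Real.rpow_neg_one]
    gcongr
    · exact u2 z
    · linarith
  have c1 : Cc 3 (fun z => U z ^ (-a) • d1 b z) := hb.d1.smul_left hφ
  have c2 : Cc 3 (fun z => w1 (fderiv ℝ (fun z => U z ^ (-a)) z) (b z)) :=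
    ⟨cd_w1 (cd_fderiv hφ) hb.1, fun y hy => ap_ext fun p q => by simp [ap_w1, hb.2 y hy]⟩
  have c3 : ∀ z, 3 < ‖z‖ → w1 (fderiv ℝ (fun z => U z ^ (-a)) z) (b z) = 0 := c2.2
  obtain ⟨j1, j2⟩ := i1 _ c1.continuous (c1.mono (by norm_num)).2
  obtain ⟨j3, j4⟩ := i1 _ c2.continuous (c2.mono (by norm_num)).2
  have h0 := H.cl _ ((hb.smul_left hφ).mono (by norm_num))
  rw [show d1 (fun y => U y ^ (-a) • b y) = _ from funext fun y =>
    h1.d1_smul (hφ.differentiable (by simp) y) (hb.1.differentiable (by simp) y)] at h0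
  simp only [Frame.RR, TL, ap_add, map_add, inner_add_right] at h0 ⊢
  rw [integral_add j3 j1, integral_add j4 j2] at h0
  have cu : Continuous U := u1.continuous
  have cd : Continuous (fderiv ℝ U) := (cd_fderiv u1).continuous
  have cc := (cut_sm 3).continuous
  have cJ := F.smJ.continuous
  have ci : Continuous fun x => (U x ^ 2)⁻¹ := (cu.pow 2).inv₀ fun x => pow_ne_zero _ (u3 x)
  have k1 := pm_int H.pm (g := fun p => cut 3 p.1 ^ 2 * (U p.1 ^ 2)⁻¹ *
    (fderiv ℝ U p.1 p.2 ^ 2 + fderiv ℝ U p.1 (F.J p.1 p.2) ^ 2))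
    (by fun_prop (disch := exact fun x => pow_ne_zero _ (u3 _)))
  have k2 : Integrable fun x => cut 3 x ^ 2 * (U x ^ 2)⁻¹ * ‖fderiv ℝ U x‖ ^ 2 :=
    Continuous.integrable_of_hasCompactSupport (by fun_prop)
      (HasCompactSupport.intro (isCompact_closedBall (0 : V) 4) fun x hx => by
        rw [cut_zero (r := 3) (by norm_num) (by simp at hx; linarith)]; simp)
  have k3 : Integrable fun z => ‖f z‖ ^ 2 := (memLp_two_iff_integrable_sq_norm H.l2.1).1 H.l2
  have e1 := norm_integral_le_of_norm_le (f := fun p : V × V =>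
    ap (w1 (fderiv ℝ (fun z => U z ^ (-a)) p.1) (b p.1)) p.2 (F.J p.1 p.2))
    (((integrable_const 2).add k1).const_mul (a * B)) (by
      filter_upwards [H.pm.2] with p hp
      have := cut_nonneg 3 p.1
      simp only [Pi.add_apply]
      rcases lt_or_ge 3 ‖p.1‖ with h | h
      · rw [c3 _ h, ap_zero, norm_zero]; positivity
      have b1 : |b p.1 p.2| ≤ B * 2 := ((b p.1).le_opNorm _).trans (by
        rw [hp.2]; gcongr; exacts [hB' _, by norm_num])
      have b2 : |b p.1 (F.J p.1 p.2)| ≤ B * 2 := ((b p.1).le_opNorm _).trans (by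
        gcongr; exacts [hB' _, by simpa [hp.2] using F.norm_J_le p.1 p.2])
      rw [ap_w1, hd, cut_one h, ← inv_pow]
      simp only [smul_apply, smul_eq_mul, Real.norm_eq_abs]
      have hu : 0 ≤ (U p.1)⁻¹ := inv_nonneg.2 (by linarith [u2 p.1])
      have := hc p.1
      generalize -a * U p.1 ^ (-a - 1) = c at *
      generalize (U p.1)⁻¹ = t at *
      generalize fderiv ℝ U p.1 p.2 = x at *
      generalize fderiv ℝ U p.1 (F.J p.1 p.2) = y at *
      calc _ ≤ |c| * |x| * |b p.1 (F.J p.1 p.2)| + |c| * |y| * |b p.1 p.2| := by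
            simpa only [abs_mul] using abs_sub (c * x * b p.1 (F.J p.1 p.2)) (c * y * b p.1 p.2)
        _ ≤ a * t * |x| * (B * 2) + a * t * |y| * (B * 2) := by gcongr
        _ = a * B * (2 * (t * |x|) + 2 * (t * |y|)) := by ring
        _ ≤ _ := by
          refine mul_le_mul_of_nonneg_left ?_ (by positivity)
          nlinarith [sq_nonneg (t * |x| - 1), sq_nonneg (t * |y| - 1), sq_abs x, sq_abs y])
  have e2 := norm_integral_le_of_norm_le (f := fun z =>
    ⟪f z, F.cm z (w1 (fderiv ℝ (fun z => U z ^ (-a)) z) (b z))⟫)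
    ((k3.add k2).const_mul (a * (33 * B))) (ae_of_all _ fun z => by
      have := cut_nonneg 3 z
      simp only [Pi.add_apply]
      rcases lt_or_ge 3 ‖z‖ with h | h
      · rw [c3 _ h, map_zero, inner_zero_right, norm_zero]; positivity
      have hu : 0 ≤ (U z)⁻¹ := inv_nonneg.2 (by linarith [u2 z])
      refine (norm_inner_le_norm _ _).trans ?_
      rw [cut_one h, ← inv_pow]
      calc _ ≤ ‖f z‖ * (11 * (6 * (a * (U z)⁻¹ * ‖fderiv ℝ U z‖) * B)) := by
            gcongr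
            refine (F.norm_cm_le _ _).trans ?_
            gcongr
            refine (norm_w1_le _ _).trans ?_
            rw [hd, norm_smul]
            gcongr
            exacts [hc z, hB' z]
        _ = a * (33 * B) * (2 * ‖f z‖ * ((U z)⁻¹ * ‖fderiv ℝ U z‖)) := by ring
        _ ≤ _ := by
          refine mul_le_mul_of_nonneg_left ?_ (by positivity)
          nlinarith [sq_nonneg (‖f z‖ - (U z)⁻¹ * ‖fderiv ℝ U z‖)])
  simp only [Pi.add_apply] at e1 e2
  rw [integral_const_mul, integral_add (integrable_const 2) k1, integral_const] at e1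
  rw [integral_const_mul, integral_add k3 k2] at e2
  simp only [Real.norm_eq_abs, smul_eq_mul, abs_le] at e1 e2 ⊢
  have := mul_le_mul_of_nonneg_left h4 (mul_nonneg ha.le hB)
  have := mul_le_mul_of_nonneg_left h5 (mul_nonneg ha.le hB)
  constructor <;> nlinarith [e1.1, e1.2, e2.1, e2.2]

end Loc

open Loc in
theorem locS {F : Frame} (h1 : NatS) (h2 : TauS) (h3 : USm F) (h4 : LebS F) (h5 : EnS F) :
    LocS F := by
  intro m f Dn H b hb
  have := H.pm.1
  obtain ⟨K, hK⟩ := bound h1 h3 h4 h5 H hb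
  obtain ⟨i1, i2⟩ := h3 m f Dn H
  obtain ⟨j1, j2⟩ := i1 _ hb.d1.continuous (hb.d1.mono (by norm_num)).2
  let φ : ℕ → ℕ → V → ℝ := fun k n x => F.U m (dl n) x ^ (-dl k)
  let u : V → ℝ := fun x => ⨆ n, F.U m (dl n) x
  let g : ℕ → V → ℝ := fun k => (Efin m).indicator fun x => u x ^ (-dl k)
  let χ : V → ℝ := (Efin m).indicator fun _ => 1
  have u2 : ∀ n x, 1 ≤ F.U m (dl n) x := fun n => (i2 _ (dl_pos n)).2.1
  have u1 : ∀ x ∈ Efin m, 1 ≤ u x := fun x hx => (u2 0 x).trans (le_ciSup (U_bdd h3 H hx) 0)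
  have hp : ∀ (k : ℕ) (t : ℝ), 1 ≤ t → |t ^ (-dl k)| ≤ 1 := fun k t ht => by
    rw [abs_of_nonneg (Real.rpow_nonneg (by linarith) _)]
    exact Real.rpow_le_one_of_one_le_of_nonpos ht (by linarith [dl_pos k])
  have cφ : ∀ k n, Continuous (φ k n) := fun k n =>
    (i2 _ (dl_pos n)).1.continuous.rpow_const fun x => Or.inl (by linarith [u2 n x])
  have bφ : ∀ k n x, |φ k n x| ≤ 1 := fun k n x => hp k _ (u2 n x)
  have bg : ∀ k x, |g k x| ≤ 1 := fun k x => by
    by_cases hx : x ∈ Efin m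
    · simpa [g, hx] using hp k _ (u1 x hx)
    · simp [g, hx]
  have l1 : ∀ k x, d1 b x ≠ 0 → Tendsto (fun n => φ k n x) atTop (𝓝 (g k x)) := fun k x h => by
    have hm := U_mono h3 H x
    by_cases hx : x ∈ Efin m
    · simp only [g, indicator_of_mem hx]
      exact (tendsto_atTop_ciSup hm (U_bdd h3 H hx)).rpow_const (Or.inl (by linarith [u1 x hx]))
    · simp only [g, indicator_of_notMem hx]
      exact (tendsto_rpow_neg_atTop (dl_pos k)).comp (tendsto_atTop_atTop_of_monotone' hm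
        fun hb' => hx (U_unb h3 H (not_lt.1 fun h' => h (hb.d1.2 x h')) hb'))
  have l2 : ∀ x, Tendsto (fun k => g k x) atTop (𝓝 (χ x)) := fun x => by
    by_cases hx : x ∈ Efin m
    · simp only [g, χ, indicator_of_mem hx]
      simpa using (tendsto_const_nhds (x := u x)).rpow dl_lim.neg (Or.inl (by linarith [u1 x hx]))
    · simp [g, χ, hx]
  obtain ⟨A, A'⟩ := dct2 continuous_fst.measurable j1 cφ bφ bg
    (fun k p h => l1 k _ fun h' => h (by simp [h'])) l2
  obtain ⟨B, B'⟩ := dct2 measurable_id j2 cφ bφ bg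
    (fun k p h => l1 k _ fun h' => h (by simp [show d1 b p = 0 from h'])) l2
  have e := le_of_tendsto_of_tendsto' (A'.add B').abs (dl_lim.mul_const K) fun k =>
    le_of_tendsto' ((A k).add (B k)).abs fun n => by
      have := hK _ _ (dl_pos n) (dl_le n) (dl_pos k)
      simp only [Frame.RR, TL, ap_smul, map_smul, inner_smul_right] at this
      exact this
  rw [zero_mul, abs_nonpos_iff] at e
  have hs : MeasurableSet {p : V × V | p.1 ∈ Efin m} := measurable_fst (h2.efin_meas m this)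
  rw [← e, Frame.RR, TL, ← integral_indicator hs]
  congr 1
  · refine integral_congr_ae (ae_of_all _ fun p => ?_)
    by_cases hx : p.1 ∈ Efin m <;> simp [χ, hx]
  · refine integral_congr_ae ?_
    filter_upwards [h2.efin_ae m this] with z hz
    simp [χ, hz]

end Vale.Agent.P204
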