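import Vale.Agent.P204.Stmt

/-! The Newton kernel is almost superharmonic for the operator `Lop`. -/

set_option maxSynthPendingDepth 3

open scoped Topology ContDiff RealInnerProductSpace
open Set Metric MeasureTheory Filter

noncomputable section
namespace Vale.Agent.P204
namespace Lop

lemma nk_pos {δ : ℝ} (hδ : 0 < δ) (w : V) : 0 < nk δ w := by unfold nk; positivity

lemma nk_mul {δ : ℝ} (hδ : 0 < δ) (w : V) : nk δ w * (‖w‖ ^ 2 + δ ^ 2) = 1 := by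
  unfold nk; exact inv_mul_cancel₀ (by positivity)

lemma hasFDerivAt_nk {δ : ℝ} (hδ : 0 < δ) (w : V) :
    HasFDerivAt (nk δ) ((-2 * nk δ w ^ 2) • innerSL ℝ w) w := by
  have h1 : HasFDerivAt (fun v : V => ‖v‖ ^ 2 + δ ^ 2) ((2 : ℝ) • innerSL ℝ w) w := by
    have := (hasStrictFDerivAt_norm_sq w).hasFDerivAt.add_const (δ ^ 2)
    refine this.congr_fderiv ?_
    ext v; simp [two_smul]
  have hne : ‖w‖ ^ 2 + δ ^ 2 ≠ 0 := by positivity
  have h2 := (hasDerivAt_inv hne).comp_hasFDerivAt w h1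
  refine h2.congr_fderiv ?_
  ext v; simp [nk]; ring

/-- Hessian of `nk` -/
def Hg (δ : ℝ) (w : V) : End :=
  (-2 * nk δ w ^ 2) • ContinuousLinearMap.id ℝ V + (8 * nk δ w ^ 3) • (innerSL ℝ w).smulRight w

lemma hasFDerivAt_gk {δ : ℝ} (hδ : 0 < δ) (w : V) : HasFDerivAt (gk δ) (Hg δ w) w := by
  have h1 := ((hasFDerivAt_nk hδ w).pow 2).const_mul (-2)
  have h2 := h1.smul (hasFDerivAt_id w)
  refine h2.congr_fderiv ?_
  ext1 v
  simp [Hg, smul_smul]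
  module

lemma Hg_inner (δ : ℝ) (w b c : V) :
    ⟪Hg δ w b, c⟫ = -2 * nk δ w ^ 2 * ⟪b, c⟫ + 8 * nk δ w ^ 3 * (⟪w, b⟫ * ⟪w, c⟫) := by
  simp [Hg, inner_add_left, inner_smul_left, inner_neg_left]

lemma abs_Hg {δ : ℝ} (hδ : 0 < δ) (w b c : V) :
    |⟪Hg δ w b, c⟫| ≤ 10 * nk δ w ^ 2 * (‖b‖ * ‖c‖) := by
  have hn := nk_pos hδ w
  have h1 := abs_real_inner_le_norm b c
  have h2 := abs_real_inner_le_norm w b
  have h3 := abs_real_inner_le_norm w c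
  have h4 : nk δ w * ‖w‖ ^ 2 ≤ 1 := by nlinarith [nk_mul hδ w, sq_nonneg δ]
  have h5 : |⟪w, b⟫ * ⟪w, c⟫| ≤ ‖w‖ ^ 2 * (‖b‖ * ‖c‖) := by
    rw [abs_mul]
    calc _ ≤ (‖w‖ * ‖b‖) * (‖w‖ * ‖c‖) := by gcongr
      _ = _ := by ring
  rw [Hg_inner]
  refine (abs_add_le _ _).trans ?_
  rw [abs_mul, abs_mul (8 * _), abs_of_nonpos (by nlinarith [sq_nonneg (nk δ w)]),
    abs_of_nonneg (by positivity : 0 ≤ 8 * nk δ w ^ 3)]
  have h6 : nk δ w ^ 3 * |⟪w, b⟫ * ⟪w, c⟫| ≤ nk δ w ^ 2 * (‖b‖ * ‖c‖) := by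
    calc _ ≤ nk δ w ^ 3 * (‖w‖ ^ 2 * (‖b‖ * ‖c‖)) := by gcongr
      _ = (nk δ w * ‖w‖ ^ 2) * (nk δ w ^ 2 * (‖b‖ * ‖c‖)) := by ring
      _ ≤ 1 * (nk δ w ^ 2 * (‖b‖ * ‖c‖)) := by gcongr
      _ = _ := one_mul _
  have h7 : nk δ w ^ 2 * |⟪b, c⟫| ≤ nk δ w ^ 2 * (‖b‖ * ‖c‖) := by gcongr
  linarith

lemma trace_Hg {δ : ℝ} (hδ : 0 < δ) (w : V) : ∑ i, ⟪Hg δ w (bv i), bv i⟫ ≤ 0 := by
  have hn := nk_pos hδ w
  have h := nk_mul hδ w
  have : ∑ i, ⟪Hg δ w (bv i), bv i⟫ = -8 * nk δ w ^ 2 + 8 * nk δ w ^ 3 * ‖w‖ ^ 2 := by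
    simp only [Hg_inner, Fin.sum_univ_four, normsq_V]
    simp [inner_V, bv_apply]; ring
  rw [this]
  have h2 : nk δ w ^ 3 * ‖w‖ ^ 2 = nk δ w ^ 2 - nk δ w ^ 3 * δ ^ 2 := by
    calc _ = nk δ w ^ 2 * (nk δ w * (‖w‖ ^ 2 + δ ^ 2)) - nk δ w ^ 3 * δ ^ 2 := by ring
      _ = _ := by rw [h, mul_one]
  have : 0 ≤ nk δ w ^ 3 * δ ^ 2 := by positivity
  nlinarith

variable (F : Frame)

def Xv (i : Fin 4) (x : V) : V := F.Ai x (bv i)
def Bm (i : Fin 4) (x : V) : End := fderiv ℝ F.A x (Xv F i x)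

lemma Xv_sm (i : Fin 4) : ContDiff ℝ ∞ (Xv F i) := F.smAi.clm_apply contDiff_const

lemma dA_cc : Cc 12 (fderiv ℝ F.A) := by
  have h : Cc 12 (fun x => F.A x - ContinuousLinearMap.id ℝ V) :=
    ⟨F.smA.sub contDiff_const, fun y hy => by simp [F.out y hy]⟩
  have e : fderiv ℝ F.A = fderiv ℝ (fun x => F.A x - ContinuousLinearMap.id ℝ V) := by
    funext x; rw [fderiv_sub_const]
  rw [e]; exact h.fderiv

lemma dX_cc (i : Fin 4) : Cc 12 (fderiv ℝ (Xv F i)) := by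
  have h : Cc 12 (fun x => Xv F i x - bv i) :=
    ⟨(Xv_sm F i).sub contDiff_const, fun y hy => by simp [Xv, F.out_Ai y hy]⟩
  have e : fderiv ℝ (Xv F i) = fderiv ℝ (fun x => Xv F i x - bv i) := by
    funext x; rw [fderiv_sub_const]
  rw [e]; exact h.fderiv

lemma Bm_cc (i : Fin 4) : Cc 12 (Bm F i) :=
  ⟨(dA_cc F).1.clm_apply (Xv_sm F i), fun y hy => by simp [Bm, (dA_cc F).2 y hy]⟩

lemma DPs_X (i : Fin 4) (x z : V) : F.DPs x z (Xv F i x) = Bm F i x (z - x) - bv i := by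
  simp [Frame.DPs, Bm, Xv]

lemma hasFDerivAt_Ps (x z : V) : HasFDerivAt (fun x => F.Ps x z) (F.DPs x z) x := by
  have h1 := (F.smA.differentiable (by simp) x).hasFDerivAt
  have h2 : HasFDerivAt (fun x : V => z - x) (-ContinuousLinearMap.id ℝ V) x :=
    (hasFDerivAt_id x).const_sub z
  refine (h1.clm_apply h2).congr_fderiv ?_
  ext1 a
  simp [Frame.DPs, sub_eq_add_neg, add_comm]

lemma bounds : ∃ C, 0 ≤ C ∧ ∀ i x, ‖Bm F i x‖ ≤ C ∧ ‖fderiv ℝ (Bm F i) x‖ ≤ C ∧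
    ‖fderiv ℝ (Xv F i) x‖ ≤ C := by
  choose C1 h1 h1' using fun i => (Bm_cc F i).bounded
  choose C2 h2 h2' using fun i => (Bm_cc F i).fderiv.bounded
  choose C3 h3 h3' using fun i => (dX_cc F i).bounded
  have e : ∀ (C : Fin 4 → ℝ), (∀ i, 0 ≤ C i) → ∀ i, C i ≤ ∑ j, C j := fun C h i =>
    Finset.single_le_sum (fun j _ => h j) (Finset.mem_univ i)
  have s1 := Finset.sum_nonneg fun j (_ : j ∈ Finset.univ) => h1 j
  have s2 := Finset.sum_nonneg fun j (_ : j ∈ Finset.univ) => h2 j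
  have s3 := Finset.sum_nonneg fun j (_ : j ∈ Finset.univ) => h3 j
  refine ⟨∑ j, C1 j + ∑ j, C2 j + ∑ j, C3 j, by positivity, fun i x => ⟨?_, ?_, ?_⟩⟩
  · linarith [h1' i x, e C1 h1 i]
  · linarith [h2' i x, e C2 h2 i]
  · linarith [h3' i x, e C3 h3 i]

lemma sum_coord (L : Cov) (v : V) : ∑ j, L (bv j) * v j = L v := by
  conv_rhs => rw [V_sum v]
  simp [Fin.sum_univ_four]; ring

lemma formula (h1 : NewS F) {δ : ℝ} (hδ : 0 < δ) (x z : V) :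
    F.Lop (F.Nz δ z) x = ∑ i, (⟪gk δ (F.Ps x z), Bm F i x (z - x) - bv i⟫ *
        ∑ j, fderiv ℝ (Xv F i) x (bv j) j
      + (⟪gk δ (F.Ps x z), fderiv ℝ (Bm F i) x (Xv F i x) (z - x) - Bm F i x (Xv F i x)⟫
        + ⟪Hg δ (F.Ps x z) (Bm F i x (z - x) - bv i), Bm F i x (z - x) - bv i⟫)) := by
  have e1 : F.ag (F.Nz δ z)
      = fun x => ∑ i, ⟪gk δ (F.Ps x z), Bm F i x (z - x) - bv i⟫ • Xv F i x := by
    funext x
    refine Finset.sum_congr rfl fun i _ => ?_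
    rw [h1.dx δ x z _ hδ, ← DPs_X]; rfl
  have hG : HasFDerivAt (fun x => gk δ (F.Ps x z)) ((Hg δ (F.Ps x z)).comp (F.DPs x z)) x :=
    (hasFDerivAt_gk hδ _).comp x (hasFDerivAt_Ps F x z)
  have hz : HasFDerivAt (fun x : V => z - x) (-ContinuousLinearMap.id ℝ V) x :=
    (hasFDerivAt_id x).const_sub z
  have hY : ∀ i, HasFDerivAt (fun x => Bm F i x (z - x) - bv i)
      ((Bm F i x).comp (-ContinuousLinearMap.id ℝ V) + (fderiv ℝ (Bm F i) x).flip (z - x)) x :=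
    fun i => (((Bm_cc F i).1.differentiable (by simp) x).hasFDerivAt.clm_apply hz).sub_const (bv i)
  have hX := fun i => ((Xv_sm F i).differentiable (by simp) x).hasFDerivAt
  have hφ : ∀ i, ∃ L : Cov, HasFDerivAt (fun x => ⟪gk δ (F.Ps x z), Bm F i x (z - x) - bv i⟫) L x ∧
      L (Xv F i x) =
        ⟪gk δ (F.Ps x z), fderiv ℝ (Bm F i) x (Xv F i x) (z - x) - Bm F i x (Xv F i x)⟫
        + ⟪Hg δ (F.Ps x z) (Bm F i x (z - x) - bv i), Bm F i x (z - x) - bv i⟫ := fun i => by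
    refine ⟨_, hG.inner ℝ (hY i), ?_⟩
    rw [ContinuousLinearMap.comp_apply, ContinuousLinearMap.prod_apply, fderivInnerCLM_apply,
      ContinuousLinearMap.comp_apply, DPs_X]
    congr 2
    simp [sub_eq_add_neg, add_comm]
  choose L hL hL' using hφ
  have hs : HasFDerivAt (fun x => ∑ i, ⟪gk δ (F.Ps x z), Bm F i x (z - x) - bv i⟫ • Xv F i x)
      (∑ i, (⟪gk δ (F.Ps x z), Bm F i x (z - x) - bv i⟫ • fderiv ℝ (Xv F i) x
        + (L i).smulRight (Xv F i x))) x :=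
    HasFDerivAt.fun_sum fun i _ => (hL i).smul (hX i)
  rw [Frame.Lop, e1, hs.fderiv]
  simp only [sum_apply, add_apply, smul_apply,
    ContinuousLinearMap.smulRight_apply, WithLp.ofLp_sum, Finset.sum_apply, PiLp.add_apply,
    PiLp.smul_apply, smul_eq_mul]
  rw [Finset.sum_comm]
  refine Finset.sum_congr rfl fun i _ => ?_
  rw [Finset.sum_add_distrib, ← Finset.mul_sum, sum_coord, hL']

end Lop

open Lop in
theorem lopS {F : Frame} (h1 : NewS F) : LopS F := by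
  obtain ⟨B, hB0, hB⟩ := bounds F
  obtain ⟨C, hC0, hC⟩ := h1.bd
  refine ⟨4 * (C * (16 * B + 1) * (4 * B) + C * (B * (4 / 3) * 16 + B * (4 / 3))
    + 10 * C ^ 2 * (B * (16 * B + 2))), by positivity, fun δ x z hδ hδ1 hxz => ?_⟩
  obtain ⟨-, hn, hg, -⟩ := hC δ x z hδ hδ1 hxz
  have hk := kp_pos hδ 3 (x - z)
  have hzx : ‖z - x‖ = ‖x - z‖ := norm_sub_rev _ _
  set w := F.Ps x z
  have hn0 := nk_pos hδ w
  have hn2 : nk δ w ^ 2 * ‖x - z‖ ≤ C ^ 2 * kp δ 3 (x - z) := by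
    have a1 : nk δ w ^ 2 ≤ (C * kp δ 2 (x - z)) ^ 2 := pow_le_pow_left₀ hn0.le hn 2
    have a2 : kp δ 2 (x - z) ^ 2 = kp δ 4 (x - z) := by unfold kp; rw [inv_pow, ← pow_mul]
    have a3 := kp_succ hδ 3 (x - z)
    have a4 := kp_pos hδ 4 (x - z)
    calc _ ≤ (C * kp δ 2 (x - z)) ^ 2 * (‖x - z‖ + δ) := by gcongr; linarith
      _ = C ^ 2 * ((‖x - z‖ + δ) * kp δ 4 (x - z)) := by rw [mul_pow, a2]; ring
      _ = _ := by rw [← a3]
  have key : ∀ i, ⟪gk δ w, Bm F i x (z - x) - bv i⟫ * ∑ j, fderiv ℝ (Xv F i) x (bv j) j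
      + (⟪gk δ w, fderiv ℝ (Bm F i) x (Xv F i x) (z - x) - Bm F i x (Xv F i x)⟫
        + ⟪Hg δ w (Bm F i x (z - x) - bv i), Bm F i x (z - x) - bv i⟫)
      ≤ ⟪Hg δ w (bv i), bv i⟫ + (C * (16 * B + 1) * (4 * B) + C * (B * (4 / 3) * 16 + B * (4 / 3))
        + 10 * C ^ 2 * (B * (16 * B + 2))) * kp δ 3 (x - z) := by
    intro i
    obtain ⟨b1, b2, b3⟩ := hB i x
    set E := Bm F i x (z - x)
    have hE : ‖E‖ ≤ B * ‖x - z‖ := by
      rw [← hzx]; exact ((Bm F i x).le_opNorm _).trans (by gcongr)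
    have hE2 : ‖E‖ ≤ 16 * B := hE.trans (by nlinarith)
    have hXn : ‖Xv F i x‖ ≤ 4 / 3 := by simpa [Xv] using F.norm_Ai_le x (bv i)
    have t1 : |⟪gk δ w, E - bv i⟫| ≤ C * kp δ 3 (x - z) * (16 * B + 1) := by
      refine (abs_real_inner_le_norm _ _).trans ?_
      have : ‖E - bv i‖ ≤ 16 * B + 1 := (norm_sub_le _ _).trans (by rw [norm_bv]; linarith)
      gcongr
    have t2 : |∑ j, fderiv ℝ (Xv F i) x (bv j) j| ≤ 4 * B := by
      refine (Finset.abs_sum_le_sum_abs _ _).trans ?_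
      have : ∀ j, |fderiv ℝ (Xv F i) x (bv j) j| ≤ B := fun j => by
        have a1 := PiLp.norm_apply_le (fderiv ℝ (Xv F i) x (bv j)) j
        have a2 := (fderiv ℝ (Xv F i) x).le_opNorm (bv j)
        rw [norm_bv] at a2
        rw [Real.norm_eq_abs] at a1; linarith
      simp only [Fin.sum_univ_four]; linarith [this 0, this 1, this 2, this 3]
    have t3 : |⟪gk δ w, fderiv ℝ (Bm F i) x (Xv F i x) (z - x) - Bm F i x (Xv F i x)⟫|
        ≤ C * kp δ 3 (x - z) * (B * (4 / 3) * 16 + B * (4 / 3)) := by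
      refine (abs_real_inner_le_norm _ _).trans ?_
      have a1 : ‖fderiv ℝ (Bm F i) x (Xv F i x) (z - x)‖ ≤ B * (4 / 3) * 16 := by
        refine (ContinuousLinearMap.le_opNorm _ _).trans ?_
        have : ‖fderiv ℝ (Bm F i) x (Xv F i x)‖ ≤ B * (4 / 3) :=
          (ContinuousLinearMap.le_opNorm _ _).trans (by gcongr)
        rw [hzx]; gcongr
      have a2 : ‖Bm F i x (Xv F i x)‖ ≤ B * (4 / 3) :=
        (ContinuousLinearMap.le_opNorm _ _).trans (by gcongr)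
      have := (norm_sub_le _ _).trans (add_le_add a1 a2)
      gcongr
    have t4 : ⟪Hg δ w (E - bv i), E - bv i⟫
        ≤ ⟪Hg δ w (bv i), bv i⟫ + 10 * C ^ 2 * (B * (16 * B + 2)) * kp δ 3 (x - z) := by
      have a0 : ⟪Hg δ w (E - bv i), E - bv i⟫ = ⟪Hg δ w (bv i), bv i⟫
          + ⟪Hg δ w E, E - (2 : ℝ) • bv i⟫ := by
        simp only [Hg_inner, inner_sub_left, inner_sub_right, inner_smul_right,
          real_inner_comm E (bv i)]
        ring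
      have a1 := (le_abs_self _).trans (abs_Hg hδ w E (E - (2 : ℝ) • bv i))
      have a2 : ‖E - (2 : ℝ) • bv i‖ ≤ 16 * B + 2 :=
        (norm_sub_le _ _).trans (by rw [norm_smul, norm_bv]; norm_num; linarith)
      have a3 : 10 * nk δ w ^ 2 * (‖E‖ * ‖E - (2 : ℝ) • bv i‖)
          ≤ 10 * C ^ 2 * (B * (16 * B + 2)) * kp δ 3 (x - z) := by
        calc _ ≤ 10 * nk δ w ^ 2 * ((B * ‖x - z‖) * (16 * B + 2)) := by gcongr
          _ = 10 * (B * (16 * B + 2)) * (nk δ w ^ 2 * ‖x - z‖) := by ring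
          _ ≤ 10 * (B * (16 * B + 2)) * (C ^ 2 * kp δ 3 (x - z)) := by gcongr
          _ = _ := by ring
      linarith
    have t5 : ⟪gk δ w, E - bv i⟫ * ∑ j, fderiv ℝ (Xv F i) x (bv j) j
        ≤ C * kp δ 3 (x - z) * (16 * B + 1) * (4 * B) := by
      refine (le_abs_self _).trans ?_
      rw [abs_mul]; gcongr
    have t6 := (le_abs_self _).trans t3
    nlinarith
  rw [formula F h1 hδ]
  refine (Finset.sum_le_sum fun i _ => key i).trans ?_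
  rw [Finset.sum_add_distrib]
  have := trace_Hg hδ w
  simp only [Finset.sum_const, Finset.card_univ, Fintype.card_fin, nsmul_eq_mul, Nat.cast_ofNat]
  linarith

end Vale.Agent.P204
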