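import Vale.Agent.P204.Stmt

/-! The smoothing operator. -/

set_option maxSynthPendingDepth 3

open scoped Topology ContDiff RealInnerProductSpace Manifold
open Set Metric MeasureTheory Filter

noncomputable section
namespace Vale.Agent.P204

namespace M

lemma det_comp (A B : End) : (A.comp B).det = A.det * B.det := LinearMap.det_comp _ _

lemma pull_l (S : V ≃L[ℝ] V) (w : E6) : pull (S : End) (pull (S.symm : End) w) = w := by
  rw [pull_pull, ContinuousLinearEquiv.coe_symm_comp_coe, pull_id]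
  rfl

lemma pull_r (S : V ≃L[ℝ] V) (w : E6) : pull (S.symm : End) (pull (S : End) w) = w := pull_l S.symm w

lemma det_l (S : V ≃L[ℝ] V) : (S.symm : End).det * (S : End).det = 1 := by
  rw [← det_comp, ContinuousLinearEquiv.coe_symm_comp_coe]
  exact LinearMap.det_id

variable {X : Type*} [TopologicalSpace X]

lemma kk (a : Atl X) {i j : Fin a.n} {kj ki : V → V → Op} {x x' : X} (hx : x ∈ (a.e j).source)
    (hx' : x' ∈ (a.e i).source) (h : a.KK j kj x x' = a.KK i ki x x') (w : E6) :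
    pull (a.tr j i x') (a.ext0 j (fun z => kj (a.e j x) z w) x') = (a.tr i j x).det •
      a.ext0 i (fun y => ki y (a.e i x')) x (pull (a.tr j i x) w) := by
  have h1 := congrArg (fun T : Op => (a.fr j x : End).det •
    pull (a.fr i x' : End) (T (pull ((a.fr j x).symm : End) w))) h
  unfold Atl.ext0
  refine Eq.trans ?_ (h1.trans ?_)
  · by_cases e : x' ∈ (a.e j).source
    · simp only [Atl.KK, hx, e, and_self, if_true, smul_apply, ContinuousLinearMap.comp_apply,
        map_smul, pull_l, smul_smul, mul_comm (a.fr j x : End).det, det_l, one_smul]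
      rw [pull_pull, Atl.tr]
    · simp [Atl.KK, e]
  · by_cases e : x ∈ (a.e i).source
    · simp only [Atl.KK, hx', e, and_self, if_true, smul_apply, ContinuousLinearMap.comp_apply,
        map_smul, pull_l, smul_smul]
      rw [pull_pull, Atl.tr, Atl.tr, det_comp, mul_comm]
    · simp [Atl.KK, e]

lemma ext_add (a : Atl X) (j : Fin a.n) (f g : V → E6) (x : X) :
    a.ext j (f + g) x = a.ext j f x + a.ext j g x := by
  unfold Atl.ext Atl.ext0
  split_ifs <;> simp

lemma ext_smul (a : Atl X) (j : Fin a.n) (c : ℝ) (f : V → E6) (x : X) :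
    a.ext j (c • f) x = c • a.ext j f x := by
  unfold Atl.ext Atl.ext0
  split_ifs <;> simp

lemma inn (a : Atl X) (j : Fin a.n) {y : V} {r : ℝ} (h : ‖y‖ ≤ r) (hr : r ≤ 12) :
    y ∈ (a.e j).target ∧ a.e j ((a.e j).symm y) = y ∧ a.In j r ((a.e j).symm y) := by
  have h1 := a.big j (mem_closedBall_zero_iff.2 (h.trans hr))
  have h2 := (a.e j).right_inv h1
  exact ⟨h1, h2, (a.e j).map_target h1, h2.symm ▸ h⟩

variable {D : Dat X} (K : Ker D)

/-- the chart component of an element of the Hilbert space -/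
def ww (j : Fin D.n) (h : D.H) (y : V) : E6 := D.psi j y • pull ((D.F j).A y) (h j y)

lemma psi_le {j : Fin D.n} {y : V} (h : D.psi j y ≠ 0) : ‖y‖ ≤ 2 :=
  not_lt.1 fun h' => h ((D.psi_cc j).2 y h')

lemma ww_zero {j : Fin D.n} (h : D.H) {y : V} (hy : D.psi j y = 0) : ww j h y = 0 := by
  rw [ww, hy, zero_smul]

lemma small {ε : ℝ} (h : ε ≤ K.ε0) : K.C0 * ε ≤ 1 / 2 :=
  (mul_le_mul_of_nonneg_left h (zero_le_one.trans K.one_le)).trans K.small

lemma k_zero {ε : ℝ} (h0 : 0 < ε) (h : ε ≤ K.ε0) (j : Fin D.n) {y z : V} (hyz : 1 ≤ ‖z - y‖) :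
    K.k j ε y z = 0 := by
  rw [Ker.k, ksc, (K.scf j).2.1, smul_zero]
  rw [norm_smul, norm_inv, Real.norm_of_nonneg h0.le, lt_inv_mul_iff₀' h0]
  linarith [small K h]

lemma sop (h2 : ScaleS) {ε r : ℝ} (h0 : 0 < ε) (h : ε ≤ K.ε0) (j : Fin D.n) {w : V → E6}
    (hw : Integrable w) (hr : ∀ y, r < ‖y‖ → w y = 0) :
    Cc (r + 1) (K.Kop j ε w) ∧ ∀ z, Integrable fun y => K.k j ε y z (w y) :=
  have := h2.sm _ _ ε r w (K.scf j).1 (K.scf j).2.1 h0 hw hr
  ⟨this.1.mono (by linarith [small K h]), this.2.1⟩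

lemma mj (h2 : ScaleS) (h5 : HilS D) {ε : ℝ} (h0 : 0 < ε) (h : ε ≤ K.ε0) (j : Fin D.n) (g : D.H) :
    Cc 3 (K.Mj ε j g) ∧ ∀ z, Integrable fun y => K.k j ε y z (ww j g y) :=
  have := sop K h2 (r := 2) h0 h j (h5.h_int g j).2 fun y hy => ww_zero g ((D.psi_cc j).2 y hy)
  ⟨this.1.mono (by norm_num), this.2⟩

lemma add (h2 : ScaleS) (h5 : HilS D) {ε : ℝ} (g h : D.H) (h0 : 0 < ε) (h1 : ε ≤ K.ε0) :
    K.M ε (g + h) = K.M ε g + K.M ε h := by
  funext x
  simp only [Ker.M, Pi.add_apply, ← Finset.sum_add_distrib, ← ext_add]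
  refine Finset.sum_congr rfl fun j _ => congrArg (D.ext j · x) (funext fun z => ?_)
  refine Eq.trans (integral_congr_ae ?_)
    (integral_add ((mj K h2 h5 h0 h1 j g).2 z) ((mj K h2 h5 h0 h1 j h).2 z))
  filter_upwards [(h5.ae j _).1 (Lp.coeFn_add (g j) (h j))] with y hy
  by_cases e : D.psi j y = 0
  · simp [e]
  · rw [PiLp.add_apply, hy e, Pi.add_apply, map_add, smul_add, map_add]

lemma smul (h5 : HilS D) (ε c : ℝ) (h : D.H) : K.M ε (c • h) = c • K.M ε h := by
  funext x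
  simp only [Ker.M, Pi.smul_apply, Finset.smul_sum, ← ext_smul]
  refine Finset.sum_congr rfl fun j _ => congrArg (D.ext j · x) (funext fun z => ?_)
  refine Eq.trans (integral_congr_ae ?_) (integral_smul c _)
  filter_upwards [(h5.ae j _).1 (Lp.coeFn_smul c (h j))] with y hy
  by_cases e : D.psi j y = 0
  · simp [e]
  · rw [PiLp.smul_apply, hy e]
    simp only [Pi.smul_apply, map_smul, smul_comm c]

lemma nk (h1 : NkS) (h2 : ScaleS) (h5 : HilS D) (k : ℕ) : ∃ C, 0 ≤ C ∧ ∀ ε j h, 0 < ε → ε ≤ K.ε0 →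
    Nk k (K.Mj ε j h) ≤ C * (ε ^ (k + 4))⁻¹ * ‖h‖ := by
  choose C hC hb using fun j => h2.bd _ _ k (K.scf j).1 (K.scf j).2.1
  obtain ⟨C1, c1, hw⟩ := h5.wt
  obtain ⟨C2, c2, hl⟩ := h5.l1_le
  have s0 : 0 ≤ ∑ j, C j := Finset.sum_nonneg fun j _ => hC j
  refine ⟨(∑ j, C j) * (11 * C1 * C2), by positivity, fun ε j h h0 hε =>
    h1.nk_le fun l hl' x => ?_⟩
  have e1 : ε ≤ 1 := by nlinarith [small K hε, K.one_le]
  have i1 := (h5.h_int h j).2
  have h3 := hb j ε (ww j h) h0 e1 i1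
    (fun y hy => ww_zero h ((D.psi_cc j).2 y (by linarith))) x l hl'
  have h4 : ∫ y in closedBall x (K.C0 * ε), ‖ww j h y‖ ≤ 11 * C1 * C2 * ‖h‖ := by
    refine (setIntegral_le_integral i1.norm (ae_of_all _ fun y => norm_nonneg _)).trans ?_
    refine (integral_mono i1.norm (((h5.intg j _).1 (h5.h_int h j).1.norm).const_mul (11 * C1))
      fun y => ?_).trans ?_
    · have := mul_le_mul (hw j y).2.2 ((D.F j).norm_pull_A y (h j y)) (norm_nonneg _)
        (mul_nonneg c1 (hw j y).1)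
      simp only [norm_smul, Real.norm_of_nonneg (D.psi_nn j y), smul_eq_mul]
      linarith
    · rw [integral_const_mul, ← h5.int, mul_assoc (11 * C1)]
      exact mul_le_mul_of_nonneg_left ((Finset.single_le_sum
        (f := fun j => ∫ y, ‖h j y‖ ∂(D.nu j)) (fun j _ => integral_nonneg fun y => norm_nonneg _)
        (Finset.mem_univ j)).trans (hl h)) (by positivity)
  have h6 := mul_le_mul (mul_le_mul_of_nonneg_right (Finset.single_le_sum (fun j _ => hC j)
    (Finset.mem_univ j)) (inv_pos.2 (pow_pos h0 4)).le) h4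
    (integral_nonneg fun y => norm_nonneg _) (by positivity)
  have h7 := ((mul_le_mul_of_nonneg_right (pow_le_pow_of_le_one h0.le e1 hl')
    (norm_nonneg _)).trans h3).trans h6
  rw [← le_div_iff₀' (pow_pos h0 k)] at h7
  refine h7.trans_eq ?_
  rw [pow_add]
  field_simp

lemma m3 (h2 : ScaleS) (h3 : FormS D) (h5 : HilS D) (h6 : HatS D) {ε : ℝ} (i : Fin D.n) (h : D.H)
    {z : V} (h0 : 0 < ε) (h1 : ε ≤ K.ε0) (hz : ‖z‖ ≤ 8) :
    D.loc i (K.M ε h) z = K.Kop i ε (D.hat i h) z := by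
  obtain ⟨-, z2, z3⟩ := inn D.toAtl i hz (by norm_num)
  rw [Ker.Kop, ← h6.pair i h (fun y => K.k i ε y z) (((K.scf i).1.continuous.comp
    (by fun_prop)).const_smul (ε ^ 4)⁻¹) fun y hy => k_zero K h0 h1 i (by
      linarith [norm_sub_norm_le y z, norm_sub_rev y z]), Atl.loc, Ker.M, map_sum]
  refine Finset.sum_congr rfl fun j _ => (h3.loc_ext' i j _ z).trans ?_
  trans ∫ y, pull (D.tr j i ((D.e i).symm z))
    (D.ext0 j (fun z' => K.k j ε y z' (ww j h y)) ((D.e i).symm z))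
  · unfold Atl.ext0
    split_ifs
    · exact ((pull _).integral_comp_comm ((mj K h2 h5 h0 h1 j h).2 _)).symm
    · simp
  · refine integral_congr_ae (ae_of_all _ fun y => ?_)
    by_cases e : D.psi j y = 0
    · simp [ww, e, Atl.ext0]
    · obtain ⟨-, y2, y3⟩ := inn D.toAtl j (psi_le e) (by norm_num)
      have := kk D.toAtl y3.1 z3.1 (K.ind i j ε _ _ h0 h1 y3 (Or.inr z3)) (ww j h y)
      rwa [y2, z2] at this

lemma mext (h2 : ScaleS) (h3 : FormS D) (h5 : HilS D) (h6 : HatS D) {ε : ℝ} (j : Fin D.n)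
    {β : V → E6} (h0 : 0 < ε) (h1 : ε ≤ K.ε0) (hβ : Cc 7 β) :
    K.M ε (D.iota (D.ext j β)) = D.ext j (K.Kop j ε β) := by
  have sm := h3.sm_ext j β (hβ.mono (by norm_num))
  funext x'
  by_cases hx : D.In j 8 x'
  · have := m3 K h2 h3 h5 h6 j (D.iota (D.ext j β)) h0 h1 hx.2
    rw [Atl.loc, (D.e j).left_inv hx.1] at this
    rw [Atl.ext, Atl.ext0, if_pos hx.1, ← pull_r (D.fr j x') (K.M _ _ _), this]
    refine congrArg _ (integral_congr_ae ?_)
    filter_upwards [h6.iota j _ sm] with y hy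
    rw [hy]
    by_cases e : ‖y‖ ≤ 9
    · rw [indicator_of_mem (mem_closedBall_zero_iff.2 e),
        h3.loc_ext j β y (inn D.toAtl j e (by norm_num)).1]
    · rw [indicator_of_notMem (mt mem_closedBall_zero_iff.1 e), hβ.2 y (by linarith)]
  have hx' : x' ∈ (D.e j).source → 8 < ‖D.e j x'‖ := fun h => not_le.1 fun h' => hx ⟨h, h'⟩
  trans 0
  · refine Finset.sum_eq_zero fun i _ => ?_
    rw [Atl.ext, Atl.ext0]
    split_ifs with hi
    swap
    · exact map_zero _
    refine (congrArg _ (integral_eq_zero_of_ae ?_)).trans (map_zero _)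
    filter_upwards [(h5.ae i _).1 (h5.iota_ae _ i sm)] with y hy
    by_cases e : D.psi i y = 0
    · simp [e]
    obtain ⟨-, y2, y3⟩ := inn D.toAtl i (psi_le e) (by norm_num)
    by_cases e' : D.In j 7 ((D.e i).symm y)
    · have h7 := K.ind j i ε _ x' h0 h1 y3 (Or.inl e')
      have h8 : D.KK j (ksc (K.Hs j) ε) ((D.e i).symm y) x' = D.KK i 0 ((D.e i).symm y) x' := by
        unfold Atl.KK
        split_ifs with h h'
        · rw [show ksc (K.Hs j) ε _ _ = 0 from k_zero K h0 h1 j (by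
            linarith [norm_sub_norm_le (D.e j x') (D.e j ((D.e i).symm y)), hx' h.2, e'.2])]
          simp
        · exact absurd ⟨y3.1, hi⟩ h'
        · simp
        · rfl
      have h9 := kk D.toAtl y3.1 hi (h7.trans h8) (ww i (D.iota (D.ext j β)) y)
      simp only [Atl.ext0, Atl.tr, hi, y3.1, if_true, ContinuousLinearEquiv.coe_symm_comp_coe,
        pull_id, y2, Pi.zero_apply, zero_apply, smul_zero] at h9
      exact h9
    · have : D.ext0 j β ((D.e i).symm y) = 0 := by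
        unfold Atl.ext0
        split_ifs with h
        exacts [hβ.2 _ (not_le.1 fun h' => e' ⟨h, h'⟩), rfl]
      simp [hy e, h3.loc_ext', this]
  · unfold Atl.ext Atl.ext0
    split_ifs with h
    · rw [(sop K h2 h0 h1 j hβ.integrable hβ.2).1.2 _ (by linarith [hx' h]), map_zero]
    · exact (map_zero _).symm

end M

variable {X : Type*} [TopologicalSpace X] [T2Space X] {D : Dat X} {K : Ker D}

theorem mS (h1 : NkS) (h2 : ScaleS) (h3 : FormS D) (h4 : SemS D) (h5 : HilS D) (h6 : HatS D) :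
    MS K := by
  have s1 := fun ε h (a : 0 < ε) (b : ε ≤ K.ε0) j =>
    h3.sm_ext j _ ((M.mj K h2 h5 a b j h).1.mono (by norm_num))
  have s2 : ∀ ε h, 0 < ε → ε ≤ K.ε0 → D.Sm (K.M ε h) := fun ε h a b =>
    h3.sm_sum _ _ fun j _ => s1 ε h a b j
  refine ⟨fun ε j h a b => (M.mj K h2 h5 a b j h).1, s2, fun ε g h => M.add K h2 h5 g h,
    fun ε c h _ _ => M.smul K h5 ε c h, fun k => ?_, fun ε i h z => M.m3 K h2 h3 h5 h6 i h,
    fun ε j β => M.mext K h2 h3 h5 h6 j⟩
  obtain ⟨C, c0, hC⟩ := M.nk K h1 h2 h5 k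
  obtain ⟨C', c1, hC'⟩ := h4.nrm_ext k
  refine ⟨D.n * (C' * C), by positivity, fun ε R Λ a b l0 hR ho => ?_⟩
  obtain ⟨Θ, t1, t2⟩ := h5.riesz (fun h => R (K.M ε h)) (D.n * (C' * C) * Λ * (ε ^ (k + 4))⁻¹)
    (by positivity) (fun g h => by rw [M.add K h2 h5 g h a b, hR.1 _ _ (s2 ε g a b) (s2 ε h a b)])
    (fun c h => by rw [M.smul K h5, hR.2 _ _ (s2 ε h a b)]) fun h => by
      refine ((congrArg abs (h3.fn_sum R hR _ _ fun j _ => s1 ε h a b j)).trans_le
        ((Finset.abs_sum_le_sum_abs _ _).trans (Finset.sum_le_card_nsmul _ _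
          (Λ * (C' * (C * (ε ^ (k + 4))⁻¹ * ‖h‖))) fun j _ => ?_))).trans_eq ?_
      · exact (ho _ (s1 ε h a b j)).trans (mul_le_mul_of_nonneg_left
          ((hC' j _ ((M.mj K h2 h5 a b j h).1.mono (by norm_num))).trans
            (mul_le_mul_of_nonneg_left (hC ε j h a b) c1)) l0)
      · rw [Finset.card_fin, nsmul_eq_mul]
        ring
  exact ⟨Θ, t2, t1⟩

end Vale.Agent.P204
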