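import Vale.Agent.P204.Stmt

/-! The main vanishing theorem for the anti-invariant functional. -/

set_option maxSynthPendingDepth 3

open scoped Topology ContDiff RealInnerProductSpace Manifold
open Set Metric MeasureTheory Filter

noncomputable section
namespace Vale.Agent.P204

variable {X : Type*} [TopologicalSpace X] [T2Space X] {D : Dat X} {K : Ker D}

namespace MT

omit [T2Space X] in
lemma rr_eq (h4 : FormS D) {m mm : Fin D.n → Measure (V × V)} {s : Form X → ℝ}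
    {f : V → E2} {j : Fin D.n} (hcm : D.IsCM m mm) (hs : D.Fn s) (hI : D.KillsI s)
    (hf : ∀ c, Cc 6 c → D.sj s j c = ∫ y, ⟪f y, c y⟫) {b : V → Cov} (hb : Cc 6 b) :
    (D.F j).RR (mm j) f (d1 b) = D.T m (D.ext j (d1 b)) + s (D.ext j (d1 b)) := by
  rw [(hcm j).2 _ hb.d1.continuous hb.d1.2, h4.s_ext s j _ hs hI (hb.d1.mono (by norm_num)),
    hf _ (hb.d1.clm (D.F j).sm_cm)]
  rfl

omit [T2Space X] in
lemma small (h1 : NkS) (h5 : SemS D) (h7 : MS K) (h8 : StepS K) {s : Form X → ℝ} {k M : ℕ}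
    {Λ ε1 B : ℝ} (hΛ : 0 ≤ Λ) (hs : D.Fn s) (hI : D.KillsI s) (ho : D.OrdM s k Λ) (hM : 1 ≤ M)
    (he : 0 < ε1) (he' : ε1 ≤ K.ε0) (hB : 0 ≤ B) (hBd : ∀ ε, 0 < ε → ε ≤ ε1 → D.Bd s M ε B)
    (hsev : ∀ η, 0 < η → ∃ ε2, 0 < ε2 ∧ ∀ t Θ, 0 < t → t ≤ ε2 → K.IsTh t s Θ →
      ‖D.mapH Pm Θ‖ ≤ η) :
    ∃ C, 0 ≤ C ∧ ∀ η, 0 < η → ∃ ε, 0 < ε ∧ ε ≤ 1 ∧ D.Bd s M ε (C * η) := by
  obtain ⟨C, L0, hC, hL0, hrec⟩ := h8.recur M
  obtain ⟨C1, hC1, hcr⟩ := h5.crude k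
  obtain ⟨C2, -, hth⟩ := h7.theta k
  refine ⟨2 * C, by positivity, fun η hη => ?_⟩
  obtain ⟨ε2, he2, hsv⟩ := hsev η hη
  set L := max L0 (2 * C) with hL
  have hL1 : 1 ≤ L := hL0.trans (le_max_left _ _)
  have hLp : 0 < L := one_pos.trans_le hL1
  have hκ : C * (L ^ M)⁻¹ * L ^ 0 ≤ 1 / 2 := by
    have h1 : L ≤ L ^ M := le_self_pow₀ hL1 (by omega)
    have h2 : 2 * C ≤ L ^ M := (le_max_right _ _).trans h1
    rw [pow_zero, mul_one, ← div_eq_mul_inv, div_le_iff₀ (by positivity)]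
    linarith
  set e := min ε1 (min ε2 1) with hee
  have hep : 0 < e := lt_min he (lt_min he2 one_pos)
  have e1 : e ≤ ε1 := min_le_left _ _
  have e2 : e ≤ ε2 := (min_le_right _ _).trans (min_le_left _ _)
  have e3 : e ≤ 1 := (min_le_right _ _).trans (min_le_right _ _)
  have key := h1.close (fun ε β => D.Bd s M ε β) e L (C * (L ^ M)⁻¹) (C * η) B 0 0 hep hL1
    (by positivity) (by positivity) hB le_rfl hκ (fun ε β β' h hb j => h1.lbd_mono (h j) hb)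
    (fun ε β h j => h1.lbd_lim fun η hη => h η hη j)
    (fun ε h0 h => by simpa using hBd ε h0 (h.trans e1)) (fun ε β h0 h hβ hP => ?_) e hep le_rfl
  · refine ⟨e, hep, e3, fun j => h1.lbd_mono (key j) (le_of_eq ?_)⟩
    simp only [pow_zero, inv_one, mul_one]; ring
  have ht0 : 0 < ε / L := by positivity
  have ht1 : ε / L ≤ e := (div_le_self h0.le hL1).trans h
  obtain ⟨Θ, hΘ, -⟩ := hth (ε / L) s (C1 * Λ) ht0 (ht1.trans (e1.trans he')) (by positivity) hs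
    (hcr s Λ hΛ ho).1
  have := hrec L ε β s Θ (le_max_left _ _) h0 (h.trans e3) (ht1.trans (e1.trans he')) hβ hs hI hΘ
    (hP _ le_rfl ht1)
  refine fun j => h1.lbd_mono (this j) ?_
  have h3 := hsv _ Θ ht0 (ht1.trans e2) hΘ
  simp only [pow_zero, inv_one, mul_one]
  gcongr

end MT

theorem mtS (h1 : NkS) (h2 : L2S) (h3 : ∀ F, LocS F) (h4 : FormS D) (h5 : SemS D) (h6 : CurS D)
    (h7 : MS K) (h8 : StepS K) (h9 : BddS K) (h10 : SevS K) : MTS D := by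
  intro m s k Λ hm hΛ hs ho hZ α hα
  obtain ⟨mm, m0, hcm, hm0, hcm0⟩ := h6.cm m hm
  obtain ⟨M, ε1, B, Dn, hM, he, he', hB, hBd, hD⟩ := h9 m mm s k Λ hm hcm hΛ hs ho hZ
  have hI := h4.killsI s k Λ ho
  choose f hf using fun j => h2 (D.sj s j) M ε1 B he (h4.llin s j hs)
    (fun ε h0 h => hBd ε h0 h j)
  have hLH : ∀ j, LH (D.F j) (mm j) (f j) Dn := fun j =>
    ⟨(hcm j).1, (hf j).1, fun b hb => by
      rw [MT.rr_eq h4 hcm hs hI (hf j).2 hb]
      exact h4.killsD _ j b hZ (hb.mono (by norm_num)), hD j⟩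
  have hKD : D.KillsD (fun α => D.T m0 α + s α) := fun j b hb => by
    have := h3 (D.F j) (mm j) (f j) Dn (hLH j) b hb
    rw [MT.rr_eq h4 hcm0 hs hI (hf j).2 (hb.mono (by norm_num))] at this
    exact this
  obtain ⟨C, hC, hsm⟩ := MT.small h1 h5 h7 h8 hΛ hs hI ho hM he he' hB hBd
    (h10 m m0 mm s k Λ M ε1 B Dn f hm hm0 hcm hcm0 hΛ hs ho hZ hKD he he' hB hBd hD hf)
  obtain ⟨C', hC', hsup⟩ := h1.dom_sup
  rw [h4.s_sum s α hs hI hα]
  refine Finset.sum_eq_zero fun j _ => ?_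
  have hc := h4.cj_cc j α hα
  have hN := h1.nonneg M (D.cj j α)
  have key : ∀ η, 0 < η → |D.sj s j (D.cj j α)| ≤ C * (C' * Nk M (D.cj j α)) * η := fun η hη => by
    obtain ⟨ε, h0, h1', hb⟩ := hsm η hη
    have := hb j (D.cj j α) _ (hc.mono (by linarith)) (h1.dom_nk h0 h1' (hc.mono (by norm_num)))
      (hsup _ hN).1
    refine this.trans ?_
    calc C * η * nL2 _ ≤ C * η * (C' * Nk M (D.cj j α)) := by gcongr; exact (hsup _ hN).2
      _ = _ := by ring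
  refine abs_nonpos_iff.1 (le_of_forall_pos_le_add fun η hη => ?_)
  set A := C * (C' * Nk M (D.cj j α))
  have hA : 0 ≤ A := by positivity
  refine (key (η / (A + 1)) (by positivity)).trans ?_
  rw [zero_add, mul_div_assoc', div_le_iff₀ (by positivity)]
  nlinarith

end Vale.Agent.P204
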