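import Vale.Agent.P204.MonoA

/-! The monotonicity formula. -/

set_option maxSynthPendingDepth 3

open scoped Topology ContDiff RealInnerProductSpace
open Set Metric MeasureTheory Filter

noncomputable section
namespace Vale.Agent.P204
namespace Mon
open MonA

lemma cs2 (w a : V) : ⟪w, a⟫ ^ 2 + ⟪J0 w, a⟫ ^ 2 ≤ ‖w‖ ^ 2 * ‖a‖ ^ 2 := by
  rw [normsq_V, normsq_V, inner_V, inner_V, J0_0, J0_1, J0_2, J0_3]
  nlinarith [sq_nonneg (w 0 * a 2 - w 2 * a 0 - (w 1 * a 3 - w 3 * a 1)),
    sq_nonneg (w 0 * a 3 - w 3 * a 0 + (w 1 * a 2 - w 2 * a 1))]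

lemma main_pos (F : Frame) (y z u : V) {s : ℝ} (hs : 0 < s) :
    2 * (s * nn F y s z) ^ 2 * ‖F.A y u‖ ^ 2 ≤ ap (d1 (lam F y s) z) u (F.J y u) := by
  rw [ap_dlam F y z _ _ hs, F.A_J, inner_J0_J0, inner_J0_J0, real_inner_self_eq_norm_sq]
  have h1 := cs2 (F.A y (z - y)) (F.A y u)
  have h2 := inner_J0 (F.A y (z - y)) (F.A y u)
  have h3 : nn F y s z * (‖F.A y (z - y)‖ ^ 2 + s ^ 2) = 1 := inv_mul_cancel₀ (by positivity)
  have h4 := mul_le_mul_of_nonneg_left h1 (sq_nonneg (nn F y s z))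
  have h5 : nn F y s z * ‖F.A y u‖ ^ 2 = nn F y s z ^ 2 * (‖F.A y (z - y)‖ ^ 2 * ‖F.A y u‖ ^ 2)
      + (s * nn F y s z) ^ 2 * ‖F.A y u‖ ^ 2 := by
    linear_combination (-(nn F y s z * ‖F.A y u‖ ^ 2)) * h3
  rw [show ⟪F.A y (z - y), J0 (F.A y u)⟫ = -⟪J0 (F.A y (z - y)), F.A y u⟫ by linarith]
  nlinarith

lemma mass_le (m : Measure (V × V)) [IsFiniteMeasure m] (y : V) (r : ℝ) :
    mass m y r ≤ m.real univ := measureReal_mono (subset_univ _)

lemma g_l2 (h1 : ConvS) : ∃ C, 0 ≤ C ∧ ∀ (a s : ℝ) (y : V), 0 ≤ a → 0 < s → s ≤ 1 →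
    Integrable (fun z => (closedBall y 2).indicator (fun z => a * kp s 1 (z - y)) z ^ 2) ∧
    nL2 (fun z => (closedBall y 2).indicator (fun z => a * kp s 1 (z - y)) z) ≤ C * a := by
  obtain ⟨C, hC, h⟩ := h1.c1
  refine ⟨Real.sqrt (3 * C), Real.sqrt_nonneg _, fun a s y ha hs hs1 => ?_⟩
  have e : (fun z => (closedBall y 2).indicator (fun z => a * kp s 1 (z - y)) z ^ 2) =
      (closedBall y 2).indicator (fun z => (a * kp s 1 (z - y)) ^ 2) := by
    funext z
    by_cases hz : z ∈ closedBall y 2 <;> simp [hz]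
  have c1 : Continuous fun z => (a * kp s 1 (z - y)) ^ 2 :=
    (continuous_const.mul ((continuous_kp hs 1).comp (continuous_id.sub continuous_const))).pow 2
  have c3 : Continuous fun z => kp s 3 (y - z) :=
    (continuous_kp hs 3).comp (continuous_const.sub continuous_id)
  have i1 := c1.continuousOn.integrableOn_compact (μ := volume) (isCompact_closedBall y 2)
  have i3 := c3.continuousOn.integrableOn_compact (μ := volume) (isCompact_closedBall y 16)
  have hsub : closedBall y 2 ⊆ closedBall y 16 := closedBall_subset_closedBall (by norm_num)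
  refine ⟨e ▸ (integrable_indicator_iff measurableSet_closedBall).2 i1, ?_⟩
  rw [nL2, e, integral_indicator measurableSet_closedBall, Real.sqrt_le_left (by positivity),
    mul_pow, Real.sq_sqrt (by positivity)]
  calc _ ≤ ∫ z in closedBall y 2, 3 * a ^ 2 * kp s 3 (y - z) := by
        refine setIntegral_mono_on i1 ((i3.mono_set hsub).const_mul _) measurableSet_closedBall
          fun z hz => ?_
        rw [mem_closedBall, dist_eq_norm] at hz
        have e2 : kp s 1 (z - y) ^ 2 = (‖z - y‖ + s) * kp s 3 (z - y) := by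
          rw [← kp_succ hs 2, kp, kp, pow_one, inv_pow]
        rw [mul_pow, e2, kp_sub s 3 y z]
        have := mul_le_mul_of_nonneg_right (show ‖z - y‖ + s ≤ 3 by linarith)
          (mul_nonneg (sq_nonneg a) (kp_pos hs 3 (z - y)).le)
        linarith
    _ ≤ 3 * a ^ 2 * C := by
        rw [integral_const_mul]
        refine mul_le_mul_of_nonneg_left (le_trans ?_ (h s y hs)) (by positivity)
        exact setIntegral_mono_set i3 (Eventually.of_forall fun z => (kp_pos hs 3 _).le)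
          hsub.eventuallyLE
    _ = _ := by ring

lemma int_TL (F : Frame) {m : Measure (V × V)} (hm : PM 7 m) {β : V → E6} (hβ : Continuous β) :
    Integrable (fun p : V × V => ap (β p.1) p.2 (F.J p.1 p.2)) m := by
  have := hm.1
  have c : Continuous fun p : V × V => ap (β p.1) p.2 (F.J p.1 p.2) :=
    continuous_ap.comp ((hβ.comp continuous_fst).prodMk (continuous_snd.prodMk
      ((F.smJ.continuous.comp continuous_fst).clm_apply continuous_snd)))
  obtain ⟨B, hB⟩ := ((isCompact_closedBall (0 : V) 7).prod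
    (isCompact_closedBall (0 : V) 1)).exists_bound_of_continuousOn c.continuousOn
  refine Integrable.of_bound c.aestronglyMeasurable B ?_
  filter_upwards [hm.2] with p hp
  exact hB p ⟨by simpa using hp.1, by simpa using hp.2.le⟩

end Mon

open MonA Mon in
theorem monoB (h1 : NatS) : MonoB := by
  intro F
  obtain ⟨C1, hC1, b1⟩ := (sy_w1 F 0).val
  obtain ⟨C2, hC2, b2⟩ := (sy_dlam F 0).val
  obtain ⟨C3, hC3, b3⟩ := (Sy.diff (M := 0) F.smJ).val
  refine ⟨1 / 8, 4 * C1 + 2 * C2 * C3, by norm_num, by positivity, fun y z u s hy hs hs1 hu => ?_⟩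
  have hk := kp_pos hs 1 (z - y)
  by_cases hx : ‖z - y‖ ≤ 1
  · have hr : 0 < ‖z - y‖ + s := by positivity
    have a1 := b1 y s z hy hs (by linarith) hx
    have a2 := b2 y s z hy hs (by linarith) hx
    have a3 := b3 y s z hy hs (by linarith) hx
    have ek : kp s 1 (z - y) = (‖z - y‖ + s)⁻¹ := by rw [kp, pow_one]
    rw [zpow_neg_one, ← ek] at a1
    rw [zpow_one] at a3
    have e : F.J z u = F.J y u + (F.J z - F.J y) u := by simp
    have t1 := abs_ap_le (w1 (fderiv ℝ chi (z - y)) (lam F y s z)) u (F.J z u)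
    have t1' := F.norm_J_le z u
    have t2 := abs_ap_le (d1 (lam F y s) z) u ((F.J z - F.J y) u)
    have t2' := (F.J z - F.J y).le_opNorm u
    rw [hu] at t1 t1' t2 t2'
    have t3 : |ap (w1 (fderiv ℝ chi (z - y)) (lam F y s z)) u (F.J z u)| ≤
        4 * C1 * kp s 1 (z - y) := t1.trans (by
      calc _ ≤ 2 * (C1 * kp s 1 (z - y)) * 1 * (2 * 1) := by gcongr
        _ = _ := by ring)
    have t4 : |ap (d1 (lam F y s) z) u ((F.J z - F.J y) u)| ≤ 2 * C2 * C3 * kp s 1 (z - y) :=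
      t2.trans (by
      calc _ ≤ 2 * (C2 * (‖z - y‖ + s) ^ (-2 : ℤ)) * 1 * (C3 * (‖z - y‖ + s)) := by
            gcongr
            linarith
        _ = _ := by
            rw [ek, zpow_neg, zpow_ofNat]
            field_simp)
    have c0 : 0 ≤ chi (z - y) := cut_nonneg _ _
    have c1 : chi (z - y) ≤ 1 := cut_le_one _ _
    have t5 := main_pos F y z u hs
    have t6 : (closedBall y s).indicator (fun _ => 1 / 8 * (s ^ 2)⁻¹) z ≤
        chi (z - y) * ap (d1 (lam F y s) z) u (F.J y u) := by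
      by_cases hz : z ∈ closedBall y s
      · rw [indicator_of_mem hz]
        rw [mem_closedBall, dist_eq_norm] at hz
        rw [show chi (z - y) = 1 from cut_one (by rw [norm_smul, Real.norm_two]; linarith), one_mul]
        refine le_trans ?_ t5
        have u1 := F.le_norm_A y u
        have u2 := F.norm_A_le y (z - y)
        have u3 : (3 * s ^ 2)⁻¹ ≤ nn F y s z := inv_anti₀ (by positivity) (by
          nlinarith [mul_self_le_mul_self (norm_nonneg _) (u2.trans
            (mul_le_mul_of_nonneg_left hz (by norm_num)))])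
        rw [hu] at u1
        calc _ = 2 * (s * (3 * s ^ 2)⁻¹) ^ 2 * (3 / 4 * 1) ^ 2 := by
              field_simp
              norm_num
          _ ≤ _ := by gcongr
      · rw [indicator_of_notMem hz]
        exact mul_nonneg c0 (le_trans (by positivity) t5)
    rw [d1_tf F h1 y z hs, ap_add, ap_smul]
    nth_rewrite 2 [e]
    rw [ap_add_r]
    have t7 := mul_le_mul_of_nonneg_left (neg_le_of_abs_le t4) c0
    have t8 := mul_le_mul_of_nonneg_right c1 (show 0 ≤ 2 * C2 * C3 * kp s 1 (z - y) by positivity)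
    linarith [neg_le_of_abs_le t3]
  · rw [(d1_tf_zero F s (not_le.1 hx)).eq_of_nhds, ap_zero, indicator_of_notMem (by
      rw [mem_closedBall, dist_eq_norm]
      linarith [not_le.1 hx])]
    have : 0 ≤ (4 * C1 + 2 * C2 * C3) * kp s 1 (z - y) := by positivity
    linarith

open Mon in
theorem monoS (h1 : ConvS) (h2 : MonoA) (h3 : MonoB) : MonoS := by
  intro F M
  obtain ⟨CA, hCA, hA⟩ := h2 F M
  obtain ⟨c, CB, hc, hCB, hB⟩ := h3 F
  obtain ⟨C5, hC5, h5⟩ := h1.c5
  obtain ⟨Cg, hCg, hg⟩ := g_l2 h1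
  refine ⟨min (1 / 4) (c / (2 * (CB * C5 + 1))), by positivity, fun s1 hs1 hs0 => ?_⟩
  have k1 : s1 ≤ 1 / 4 := hs0.trans (min_le_left _ _)
  have k2 : s1 * (2 * (CB * C5 + 1)) ≤ c :=
    (le_div_iff₀ (by positivity)).1 (hs0.trans (min_le_right _ _))
  refine ⟨(s1 ^ 2)⁻¹ + 2 / c * (Cg * CA + CB * C5 / s1), by positivity,
    fun m σ β r hm hcl hr hrs hβ hL y ρ hy hρ => ?_⟩
  have := hm.1
  have ht : 0 ≤ m.real univ := measureReal_nonneg
  have hbd : BddAbove ((fun ρ => mass m y ρ / ρ ^ 2) '' Icc r s1) := by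
    refine ⟨m.real univ / r ^ 2, ?_⟩
    rintro _ ⟨t, ht', rfl⟩
    exact div_le_div₀ ht (mass_le m y t) (by positivity) (pow_le_pow_left₀ hr.le ht'.1 2)
  obtain ⟨Θ, hΘ⟩ : ∃ Θ, Θ = sSup ((fun ρ => mass m y ρ / ρ ^ 2) '' Icc r s1) := ⟨_, rfl⟩
  have hle : ∀ t, r ≤ t → t ≤ s1 → mass m y t ≤ Θ * t ^ 2 := fun t t1 t2 => by
    rw [← div_le_iff₀ (pow_pos (hr.trans_le t1) 2), hΘ]
    exact le_csSup hbd ⟨t, ⟨t1, t2⟩, rfl⟩
  have hΘ0 : 0 ≤ Θ := by
    have h := hle r le_rfl hrs
    have h' : 0 ≤ mass m y r := measureReal_nonneg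
    exact nonneg_of_mul_nonneg_left (h'.trans h) (by positivity)
  have key : ∀ t, r ≤ t → t ≤ s1 →
      mass m y t / t ^ 2 ≤ (β * (Cg * CA) + CB * (C5 * (Θ * s1 + m.real univ / s1))) / c := by
    intro t t1 t2
    have ht0 : 0 < t := hr.trans_le t1
    obtain ⟨a1, a2⟩ := hA y t hy ht0 (by linarith)
    obtain ⟨g1, g2⟩ := hg CA t y hCA ht0 (by linarith)
    have b1 := hcl _ (a1.mono (by norm_num))
    have b2 := hL t t1 t2 _ _ ((a1.d1.clm F.sm_cm).mono (by linarith)) a2 g1
    have b3 := h5 m y t s1 Θ this ht0 t2 fun r' r1 r2 => hle r' (t1.trans r1) r2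
    have ms : MeasurableSet {p : V × V | ‖p.1 - y‖ ≤ t} :=
      (isClosed_le (continuous_fst.sub continuous_const).norm continuous_const).measurableSet
    have i1 : Integrable (fun p : V × V => kp t 1 (p.1 - y)) m := by
      refine Integrable.of_bound ((continuous_kp ht0 1).comp
        (continuous_fst.sub continuous_const)).aestronglyMeasurable (t ^ 1)⁻¹
        (Eventually.of_forall fun p => ?_)
      rw [Real.norm_of_nonneg (kp_pos ht0 1 _).le]
      exact kp_le ht0 1 _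
    have i2 : Integrable ({p : V × V | ‖p.1 - y‖ ≤ t}.indicator fun _ => c * (t ^ 2)⁻¹) m :=
      (integrable_const _).indicator ms
    have b4 : ∫ p, ({p : V × V | ‖p.1 - y‖ ≤ t}.indicator (fun _ => c * (t ^ 2)⁻¹) p -
        CB * kp t 1 (p.1 - y)) ∂m ≤ TL F m (d1 (F.tf y t)) := by
      refine integral_mono_ae (i2.sub (i1.const_mul CB)) (int_TL F hm a1.d1.continuous) ?_
      filter_upwards [hm.2] with p hp
      refine le_trans (le_of_eq ?_) (hB y p.1 p.2 t hy ht0 (by linarith) hp.2)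
      simp only [indicator, mem_ofPred_eq, mem_closedBall, dist_eq_norm]
    rw [integral_sub i2 (i1.const_mul CB), integral_indicator_const _ ms, integral_const_mul,
      smul_eq_mul] at b4
    have b5 := mul_le_mul_of_nonneg_left g2 hβ
    have b6 := mul_le_mul_of_nonneg_left b3 hCB
    have b7 := neg_le_of_abs_le b2
    rw [le_div_iff₀ hc, div_eq_mul_inv]
    change mass m y t * (c * (t ^ 2)⁻¹) - _ ≤ _ at b4
    linarith
  have hs : Θ ≤ (β * (Cg * CA) + CB * (C5 * (Θ * s1 + m.real univ / s1))) / c := by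
    refine hΘ.trans_le (csSup_le ⟨_, r, ⟨le_rfl, hrs⟩, rfl⟩ ?_)
    rintro _ ⟨t, ht', rfl⟩
    exact key t ht'.1 ht'.2
  have hΘb : Θ ≤ 2 / c * (Cg * CA + CB * C5 / s1) * (m.real univ + β) := by
    rw [le_div_iff₀ hc] at hs
    rw [div_mul_eq_mul_div, div_mul_eq_mul_div, le_div_iff₀ hc]
    have e1 := mul_le_mul_of_nonneg_left k2 hΘ0
    have e2 : 0 ≤ Θ * s1 := by positivity
    have e3 : 0 ≤ Cg * CA * m.real univ := by positivity
    have e4 : 0 ≤ CB * C5 / s1 * β := by positivity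
    have e5 : CB * (C5 * (Θ * s1 + m.real univ / s1)) =
        CB * C5 * (Θ * s1) + CB * C5 / s1 * m.real univ := by ring
    nlinarith
  have hρ0 : 0 < ρ := hr.trans_le hρ
  rw [add_mul, add_mul]
  by_cases hρ1 : ρ ≤ s1
  · have e1 := mul_le_mul_of_nonneg_right hΘb (sq_nonneg ρ)
    have e2 : 0 ≤ (s1 ^ 2)⁻¹ * (m.real univ + β) * ρ ^ 2 := by positivity
    linarith [hle ρ hρ hρ1]
  · have e1 : 0 ≤ 2 / c * (Cg * CA + CB * C5 / s1) * (m.real univ + β) * ρ ^ 2 := by positivity
    have e2 : 1 ≤ (s1 ^ 2)⁻¹ * ρ ^ 2 := by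
      rw [← div_eq_inv_mul, one_le_div (by positivity)]
      exact pow_le_pow_left₀ hs1.le (not_le.1 hρ1).le 2
    have e3 := mul_le_mul_of_nonneg_left e2 (add_nonneg ht hβ)
    linarith [mass_le m y ρ]

end Vale.Agent.P204
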