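import Vale.Agent.P204.Stmt

/-! Derivative bounds for the test form of the monotonicity formula. -/

set_option maxSynthPendingDepth 3

open scoped Topology ContDiff RealInnerProductSpace
open Set Metric MeasureTheory Filter

noncomputable section
namespace Vale.Agent.P204
namespace MonA

variable {E E' E'' : Type} [NormedAddCommGroup E] [NormedSpace ℝ E] [NormedAddCommGroup E']
  [NormedSpace ℝ E'] [NormedAddCommGroup E''] [NormedSpace ℝ E''] {M : ℕ} {k k' : ℤ}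
  {f f' : V → ℝ → V → E} {g : V → ℝ → V → E'}

/-- families of functions of order `k` at the scale `|x - y| + s` -/
def Sy (M : ℕ) (k : ℤ) (f : V → ℝ → V → E) : Prop :=
  (∀ y s, 0 < s → ContDiff ℝ ∞ (f y s)) ∧ ∃ C, 0 ≤ C ∧ ∀ y s x, ‖y‖ ≤ 4 → 0 < s → s ≤ 1 →
    ‖x - y‖ ≤ 1 → ∀ l ≤ M,
      (‖x - y‖ + s) ^ l * ‖iteratedFDeriv ℝ l (f y s) x‖ ≤ C * (‖x - y‖ + s) ^ k

lemma Sy.bil (B : E →L[ℝ] E' →L[ℝ] E'') (hf : Sy M k f) (hg : Sy M k' g) :
    Sy M (k + k') (fun y s z => B (f y s z) (g y s z)) := by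
  obtain ⟨f1, C, hC, f2⟩ := hf
  obtain ⟨g1, C', hC', g2⟩ := hg
  refine ⟨fun y s hs => (B.contDiff.comp (f1 y s hs)).clm_apply (g1 y s hs),
    ‖B‖ * 2 ^ M * (C * C'), by positivity, fun y s x hy hs hs1 hx l hl => ?_⟩
  have hr : 0 < ‖x - y‖ + s := by positivity
  have h := B.norm_iteratedFDeriv_le_of_bilinear (f1 y s hs) (g1 y s hs) x (n := l)
    (mod_cast le_top)
  refine (mul_le_mul_of_nonneg_left h (by positivity)).trans ?_
  rw [mul_left_comm, Finset.mul_sum]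
  calc _ ≤ ‖B‖ * ∑ i ∈ Finset.range (l + 1),
        (l.choose i : ℝ) * (C * C' * (‖x - y‖ + s) ^ (k + k')) := by
        refine mul_le_mul_of_nonneg_left (Finset.sum_le_sum fun i hi => ?_) (norm_nonneg _)
        have hi' : i ≤ l := Nat.lt_succ_iff.1 (Finset.mem_range.1 hi)
        have h1 := mul_le_mul (f2 y s x hy hs hs1 hx i (by omega))
          (g2 y s x hy hs hs1 hx (l - i) (by omega)) (by positivity) (by positivity)
        have h2 := mul_le_mul_of_nonneg_left h1 (Nat.cast_nonneg (α := ℝ) (l.choose i))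
        rw [zpow_add₀ hr.ne', ← pow_mul_pow_sub _ hi']
        linarith
    _ = ‖B‖ * 2 ^ l * (C * C') * (‖x - y‖ + s) ^ (k + k') := by
        rw [← Finset.sum_mul, ← Nat.cast_sum, Nat.sum_range_choose]
        push_cast
        ring
    _ ≤ _ := by gcongr; norm_num

lemma Sy.clm (L : E →L[ℝ] E') (hf : Sy M k f) : Sy M k (fun y s z => L (f y s z)) := by
  obtain ⟨f1, C, hC, f2⟩ := hf
  refine ⟨fun y s hs => L.contDiff.comp (f1 y s hs), ‖L‖ * C, by positivity,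
    fun y s x hy hs hs1 hx l hl => ?_⟩
  have h := L.norm_iteratedFDeriv_comp_left (f1 y s hs).contDiffAt (x := x) (n := l)
    (mod_cast le_top)
  refine (mul_le_mul_of_nonneg_left h (by positivity)).trans ?_
  rw [mul_left_comm, mul_assoc]
  exact mul_le_mul_of_nonneg_left (f2 y s x hy hs hs1 hx l hl) (norm_nonneg _)

lemma Sy.add (hf : Sy M k f) (hg : Sy M k f') : Sy M k (fun y s z => f y s z + f' y s z) := by
  obtain ⟨f1, C, hC, f2⟩ := hf
  obtain ⟨g1, C', hC', g2⟩ := hg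
  refine ⟨fun y s hs => (f1 y s hs).add (g1 y s hs), C + C', by positivity,
    fun y s x hy hs hs1 hx l hl => ?_⟩
  rw [fun_iteratedFDeriv_add_apply ((f1 y s hs).contDiffAt.of_le (mod_cast le_top))
    ((g1 y s hs).contDiffAt.of_le (mod_cast le_top))]
  refine (mul_le_mul_of_nonneg_left (norm_add_le _ _) (by positivity)).trans ?_
  linarith [f2 y s x hy hs hs1 hx l hl, g2 y s x hy hs hs1 hx l hl]

lemma Sy.le {M' : ℕ} (hf : Sy M k f) (h : M' ≤ M) : Sy M' k f := by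
  obtain ⟨f1, C, hC, f2⟩ := hf
  exact ⟨f1, C, hC, fun y s x hy hs hs1 hx l hl => f2 y s x hy hs hs1 hx l (hl.trans h)⟩

lemma Sy.congr (hf : Sy M k f) (h : ∀ y s, 0 < s → f' y s = f y s) : Sy M k f' := by
  obtain ⟨f1, C, hC, f2⟩ := hf
  exact ⟨fun y s hs => h y s hs ▸ f1 y s hs, C, hC, fun y s x hy hs hs1 hx l hl =>
    h y s hs ▸ f2 y s x hy hs hs1 hx l hl⟩

lemma Sy.val (hf : Sy M k f) : ∃ C, 0 ≤ C ∧ ∀ y s x, ‖y‖ ≤ 4 → 0 < s → s ≤ 1 → ‖x - y‖ ≤ 1 →
    ‖f y s x‖ ≤ C * (‖x - y‖ + s) ^ k := by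
  obtain ⟨-, C, hC, f2⟩ := hf
  exact ⟨C, hC, fun y s x hy hs hs1 hx => by simpa using f2 y s x hy hs hs1 hx 0 (Nat.zero_le _)⟩

lemma Sy.zero (f1 : ∀ y s, 0 < s → ContDiff ℝ ∞ (f y s)) {C : ℝ} (hC : 0 ≤ C)
    (h : ∀ y s x, ‖y‖ ≤ 4 → 0 < s → s ≤ 1 → ‖x - y‖ ≤ 1 → ‖f y s x‖ ≤ C * (‖x - y‖ + s) ^ k) :
    Sy 0 k f :=
  ⟨f1, C, hC, fun y s x hy hs hs1 hx l hl => by
    rw [Nat.le_zero.1 hl]; simpa using h y s x hy hs hs1 hx⟩

lemma Sy.fderiv (hf : Sy (M + 1) k f) : Sy M (k - 1) (fun y s => fderiv ℝ (f y s)) := by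
  obtain ⟨f1, C, hC, f2⟩ := hf
  refine ⟨fun y s hs => cd_fderiv (f1 y s hs), C, hC, fun y s x hy hs hs1 hx l hl => ?_⟩
  have hr : 0 < ‖x - y‖ + s := by positivity
  have h := f2 y s x hy hs hs1 hx (l + 1) (by omega)
  rw [norm_iteratedFDeriv_fderiv, zpow_sub_one₀ hr.ne', ← mul_assoc, le_mul_inv_iff₀ hr]
  rw [pow_succ] at h
  linarith

lemma Sy.succ (h0 : Sy 0 k f) (hf : Sy M (k - 1) (fun y s => _root_.fderiv ℝ (f y s))) :
    Sy (M + 1) k f := by
  obtain ⟨f1, C, hC, f2⟩ := h0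
  obtain ⟨-, C', hC', g2⟩ := hf
  refine ⟨f1, C + C', by positivity, fun y s x hy hs hs1 hx l hl => ?_⟩
  have hr : 0 < ‖x - y‖ + s := by positivity
  have hk : 0 < (‖x - y‖ + s) ^ k := zpow_pos hr k
  rcases l with _ | l
  · have := f2 y s x hy hs hs1 hx 0 le_rfl
    nlinarith
  · have h := g2 y s x hy hs hs1 hx l (by omega)
    rw [norm_iteratedFDeriv_fderiv, zpow_sub_one₀ hr.ne', ← mul_assoc, le_mul_inv_iff₀ hr] at h
    rw [pow_succ]
    nlinarith

lemma Sy.const {c : V → E} {C : ℝ} (h : ∀ y, ‖c y‖ ≤ C) : Sy M 0 (fun y _ _ => c y) := by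
  have hC : 0 ≤ C := (norm_nonneg _).trans (h 0)
  refine ⟨fun y s hs => contDiff_const, C, hC, fun y s x hy hs hs1 hx l hl => ?_⟩
  rcases l with _ | l
  · simpa using h y
  · simpa [iteratedFDeriv_succ_const] using hC

lemma bdd {a : V → E} (ha : ContDiff ℝ ∞ a) (M : ℕ) :
    ∃ C, 0 ≤ C ∧ ∀ l ≤ M, ∀ x : V, ‖x‖ ≤ 5 → ‖iteratedFDeriv ℝ l a x‖ ≤ C := by
  have h : ∀ l : ℕ, ∃ C, ∀ x ∈ closedBall (0 : V) 5, ‖iteratedFDeriv ℝ l a x‖ ≤ C := fun l =>
    (isCompact_closedBall 0 5).exists_bound_of_continuousOn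
      (ha.continuous_iteratedFDeriv (mod_cast le_top)).continuousOn
  choose C hC using h
  refine ⟨∑ l ∈ Finset.range (M + 1), |C l|, by positivity, fun l hl x hx => ?_⟩
  exact ((hC l x (by simpa using hx)).trans (le_abs_self _)).trans
    (Finset.single_le_sum (f := fun l => |C l|) (fun _ _ => abs_nonneg _)
      (Finset.mem_range.2 (by omega)))

lemma of_bdd (f1 : ∀ y s, 0 < s → ContDiff ℝ ∞ (f y s)) {C : ℝ} (hC : 0 ≤ C)
    (h : ∀ y s x, ‖y‖ ≤ 4 → ‖x - y‖ ≤ 1 → ∀ l ≤ M, ‖iteratedFDeriv ℝ l (f y s) x‖ ≤ C) :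
    Sy M 0 f := by
  refine ⟨f1, 2 ^ M * C, by positivity, fun y s x hy hs hs1 hx l hl => ?_⟩
  rw [zpow_zero, mul_one]
  refine mul_le_mul ?_ (h y s x hy hx l hl) (norm_nonneg _) (by positivity)
  exact (pow_le_pow_left₀ (by positivity) (by linarith) l).trans
    (pow_le_pow_right₀ one_le_two hl)

lemma five {x y : V} (hy : ‖y‖ ≤ 4) (hx : ‖x - y‖ ≤ 1) : ‖x‖ ≤ 5 := by
  linarith [norm_le_insert' x y]

lemma Sy.fix {a : V → E} (ha : ContDiff ℝ ∞ a) : Sy M 0 (fun _ _ z => a z) := by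
  obtain ⟨C, hC, h⟩ := bdd ha M
  exact of_bdd (fun _ _ _ => ha) hC fun y s x hy hx l hl => h l hl x (five hy hx)

lemma Sy.shift {a : V → E} (ha : ContDiff ℝ ∞ a) : Sy M 0 (fun y _ z => a (z - y)) := by
  obtain ⟨C, hC, h⟩ := bdd ha M
  refine of_bdd (fun _ _ _ => ha.comp (contDiff_id.sub contDiff_const)) hC
    fun y s x hy hx l hl => ?_
  rw [iteratedFDeriv_comp_sub]
  exact h l hl _ (by linarith)

lemma Sy.diff {a : V → E} (ha : ContDiff ℝ ∞ a) : Sy M 1 (fun y _ z => a z - a y) := by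
  obtain ⟨C, hC, h⟩ := bdd ha 1
  refine (Sy.succ (M := M) (Sy.zero (fun _ _ _ => ha.sub contDiff_const) hC
    fun y s x hy hs hs1 hx => ?_) ?_).le (Nat.le_succ M)
  · have := (convex_closedBall (0 : V) 5).norm_image_sub_le_of_norm_fderiv_le (𝕜 := ℝ) (f := a)
      (C := C) (x := y) (y := x) (fun z _ => (ha.differentiable (by simp)).differentiableAt)
      (fun z hz => by
        have := h 1 le_rfl z (by simpa using hz)
        rwa [norm_iteratedFDeriv_one] at this) (by simpa using by linarith)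
      (by simpa using five hy hx)
    rw [zpow_one]
    nlinarith
  · exact (Sy.fix (cd_fderiv ha)).congr fun y s _ => funext fun z => fderiv_sub_const _

lemma Sy.smul {a : V → ℝ → V → ℝ} (ha : Sy M k a) (hf : Sy M k' f) :
    Sy M (k + k') (fun y s z => a y s z • f y s z) :=
  ha.bil (ContinuousLinearMap.lsmul ℝ ℝ) hf

lemma Sy.app {a : V → ℝ → V → E →L[ℝ] E'} (ha : Sy M k a) (hf : Sy M k' f) :
    Sy M (k + k') (fun y s z => a y s z (f y s z)) :=
  ha.bil (ContinuousLinearMap.id ℝ (E →L[ℝ] E')) hf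

/-- the inner product as a bilinear map -/
def inL : V →L[ℝ] V →L[ℝ] ℝ := innerSL ℝ

variable (F : Frame)

def nn (y : V) (s : ℝ) (z : V) : ℝ := nk s (F.A y (z - y))
def xi (T : End) (y z : V) : Cov := (innerSL ℝ (T (F.A y (z - y)))).comp (F.A y)
def lam (y : V) (s : ℝ) (z : V) : Cov := nn F y s z • xi F J0 y z
def chi (w : V) : ℝ := cut 1 ((2 : ℝ) • w)

lemma tf_eq (y : V) (s : ℝ) : F.tf y s = fun z => chi (z - y) • lam F y s z := by
  funext z
  rw [Frame.tf, mul_smul]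
  rfl

lemma chi_sm : ContDiff ℝ ∞ chi := (cut_sm 1).comp (contDiff_id.const_smul (2 : ℝ))

lemma chi_zero {w : V} (h : 1 ≤ ‖w‖) : chi w = 0 :=
  cut_zero le_rfl (by rw [norm_smul, Real.norm_two]; linarith)

lemma has_a (y z : V) : HasFDerivAt (fun z => F.A y (z - y)) (F.A y) z :=
  (F.A y).hasFDerivAt.comp z ((hasFDerivAt_id z).sub_const y)

lemma sm_a (y : V) : ContDiff ℝ ∞ (fun z => F.A y (z - y)) :=
  (F.A y).contDiff.comp (contDiff_id.sub contDiff_const)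

lemma sy_a : Sy M 1 (fun y _ z => F.A y (z - y)) := by
  refine (Sy.succ (M := M) (Sy.zero (fun y _ _ => sm_a F y) (C := 5 / 4) (by norm_num)
    fun y s x hy hs hs1 hx => ?_) ?_).le (Nat.le_succ M)
  · rw [zpow_one]
    linarith [F.norm_A_le y (x - y)]
  · exact (Sy.const F.opNorm_A).congr fun y s _ => funext fun z => (has_a F y z).fderiv

lemma sy_xi (T : End) : Sy M 1 (fun y _ z => xi F T y z) :=
  (((sy_a F).clm T).clm inL).bil (ContinuousLinearMap.compL ℝ V V ℝ) (Sy.const F.opNorm_A)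

lemma has_nn (y z : V) {s : ℝ} (hs : 0 < s) : HasFDerivAt (nn F y s)
    ((-2 : ℝ) • (nn F y s z • nn F y s z • xi F (ContinuousLinearMap.id ℝ V) y z)) z := by
  have h := (hasDerivAt_inv (x := ‖F.A y (z - y)‖ ^ 2 + s ^ 2) (by positivity)).comp_hasFDerivAt z
    ((has_a F y z).norm_sq.add_const (s ^ 2))
  refine h.congr_fderiv ?_
  ext v
  simp [nn, nk, xi, ← inv_pow]
  ring

lemma sm_nn (y : V) {s : ℝ} (hs : 0 < s) : ContDiff ℝ ∞ (nn F y s) :=
  (((sm_a F y).norm_sq ℝ).add contDiff_const).inv fun z => by positivity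

lemma sy_nn (M : ℕ) : Sy M (-2) (nn F) := by
  have h0 : Sy 0 (-2) (nn F) := by
    refine Sy.zero (fun y _ hs => sm_nn F y hs) (C := 4) (by norm_num)
      fun y s x hy hs hs1 hx => ?_
    have h1 := F.le_norm_A y (x - y)
    have h2 := norm_nonneg (x - y)
    rw [nn, nk, Real.norm_of_nonneg (by positivity), zpow_neg, zpow_ofNat, ← div_eq_mul_inv,
      inv_eq_one_div, div_le_div_iff₀ (by positivity) (by positivity)]
    nlinarith [sq_nonneg (‖x - y‖ - s), mul_self_le_mul_self (by positivity) h1]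
  induction M with
  | zero => exact h0
  | succ M ih =>
    exact h0.succ (((ih.smul (ih.smul (sy_xi F (ContinuousLinearMap.id ℝ V)))).clm
      ((-2 : ℝ) • ContinuousLinearMap.id ℝ Cov)).congr
        fun y s hs => funext fun z => (has_nn F y z hs).fderiv)

lemma sy_lam (M : ℕ) : Sy M (-1) (lam F) := (sy_nn F M).smul (sy_xi F J0)

lemma sy_dlam (M : ℕ) : Sy M (-2) (fun y s => d1 (lam F y s)) :=
  (sy_lam F (M + 1)).fderiv.clm alt2

lemma ap_dlam (y z p q : V) {s : ℝ} (hs : 0 < s) : ap (d1 (lam F y s) z) p q =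
    -2 * nn F y s z ^ 2 * (⟪F.A y (z - y), F.A y p⟫ * ⟪J0 (F.A y (z - y)), F.A y q⟫
      - ⟪F.A y (z - y), F.A y q⟫ * ⟪J0 (F.A y (z - y)), F.A y p⟫)
    + 2 * nn F y s z * ⟪J0 (F.A y p), F.A y q⟫ := by
  have h1 : HasFDerivAt (xi F J0 y) (((ContinuousLinearMap.compL ℝ V V ℝ).flip (F.A y)).comp
      (inL.comp (J0.comp (F.A y)))) z :=
    ((ContinuousLinearMap.compL ℝ V V ℝ).flip (F.A y)).hasFDerivAt.comp z
      (inL.hasFDerivAt.comp z (J0.hasFDerivAt.comp z (has_a F y z)))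
  have h2 : HasFDerivAt (lam F y s) _ z := (has_nn F y z hs).smul h1
  have e : ∀ a b : V, inL a b = ⟪a, b⟫ := fun _ _ => rfl
  rw [ap_d1, h2.fderiv]
  simp [xi, e, inner_V]
  ring

lemma cm_dlam (y z : V) {s : ℝ} (hs : 0 < s) : F.cm y (d1 (lam F y s) z) = 0 := by
  rw [← F.inv_iff]
  intro u v
  rw [ap_dlam F y z _ _ hs, ap_dlam F y z _ _ hs]
  simp [inner_V]
  ring

lemma d1_tf (h1 : NatS) (y z : V) {s : ℝ} (hs : 0 < s) : d1 (F.tf y s) z =
    w1 (fderiv ℝ chi (z - y)) (lam F y s z) + chi (z - y) • d1 (lam F y s) z := by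
  rw [tf_eq, h1.d1_smul (g := fun z => chi (z - y))
    ((chi_sm.comp (contDiff_id.sub contDiff_const)).differentiable (by simp) z)
    (((sy_lam F 0).1 y s hs).differentiable (by simp) z), fderiv_comp_sub]

lemma sy_w1 (M : ℕ) : Sy M (-1) (fun y s z => w1 (fderiv ℝ chi (z - y)) (lam F y s z)) := by
  have e : ∀ ξ η : Cov, w1 ξ η = alt2 (ContinuousLinearMap.smulRightL ℝ V Cov ξ η) := fun ξ η =>
    ap_ext fun p q => by simp [ap_w1, ap_alt2]
  simp only [e]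
  exact ((Sy.shift (cd_fderiv chi_sm)).bil _ (sy_lam F M)).clm alt2

lemma tf_zero {y z : V} (s : ℝ) (h : 1 ≤ ‖z - y‖) : F.tf y s z = 0 := by
  rw [tf_eq]
  simp [chi_zero h]

lemma tf_sm (y : V) {s : ℝ} (hs : 0 < s) : ContDiff ℝ ∞ (F.tf y s) := by
  rw [tf_eq]
  exact (chi_sm.comp (contDiff_id.sub contDiff_const)).smul ((sy_lam F 0).1 y s hs)

lemma d1_tf_zero {y z : V} (s : ℝ) (h : 1 < ‖z - y‖) : d1 (F.tf y s) =ᶠ[𝓝 z] fun _ => 0 := by
  have h1 : F.tf y s =ᶠ[𝓝 z] fun _ => 0 := by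
    filter_upwards [(isOpen_lt continuous_const (continuous_id.sub continuous_const).norm).mem_nhds
      h] with w hw
    exact tf_zero F s (le_of_lt hw)
  filter_upwards [h1.fderiv (𝕜 := ℝ)] with w hw
  simp [d1, hw]

end MonA

open MonA in
theorem monoA (h1 : NatS) : MonoA := by
  intro F M
  obtain ⟨-, C, hC, h⟩ := ((Sy.fix F.sm_cm).app (sy_w1 F M)).add
    ((Sy.shift chi_sm).smul ((Sy.diff F.sm_cm).app (sy_dlam F M)))
  refine ⟨2 * C, by positivity, fun y s hy hs hs1 => ⟨⟨tf_sm F y hs, fun z hz => tf_zero F s ?_⟩,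
    fun x z hxz l hl => ?_⟩⟩
  · linarith [norm_le_insert' z y]
  have hk := kp_pos hs 1 (z - y)
  by_cases hx : ‖x - y‖ ≤ 1
  · have e : (fun z => F.cm z (d1 (F.tf y s) z)) = fun z =>
        F.cm z (w1 (fderiv ℝ chi (z - y)) (lam F y s z)) +
          chi (z - y) • (F.cm z - F.cm y) (d1 (lam F y s) z) := by
      funext z
      rw [d1_tf F h1 y z hs, map_add, map_smul, sub_apply, cm_dlam F y z hs, sub_zero]
    have h2 : ‖z - y‖ ≤ ‖x - y‖ + s := by
      have := norm_sub_le_norm_sub_add_norm_sub z x y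
      rw [norm_sub_rev z x] at this
      linarith
    have h3 := h y s x hy hs hs1 hx l hl
    have hr : 0 < ‖x - y‖ + s := by positivity
    beta_reduce
    rw [e, indicator_of_mem (by rw [mem_closedBall, dist_eq_norm]; linarith)]
    refine le_trans (mul_le_mul_of_nonneg_right (pow_le_pow_left₀ hs.le
      (le_add_of_nonneg_left (norm_nonneg _)) l) (norm_nonneg _)) (h3.trans ?_)
    rw [zero_add, zpow_neg_one, kp, pow_one, mul_comm 2 C, mul_assoc]
    refine mul_le_mul_of_nonneg_left ?_ hC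
    rw [← div_eq_mul_inv, inv_eq_one_div, div_le_div_iff₀ hr (by positivity)]
    linarith [norm_nonneg (x - y)]
  · have e : (fun z => F.cm z (d1 (F.tf y s) z)) =ᶠ[𝓝 x] fun _ => 0 := by
      filter_upwards [d1_tf_zero F s (not_le.1 hx)] with w hw
      rw [hw, map_zero]
    rw [(e.iteratedFDeriv ℝ l).eq_of_nhds, iteratedFDeriv_fun_zero, Pi.zero_apply, norm_zero,
      mul_zero]
    exact indicator_nonneg (fun w _ => mul_nonneg (by positivity) (kp_pos hs 1 _).le) z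

end Vale.Agent.P204
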