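import Vale.Agent.P204.Stmt

/-! Naturality of the exterior derivative, integration by parts, Piola identities. -/

set_option maxSynthPendingDepth 3

open scoped Topology ContDiff RealInnerProductSpace
open Set Metric MeasureTheory

noncomputable section
namespace Vale.Agent.P204
namespace Nat

variable {P : Type} [NormedAddCommGroup P] [NormedSpace ℝ P]

lemma has_wv {p q : P → V} {p' q' : P →L[ℝ] V} {x : P} (hp : HasFDerivAt p p' x)
    (hq : HasFDerivAt q q' x) : ∃ L : P →L[ℝ] E6, HasFDerivAt (fun y => wv (p y) (q y)) L x ∧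
      ∀ a, L a = wv (p' a) (q x) + wv (p x) (q' a) :=
  ⟨_, (wv.hasFDerivAt.comp x hp).clm_apply hq, fun a => by simp [add_comm]⟩

lemma has_ap {h : P → E6} {p q : P → V} {h' : P →L[ℝ] E6} {p' q' : P →L[ℝ] V} {x : P}
    (hh : HasFDerivAt h h' x) (hp : HasFDerivAt p p' x) (hq : HasFDerivAt q q' x) :
    ∃ L : P →L[ℝ] ℝ, HasFDerivAt (fun y => ap (h y) (p y) (q y)) L x ∧
      ∀ a, L a = ap (h' a) (p x) (q x) + ap (h x) (p' a) (q x) + ap (h x) (p x) (q' a) := by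
  obtain ⟨L, h1, h2⟩ := has_wv hp hq
  simp only [ap_inner]
  refine ⟨_, (h1.inner ℝ hh).const_mul 2, fun a => ?_⟩
  simp [h2, inner_add_left]
  ring

lemma has_D4 {p q u v : P → V} {p' q' u' v' : P →L[ℝ] V} {x : P} (hp : HasFDerivAt p p' x)
    (hq : HasFDerivAt q q' x) (hu : HasFDerivAt u u' x) (hv : HasFDerivAt v v' x) :
    ∃ L : P →L[ℝ] ℝ, HasFDerivAt (fun y => D4 (p y) (q y) (u y) (v y)) L x ∧
      ∀ a, L a = D4 (p' a) (q x) (u x) (v x) + D4 (p x) (q' a) (u x) (v x)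
        + D4 (p x) (q x) (u' a) (v x) + D4 (p x) (q x) (u x) (v' a) := by
  obtain ⟨L, h1, h2⟩ := has_wv hp hq
  obtain ⟨L', h3, h4⟩ := has_ap (Q6.hasFDerivAt.comp x h1) hu hv
  simp only [D4_eq, st_apply]
  exact ⟨L', h3, fun a => by simp [h4, h2]⟩

section snd
variable {E : Type} [NormedAddCommGroup E] [NormedSpace ℝ E] {f : P → E} {x : P}

lemma diff2 (h : ContDiffAt ℝ 2 f x) : DifferentiableAt ℝ (fderiv ℝ f) x :=
  (h.fderiv_right (m := 1) (by norm_num)).differentiableAt one_ne_zero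

lemma diff1 (h : ContDiffAt ℝ 2 f x) : DifferentiableAt ℝ f x := h.differentiableAt two_ne_zero

lemma has2 (h : ContDiffAt ℝ 2 f x) (b : P) :
    HasFDerivAt (fun y => fderiv ℝ f y b) ((fderiv ℝ (fderiv ℝ f) x).flip b) x := by
  simpa using (diff2 h).hasFDerivAt.clm_apply (hasFDerivAt_const b x)

lemma symm2 (h : ContDiffAt ℝ 2 f x) (a b : P) :
    fderiv ℝ (fderiv ℝ f) x a b = fderiv ℝ (fderiv ℝ f) x b a :=
  h.isSymmSndFDerivAt (by simp) a b

end snd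

lemma lin_V {E : Type} [NormedAddCommGroup E] [NormedSpace ℝ E] (L : V →L[ℝ] E) (a : V) :
    L a = a 0 • L (bv 0) + a 1 • L (bv 1) + a 2 • L (bv 2) + a 3 • L (bv 3) := by
  conv_lhs => rw [V_sum a]
  simp only [map_add, map_smul]

lemma id5 (ξ : Cov) (a0 a1 a2 a3 a4 : V) :
    ξ a0 * D4 a1 a2 a3 a4 - ξ a1 * D4 a0 a2 a3 a4 + ξ a2 * D4 a0 a1 a3 a4
      - ξ a3 * D4 a0 a1 a2 a4 + ξ a4 * D4 a0 a1 a2 a3 = 0 := by
  rw [lin_V ξ a0, lin_V ξ a1, lin_V ξ a2, lin_V ξ a3, lin_V ξ a4]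
  simp only [D4_apply, smul_eq_mul]
  ring

lemma id4 (H : End) (a0 a1 a2 a3 : V) :
    D4 (H a0) a1 a2 a3 - D4 (H a1) a0 a2 a3 + D4 (H a2) a0 a1 a3 - D4 (H a3) a0 a1 a2
      = (∑ i, H (bv i) i) * D4 a0 a1 a2 a3 := by
  rw [lin_V H a0, lin_V H a1, lin_V H a2, lin_V H a3, Fin.sum_univ_four]
  simp only [D4_apply, PiLp.add_apply, PiLp.smul_apply, smul_eq_mul]
  ring

lemma int_dir {r : ℝ} {f : V → ℝ} (h : Cc r f) (v : V) :
    Integrable (fun y => fderiv ℝ f y v) ∧ ∫ y, fderiv ℝ f y v = 0 := by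
  have h1 : Integrable (fun y => fderiv ℝ f y v) :=
    (ContinuousLinearMap.apply ℝ ℝ v).integrable_comp h.fderiv.integrable
  refine ⟨h1, ?_⟩
  have := integral_mul_fderiv_eq_neg_fderiv_mul_of_integrable (μ := volume) (f := fun _ : V => (1 : ℝ))
    (g := f) (v := v) (by simp) (by simpa using h1) (by simpa using h.integrable)
    (fun _ _ => differentiableAt_const _)
    (fun x _ => h.1.differentiable (by simp) x)
  simpa using this

lemma nat {τ : V → V} {β : V → E6} {y : V} (hτ : ContDiffAt ℝ 2 τ y)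
    (hβ : DifferentiableAt ℝ β (τ y)) (a b c : V) :
    cyc (fun y' => pull (fderiv ℝ τ y') (β (τ y'))) y a b c
      = cyc β (τ y) (fderiv ℝ τ y a) (fderiv ℝ τ y b) (fderiv ℝ τ y c) := by
  have h1 := hβ.hasFDerivAt.comp y (diff1 hτ).hasFDerivAt
  have h2 : DifferentiableAt ℝ (fun y' => pull (fderiv ℝ τ y') (β (τ y'))) y :=
    (((contDiff_pull (n := 1)).differentiable one_ne_zero _).comp y (diff2 hτ)).clm_apply
      h1.differentiableAt
  have key : ∀ a b c, ap (fderiv ℝ (fun y' => pull (fderiv ℝ τ y') (β (τ y'))) y a) b c =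
      ap (fderiv ℝ β (τ y) (fderiv ℝ τ y a)) (fderiv ℝ τ y b) (fderiv ℝ τ y c)
      + ap (β (τ y)) (fderiv ℝ (fderiv ℝ τ) y a b) (fderiv ℝ τ y c)
      - ap (β (τ y)) (fderiv ℝ (fderiv ℝ τ) y a c) (fderiv ℝ τ y b) := fun a b c => by
    obtain ⟨L, h3, h4⟩ := has_ap h1 (has2 hτ b) (has2 hτ c)
    rw [← fderiv_ap h2]
    simp only [ap_pull]
    rw [sub_eq_add_neg, ← ap_swap]
    exact (congrArg (fun L => L a) h3.fderiv).trans (h4 a)
  simp only [cyc, key, symm2 hτ b a, symm2 hτ c a, symm2 hτ c b]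
  ring

lemma dd {b : V → Cov} {y : V} (hb : ContDiffAt ℝ 2 b y) (u v w : V) :
    cyc (d1 b) y u v w = 0 := by
  have h : fderiv ℝ (d1 b) y = alt2.comp (fderiv ℝ (fderiv ℝ b) y) :=
    (alt2.hasFDerivAt.comp y (diff2 hb).hasFDerivAt).fderiv
  simp only [cyc, h, ContinuousLinearMap.comp_apply, ap_alt2, symm2 hb v u, symm2 hb w u,
    symm2 hb w v]
  ring

lemma d1_smul {g : V → ℝ} {b : V → Cov} {y : V} (hg : DifferentiableAt ℝ g y)
    (hb : DifferentiableAt ℝ b y) :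
    d1 (fun x => g x • b x) y = w1 (fderiv ℝ g y) (b y) + g y • d1 b y := by
  refine ap_ext fun p q => ?_
  rw [ap_add, ap_smul, ap_d1, ap_d1, ap_w1, (hg.hasFDerivAt.fun_smul hb.hasFDerivAt).fderiv]
  simp
  ring

lemma div {r : ℝ} {Y : V → V} (h : Cc r Y) : ∫ y, ∑ i, fderiv ℝ Y y (bv i) i = 0 := by
  have h1 : ∀ i, Cc r (fun y => pr i (Y y)) := fun i => Cc.clm contDiff_const h
  have h2 : ∀ i y, fderiv ℝ Y y (bv i) i = fderiv ℝ (fun y => pr i (Y y)) y (bv i) := fun i y => by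
    exact (congrArg (fun L => L (bv i))
      ((pr i).hasFDerivAt.comp y (h.1.differentiable (by simp) y).hasFDerivAt).fderiv).symm
  simp only [h2]
  rw [integral_finsetSum _ fun i _ => (int_dir (h1 i) _).1]
  exact Finset.sum_eq_zero fun i _ => (int_dir (h1 i) _).2

lemma cc_mul {r : ℝ} {b : V → Cov} (hb : Cc r b) (u : V) {g : V → ℝ} (hg : ContDiff ℝ ∞ g) :
    Cc r (fun y => b y u * g y) :=
  ⟨(hb.1.clm_apply contDiff_const).mul hg, fun y hy => by simp [hb.2 y hy]⟩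

lemma ibp {r : ℝ} {b : V → Cov} {β : V → E6} (hb : Cc r b) (hβ : ContDiff ℝ ∞ β) :
    ∫ y, wq (β y) (d1 b y) = ∫ y, (b y (bv 0) * cyc β y (bv 1) (bv 2) (bv 3)
      - b y (bv 1) * cyc β y (bv 0) (bv 2) (bv 3) + b y (bv 2) * cyc β y (bv 0) (bv 1) (bv 3)
      - b y (bv 3) * cyc β y (bv 0) (bv 1) (bv 2)) := by
  have c1 : ∀ u v w, Cc r (fun y => b y u * ap (β y) v w) := fun u v w =>
    cc_mul hb u (cd_ap hβ contDiff_const contDiff_const)
  set G : V → V → V → V → ℝ := fun u v w => (fun y => b y u * ap (β y) v w) +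
    (fun y => b y v * ap (β y) w u) + (fun y => b y w * ap (β y) u v) with hG
  have c2 : ∀ u v w, Cc r (G u v w) := fun u v w => ((c1 u v w).add (c1 v w u)).add (c1 w u v)
  have d0 : ∀ u v w y, ∃ L : Cov, HasFDerivAt (fun y => b y u * ap (β y) v w) L y ∧
      ∀ a, L a = fderiv ℝ b y a u * ap (β y) v w + b y u * ap (fderiv ℝ β y a) v w :=
    fun u v w y => by
      obtain ⟨L, h1, h2⟩ := has_ap (hβ.differentiable (by simp) y).hasFDerivAt
        (hasFDerivAt_const v y) (hasFDerivAt_const w y)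
      refine ⟨_, ((hb.1.differentiable (by simp) y).hasFDerivAt.clm_apply
        (hasFDerivAt_const u y)).mul h1, fun a => ?_⟩
      have z1 : ap (β y) 0 w = 0 := by simp [ap_apply]
      have z2 : ap (β y) v 0 = 0 := by simp [ap_apply]
      simp [h2, z1, z2]
      ring
  choose L hL eL using d0
  have d1' : ∀ u v w y a, fderiv ℝ (G u v w) y a = L u v w y a + L v w u y a + L w u v y a :=
    fun u v w y a => by
      rw [(((hL u v w y).add (hL v w u y)).add (hL w u v y)).fderiv]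
      rfl
  have c3 : ∀ u v w z, Integrable (fun y => b y u * cyc β y v w z) := fun u v w z =>
    (cc_mul hb u (by
      have := fun a => (cd_fderiv hβ).clm_apply (contDiff_const (c := a))
      exact ((cd_ap (this v) contDiff_const contDiff_const).add
        (cd_ap (this w) contDiff_const contDiff_const)).add
        (cd_ap (this z) contDiff_const contDiff_const))).integrable
  obtain ⟨i0, j0⟩ := int_dir (c2 (bv 1) (bv 2) (bv 3)) (bv 0)
  obtain ⟨i1, j1⟩ := int_dir (c2 (bv 0) (bv 2) (bv 3)) (bv 1)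
  obtain ⟨i2, j2⟩ := int_dir (c2 (bv 0) (bv 1) (bv 3)) (bv 2)
  obtain ⟨i3, j3⟩ := int_dir (c2 (bv 0) (bv 1) (bv 2)) (bv 3)
  have e := integral_add ((((c3 (bv 0) (bv 1) (bv 2) (bv 3)).sub (c3 (bv 1) (bv 0) (bv 2) (bv 3))).add
    (c3 (bv 2) (bv 0) (bv 1) (bv 3))).sub (c3 (bv 3) (bv 0) (bv 1) (bv 2)))
    (((i0.sub i1).add i2).sub i3)
  have e2 := integral_sub ((i0.sub i1).add i2) i3
  have e3 := integral_add (i0.sub i1) i2
  have e4 := integral_sub i0 i1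
  simp only [Pi.add_apply, Pi.sub_apply] at e e2 e3 e4
  rw [e2, e3, e4, j0, j1, j2, j3, sub_zero, add_zero, sub_zero, add_zero] at e
  rw [← e]
  refine integral_congr_ae (Filter.Eventually.of_forall fun y => ?_)
  have s1 := fun h => ap_swap h (bv 3) (bv 1)
  have s2 := fun h => ap_swap h (bv 3) (bv 0)
  have s3 := fun h => ap_swap h (bv 2) (bv 0)
  simp only [d1', eL, wq_ap, ap_d1, cyc, s1, s2, s3]
  ring

lemma p4 {Ψ : P → V} {η : V → ℝ} {p : P} (hΨ : ContDiffAt ℝ 2 Ψ p)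
    (hη : DifferentiableAt ℝ η (Ψ p)) (om : P → P → P → P → P → ℝ)
    (h : ∀ a b c d p', om a b c d p' = η (Ψ p') *
      D4 (fderiv ℝ Ψ p' a) (fderiv ℝ Ψ p' b) (fderiv ℝ Ψ p' c) (fderiv ℝ Ψ p' d))
    (x0 x1 x2 x3 x4 : P) : fderiv ℝ (om x1 x2 x3 x4) p x0 - fderiv ℝ (om x0 x2 x3 x4) p x1
      + fderiv ℝ (om x0 x1 x3 x4) p x2 - fderiv ℝ (om x0 x1 x2 x4) p x3
      + fderiv ℝ (om x0 x1 x2 x3) p x4 = 0 := by
  set A := fderiv ℝ Ψ p with hA
  set S := fderiv ℝ (fderiv ℝ Ψ) p with hS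
  have key : ∀ a b c d e, fderiv ℝ (om a b c d) p e =
      fderiv ℝ η (Ψ p) (A e) * D4 (A a) (A b) (A c) (A d) + η (Ψ p) *
        (D4 (S e a) (A b) (A c) (A d) + D4 (A a) (S e b) (A c) (A d)
          + D4 (A a) (A b) (S e c) (A d) + D4 (A a) (A b) (A c) (S e d)) := fun a b c d e => by
    obtain ⟨L, h1, h2⟩ := has_D4 (has2 hΨ a) (has2 hΨ b) (has2 hΨ c) (has2 hΨ d)
    rw [funext (h a b c d)]
    refine (congrArg (fun L => L e)
      ((hη.hasFDerivAt.comp p (diff1 hΨ).hasFDerivAt).mul h1).fderiv).trans ?_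
    simp [h2, ← hA, ← hS]
    ring
  have sy : ∀ a b, S a b = S b a := symm2 hΨ
  simp only [key, sy x1 x0, sy x2 x0, sy x3 x0, sy x4 x0, sy x2 x1, sy x3 x1, sy x4 x1, sy x3 x2,
    sy x4 x2, sy x4 x3]
  have := id5 (fderiv ℝ η (Ψ p)) (A x0) (A x1) (A x2) (A x3) (A x4)
  rw [← sub_eq_zero.2 this]
  generalize η (Ψ p) = t
  simp only [D4_apply]
  ring

lemma p3 {Ψ : P → V} {g : V → V} {p : P} (hΨ : ContDiffAt ℝ 2 Ψ p)
    (hg : DifferentiableAt ℝ g (Ψ p)) (om : P → P → P → P → ℝ)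
    (h : ∀ a b c p', om a b c p' =
      D4 (g (Ψ p')) (fderiv ℝ Ψ p' a) (fderiv ℝ Ψ p' b) (fderiv ℝ Ψ p' c))
    (x0 x1 x2 x3 : P) : fderiv ℝ (om x1 x2 x3) p x0 - fderiv ℝ (om x0 x2 x3) p x1
      + fderiv ℝ (om x0 x1 x3) p x2 - fderiv ℝ (om x0 x1 x2) p x3
      = (∑ i, fderiv ℝ g (Ψ p) (bv i) i) *
        D4 (fderiv ℝ Ψ p x0) (fderiv ℝ Ψ p x1) (fderiv ℝ Ψ p x2) (fderiv ℝ Ψ p x3) := by
  set A := fderiv ℝ Ψ p with hA
  set S := fderiv ℝ (fderiv ℝ Ψ) p with hS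
  have key : ∀ a b c e, fderiv ℝ (om a b c) p e =
      D4 (fderiv ℝ g (Ψ p) (A e)) (A a) (A b) (A c) + D4 (g (Ψ p)) (S e a) (A b) (A c)
        + D4 (g (Ψ p)) (A a) (S e b) (A c) + D4 (g (Ψ p)) (A a) (A b) (S e c) := fun a b c e => by
    obtain ⟨L, h1, h2⟩ := has_D4 (hg.hasFDerivAt.comp p (diff1 hΨ).hasFDerivAt) (has2 hΨ a)
      (has2 hΨ b) (has2 hΨ c)
    rw [funext (h a b c)]
    exact (congrArg (fun L => L e) h1.fderiv).trans (h2 e)
  have sy : ∀ a b, S a b = S b a := symm2 hΨ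
  simp only [key, sy x1 x0, sy x2 x0, sy x3 x0, sy x2 x1, sy x3 x1, sy x3 x2]
  rw [← id4]
  simp only [D4_apply]
  ring

end Nat

theorem natS : NatS :=
  ⟨Nat.nat, Nat.dd, Nat.d1_smul, Nat.ibp, Nat.div, Nat.p4, Nat.p3⟩

end Vale.Agent.P204
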