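import Vale.Agent.P204.Stmt

/-! Pointwise facts on the Newton kernel. -/

set_option maxSynthPendingDepth 3

open scoped Topology ContDiff RealInnerProductSpace Manifold
open Set Metric MeasureTheory Filter

noncomputable section
namespace Vale.Agent.P204
namespace New

variable {δ : ℝ}

lemma nk_pos (hδ : 0 < δ) (w : V) : 0 < nk δ w := by unfold nk; positivity

lemma cd_nk (hδ : 0 < δ) : ContDiff ℝ ∞ (nk δ) :=
  ((contDiff_norm_sq ℝ).add contDiff_const).inv fun w => by positivity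

lemma cd_gk (hδ : 0 < δ) : ContDiff ℝ ∞ (gk δ) :=
  (contDiff_const.mul ((cd_nk hδ).pow 2)).smul contDiff_id

lemma cd_hk (hδ : 0 < δ) : ContDiff ℝ ∞ (hk δ) := contDiff_const.mul ((cd_nk hδ).pow 3)

lemma cd_Ps (F : Frame) : ContDiff ℝ ∞ (fun p : V × V => F.Ps p.1 p.2) :=
  (F.smA.comp contDiff_fst).clm_apply (contDiff_snd.sub contDiff_fst)

lemma cd_DPs (F : Frame) : ContDiff ℝ ∞ (fun p : V × V => F.DPs p.1 p.2) :=
  (((ContinuousLinearMap.flipₗᵢ ℝ V V V).contDiff.comp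
    ((cd_fderiv F.smA).comp contDiff_fst)).clm_apply (contDiff_snd.sub contDiff_fst)).sub
    (F.smA.comp contDiff_fst)

lemma cd_g (F : Frame) (hδ : 0 < δ) : ContDiff ℝ ∞ (fun p : V × V => gk δ (F.Ps p.1 p.2)) :=
  (cd_gk hδ).comp (cd_Ps F)

lemma cd_k12 (F : Frame) (hδ : 0 < δ) : ContDiff ℝ ∞ (fun p : V × V => F.k12 δ p.1 p.2) :=
  (cd_pull (F.smA.comp contDiff_fst)).clm_comp
    ((contDiff_stL.comp (cd_g F hδ)).clm_comp (cd_DPs F))

lemma cd_k21 (F : Frame) (hδ : 0 < δ) (a a' : V) :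
    ContDiff ℝ ∞ (fun p : V × V => F.k21 δ p.1 p.2 a a') := by
  have h1 : ContDiff ℝ ∞ (fun p : V × V => st (gk δ (F.Ps p.1 p.2)) (F.DPs p.1 p.2 a)) :=
    cd_st (cd_g F hδ) ((cd_DPs F).clm_apply contDiff_const)
  have h2 := ((innerSL ℝ : E6 →L[ℝ] E6 →L[ℝ] ℝ).contDiff.comp h1).const_smul (2 : ℝ)
  have h3 := (wv.contDiff.comp ((cd_DPs F).clm_apply (contDiff_const (c := a')))).clm_comp
    (F.smA.comp contDiff_fst)
  exact h2.clm_comp h3

lemma cd_k22 (F : Frame) (a a' : V) : ContDiff ℝ ∞ (fun p : V × V => F.k22 p.1 p.2 a a') :=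
  (cd_pull (F.smA.comp contDiff_fst)).clm_apply
    (cd_st ((cd_DPs F).clm_apply contDiff_const) ((cd_DPs F).clm_apply contDiff_const))

lemma d_nk (hδ : 0 < δ) (w : V) : HasFDerivAt (nk δ) (innerSL ℝ (gk δ w)) w := by
  have h0 : ‖w‖ ^ 2 + δ ^ 2 ≠ 0 := by positivity
  refine ((hasDerivAt_inv h0).comp_hasFDerivAt w
    ((hasStrictFDerivAt_norm_sq w).hasFDerivAt.add_const (δ ^ 2))).congr_fderiv ?_
  ext v
  simp [gk, nk]
  ring

lemma d_Ps (F : Frame) (x z : V) :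
    HasFDerivAt (fun p : V × V => F.Ps p.1 p.2) ((F.DPs x z).coprod (F.A x)) (x, z) := by
  have hA : HasFDerivAt F.A (fderiv ℝ F.A x) (x, z).1 :=
    (F.smA.differentiable (by simp) x).hasFDerivAt
  refine ((hA.comp (x, z) hasFDerivAt_fst).clm_apply
    (hasFDerivAt_snd.sub hasFDerivAt_fst)).congr_fderiv ?_
  refine ContinuousLinearMap.ext fun v => ?_
  simp [Frame.DPs]
  abel

lemma d_left {E : Type} [NormedAddCommGroup E] [NormedSpace ℝ E] {f : V × V → E} {x z : V}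
    (h : DifferentiableAt ℝ f (x, z)) (a : V) :
    fderiv ℝ f (x, z) (a, 0) = fderiv ℝ (fun x' => f (x', z)) x a := by
  have := (h.hasFDerivAt.comp x (hasFDerivAt_prodMk_left (𝕜 := ℝ) x z)).fderiv
  exact (congrArg (fun T : V →L[ℝ] E => T a) this).symm

lemma d_right {E : Type} [NormedAddCommGroup E] [NormedSpace ℝ E] {f : V × V → E} {x z : V}
    (h : DifferentiableAt ℝ f (x, z)) (a : V) :
    fderiv ℝ f (x, z) (0, a) = fderiv ℝ (fun z' => f (x, z')) z a := by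
  have := (h.hasFDerivAt.comp z (hasFDerivAt_prodMk_right (𝕜 := ℝ) x z)).fderiv
  exact (congrArg (fun T : V →L[ℝ] E => T a) this).symm

lemma d_N (F : Frame) (hδ : 0 < δ) (x z : V) :
    HasFDerivAt (fun p : V × V => F.Nz δ p.2 p.1)
      ((innerSL ℝ (gk δ (F.Ps x z))).comp ((F.DPs x z).coprod (F.A x))) (x, z) :=
  (d_nk hδ _).comp (x, z) (d_Ps F x z)

lemma dx (F : Frame) (hδ : 0 < δ) (x z a : V) :
    fderiv ℝ (F.Nz δ z) x a = ⟪gk δ (F.Ps x z), F.DPs x z a⟫ := by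
  have h := d_N F hδ x z
  refine (d_left h.differentiableAt a).symm.trans ?_
  rw [h.fderiv]
  simp

lemma dz (F : Frame) (hδ : 0 < δ) (x z a : V) :
    fderiv ℝ (fun z' => F.Nz δ z' x) z a = ⟪gk δ (F.Ps x z), F.A x a⟫ := by
  have h := d_N F hδ x z
  refine (d_right h.differentiableAt a).symm.trans ?_
  rw [h.fderiv]
  simp

lemma tr_gk (hδ : 0 < δ) (w : V) : ∑ i, fderiv ℝ (gk δ) w (bv i) i = -hk δ w := by
  have h := ((((d_nk hδ w).pow 2).const_mul (-2)).smul (hasFDerivAt_id w)).fderiv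
  have h0 : ‖w‖ ^ 2 + δ ^ 2 ≠ 0 := by positivity
  have h1 : nk δ w * (w 0 ^ 2 + w 1 ^ 2 + w 2 ^ 2 + w 3 ^ 2 + δ ^ 2) = 1 := by
    rw [← normsq_V]; exact inv_mul_cancel₀ h0
  rw [show fderiv ℝ (gk δ) w = _ from h]
  simp [Fin.sum_univ_four, bv_apply, inner_V, gk, hk]
  linear_combination (8 * nk δ w ^ 2) * h1

lemma piola (h1 : NatS) (F : Frame) (hδ : 0 < δ) (x z a a' : V) :
    fderiv ℝ (fun x' => F.k12 δ x' z a') x a - fderiv ℝ (fun x' => F.k12 δ x' z a) x a'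
      = -(hk δ (F.Ps x z) • F.k22 x z a a') - d1 (fun z' => F.k21 δ x z' a a') z := by
  refine ap_ext fun p q => ?_
  have hd : ∀ s : V × V, fderiv ℝ (fun p : V × V => F.Ps p.1 p.2) s
      = (F.DPs s.1 s.2).coprod (F.A s.1) := fun s => (d_Ps F s.1 s.2).fderiv
  have h := h1.p3 (P := V × V) (Ψ := fun p => F.Ps p.1 p.2) (g := gk δ) (p := (x, z))
    ((cd_Ps F).contDiffAt.of_le (by norm_cast))
    ((cd_gk hδ).differentiable (by simp) _) _ (fun _ _ _ _ => rfl) (a, 0) (a', 0) (0, p) (0, q)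
  have e1 : ∀ b c : V, fderiv ℝ (fun s : V × V => ap (F.k12 δ s.1 s.2 b) p q) (x, z) (c, 0)
      = ap (fderiv ℝ (fun x' => F.k12 δ x' z b) x c) p q := fun b c => by
    have h2 := (cd_k12 F hδ).clm_apply (contDiff_const (c := b))
    rw [d_left ((cd_ap h2 contDiff_const contDiff_const).differentiable (by simp) _)]
    exact fderiv_ap ((h2.comp (contDiff_prodMk_left z)).differentiable (by simp) x) p q c
  have e2 : ∀ b c : V, fderiv ℝ (fun s : V × V => F.k21 δ s.1 s.2 a a' b) (x, z) (0, c)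
      = fderiv ℝ (fun z' => F.k21 δ x z' a a') z c b := fun b c => by
    have h2 := cd_k21 F hδ a a'
    rw [d_right ((h2.clm_apply contDiff_const).differentiable (by simp) _)]
    exact fderiv_app ((h2.comp (contDiff_prodMk_right x)).differentiable (by simp) z) b c
  simp only [hd, ContinuousLinearMap.coprod_apply, map_zero, add_zero, zero_add, tr_gk hδ] at h
  simp only [k12_apply, k21_apply] at e1 e2
  rw [e1, e1, e2, e2] at h
  rw [ap_sub, ap_sub, ap_neg, ap_smul, ap_d1, k22_apply]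
  linarith

lemma lip_of {E : Type} [NormedAddCommGroup E] [NormedSpace ℝ E] {f : V → E} {c : E}
    (h : ContDiff ℝ ∞ f) (h0 : ∀ y, 12 < ‖y‖ → f y = c) :
    ∃ C, 0 ≤ C ∧ (∀ x, ‖fderiv ℝ f x‖ ≤ C) ∧ ∀ x z, ‖f x - f z‖ ≤ C * ‖x - z‖ := by
  have hc : Cc 12 (fun y => f y - c) := ⟨h.sub contDiff_const, fun y hy => by simp [h0 y hy]⟩
  obtain ⟨C, a1, a2⟩ := hc.fderiv.bounded
  simp only [fderiv_sub_const] at a2
  exact ⟨C, a1, a2, fun x z => convex_univ.norm_image_sub_le_of_norm_fderiv_le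
    (fun y _ => h.differentiable (by simp) y) (fun y _ => a2 y) (mem_univ _) (mem_univ _)⟩

lemma lip (F : Frame) : ∃ C, 0 ≤ C ∧ ∀ x z : V, ‖F.A x - F.A z‖ ≤ C * ‖x - z‖ ∧
    ‖F.Ai x - F.Ai z‖ ≤ C * ‖x - z‖ ∧ ‖F.J x - F.J z‖ ≤ C * ‖x - z‖ ∧
    ‖F.DPs x z + F.A x‖ ≤ C * ‖x - z‖ := by
  obtain ⟨C1, a1, a2, a3⟩ := lip_of F.smA F.out
  obtain ⟨C2, b1, -, b3⟩ := lip_of F.smAi F.out_Ai
  obtain ⟨C3, c1, -, c3⟩ := lip_of (c := J0) F.smJ fun y hy => by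
    simp [Frame.J, F.out y hy, F.out_Ai y hy]
  refine ⟨C1 + C2 + C3, by positivity, fun x z => ⟨(a3 x z).trans ?_, (b3 x z).trans ?_,
    (c3 x z).trans ?_, ?_⟩⟩
  · gcongr; linarith
  · gcongr; linarith
  · gcongr; linarith
  · rw [Frame.DPs, sub_add_cancel, norm_sub_rev]
    refine (ContinuousLinearMap.le_opNorm _ _).trans ?_
    rw [ContinuousLinearMap.opNorm_flip]
    gcongr
    linarith [a2 x]

lemma bd (F : Frame) : ∃ C, 0 ≤ C ∧ ∀ (δ : ℝ) (x z : V), 0 < δ → δ ≤ 1 → ‖x - z‖ ≤ 16 →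
    kp δ 2 (x - z) ≤ C * F.Nz δ z x ∧ F.Nz δ z x ≤ C * kp δ 2 (x - z) ∧
    ‖gk δ (F.Ps x z)‖ ≤ C * kp δ 3 (x - z) ∧ ‖fderiv ℝ (F.Nz δ z) x‖ ≤ C * kp δ 3 (x - z) ∧
    0 ≤ hk δ (F.Ps x z) ∧ hk δ (F.Ps x z) ≤ C * δ ^ 2 * kp δ 6 (x - z) := by
  obtain ⟨C, hC, h⟩ := lip F
  refine ⟨512 + 40 * (16 * C + 2), by positivity, fun δ x z hδ _ hr => ?_⟩
  have a1 : ‖F.Ps x z‖ ≤ 5 / 4 * ‖x - z‖ := norm_sub_rev x z ▸ F.norm_A_le x _
  have a2 : 3 / 4 * ‖x - z‖ ≤ ‖F.Ps x z‖ := norm_sub_rev x z ▸ F.le_norm_A x _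
  have hn := nk_pos hδ (F.Ps x z)
  have hk2 := kp_pos hδ 2 (x - z)
  have hk3 := kp_pos hδ 3 (x - z)
  have hk6 := kp_pos hδ 6 (x - z)
  have r0 := norm_nonneg (x - z)
  have w0 := norm_nonneg (F.Ps x z)
  have b1 : kp δ 2 (x - z) ≤ 2 * nk δ (F.Ps x z) := by
    unfold kp nk
    rw [← div_eq_mul_inv, inv_eq_one_div, div_le_div_iff₀ (by positivity) (by positivity)]
    nlinarith [mul_nonneg r0 hδ.le]
  have b2 : nk δ (F.Ps x z) ≤ 4 * kp δ 2 (x - z) := by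
    unfold kp nk
    rw [← div_eq_mul_inv, inv_eq_one_div, div_le_div_iff₀ (by positivity) (by positivity)]
    nlinarith [sq_nonneg (‖x - z‖ - δ)]
  have b3 : ‖gk δ (F.Ps x z)‖ ≤ 40 * kp δ 3 (x - z) := by
    rw [gk, norm_smul, Real.norm_eq_abs, abs_mul, abs_pow, abs_of_pos hn]
    calc _ ≤ |(-2 : ℝ)| * (4 * kp δ 2 (x - z)) ^ 2 * (5 / 4 * (‖x - z‖ + δ)) := by
          gcongr; linarith
      _ = _ := by unfold kp; field_simp; norm_num
  have b4 : ‖F.DPs x z‖ ≤ 16 * C + 2 := by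
    have := norm_sub_le (F.DPs x z + F.A x) (F.A x)
    rw [add_sub_cancel_right] at this
    nlinarith [(h x z).2.2.2, F.opNorm_A x]
  have b5 : ‖fderiv ℝ (F.Nz δ z) x‖ ≤ 40 * kp δ 3 (x - z) * (16 * C + 2) :=
    ContinuousLinearMap.opNorm_le_bound _ (by positivity) fun a => by
      rw [dx F hδ, mul_assoc]
      refine (norm_inner_le_norm _ _).trans ?_
      gcongr
      exact (ContinuousLinearMap.le_opNorm _ _).trans (by gcongr)
  have b6 : hk δ (F.Ps x z) ≤ 512 * δ ^ 2 * kp δ 6 (x - z) :=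
    calc _ ≤ 8 * δ ^ 2 * (4 * kp δ 2 (x - z)) ^ 3 := by unfold hk; gcongr
      _ = _ := by unfold kp; field_simp; norm_num
  refine ⟨b1.trans ?_, b2.trans ?_, b3.trans ?_, b5.trans ?_, by unfold hk; positivity,
    b6.trans ?_⟩
  · exact mul_le_mul_of_nonneg_right (by linarith) hn.le
  · gcongr; linarith
  · gcongr; linarith
  · nlinarith
  · gcongr; linarith

end New

theorem newS (h1 : NatS) (F : Frame) : NewS F where
  sm := fun _ hδ => ⟨(New.cd_nk hδ).comp (New.cd_Ps F), New.cd_g F hδ,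
    (New.cd_hk hδ).comp (New.cd_Ps F), New.cd_DPs F, New.cd_k12 F hδ, New.cd_k21 F hδ,
    New.cd_k22 F⟩
  dx := fun _ x z a hδ => New.dx F hδ x z a
  dz := fun _ x z a hδ => New.dz F hδ x z a
  piola := fun _ x z a a' hδ => New.piola h1 F hδ x z a a'
  lip := New.lip F
  bd := New.bd F

end Vale.Agent.P204
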