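import Vale.Agent.P204.Stmt

/-! The `C^k` norms and the bounds at a scale. -/

set_option maxSynthPendingDepth 3

open scoped Topology ContDiff RealInnerProductSpace Manifold
open Set Metric MeasureTheory Filter

noncomputable section
namespace Vale.Agent.P204

namespace NkA

section
variable {E E' : Type} [NormedAddCommGroup E] [NormedSpace ℝ E] [NormedAddCommGroup E']
  [NormedSpace ℝ E']

lemma bdd_on {g : V → E} (hg : ContDiff ℝ ∞ g) (k : ℕ) (R : ℝ) :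
    ∃ B, 1 ≤ B ∧ ∀ i ≤ k, ∀ y : V, ‖y‖ ≤ R → ‖iteratedFDeriv ℝ i g y‖ ≤ B := by
  have h : ∀ i : ℕ, ∃ B, ∀ y ∈ closedBall (0 : V) R, ‖iteratedFDeriv ℝ i g y‖ ≤ B := fun i =>
    (isCompact_closedBall 0 R).exists_bound_of_continuousOn
      (hg.continuous_iteratedFDeriv (by exact_mod_cast le_top)).continuousOn
  choose B hB using h
  have h1 : 0 ≤ ∑ i ∈ Finset.range (k + 1), |B i| := Finset.sum_nonneg fun _ _ => abs_nonneg _
  refine ⟨1 + ∑ i ∈ Finset.range (k + 1), |B i|, by linarith, fun i hi y hy => ?_⟩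
  have h2 := Finset.single_le_sum (f := fun i => |B i|) (fun _ _ => abs_nonneg _)
    (Finset.mem_range.2 (Nat.lt_succ_of_le hi))
  have h3 := hB i y (mem_closedBall_zero_iff.2 hy)
  have h4 := le_abs_self (B i)
  linarith

lemma le_nk {r : ℝ} {f : V → E} {k l : ℕ} (h : Cc r f) (hl : l ≤ k) (y : V) :
    ‖iteratedFDeriv ℝ l f y‖ ≤ Nk k f := by
  obtain ⟨B, h1, hB⟩ := bdd_on h.1 k r
  refine le_ciSup (f := fun p : Fin (k + 1) × V => ‖iteratedFDeriv ℝ p.1 f p.2‖) ⟨B, ?_⟩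
    (⟨l, Nat.lt_succ_of_le hl⟩, y)
  rintro _ ⟨⟨i, x⟩, rfl⟩
  rcases le_or_gt ‖x‖ r with hx | hx
  · exact hB i (Nat.le_of_lt_succ i.2) x hx
  · show ‖iteratedFDeriv ℝ i f x‖ ≤ B
    rw [h.iteratedFDeriv_zero _ hx, norm_zero]
    linarith

lemma nk_le {f : V → E} {k : ℕ} {C : ℝ} (h : ∀ l ≤ k, ∀ y, ‖iteratedFDeriv ℝ l f y‖ ≤ C) :
    Nk k f ≤ C :=
  ciSup_le fun p => h p.1 (Nat.le_of_lt_succ p.1.2) p.2

lemma nonneg (k : ℕ) (f : V → E) : 0 ≤ Nk k f := Real.iSup_nonneg fun _ => norm_nonneg _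

lemma leib {g : V → E →L[ℝ] E'} {h : V → E} (hg : ContDiff ℝ ∞ g) (hh : ContDiff ℝ ∞ h)
    {k l : ℕ} (hl : l ≤ k) {y : V} {A B : ℝ} (hB : ∀ i ≤ k, ‖iteratedFDeriv ℝ i g y‖ ≤ B)
    (hA : ∀ i ≤ k, ‖iteratedFDeriv ℝ i h y‖ ≤ A) :
    ‖iteratedFDeriv ℝ l (fun y => g y (h y)) y‖ ≤ 2 ^ k * B * A := by
  have hB0 : 0 ≤ B := (norm_nonneg _).trans (hB 0 k.zero_le)
  have hA0 : 0 ≤ A := (norm_nonneg _).trans (hA 0 k.zero_le)
  refine (norm_iteratedFDeriv_clm_apply hg hh y (by exact_mod_cast le_top)).trans ?_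
  calc _ ≤ ∑ i ∈ Finset.range (l + 1), (l.choose i : ℝ) * B * A := by
        refine Finset.sum_le_sum fun i hi => ?_
        have := hB i (by have := Finset.mem_range.1 hi; omega)
        have := hA (l - i) (by omega)
        gcongr
    _ = 2 ^ l * B * A := by
        rw [← Finset.sum_mul, ← Finset.sum_mul, ← Nat.cast_sum, Nat.sum_range_choose]
        push_cast
        rfl
    _ ≤ _ := by gcongr; norm_num

lemma clm (g : V → E →L[ℝ] E') (k : ℕ) (r : ℝ) (hg : ContDiff ℝ ∞ g) :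
    ∃ C, 0 ≤ C ∧ ∀ f : V → E, Cc r f → Nk k (fun y => g y (f y)) ≤ C * Nk k f := by
  obtain ⟨B, h1, hB⟩ := bdd_on hg k r
  refine ⟨2 ^ k * B, by positivity, fun f hf => nk_le fun l hl y => ?_⟩
  rcases le_or_gt ‖y‖ r with hy | hy
  · exact leib hg hf.1 hl (fun i hi => hB i hi y hy) fun i hi => le_nk hf hi y
  · rw [(Cc.clm hg hf).iteratedFDeriv_zero _ hy, norm_zero]
    have := nonneg k f
    positivity

lemma comp (g : V → E →L[ℝ] E') (τ : V → V) (k : ℕ) (R : ℝ) (hg : Cc R g) (hτ : ContDiff ℝ ∞ τ) :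
    ∃ C, 0 ≤ C ∧ ∀ (r : ℝ) (f : V → E), Cc r f →
      Nk k (fun y => g y (f (τ y))) ≤ C * Nk k f := by
  obtain ⟨B, h1, hB⟩ := bdd_on hg.1 k R
  obtain ⟨D, h2, hD⟩ := bdd_on hτ k R
  refine ⟨2 ^ k * B * (k.factorial * D ^ k), by positivity, fun r f hf => nk_le fun l hl y => ?_⟩
  have h0 := nonneg k f
  rcases le_or_gt ‖y‖ R with hy | hy
  · rw [mul_assoc (2 ^ k * B)]
    refine leib hg.1 (hf.1.comp hτ) hl (fun i hi => hB i hi y hy) fun i hi => ?_
    refine (norm_iteratedFDeriv_comp_le hf.1 hτ (by exact_mod_cast le_top) y (C := Nk k f) (D := D)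
      (fun j hj => le_nk hf (hj.trans hi) _) fun j h3 h4 =>
        (hD j (h4.trans hi) y hy).trans (le_self_pow₀ h2 (by omega))).trans ?_
    rw [mul_right_comm]
    gcongr
  · have h3 : Cc R fun y => g y (f (τ y)) :=
      ⟨hg.1.clm_apply (hf.1.comp hτ), fun y hy => by simp [hg.2 y hy]⟩
    rw [h3.iteratedFDeriv_zero _ hy, norm_zero]
    positivity

end

lemma crude : ∃ C, 0 ≤ C ∧ ∀ (σ : (V → E2) → ℝ) (k M : ℕ) (Λ ε : ℝ), 0 ≤ Λ → k ≤ M → 0 < ε →
    ε ≤ 1 → (∀ c, Cc 7 c → |σ c| ≤ Λ * Nk k c) → LBd σ M ε (C * Λ * (ε ^ (k + 2))⁻¹) := by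
  have hv : 0 < (volume : Measure V).real (ball 0 1) :=
    ENNReal.toReal_pos (measure_ball_pos _ _ one_pos).ne' measure_ball_lt_top.ne
  refine ⟨(√((volume : Measure V).real (ball 0 1)))⁻¹, by positivity,
    fun σ k M Λ ε hΛ hk hε hε1 h c g hc hd hg => (h c (hc.mono (by linarith))).trans ?_⟩
  generalize hv' : (volume : Measure V).real (ball 0 1) = v at hv
  have key : Nk k c ≤ (√v)⁻¹ * (ε ^ (k + 2))⁻¹ * nL2 g := by
    refine nk_le fun l hl x => ?_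
    have h1 : (ε ^ l * ‖iteratedFDeriv ℝ l c x‖) ^ 2 * volume.real (closedBall x ε) ≤
        ∫ y, g y ^ 2 := by
      refine (setIntegral_ge_of_const_le_real measurableSet_closedBall
        measure_closedBall_lt_top.ne (fun z hz => ?_) hg.integrableOn).trans
        (setIntegral_le_integral hg (Eventually.of_forall fun _ => sq_nonneg _))
      exact pow_le_pow_left₀ (by positivity)
        (hd x z (by rwa [mem_closedBall, dist_comm, dist_eq_norm] at hz) l (hl.trans hk)) 2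
    rw [Measure.addHaar_real_closedBall _ _ hε.le, hv', finrank_euclideanSpace_fin] at h1
    have h2 : ε ^ l * ‖iteratedFDeriv ℝ l c x‖ * ε ^ 2 * √v ≤ nL2 g := by
      refine Real.le_sqrt_of_sq_le (le_of_eq_of_le ?_ h1)
      rw [mul_pow _ (√v), Real.sq_sqrt hv.le]
      ring
    have h3 : ε ^ k ≤ ε ^ l := pow_le_pow_of_le_one hε.le hε1 hl
    have h4 : 0 < √v := Real.sqrt_pos.2 hv
    rw [mul_assoc, le_inv_mul_iff₀ h4, le_inv_mul_iff₀ (by positivity)]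
    refine le_trans ?_ h2
    calc ε ^ (k + 2) * (√v * ‖iteratedFDeriv ℝ l c x‖)
        = ε ^ k * ‖iteratedFDeriv ℝ l c x‖ * ε ^ 2 * √v := by ring
      _ ≤ _ := by gcongr
  calc Λ * Nk k c ≤ Λ * ((√v)⁻¹ * (ε ^ (k + 2))⁻¹ * nL2 g) := by gcongr
    _ = _ := by ring

lemma dom_sup : ∃ C, 0 ≤ C ∧ ∀ a : ℝ, 0 ≤ a →
    Integrable (fun y => ((closedBall (0 : V) 8).indicator (fun _ => a) y) ^ 2) ∧
    nL2 ((closedBall (0 : V) 8).indicator (fun _ => a)) ≤ C * a := by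
  refine ⟨√((volume : Measure V).real (closedBall 0 8)), Real.sqrt_nonneg _, fun a ha => ?_⟩
  have e : (fun y => ((closedBall (0 : V) 8).indicator (fun _ => a) y) ^ 2) =
      (closedBall (0 : V) 8).indicator (fun _ => a ^ 2) := by
    funext y
    by_cases hy : y ∈ closedBall (0 : V) 8 <;> simp [hy]
  refine ⟨?_, ?_⟩
  · rw [e, integrable_indicator_iff measurableSet_closedBall]
    exact integrableOn_const measure_closedBall_lt_top.ne
  · rw [nL2, e, integral_indicator_const _ measurableSet_closedBall, smul_eq_mul,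
      Real.sqrt_mul measureReal_nonneg, Real.sqrt_sq ha]

lemma close (P : ℝ → ℝ → Prop) (ε1 L κ A C : ℝ) (p q : ℕ) (hL : 1 ≤ L) (hκ : 0 ≤ κ) (hA : 0 ≤ A)
    (hC : 0 ≤ C) (hpq : p ≤ q) (hκL : κ * L ^ q ≤ 1 / 2)
    (hm : ∀ ε β β', P ε β → β ≤ β' → P ε β') (hl : ∀ ε β, (∀ η, 0 < η → P ε (β + η)) → P ε β)
    (h0 : ∀ ε, 0 < ε → ε ≤ ε1 → P ε (C * (ε ^ q)⁻¹))
    (hs : ∀ ε β, 0 < ε → ε ≤ ε1 → 0 ≤ β → (∀ s, ε / L ≤ s → s ≤ ε1 → P s β) →
      P ε (A * (ε ^ p)⁻¹ + κ * β)) (ε : ℝ) (hε : 0 < ε) (hε1 : ε ≤ ε1) :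
    P ε (2 * A * (ε ^ p)⁻¹) := by
  have hL0 : 0 < L := by linarith
  have key : ∀ n : ℕ, ∀ ε, 0 < ε → ε ≤ ε1 →
      P ε (2 * A * (ε ^ p)⁻¹ + (1 / 2) ^ n * (C * (ε ^ q)⁻¹)) := by
    intro n
    induction n with
    | zero =>
      intro ε hε hε1
      refine hm _ _ _ (h0 ε hε hε1) ?_
      have : 0 ≤ 2 * A * (ε ^ p)⁻¹ := by positivity
      linarith
    | succ n ih =>
      intro ε hε hε1
      have h1 : 0 < ε / L := by positivity
      refine hm _ _ _ (hs ε (2 * A * ((ε / L) ^ p)⁻¹ + (1 / 2) ^ n * (C * ((ε / L) ^ q)⁻¹)) hε hε1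
        (by positivity) fun s h2 h3 => hm _ _ _ (ih s (h1.trans_le h2) h3) (by gcongr)) ?_
      have h2 : κ * L ^ p ≤ 1 / 2 := le_trans (by gcongr) hκL
      calc A * (ε ^ p)⁻¹ + κ * (2 * A * ((ε / L) ^ p)⁻¹ + (1 / 2) ^ n * (C * ((ε / L) ^ q)⁻¹))
          = A * (ε ^ p)⁻¹ + (κ * L ^ p * (2 * A * (ε ^ p)⁻¹) +
            κ * L ^ q * ((1 / 2) ^ n * (C * (ε ^ q)⁻¹))) := by
            rw [div_pow, div_pow ε, inv_div, inv_div]
            ring
        _ ≤ A * (ε ^ p)⁻¹ + (1 / 2 * (2 * A * (ε ^ p)⁻¹) +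
            1 / 2 * ((1 / 2) ^ n * (C * (ε ^ q)⁻¹))) := by gcongr
        _ = _ := by ring
  refine hl _ _ fun η hη => ?_
  have h1 : Tendsto (fun n : ℕ => (1 / 2 : ℝ) ^ n * (C * (ε ^ q)⁻¹)) atTop (𝓝 0) := by
    simpa using (tendsto_pow_atTop_nhds_zero_of_lt_one (r := (1 / 2 : ℝ)) (by norm_num)
      (by norm_num)).mul_const (C * (ε ^ q)⁻¹)
  obtain ⟨n, hn⟩ := (h1.eventually (ge_mem_nhds hη)).exists
  exact hm _ _ _ (key n ε hε hε1) (by linarith)

end NkA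

theorem nkS : NkS where
  le_nk := NkA.le_nk
  nk_le := NkA.nk_le
  nonneg := NkA.nonneg
  add k hf hg := NkA.nk_le fun l hl y => by
    rw [iteratedFDeriv_add_apply (hf.1.of_le (by exact_mod_cast le_top)).contDiffAt
      (hg.1.of_le (by exact_mod_cast le_top)).contDiffAt]
    exact (norm_add_le _ _).trans (add_le_add (NkA.le_nk hf hl y) (NkA.le_nk hg hl y))
  smul k c hf := by
    rw [Nk, Nk, Real.mul_iSup_of_nonneg (abs_nonneg c)]
    refine iSup_congr fun p => ?_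
    rw [iteratedFDeriv_const_smul_apply (hf.1.of_le (by exact_mod_cast le_top)).contDiffAt,
      norm_smul, Real.norm_eq_abs]
  mono hf hl := NkA.nk_le fun _ hi y => NkA.le_nk hf (hi.trans hl) y
  clm := NkA.clm
  comp := NkA.comp
  lbd_mono h hβ c g h1 h2 h3 := (h c g h1 h2 h3).trans
    (mul_le_mul_of_nonneg_right hβ (nL2_nonneg g))
  lbd_lim h c g h1 h2 h3 := le_of_forall_pos_le_add fun η hη => by
    have h0 := nL2_nonneg g
    refine (h (η / (nL2 g + 1)) (by positivity) c g h1 h2 h3).trans ?_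
    rw [add_mul, div_mul_eq_mul_div]
    refine add_le_add le_rfl ((div_le_iff₀ (by positivity)).2 ?_)
    nlinarith
  crude := NkA.crude
  dom_nk := by
    intro c M ε hε hε1 hc x z hxz l hl
    rcases le_or_gt ‖x‖ 7 with hx | hx
    · rw [indicator_of_mem (mem_closedBall_zero_iff.2 ?_)]
      · exact (mul_le_of_le_one_left (norm_nonneg _) (pow_le_one₀ hε.le hε1)).trans
          (NkA.le_nk hc hl x)
      · have := norm_sub_norm_le z x
        rw [norm_sub_rev] at this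
        linarith
    · rw [hc.iteratedFDeriv_zero _ hx, norm_zero, mul_zero]
      exact indicator_nonneg (fun _ _ => NkA.nonneg M c) z
  dom_sup := NkA.dom_sup
  close P ε1 L κ A C p q _ := NkA.close P ε1 L κ A C p q

end Vale.Agent.P204
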