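import Vale.Agent.P204.Stmt

/-! Approximate identities of high order. -/

set_option maxSynthPendingDepth 3

open scoped Topology ContDiff RealInnerProductSpace Manifold
open Set Metric MeasureTheory Filter

noncomputable section
namespace Vale.Agent.P204
namespace R1

lemma le_inf (n : ℕ) : (n : WithTop ℕ∞) ≤ ∞ := by exact_mod_cast le_top
lemma lt_inf (n : ℕ) : (n : WithTop ℕ∞) < ∞ := by exact_mod_cast ENat.natCast_lt_top n

lemma aff {P E F : Type} [NormedAddCommGroup P] [NormedSpace ℝ P] [NormedAddCommGroup E]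
    [NormedSpace ℝ E] [NormedAddCommGroup F] [NormedSpace ℝ F] {f : E → F} (hf : ContDiff ℝ ∞ f)
    (L : P →L[ℝ] E) (a : E) (n : ℕ) (x : P) :
    ‖iteratedFDeriv ℝ n (fun p => f (L p + a)) x‖ ≤ ‖iteratedFDeriv ℝ n f (L x + a)‖ * ‖L‖ ^ n := by
  have h1 : ContDiff ℝ ∞ (fun z => f (z + a)) := hf.comp (contDiff_id.add contDiff_const)
  have h2 := L.iteratedFDeriv_comp_right h1 x (le_inf n)
  rw [iteratedFDeriv_comp_add_right] at h2
  have h3 : (fun p => f (L p + a)) = (fun z => f (z + a)) ∘ L := rfl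
  rw [h3, h2]
  refine (ContinuousMultilinearMap.norm_compContinuousLinearMap_le _ _).trans (le_of_eq ?_)
  rw [Finset.prod_const, Finset.card_univ, Fintype.card_fin]

/-- the integrand after the change of variables -/
def Gv (Hs : V × V × ℝ → E2 →L[ℝ] E2) (c : V → E2) (v : V) (p : V × ℝ) : E2 :=
  Hs (p.1 - p.2 • v, v, p.2) (c (p.1 - p.2 • v))

def Lv (v : V) : V × ℝ →L[ℝ] V :=
  ContinuousLinearMap.fst ℝ V ℝ - (ContinuousLinearMap.snd ℝ V ℝ).smulRight v

def Av (v : V) : V × ℝ →L[ℝ] V × V × ℝ :=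
  (Lv v).prod ((0 : V × ℝ →L[ℝ] V).prod (ContinuousLinearMap.snd ℝ V ℝ))

lemma Lv_apply (v : V) (p : V × ℝ) : Lv v p + 0 = p.1 - p.2 • v := add_zero _

lemma Av_apply (v : V) (p : V × ℝ) : Av v p + (0, v, 0) = (p.1 - p.2 • v, v, p.2) :=
  Prod.ext (add_zero _) (Prod.ext (zero_add _) (add_zero _))

lemma Lv_le (v : V) (p : V × ℝ) : ‖Lv v p‖ ≤ (1 + ‖v‖) * ‖p‖ := by
  have h : Lv v p = p.1 - p.2 • v := rfl
  have h1 := norm_fst_le p
  have h2 := mul_le_mul_of_nonneg_right (norm_snd_le p) (norm_nonneg v)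
  rw [h]
  refine (norm_sub_le _ _).trans ?_
  rw [norm_smul]
  linarith

lemma norm_Lv (v : V) : ‖Lv v‖ ≤ 1 + ‖v‖ :=
  (Lv v).opNorm_le_bound (by positivity) (Lv_le v)

lemma norm_Av (v : V) : ‖Av v‖ ≤ 1 + ‖v‖ := by
  refine (Av v).opNorm_le_bound (by positivity) fun p => ?_
  have h : Av v p = (Lv v p, 0, p.2) := rfl
  have h1 := norm_snd_le p
  have h2 : 0 ≤ ‖v‖ * ‖p‖ := by positivity
  rw [h, Prod.norm_def, Prod.norm_def]
  refine max_le (Lv_le v p) (max_le ?_ ?_)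
  · rw [norm_zero]
    positivity
  · linarith

variable {Hs : V × V × ℝ → E2 →L[ℝ] E2} {C0 : ℝ}

lemma sm_joint (hH : ContDiff ℝ ∞ Hs) {c : V → E2} (hc : ContDiff ℝ ∞ c) (s : ℝ) :
    ContDiff ℝ ∞ (fun q : V × V => Gv Hs c q.2 (q.1, s)) := by
  have h : ContDiff ℝ ∞ (fun q : V × V => q.1 - s • q.2) :=
    contDiff_fst.sub (contDiff_snd.const_smul s)
  exact (hH.comp (h.prodMk (contDiff_snd.prodMk contDiff_const))).clm_apply (hc.comp h)

lemma sm_L (v : V) : ContDiff ℝ ∞ (fun p : V × ℝ => p.1 - p.2 • v) :=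
  contDiff_fst.sub (contDiff_snd.smul contDiff_const)

lemma sm_A (v : V) : ContDiff ℝ ∞ (fun p : V × ℝ => (p.1 - p.2 • v, v, p.2)) :=
  (sm_L v).prodMk (contDiff_const.prodMk contDiff_snd)

lemma sm_Gv (hH : ContDiff ℝ ∞ Hs) {c : V → E2} (hc : ContDiff ℝ ∞ c) (v : V) :
    ContDiff ℝ ∞ (Gv Hs c v) := (hH.comp (sm_A v)).clm_apply (hc.comp (sm_L v))

lemma core (hH : ContDiff ℝ ∞ Hs) (h0 : 0 ≤ C0) (n : ℕ) : ∃ C, 0 ≤ C ∧
    ∀ c : V → E2, ContDiff ℝ ∞ c → ∀ (v x : V) (s K : ℝ), ‖v‖ ≤ C0 → ‖x‖ ≤ 9 → 0 ≤ s → s ≤ 1 →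
      ∀ k ≤ n, (∀ i ≤ k, ‖iteratedFDeriv ℝ i c (x - s • v)‖ ≤ K) →
        ‖iteratedFDeriv ℝ k (Gv Hs c v) (x, s)‖ ≤ C * K := by
  have hK : IsCompact (closedBall (0 : V) (9 + C0) ×ˢ closedBall (0 : V) C0 ×ˢ Icc (0 : ℝ) 1) :=
    (isCompact_closedBall _ _).prod ((isCompact_closedBall _ _).prod isCompact_Icc)
  obtain ⟨H, hb⟩ := hK.exists_bound_of_continuousOn
    (f := fun p => ∑ i ∈ Finset.range (n + 1), ‖iteratedFDeriv ℝ i Hs p‖)
    (continuous_finsetSum _ fun i _ => (hH.continuous_iteratedFDeriv (le_inf i)).norm).continuousOn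
  refine ⟨2 ^ n * (|H| * (1 + C0) ^ n * (1 + C0) ^ n), by positivity, ?_⟩
  intro c hc v x s K hv hx s0 s1 k hk hKc
  have K0 : 0 ≤ K := (norm_nonneg _).trans (hKc 0 (Nat.zero_le _))
  have hmem : (x - s • v, v, s) ∈
      closedBall (0 : V) (9 + C0) ×ˢ closedBall (0 : V) C0 ×ˢ Icc (0 : ℝ) 1 := by
    refine ⟨mem_closedBall_zero_iff.2 ((norm_sub_le _ _).trans ?_),
      mem_closedBall_zero_iff.2 hv, s0, s1⟩
    rw [norm_smul, Real.norm_of_nonneg s0]
    nlinarith [norm_nonneg v]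
  have hH1 : ∀ i ≤ n, ‖iteratedFDeriv ℝ i Hs (x - s • v, v, s)‖ ≤ |H| := fun i hi =>
    (Finset.single_le_sum (f := fun i => ‖iteratedFDeriv ℝ i Hs (x - s • v, v, s)‖)
      (fun _ _ => norm_nonneg _) (Finset.mem_range.2 (Nat.lt_succ_of_le hi))).trans
      ((le_abs_self _).trans ((hb _ hmem).trans (le_abs_self H)))
  have hp : ∀ a : ℝ, 0 ≤ a → a ≤ 1 + ‖v‖ → ∀ i ≤ n, a ^ i ≤ (1 + C0) ^ n := fun a a0 a1 i hi =>
    (pow_le_pow_left₀ a0 (a1.trans (by linarith)) i).trans (pow_le_pow_right₀ (by linarith) hi)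
  have t1 : ∀ i ≤ n, ‖iteratedFDeriv ℝ i (fun p : V × ℝ => Hs (p.1 - p.2 • v, v, p.2)) (x, s)‖ ≤
      |H| * (1 + C0) ^ n := fun i hi => by
    have := aff hH (Av v) (0, v, 0) i (x, s)
    simp only [Av_apply] at this
    exact this.trans (mul_le_mul (hH1 i hi) (hp _ (norm_nonneg _) (norm_Av v) i hi)
      (by positivity) (abs_nonneg _))
  have t2 : ∀ i ≤ k, ‖iteratedFDeriv ℝ i (fun p : V × ℝ => c (p.1 - p.2 • v)) (x, s)‖ ≤
      K * (1 + C0) ^ n := fun i hi => by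
    have := aff hc (Lv v) 0 i (x, s)
    simp only [Lv_apply] at this
    exact this.trans (mul_le_mul (hKc i hi) (hp _ (norm_nonneg _) (norm_Lv v) i (hi.trans hk))
      (by positivity) K0)
  refine (norm_iteratedFDeriv_clm_apply (hH.comp (sm_A v)) (hc.comp (sm_L v)) (x, s)
    (le_inf k)).trans ?_
  calc _ ≤ ∑ i ∈ Finset.range (k + 1), (k.choose i : ℝ) * (|H| * (1 + C0) ^ n) *
        (K * (1 + C0) ^ n) := by
        refine Finset.sum_le_sum fun i hi => ?_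
        have hi' := Nat.lt_succ_iff.1 (Finset.mem_range.1 hi)
        exact mul_le_mul (mul_le_mul_of_nonneg_left (t1 i (hi'.trans hk)) (Nat.cast_nonneg _))
          (t2 _ (Nat.sub_le _ _)) (norm_nonneg _) (by positivity)
    _ = 2 ^ k * (|H| * (1 + C0) ^ n * (1 + C0) ^ n * K) := by
        rw [← Finset.sum_mul, ← Finset.sum_mul, ← Nat.cast_sum, Nat.sum_range_choose]
        push_cast
        ring
    _ ≤ 2 ^ n * (|H| * (1 + C0) ^ n * (1 + C0) ^ n * K) :=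
        mul_le_mul_of_nonneg_right (pow_le_pow_right₀ one_le_two hk) (by positivity)
    _ = _ := by ring

lemma slice {G : V × ℝ → E2} (hG : ContDiff ℝ ∞ G) (t : ℝ) (l : ℕ) (x : V) :
    ‖iteratedFDeriv ℝ l (fun z => G (z, 0) - G (z, t)) x‖ ≤
      ‖iteratedFDeriv ℝ l G (x, t) - iteratedFDeriv ℝ l G (x, 0)‖ := by
  have h1 : ContDiff ℝ ∞ (fun p => G (p + (0, t))) := hG.comp (contDiff_id.add contDiff_const)
  have h2 := aff (hG.sub h1) (ContinuousLinearMap.inl ℝ V ℝ) 0 l x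
  have h3 := iteratedFDeriv_sub_apply (x := ((x, 0) : V × ℝ)) (hG.of_le (le_inf l)).contDiffAt
    (h1.of_le (le_inf l)).contDiffAt
  rw [iteratedFDeriv_comp_add_right] at h3
  simp only [ContinuousLinearMap.inl_apply, add_zero, Prod.mk_add_mk, zero_add] at h2 h3
  rw [norm_sub_rev, ← h3]
  refine h2.trans (mul_le_of_le_one_right (norm_nonneg _) ?_)
  exact pow_le_one₀ (norm_nonneg _) (ContinuousLinearMap.norm_inl_le_one ℝ V ℝ)

lemma mv {G : V × ℝ → E2} (hG : ContDiff ℝ ∞ G) {t D : ℝ} (ht : 0 ≤ t) (l : ℕ) (x : V)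
    (h : ∀ s, 0 ≤ s → s ≤ t → ‖iteratedFDeriv ℝ (l + 1) G (x, s)‖ ≤ D) :
    ‖iteratedFDeriv ℝ l G (x, t) - iteratedFDeriv ℝ l G (x, 0)‖ ≤ D * t := by
  have := Convex.norm_image_sub_le_of_norm_fderiv_le (𝕜 := ℝ) (f := iteratedFDeriv ℝ l G)
    (s := ({x} : Set V) ×ˢ Icc 0 t) (C := D) (x := (x, 0)) (y := (x, t))
    (fun p _ => hG.differentiable_iteratedFDeriv (lt_inf l) p)
    (by
      rintro ⟨y, s⟩ ⟨rfl, h1, h2⟩
      rw [norm_fderiv_iteratedFDeriv]
      exact h s h1 h2)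
    ((convex_singleton x).prod (convex_Icc 0 t)) ⟨rfl, le_rfl, ht⟩ ⟨rfl, ht, le_rfl⟩
  rwa [Prod.mk_sub_mk, sub_self, sub_zero, Prod.norm_def, norm_zero, Real.norm_of_nonneg ht,
    max_eq_right ht] at this

/-- the weight -/
def wt (C0 : ℝ) : V → ℝ := (closedBall (0 : V) C0).indicator fun _ => 1

lemma wt_int (C0 : ℝ) : Integrable (wt C0) :=
  (integrable_indicator_iff measurableSet_closedBall).2
    (integrableOn_const measure_closedBall_lt_top.ne)

lemma wt_mem (C0 : ℝ) (v : V) (h : wt C0 v ≠ 0) : v ∈ closedBall (0 : V) C0 := by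
  by_contra h'
  exact h (indicator_of_notMem h' _)

lemma wt_smul {E : Type} [NormedAddCommGroup E] [NormedSpace ℝ E] {v : V} {a : E}
    (h : C0 < ‖v‖ → a = 0) : wt C0 v • a = a := by
  by_cases hv : v ∈ closedBall (0 : V) C0
  · rw [wt, indicator_of_mem hv, one_smul]
  · rw [h (not_le.1 fun k => hv (mem_closedBall_zero_iff.2 k)), smul_zero]

lemma sop_eq (hs : ∀ y v t, C0 < ‖v‖ → Hs (y, v, t) = 0) (c : V → E2) {t : ℝ} (ht : 0 < t)
    (z : V) : Sop Hs t c z = ∫ v, wt C0 v • Gv Hs c v (z, t) := by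
  have e1 : ∀ v, wt C0 v • Gv Hs c v (z, t) =
      (fun u => (fun y => Hs (y, t⁻¹ • (z - y), t) (c y)) (z - u)) (t • v) := fun v => by
    rw [wt_smul fun h => by simp [Gv, hs _ _ _ h]]
    simp only [Gv, sub_sub_cancel, inv_smul_smul₀ ht.ne']
  rw [integral_congr_ae (Eventually.of_forall e1),
    Measure.integral_comp_smul_of_nonneg volume
      (fun u => (fun y => Hs (y, t⁻¹ • (z - y), t) (c y)) (z - u)) t (hR := ht.le),
    integral_sub_left_eq_self (fun y => Hs (y, t⁻¹ • (z - y), t) (c y)), ← integral_smul,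
    finrank_euclideanSpace_fin]
  rfl

lemma zero_eq (h1 : AvgS) (hH : ContDiff ℝ ∞ Hs) (hs : ∀ y v t, C0 < ‖v‖ → Hs (y, v, t) = 0)
    (hid : ∀ y, ‖y‖ ≤ 9 → ∫ v, Hs (y, v, 0) = ContinuousLinearMap.id ℝ E2) (c : V → E2)
    {z : V} (hz : ‖z‖ ≤ 9) : c z = ∫ v, wt C0 v • Gv Hs c v (z, 0) := by
  have e1 : ∀ v, wt C0 v • Gv Hs c v (z, 0) = Hs (z, v, 0) (c z) := fun v => by
    rw [wt_smul fun h => by simp [Gv, hs _ _ _ h]]
    simp only [Gv, zero_smul, sub_zero]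
  have i1 := (h1.smul volume (fun q : V × V => Hs (q.1, q.2, 0)) id (wt C0) _
    (hH.comp (contDiff_fst.prodMk (contDiff_snd.prodMk contDiff_const)))
    (isCompact_closedBall 0 C0) aestronglyMeasurable_id (wt_int C0)
    (Eventually.of_forall (wt_mem C0))).2.1 z
  have i2 : Integrable fun v => Hs (z, v, 0) :=
    i1.congr (Eventually.of_forall fun v => wt_smul (hs _ _ _))
  rw [integral_congr_ae (Eventually.of_forall e1), ← ContinuousLinearMap.integral_apply i2,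
    hid z hz]
  rfl

lemma bound (h1 : AvgS) (hH : ContDiff ℝ ∞ Hs) (hs : ∀ y v t, C0 < ‖v‖ → Hs (y, v, t) = 0)
    (hid : ∀ y, ‖y‖ ≤ 9 → ∫ v, Hs (y, v, 0) = ContinuousLinearMap.id ℝ E2) {c : V → E2}
    (hc : ContDiff ℝ ∞ c) {t : ℝ} (ht : 0 < t) {x : V} (hx : ‖x‖ < 9) (l : ℕ) {D : ℝ}
    (h : ∀ v, ‖v‖ ≤ C0 →
      ‖iteratedFDeriv ℝ l (Gv Hs c v) (x, t) - iteratedFDeriv ℝ l (Gv Hs c v) (x, 0)‖ ≤ D) :
    ‖iteratedFDeriv ℝ l (c - Sop Hs t c) x‖ ≤ (∫ v, |wt C0 v|) * D := by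
  have A := fun (G : V × V → E2) (hG : ContDiff ℝ ∞ G) => h1.smul volume G id (wt C0) _ hG
    (isCompact_closedBall 0 C0) aestronglyMeasurable_id (wt_int C0)
    (Eventually.of_forall (wt_mem C0))
  have e : c - Sop Hs t c =ᶠ[𝓝 x]
      fun z => ∫ v, wt C0 v • (Gv Hs c v (z, 0) - Gv Hs c v (z, t)) := by
    filter_upwards [(isOpen_lt continuous_norm continuous_const).mem_nhds hx] with z hz
    rw [Pi.sub_apply, sop_eq hs c ht, zero_eq h1 hH hs hid c (le_of_lt hz)]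
    simp only [smul_sub]
    exact (integral_sub ((A _ (sm_joint hH hc 0)).2.1 z) ((A _ (sm_joint hH hc t)).2.1 z)).symm
  rw [(e.iteratedFDeriv ℝ l).eq_of_nhds]
  obtain ⟨i1, i2⟩ := (A _ ((sm_joint hH hc 0).sub (sm_joint hH hc t))).2.2.2 l x
  refine i2.trans ?_
  rw [← integral_mul_const]
  refine integral_mono i1 ((wt_int C0).abs.mul_const D) fun v => ?_
  by_cases hv : wt C0 v = 0
  · simp only [hv, abs_zero, zero_mul, le_refl]
  · exact mul_le_mul_of_nonneg_left ((slice (sm_Gv hH hc v) t l x).trans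
      (h v (mem_closedBall_zero_iff.1 (wt_mem C0 v hv)))) (abs_nonneg _)

/-- local bounds for the derivatives -/
def Loc (l : ℕ) (c : V → E2) (x : V) (r K : ℝ) : Prop :=
  ∀ x', ‖x' - x‖ ≤ r → ∀ i ≤ l, ‖iteratedFDeriv ℝ i c x'‖ ≤ K

lemma Loc.shift {l l' : ℕ} {c : V → E2} {x x' : V} {r r' K : ℝ} (h : Loc l c x (r + r') K)
    (hx : ‖x' - x‖ ≤ r) (hl : l' ≤ l) : Loc l' c x' r' K := fun y hy i hi =>
  h y ((norm_sub_le_norm_sub_add_norm_sub y x' x).trans (by linarith)) i (hi.trans hl)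

lemma step (h1 : AvgS) (h2 : ScaleS) (h0 : 1 ≤ C0) (hH : ContDiff ℝ ∞ Hs)
    (hs : ∀ y v t, C0 < ‖v‖ → Hs (y, v, t) = 0)
    (hid : ∀ y, ‖y‖ ≤ 9 → ∫ v, Hs (y, v, 0) = ContinuousLinearMap.id ℝ E2) (m : ℕ) :
    ∃ C, 1 ≤ C ∧ ∀ (t : ℝ) (c : V → E2), 0 < t → C0 * t ≤ 1 → Cc 7 c → ∀ l ≤ m, ∀ z r K,
      (Loc l c z (r + C0 * t) K → Loc l (c - Sop Hs t c) z r (C * K)) ∧
      (Loc (l + 1) c z (r + C0 * t) K → Loc l (c - Sop Hs t c) z r (C * t * K)) := by
  obtain ⟨C, hC, hcore⟩ := core hH (show 0 ≤ C0 by linarith) (m + 1)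
  have hW : 0 ≤ ∫ v, |wt C0 v| := integral_nonneg fun _ => abs_nonneg _
  refine ⟨1 + (∫ v, |wt C0 v|) * (2 * C), by nlinarith [mul_nonneg hW hC], ?_⟩
  intro t c ht ht1 hc l hl z r K
  have t1 : t ≤ 1 := by nlinarith
  have hB : Cc 8 (c - Sop Hs t c) := (hc.mono (by norm_num)).sub
    ((h2.sm Hs C0 t 7 c hH hs ht hc.integrable hc.2).1.mono (by linarith))
  have key : ∀ (x : V) (k : ℕ), k ≤ m + 1 → Loc k c x (C0 * t) K → ‖x‖ ≤ 9 → ∀ v, ‖v‖ ≤ C0 →
      ∀ s, 0 ≤ s → s ≤ t → ‖iteratedFDeriv ℝ k (Gv Hs c v) (x, s)‖ ≤ C * K := by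
    intro x k hk hL hx v hv s s0 s1
    refine hcore c hc.1 v x s K hv hx s0 (s1.trans t1) k hk (hL _ ?_)
    rw [sub_sub_cancel_left, norm_neg, norm_smul, Real.norm_of_nonneg s0, mul_comm]
    exact mul_le_mul hv s1 s0 (by linarith)
  have K0 : ∀ (x : V) (k : ℕ), Loc k c x (C0 * t) K → 0 ≤ K := fun x k hL =>
    (norm_nonneg _).trans (hL x (by rw [sub_self, norm_zero]; positivity) 0 (Nat.zero_le _))
  constructor
  · intro hL x hx i hi
    have hL' := hL.shift hx hi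
    have k0 := K0 _ _ hL'
    by_cases h8 : 8 < ‖x‖
    · rw [hB.iteratedFDeriv_zero i h8, norm_zero]
      positivity
    refine (bound h1 hH hs hid hc.1 ht (by linarith) i (D := 2 * C * K) fun v hv => ?_).trans
      (by nlinarith)
    have a := key x i (by omega) hL' (by linarith) v hv t ht.le le_rfl
    have b := key x i (by omega) hL' (by linarith) v hv 0 le_rfl ht.le
    exact (norm_sub_le _ _).trans (by linarith)
  · intro hL x hx i hi
    have hL' := hL.shift hx (Nat.succ_le_succ hi)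
    have k0 := K0 _ _ hL'
    by_cases h8 : 8 < ‖x‖
    · rw [hB.iteratedFDeriv_zero i h8, norm_zero]
      positivity
    refine (bound h1 hH hs hid hc.1 ht (by linarith) i (D := C * K * t) fun v hv =>
      mv (sm_Gv hH hc.1 v) ht.le i x (key x (i + 1) (by omega) hL' (by linarith) v hv)).trans ?_
    have a : 0 ≤ t * K := by positivity
    have b : 0 ≤ (∫ v, |wt C0 v|) * C * (t * K) := by positivity
    nlinarith

lemma iter (h2 : ScaleS) (h0 : 1 ≤ C0) (hH : ContDiff ℝ ∞ Hs)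
    (hs : ∀ y v t, C0 < ‖v‖ → Hs (y, v, t) = 0) {m : ℕ} {C t ε : ℝ} (hC : 1 ≤ C) (ht : 0 < t)
    (hε : m * C0 * t ≤ ε) (hε1 : ε ≤ 1)
    (hstep : C0 * t ≤ 1 → ∀ c : V → E2, Cc 7 c → ∀ l ≤ m, ∀ z r K,
      (Loc l c z (r + C0 * t) K → Loc l (c - Sop Hs t c) z r (C * K)) ∧
      (Loc (l + 1) c z (r + C0 * t) K → Loc l (c - Sop Hs t c) z r (C * t * K)))
    {c : V → E2} (hc : Cc (7 - ε) c) (i : ℕ) (hi : i ≤ m) :
    ∃ c1 c' : V → E2, Cc (7 - ε + i * C0 * t) c1 ∧ Cc (7 - ε + i * C0 * t) c' ∧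
      Cc (7 - ε + i * C0 * t) (Sop Hs t c') ∧ c = c1 + Sop Hs t c' ∧
      (∀ l j, j ≤ i → l + j ≤ m → ∀ z r K, Loc (l + j) c z (r + i * C0 * t) K →
        Loc l c1 z r (C ^ i * t ^ j * K)) ∧
      ∀ x K, Loc 0 c x (i * C0 * t) K → ‖c' x‖ ≤ i * C ^ i * K := by
  induction i with
  | zero =>
    have e : Sop Hs t (0 : V → E2) = 0 := by
      funext z
      simp [Sop]
    refine ⟨c, 0, by simpa using hc, Cc.zero, by rw [e]; exact Cc.zero, by rw [e, add_zero], ?_, by simp⟩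
    intro l j hj _ z r K h
    obtain rfl : j = 0 := by omega
    simpa using h
  | succ i ih =>
    obtain ⟨c1, c', a1, a2, a3, a4, a5, a6⟩ := ih (by omega)
    have p0 : 0 ≤ C0 * t := by positivity
    have p1 : 0 ≤ i * (C0 * t) := by positivity
    have p2 : ((i : ℝ) + 1) * (C0 * t) ≤ m * (C0 * t) :=
      mul_le_mul_of_nonneg_right (by exact_mod_cast hi) p0
    have e : ((i + 1 : ℕ) : ℝ) * C0 * t = i * C0 * t + C0 * t := by
      push_cast
      ring
    have b1 := h2.sm Hs C0 t _ c1 hH hs ht a1.integrable a1.2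
    have b2 := h2.sm Hs C0 t _ c' hH hs ht a2.integrable a2.2
    have b3 : Sop Hs t (c' + c1) = Sop Hs t c' + Sop Hs t c1 := by
      funext z
      simp only [Sop, Pi.add_apply, map_add]
      exact integral_add (b2.2.1 z) (b1.2.1 z)
    have hst := hstep (by linarith) c1 (a1.mono (by linarith))
    rw [e, ← add_assoc]
    refine ⟨c1 - Sop Hs t c1, c' + c1, (a1.mono (by linarith)).sub b1.1,
      (a2.add a1).mono (by linarith), b3 ▸ (a3.mono (by linarith)).add b1.1,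
      by rw [b3, a4]; abel, ?_, ?_⟩
    · intro l j hj hl z r K h
      have h' : Loc (l + j) c z (r + C0 * t + i * C0 * t) K := by
        rwa [add_assoc, add_comm (C0 * t)]
      rcases Nat.eq_zero_or_eq_succ_pred j with rfl | hj'
      · have := (hst l (by omega) z r _).1 (a5 l 0 (by omega) hl z _ K h')
        rwa [show C * (C ^ i * t ^ 0 * K) = C ^ (i + 1) * t ^ 0 * K by ring] at this
      · obtain ⟨k, rfl⟩ : ∃ k, j = k + 1 := ⟨_, hj'⟩
        have := (hst l (by omega) z r _).2 (a5 (l + 1) k (by omega) (by omega) z _ K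
          (by rwa [show l + 1 + k = l + (k + 1) by ring]))
        rwa [show C * t * (C ^ i * t ^ k * K) = C ^ (i + 1) * t ^ (k + 1) * K by ring] at this
    · intro x K h
      have h' : Loc 0 c x (i * C0 * t) K := fun y hy => h y (hy.trans (by linarith))
      have K0 : 0 ≤ K := (norm_nonneg _).trans
        (h' x (by rw [sub_self, norm_zero]; linarith) 0 le_rfl)
      have k1 := a6 x K h'
      have k2 := a5 0 0 (by omega) (by omega) x 0 K (by rwa [zero_add (i * C0 * t)]) x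
        (by rw [sub_self, norm_zero]) 0 le_rfl
      rw [norm_iteratedFDeriv_zero, pow_zero, mul_one] at k2
      have k3 : C ^ i * K ≤ C ^ (i + 1) * K :=
        mul_le_mul_of_nonneg_right (pow_le_pow_right₀ hC (Nat.le_succ i)) K0
      have k4 := mul_le_mul_of_nonneg_left k3 (Nat.cast_nonneg (α := ℝ) i)
      refine (norm_add_le _ _).trans ?_
      push_cast
      linarith

end R1

theorem r1S (h1 : AvgS) (h2 : ScaleS) : R1S := by
  intro Hs C0 m h0 hH hs hid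
  obtain ⟨C, hC, hstep⟩ := R1.step h1 h2 h0 hH hs hid m
  have hm : 0 ≤ (m : ℝ) * C ^ m := by positivity
  have hm' : 0 ≤ C ^ m := by positivity
  refine ⟨m * C ^ m + C ^ m, by positivity, fun t ε c ht hε hε1 hc => ?_⟩
  have p0 : 0 ≤ m * C0 * t := by positivity
  have ε0 : 0 < ε := by linarith
  obtain ⟨c1, c', a1, a2, a3, a4, a5, a6⟩ := R1.iter h2 h0 hH hs hC ht (ε := ε) (by linarith) hε1
    (fun h c hc => hstep t c ht h hc) hc m le_rfl
  refine ⟨c1, c', a1.mono (by linarith), a2.mono (by linarith), a3.mono (by linarith), a4,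
    fun M hM g hg x z hx l hl => ?_, fun g hg x => ?_⟩
  · have g0 : 0 ≤ g z := le_trans (by positivity)
      (hg z z (by rw [sub_self, norm_zero]; exact ε0.le) 0 (Nat.zero_le _))
    have hL : R1.Loc (l + (M - l)) c z (t + m * C0 * t) (g z / ε ^ M) := fun y hy i hi => by
      have hi' : i ≤ M := by omega
      rw [le_div_iff₀ (by positivity), mul_comm]
      exact (mul_le_mul_of_nonneg_right (pow_le_pow_of_le_one ε0.le hε1 hi') (norm_nonneg _)).trans
        (hg y z (by linarith) i hi')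
    have k := a5 l (M - l) (by omega) (by omega) z t _ hL x hx l le_rfl
    calc t ^ l * ‖iteratedFDeriv ℝ l c1 x‖ ≤ t ^ l * (C ^ m * t ^ (M - l) * (g z / ε ^ M)) := by
          gcongr
      _ = C ^ m * (t ^ l * t ^ (M - l) / ε ^ M) * g z := by ring
      _ = C ^ m * (t / ε) ^ M * g z := by rw [← pow_add, Nat.add_sub_cancel' hl, div_pow]
      _ ≤ (m * C ^ m + C ^ m) * (t / ε) ^ M * g z := by
          gcongr
          linarith
  · have g0 : 0 ≤ g x := le_trans (by positivity)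
      (hg x x (by rw [sub_self, norm_zero]; exact ε0.le) 0 le_rfl)
    have hL : R1.Loc 0 c x (m * C0 * t) (g x) := fun y hy i hi => by
      have := hg y x (by linarith) i hi
      obtain rfl : i = 0 := by omega
      rwa [pow_zero, one_mul] at this
    refine (a6 x _ hL).trans ?_
    gcongr
    linarith

end Vale.Agent.P204
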