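import Vale.Agent.P204.USm

/-! The primitive is close to the twisted differential of the potential. -/

set_option maxSynthPendingDepth 3

open scoped Topology ContDiff RealInnerProductSpace Manifold
open Set Metric MeasureTheory Filter

noncomputable section
namespace Vale.Agent.P204

namespace S1
open USm

variable {m : Measure (V × V)} {f : V → E2} {F : Frame} {Dn : ℝ}

lemma int_nf (hf : MemLp f 2 volume) {φ : V → ℝ} (hφ : Continuous φ) (h0 : ∀ z, 0 ≤ φ z)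
    (h1 : ∀ y, 7 < ‖y‖ → φ y = 0) : Integrable fun z => φ z * ‖f z‖ := by
  simpa only [norm_smul, Real.norm_of_nonneg (h0 _)] using (int_smul hf hφ h1).norm

lemma sig_le (hf : MemLp f 2 volume) {β : V → E6} {φ : V → ℝ} (hφ : Continuous φ)
    (h0 : ∀ z, 0 ≤ φ z) (h1 : ∀ y, 7 < ‖y‖ → φ y = 0) {c : ℝ} (h : ∀ z, ‖β z‖ ≤ c * φ z) :
    |∫ z, ⟪f z, F.cm z (β z)⟫| ≤ 11 * c * ∫ z, φ z * ‖f z‖ := by
  rw [← integral_const_mul]
  refine norm_integral_le_of_norm_le (f := fun z => ⟪f z, F.cm z (β z)⟫)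
    ((int_nf hf hφ h0 h1).const_mul _) (Eventually.of_forall fun z => (norm_inner_le_norm _ _).trans ?_)
  nlinarith [mul_le_mul_of_nonneg_left ((F.norm_cm_le z _).trans
    (mul_le_mul_of_nonneg_left (h z) (by norm_num))) (norm_nonneg (f z))]

lemma ap_J_le (h : E6) (z : V) {u : V} (hu : ‖u‖ = 1) : |ap h u (F.J z u)| ≤ 4 * ‖h‖ := by
  have h1 := abs_ap_le h u (F.J z u)
  have h2 := F.norm_J_le z u
  rw [hu] at h1 h2
  nlinarith [norm_nonneg h]

lemma TL_le (hm : PM 7 m) {β : V → E6} {φ : V → ℝ} (hφ : Continuous φ) {c : ℝ}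
    (h : ∀ z, ‖β z‖ ≤ c * φ z) : |TL F m β| ≤ 4 * c * ∫ p, φ p.1 ∂m := by
  rw [← integral_const_mul]
  refine norm_integral_le_of_norm_le (f := fun p : V × V => ap (β p.1) p.2 (F.J p.1 p.2))
    ((int_m hm (hφ.comp continuous_fst)).const_mul _)
    (hm.2.mono fun p hp => (ap_J_le _ _ hp.2).trans ?_)
  show _ ≤ 4 * c * φ p.1
  linarith [h p.1]

/-- the remainder form -/
def gam (F : Frame) (g x z a : V) : E6 :=
  pull (F.A x) (st g ((F.DPs x z + F.A x) a) - (st g (F.A x a) + wv g (F.A x a)))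

lemma norm_P (g x a : V) : ‖st g (F.A x a) + wv g (F.A x a)‖ ≤ 3 * (‖g‖ * ‖a‖) := by
  have h1 := norm_add_le (st g (F.A x a)) (wv g (F.A x a))
  have h2 := norm_st_le g (F.A x a)
  have h3 := norm_wv_le g (F.A x a)
  have h4 := mul_le_mul_of_nonneg_left (F.norm_A_le x a) (norm_nonneg g)
  nlinarith [mul_nonneg (norm_nonneg g) (norm_nonneg a)]

lemma norm_E {x z : V} {r : ℝ} (hE : ‖F.DPs x z + F.A x‖ ≤ r) (g a : V) :
    ‖st g ((F.DPs x z + F.A x) a)‖ ≤ r * (‖g‖ * ‖a‖) :=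
  (norm_st_le _ _).trans ((mul_le_mul_of_nonneg_left
    (ContinuousLinearMap.le_of_opNorm_le _ hE a) (norm_nonneg g)).trans_eq (by ring))

lemma norm_gam {x z : V} {r : ℝ} (hE : ‖F.DPs x z + F.A x‖ ≤ r) (g a : V) :
    ‖gam F g x z a‖ ≤ 11 * (r + 3) * (‖g‖ * ‖a‖) := by
  have h1 := norm_sub_le (st g ((F.DPs x z + F.A x) a)) (st g (F.A x a) + wv g (F.A x a))
  refine (F.norm_pull_A _ _).trans ?_
  linarith [norm_P (F := F) g x a, norm_E hE g a]

lemma ptw {x z u : V} {r : ℝ} (hE : ‖F.DPs x z + F.A x‖ ≤ r) (hA : ‖F.A x - F.A z‖ ≤ r)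
    (hu : ‖u‖ = 1) (g a : V) :
    |ap (gam F g x z a) u (F.J z u) + ‖F.A z u‖ ^ 2 * ⟪g, F.DPs x z (F.J x a)⟫| ≤
      230 * r * (‖g‖ * ‖a‖) := by
  have hr : 0 ≤ r := (norm_nonneg _).trans hE
  have hg := mul_nonneg hr (mul_nonneg (norm_nonneg g) (norm_nonneg a))
  obtain ⟨P, hP⟩ : ∃ P, P = st g (F.A x a) + wv g (F.A x a) := ⟨_, rfl⟩
  have e1 : ap (pull (F.A z) P) u (F.J z u) = -⟪g, J0 (F.A x a)⟫ * ‖F.A z u‖ ^ 2 := by
    rw [ap_pull, F.A_J, hP, st_add_wv, ap_add, ap_add, ap_smul, ap_smul, ap_smul, ap_b0_J0,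
      ap_b1_J0, ap_b2_J0, ap_b0, inner_J0]
    ring
  have e2 : ap (gam F g x z a) u (F.J z u) + ‖F.A z u‖ ^ 2 * ⟪g, F.DPs x z (F.J x a)⟫ =
      ap (pull (F.A x) (st g ((F.DPs x z + F.A x) a))) u (F.J z u) -
        ap ((pull (F.A x) - pull (F.A z)) P) u (F.J z u) +
          ‖F.A z u‖ ^ 2 * ⟪g, (F.DPs x z + F.A x) (F.J x a)⟫ := by
    rw [gam, ← hP, map_sub, ap_sub, ContinuousLinearMap.sub_apply, ap_sub, e1,
      ContinuousLinearMap.add_apply _ _ (F.J x a), inner_add_right, F.A_J]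
    ring
  have b1 := (ap_J_le (F := F) _ z hu).trans (mul_le_mul_of_nonneg_left ((F.norm_pull_A x _).trans
    (mul_le_mul_of_nonneg_left (norm_E hE g a) (by norm_num))) (by norm_num))
  have b2 : ‖pull (F.A x) - pull (F.A z)‖ ≤ 15 * r := (norm_pull_sub_le _ _).trans
    (mul_le_mul (by linarith [F.opNorm_A x, F.opNorm_A z]) hA (norm_nonneg _) (by norm_num))
  have b3 := (ap_J_le (F := F) _ z hu).trans (mul_le_mul_of_nonneg_left
    ((ContinuousLinearMap.le_of_opNorm_le _ b2 P).trans (mul_le_mul_of_nonneg_left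
      (hP ▸ norm_P g x a) (by positivity))) (by norm_num))
  have b4 : ‖F.A z u‖ ^ 2 ≤ 2 := by
    have := F.norm_A_le z u
    rw [hu] at this
    nlinarith [norm_nonneg (F.A z u)]
  have b5 : |⟪g, (F.DPs x z + F.A x) (F.J x a)⟫| ≤ ‖g‖ * (r * (2 * ‖a‖)) :=
    (abs_real_inner_le_norm _ _).trans (mul_le_mul_of_nonneg_left
      ((ContinuousLinearMap.le_of_opNorm_le _ hE _).trans
        (mul_le_mul_of_nonneg_left (F.norm_J_le x a) hr)) (norm_nonneg g))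
  have b6 := mul_le_mul b4 b5 (abs_nonneg _) (by norm_num)
  rw [← abs_of_nonneg (sq_nonneg ‖F.A z u‖), ← abs_mul] at b6
  rw [e2]
  refine (abs_add_le _ _).trans ((add_le_add_left (abs_sub _ _) _).trans ?_)
  linarith

/-- the exact part -/
def bb (F : Frame) (δ : ℝ) (x a z : V) : Cov :=
  F.Nz δ z x • (innerSL ℝ (F.A x a)).comp (F.A x)

lemma split (h1 : NatS) (h2 : NewS F) {δ : ℝ} (hδ : 0 < δ) (x a z : V) :
    cut 5 z • F.k12 δ x z a + w1 (fderiv ℝ (cut 5) z) (bb F δ x a z) =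
      cut 5 z • gam F (gk δ (F.Ps x z)) x z a + d1 (fun z => cut 5 z • bb F δ x a z) z := by
  have sN : ContDiff ℝ ∞ fun z => F.Nz δ z x := cd_r (h2.sm δ hδ).1 x
  have hN := sN.differentiable (by simp) z
  have e : d1 (bb F δ x a) z = pull (F.A x) (wv (gk δ (F.Ps x z)) (F.A x a)) := by
    refine (h1.d1_smul hN (differentiableAt_const _)).trans (ap_ext fun p q => ?_)
    simp [ap_w1, ap_d1, ap_pull, ap_wv, h2.dz δ x z _ hδ]
  have hb : DifferentiableAt ℝ (bb F δ x a) z := hN.smul_const _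
  rw [h1.d1_smul ((cut_sm 5).differentiable (by simp) z) hb, e]
  simp only [Frame.k12, gam, ContinuousLinearMap.comp_apply, ContinuousLinearMap.add_apply,
    map_add, map_sub]
  module

lemma S_eq (h1 : NatS) (h2 : NewS F) (h3 : USm F) (h : LH F m f Dn) {δ : ℝ} (hδ : 0 < δ)
    (x a : V) : Cc 7 (fun z => cut 5 z • gam F (gk δ (F.Ps x z)) x z a) ∧
    F.S m f δ x a = F.RR m f (fun z => cut 5 z • gam F (gk δ (F.Ps x z)) x z a) -
      F.RR m f fun z => w1 (fderiv ℝ (cut 5) z) (bb F δ x a z) := by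
  obtain ⟨sN, sg, -, sD, s12, -⟩ := h2.sm δ hδ
  have hc := cut_cc (r := 5) (by norm_num)
  have t1 : ContDiff ℝ ∞ fun z => F.Nz δ z x := cd_r sN x
  have t2 : ContDiff ℝ ∞ fun z => gk δ (F.Ps x z) := cd_r sg x
  have t3 : ContDiff ℝ ∞ fun z => F.DPs x z := cd_r sD x
  have t4 : ContDiff ℝ ∞ fun z => F.k12 δ x z := cd_r s12 x
  have t5 : ContDiff ℝ ∞ (bb F δ x a) := t1.smul contDiff_const
  have k1 : Cc 7 fun z => cut 5 z • F.k12 δ x z a :=
    (hc.smul_right (t4.clm_apply contDiff_const)).mono (by norm_num)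
  have k2 : Cc 7 fun z => w1 (fderiv ℝ (cut 5) z) (bb F δ x a z) :=
    ⟨cd_w1 hc.fderiv.1 t5, fun y hy => ap_ext fun p q => by
      simp [ap_w1, hc.fderiv.2 y (by linarith)]⟩
  have k3 : Cc 7 fun z => cut 5 z • gam F (gk δ (F.Ps x z)) x z a :=
    (hc.smul_right ((pull (F.A x)).contDiff.comp ((cd_st t2 ((t3.add contDiff_const).clm_apply
      contDiff_const)).sub ((cd_st t2 contDiff_const).add
        ((wv.contDiff.comp t2).clm_apply contDiff_const))))).mono (by norm_num)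
  have k4 : Cc 6 fun z => cut 5 z • bb F δ x a z := (hc.smul_right t5).mono (by norm_num)
  have k5 := k4.d1.mono (r' := 7) (by norm_num)
  have e1 := RR_add h k1.continuous k1.2 k2.continuous k2.2
  have e2 := RR_add h k3.continuous k3.2 k5.continuous k5.2
  simp only [split h1 h2 hδ] at e1
  refine ⟨k3, ?_⟩
  rw [((h3 m f Dn h).2 δ hδ).2.2.2.2.2.2.1]
  linarith [h.cl _ k4]

lemma norm_w {δ : ℝ} {x : V} (hx : ‖x‖ ≤ 4) (a z : V) :
    ‖w1 (fderiv ℝ (cut 5) z) (bb F δ x a z)‖ ≤ 24 * ‖a‖ * ‖fderiv ℝ (cut 5) z‖ := by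
  refine (norm_w1_le _ _).trans ?_
  by_cases hz : ‖z‖ < 5
  · simp [cut_fderiv_zero hz]
  have h1 := F.le_norm_A x (z - x)
  have h2 := norm_sub_norm_le z x
  have h3 : F.Nz δ z x ≤ 2 := by
    refine inv_le_of_inv_le₀ (by norm_num) ?_
    rw [Frame.Ps]
    nlinarith [sq_nonneg δ]
  have h4 : ‖bb F δ x a z‖ ≤ 2 * (5 / 4 * ‖a‖ * (5 / 4)) := by
    rw [bb, norm_smul, Real.norm_of_nonneg (show 0 ≤ F.Nz δ z x from inv_nonneg.2 (by positivity))]
    refine mul_le_mul h3 ((ContinuousLinearMap.opNorm_comp_le _ _).trans ?_) (norm_nonneg _)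
      (by norm_num)
    rw [innerSL_apply_norm]
    exact mul_le_mul (F.norm_A_le x a) (F.opNorm_A x) (norm_nonneg _) (by positivity)
  nlinarith [mul_le_mul_of_nonneg_left h4 (norm_nonneg (fderiv ℝ (cut 5) z)),
    mul_nonneg (norm_nonneg a) (norm_nonneg (fderiv ℝ (cut 5) z))]

end S1

open USm S1 in
theorem s1S {F : Frame} (h1 : NatS) (h2 : NewS F) (h3 : USm F) : S1S F := by
  intro m f Dn h
  obtain ⟨L, hL, lip⟩ := h2.lip
  obtain ⟨C, hC, bd⟩ := h2.bd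
  have hc := cut_cc (r := 5) (by norm_num)
  have hd := hc.fderiv
  obtain ⟨K1, hK1⟩ : ∃ K, K = ∫ p, ‖fderiv ℝ (cut 5) p.1‖ ∂m := ⟨_, rfl⟩
  obtain ⟨K2, hK2⟩ : ∃ K, K = ∫ z, ‖fderiv ℝ (cut 5) z‖ * ‖f z‖ := ⟨_, rfl⟩
  have p1 : 0 ≤ K1 := hK1 ▸ integral_nonneg fun _ => norm_nonneg _
  have p2 : 0 ≤ K2 := hK2 ▸ integral_nonneg fun _ => by positivity
  refine ⟨96 * K1 + 264 * K2 + 460 * L * C ^ 2 + 121 * (L * 16 + 3) * C, by positivity,
    fun δ x hδ hδ1 hx => ?_⟩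
  obtain ⟨-, u1, -, u2, u3, -⟩ := (h3 m f Dn h).2 δ hδ
  have hU := u1 x
  have hf : 0 ≤ ff f δ x := integral_nonneg fun z =>
    mul_nonneg (mul_nonneg (cut_nonneg _ _) (kp_pos hδ _ _).le) (norm_nonneg _)
  refine ContinuousLinearMap.opNorm_le_bound _ (by positivity) fun a => ?_
  have ha := norm_nonneg a
  obtain ⟨k1, k2⟩ := S_eq h1 h2 h3 h hδ x a
  have hxz : ∀ z : V, ‖z‖ ≤ 7 → ‖x - z‖ ≤ 16 := fun z hz => by linarith [norm_sub_le x z]
  have b1 := TL_le (F := F) h.pm hd.continuous.norm (norm_w (F := F) (δ := δ) hx a)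
  have b2 := sig_le (F := F) h.l2 hd.continuous.norm (fun _ => norm_nonneg _)
    (fun y hy => by rw [hd.2 y (by linarith), norm_zero]) (norm_w (F := F) (δ := δ) hx a)
  have b3 := sig_le (F := F) h.l2 (φ := fun z => cut 5 z * kp δ 3 (x - z))
    (β := fun z => cut 5 z • gam F (gk δ (F.Ps x z)) x z a) (c := 11 * (L * 16 + 3) * (C * ‖a‖))
    (hc.continuous.mul ((continuous_kp hδ 3).comp (continuous_const.sub continuous_id)))
    (fun z => mul_nonneg (cut_nonneg _ _) (kp_pos hδ _ _).le)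
    (fun y hy => by rw [hc.2 y (by linarith), zero_mul]) fun z => by
      by_cases hz : ‖z‖ ≤ 7
      · rw [norm_smul, Real.norm_of_nonneg (cut_nonneg _ _), mul_left_comm]
        refine mul_le_mul_of_nonneg_left ((norm_gam ((lip x z).2.2.2.trans
          (mul_le_mul_of_nonneg_left (hxz z hz) hL)) _ a).trans ?_) (cut_nonneg _ _)
        rw [mul_assoc _ (C * ‖a‖), mul_right_comm C]
        gcongr
        exact (bd δ x z hδ hδ1 (hxz z hz)).2.2.1
      · simp [hc.2 z (by linarith)]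
  have i1 := ((h3 m f Dn h).1 _ k1.continuous k1.2).1
  obtain ⟨-, sg, -, sD, -⟩ := h2.sm δ hδ
  have i2 : Integrable (fun p : V × V => cut 5 p.1 * ‖F.A p.1 p.2‖ ^ 2 *
      ⟪gk δ (F.Ps x p.1), F.DPs x p.1 (F.J x a)⟫) m :=
    int_m h.pm ((sm_c F).mul ((cd_f (cd_r sg x)).inner ℝ
      ((cd_f (cd_r sD x)).clm_apply contDiff_const))).continuous
  have b4 : |TL F m (fun z => cut 5 z • gam F (gk δ (F.Ps x z)) x z a) +
      fderiv ℝ (F.U m δ) x (F.J x a)| ≤ 460 * L * C ^ 2 * ‖a‖ * (F.U m δ x - 1) := by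
    rw [u3, TL, ← integral_add i1 i2, Frame.U, add_sub_cancel_left, ← integral_const_mul]
    rw [← Real.norm_eq_abs]
    refine norm_integral_le_of_norm_le ((u2 x).const_mul _) (h.pm.2.mono fun p hp => ?_)
    obtain ⟨c1, -, c2, -⟩ := bd δ x p.1 hδ hδ1 (hxz _ hp.1)
    have c3 : ‖gk δ (F.Ps x p.1)‖ * ‖x - p.1‖ ≤ C ^ 2 * F.Nz δ p.1 x := by
      have c4 := kp_succ hδ 2 (x - p.1)
      have c5 := mul_pos hδ (kp_pos hδ 3 (x - p.1))
      nlinarith [mul_le_mul_of_nonneg_right c2 (norm_nonneg (x - p.1)),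
        mul_le_mul_of_nonneg_left c1 hC, mul_nonneg hC c5.le]
    have c6 : 1 ≤ 2 * ‖F.A p.1 p.2‖ ^ 2 := by
      have := F.le_norm_A p.1 p.2
      rw [hp.2] at this
      nlinarith
    have c7 := ptw (lip x p.1).2.2.2 (lip x p.1).1 hp.2 (gk δ (F.Ps x p.1)) a
    have c8 : 0 ≤ C ^ 2 * F.Nz δ p.1 x := le_trans (by positivity) c3
    rw [ap_smul, mul_assoc (cut 5 p.1), ← mul_add, norm_mul, Real.norm_of_nonneg (cut_nonneg _ _),
      mul_assoc (cut 5 p.1), mul_left_comm]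
    refine mul_le_mul_of_nonneg_left (c7.trans ?_) (cut_nonneg _ _)
    have c9 := mul_le_mul_of_nonneg_left (c3.trans (le_mul_of_one_le_left c8 c6))
      (show 0 ≤ 230 * L * ‖a‖ by positivity)
    linarith
  rw [← hK1] at b1
  rw [← hK2] at b2
  have b5 : ∫ z, cut 5 z * kp δ 3 (x - z) * ‖f z‖ = ff f δ x := rfl
  rw [b5] at b3
  rw [ContinuousLinearMap.sub_apply, k2, Frame.dc, ContinuousLinearMap.neg_apply,
    ContinuousLinearMap.comp_apply, Real.norm_eq_abs, Frame.RR, Frame.RR]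
  have q1 := mul_nonneg (mul_nonneg p1 ha) (show 0 ≤ F.U m δ x - 1 + ff f δ x by linarith)
  have q2 := mul_nonneg (mul_nonneg p2 ha) (show 0 ≤ F.U m δ x - 1 + ff f δ x by linarith)
  have q3 : 0 ≤ L * C ^ 2 * ‖a‖ * (1 + ff f δ x) := by positivity
  have q4 : 0 ≤ (L * 16 + 3) * C * ‖a‖ * F.U m δ x := by positivity
  rw [abs_le] at b1 b2 b3 b4 ⊢
  constructor <;> linarith [b1.1, b1.2, b2.1, b2.2, b3.1, b3.2, b4.1, b4.2]

end Vale.Agent.P204
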