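import Vale.Agent.P204.Stmt

/-! Upper bound for the Levi part of the derivative of the primitive. -/

set_option maxSynthPendingDepth 3

open scoped Topology ContDiff RealInnerProductSpace
open Set Metric MeasureTheory Filter

noncomputable section
namespace Vale.Agent.P204

namespace S2

theorem int_le {α : Type} [MeasurableSpace α] {μ : Measure α} {g h : α → ℝ} (hh : Integrable h μ)
    (h0 : ∀ a, 0 ≤ h a) (hle : ∀ᵐ a ∂μ, g a ≤ h a) : ∫ a, g a ∂μ ≤ ∫ a, h a ∂μ := by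
  by_cases hg : Integrable g μ
  · exact integral_mono_ae hg hh hle
  · rw [integral_undef hg]
    exact integral_nonneg h0

theorem int_mul {g : V → ℝ} (hg : Continuous g) (h0 : ∀ y, 6 < ‖y‖ → g y = 0) {f : V → E2}
    (hf : MemLp f 2 volume) : Integrable fun z => g z * ‖f z‖ :=
  (hg.memLp_of_hasCompactSupport (p := 2) (HasCompactSupport.intro (isCompact_closedBall 0 6)
    fun y hy => h0 y (by simpa using hy))).integrable_mul hf.norm

theorem kp_mul {δ : ℝ} (hδ : 0 < δ) (w : V) :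
    δ ^ 2 * kp δ 6 w * ‖w‖ ^ 2 ≤ kp δ 2 w ∧ δ ^ 2 * kp δ 6 w * ‖w‖ ≤ kp δ 3 w := by
  have h0 := norm_nonneg w
  have h1 : δ ^ 2 ≤ (‖w‖ + δ) ^ 2 := pow_le_pow_left₀ hδ.le (by linarith) 2
  have h2 := (kp_pos hδ 6 w).le
  have e : ∀ k, k ≤ 6 → kp δ k w = (‖w‖ + δ) ^ (6 - k) * kp δ 6 w := fun k hk => by
    unfold kp
    rw [show 6 = 6 - k + k by omega, pow_add, Nat.add_sub_cancel]
    field_simp
  rw [e 2 (by norm_num), e 3 (by norm_num)]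
  constructor
  · calc _ ≤ (‖w‖ + δ) ^ 2 * kp δ 6 w * (‖w‖ + δ) ^ 2 := by gcongr; linarith
      _ = _ := by ring
  · calc _ ≤ (‖w‖ + δ) ^ 2 * kp δ 6 w * (‖w‖ + δ) := by gcongr; linarith
      _ = _ := by ring

variable {F : Frame} {L : ℝ} {x z u : V}

theorem dps_le (hL : 0 ≤ L) (h : ‖F.DPs x z + F.A x‖ ≤ L * ‖x - z‖) (hr : ‖x - z‖ ≤ 16) (v : V) :
    ‖F.DPs x z v‖ ≤ (16 * L + 2) * ‖v‖ := by
  refine ((F.DPs x z).le_opNorm v).trans (mul_le_mul_of_nonneg_right ?_ (norm_nonneg _))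
  have h1 := norm_sub_le (F.DPs x z + F.A x) (F.A x)
  rw [add_sub_cancel_right] at h1
  nlinarith [F.opNorm_A x]

theorem dps_J (h : ‖F.DPs x z + F.A x‖ ≤ L * ‖x - z‖) (hu : ‖u‖ = 1) :
    ∃ e, F.DPs x z (F.J x u) = J0 (F.DPs x z u) + e ∧ ‖e‖ ≤ 3 * (L * ‖x - z‖) := by
  refine ⟨(F.DPs x z + F.A x) (F.J x u) - J0 ((F.DPs x z + F.A x) u), by simp, ?_⟩
  have h1 := (F.DPs x z + F.A x).le_opNorm (F.J x u)
  have h2 := (F.DPs x z + F.A x).le_opNorm u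
  have h3 := F.norm_J_le x u
  refine (norm_sub_le _ _).trans ?_
  rw [norm_J0_apply]
  rw [hu] at h2 h3
  nlinarith [norm_nonneg (F.DPs x z + F.A x)]

theorem cone (hL : 0 ≤ L) (h : ‖F.DPs x z + F.A x‖ ≤ L * ‖x - z‖)
    (hJ : ‖F.J x - F.J z‖ ≤ L * ‖x - z‖) (hr : ‖x - z‖ ≤ 16) (hu : ‖u‖ = 1) {v : V} (hv : ‖v‖ = 1) :
    -ap (F.k22 x z u (F.J x u)) v (F.J z v) ≤
      2 * (36 * L ^ 2 + 4 * (16 * L + 2) ^ 2 * L ^ 2) * ‖x - z‖ ^ 2 := by
  obtain ⟨e, h1, h2⟩ := dps_J h hu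
  have h3 : F.A x (F.J z v) = J0 (F.A x v) + -F.A x ((F.J x - F.J z) v) := by simp
  have h4 : ‖-F.A x ((F.J x - F.J z) v)‖ ≤ 2 * (L * ‖x - z‖) := by
    have k1 := F.norm_A_le x ((F.J x - F.J z) v)
    have k2 := (F.J x - F.J z).le_opNorm v
    rw [hv] at k2
    rw [norm_neg]
    nlinarith [norm_nonneg (F.J x - F.J z)]
  have h5 : ‖F.A x v‖ ≤ 2 := by linarith [F.norm_A_le x v]
  have h6 := dps_le hL h hr u
  rw [hu, mul_one] at h6
  rw [k22_apply, h1, h3]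
  refine (neg_le.1 (D4_cone _ _ _ _)).trans ?_
  calc _ ≤ 2 * (2 ^ 2 * (3 * (L * ‖x - z‖)) ^ 2 + (16 * L + 2) ^ 2 * (2 * (L * ‖x - z‖)) ^ 2) := by
        gcongr
    _ = _ := by ring

theorem cm_k22 (hL : 0 ≤ L) (h : ‖F.DPs x z + F.A x‖ ≤ L * ‖x - z‖)
    (hA : ‖F.A x - F.A z‖ ≤ L * ‖x - z‖) (hr : ‖x - z‖ ≤ 16) (hu : ‖u‖ = 1) :
    ‖F.cm z (F.k22 x z u (F.J x u))‖ ≤
      (3 * (16 * L + 2) * L + 396 * (16 * L + 2) ^ 2 * L) * ‖x - z‖ := by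
  obtain ⟨e, h1, h2⟩ := dps_J h hu
  have h6 := dps_le hL h hr u
  have h7 := (dps_le hL h hr (F.J x u)).trans (mul_le_mul_of_nonneg_left (F.norm_J_le x u)
    (by positivity))
  rw [hu, mul_one] at h6 h7
  have e1 : F.cm z (F.k22 x z u (F.J x u)) = cm (st (F.DPs x z u) e) + F.cm z
      ((pull (F.A x) - pull (F.A z)) (st (F.DPs x z u) (F.DPs x z (F.J x u)))) := by
    rw [Frame.k22, sub_apply, map_sub, F.cm_pull_A, h1, map_add, map_add cm,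
      cm_st_J0]
    abel
  have h8 : ‖pull (F.A x) - pull (F.A z)‖ ≤ 6 * 3 * (L * ‖x - z‖) :=
    (norm_pull_sub_le _ _).trans (by gcongr; linarith [F.opNorm_A x, F.opNorm_A z])
  rw [e1]
  refine (norm_add_le _ _).trans ((add_le_add ((norm_cm_le _).trans (norm_st_le _ _))
    ((F.norm_cm_le _ _).trans (mul_le_mul_of_nonneg_left ((ContinuousLinearMap.le_opNorm _ _).trans
      (mul_le_mul_of_nonneg_left (norm_st_le _ _) (norm_nonneg _))) (by norm_num)))).trans ?_)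
  calc _ ≤ (16 * L + 2) * (3 * (L * ‖x - z‖)) +
        11 * (6 * 3 * (L * ‖x - z‖) * ((16 * L + 2) * ((16 * L + 2) * 2))) := by gcongr
    _ = _ := by ring

theorem k21_le (hL : 0 ≤ L) (h : ‖F.DPs x z + F.A x‖ ≤ L * ‖x - z‖) (hr : ‖x - z‖ ≤ 16)
    (hu : ‖u‖ = 1) {δ B : ℝ} (hB : ‖gk δ (F.Ps x z)‖ ≤ B) :
    ‖F.k21 δ x z u (F.J x u)‖ ≤ 8 * B * (16 * L + 2) ^ 2 := by
  have h0 := (norm_nonneg _).trans hB
  have h6 := dps_le hL h hr u
  have h7 := (dps_le hL h hr (F.J x u)).trans (mul_le_mul_of_nonneg_left (F.norm_J_le x u)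
    (by positivity))
  rw [hu, mul_one] at h6 h7
  refine ContinuousLinearMap.opNorm_le_bound _ (by positivity) fun p => ?_
  have h5 : ‖F.A x p‖ ≤ 2 * ‖p‖ := by linarith [F.norm_A_le x p, norm_nonneg p]
  rw [k21_apply, Real.norm_eq_abs]
  refine (abs_D4_le _ _ _ _).trans ?_
  calc _ ≤ 2 * B * (16 * L + 2) * ((16 * L + 2) * 2) * (2 * ‖p‖) := by gcongr
    _ = _ := by ring

end S2

open S2 in
theorem s2S {F : Frame} (h1 : NewS F) (h2 : USm F) : S2S F := by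
  intro m f Dn H
  obtain ⟨L, hL, hl⟩ := h1.lip
  obtain ⟨B, hB, hb⟩ := h1.bd
  have hc := (cut_cc (r := 5) (by norm_num)).fderiv
  obtain ⟨G, hG, hg⟩ := hc.bounded
  have := H.pm.1
  obtain ⟨K1, k1, e1⟩ : ∃ K, 0 ≤ K ∧ K = 2 * (36 * L ^ 2 + 4 * (16 * L + 2) ^ 2 * L ^ 2) :=
    ⟨_, by positivity, rfl⟩
  obtain ⟨K2, k2, e2⟩ : ∃ K, 0 ≤ K ∧ K = 3 * (16 * L + 2) * L + 396 * (16 * L + 2) ^ 2 * L :=
    ⟨_, by positivity, rfl⟩
  obtain ⟨K3, k3, e3⟩ : ∃ K, 0 ≤ K ∧ K = 6 * (8 * B * (16 * L + 2) ^ 2) := ⟨_, by positivity, rfl⟩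
  have i4 := int_mul (g := fun z => ‖fderiv ℝ (cut 5) z‖) hc.continuous.norm
    (fun y hy => norm_eq_zero.2 (hc.2 y (by linarith))) H.l2
  obtain ⟨K4, k4, e4⟩ : ∃ K, 0 ≤ K ∧ K = (∫ _p, 4 * (K3 * G) ∂m) +
      ∫ z, 11 * K3 * (‖fderiv ℝ (cut 5) z‖ * ‖f z‖) :=
    ⟨_, add_nonneg (integral_nonneg fun _ => by positivity)
      (integral_nonneg fun _ => by positivity), rfl⟩
  refine ⟨2 * (K1 * B * B) + K2 * B + K4, by positivity, fun δ x u hδ hδ1 hx hu => ?_⟩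
  obtain ⟨-, u1, -, u2, -, -, -, u3⟩ := (h2 m f Dn H).2 δ hδ
  have near : ∀ z : V, ‖z‖ ≤ 7 → ‖x - z‖ ≤ 16 := fun z hz => by linarith [norm_sub_le x z]
  have hN : ∀ z : V, 0 ≤ F.Nz δ z x := fun z => by unfold Frame.Nz nk; positivity
  have a1 : ∫ p, -ap ((cut 5 p.1 * hk δ (F.Ps x p.1)) • F.k22 x p.1 u (F.J x u)) p.2 (F.J p.1 p.2) ∂m
      ≤ ∫ p, 2 * (K1 * B * B) * (cut 5 p.1 * ‖F.A p.1 p.2‖ ^ 2 * F.Nz δ p.1 x) ∂m := by
    refine int_le ((u2 x).const_mul _) (fun p => mul_nonneg (by positivity)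
      (mul_nonneg (mul_nonneg (cut_nonneg _ _) (sq_nonneg _)) (hN _))) ?_
    filter_upwards [H.pm.2] with ⟨z, v⟩ ⟨hz, hv⟩
    obtain ⟨b1, -, -, -, b2, b3⟩ := hb δ x z hδ hδ1 (near z hz)
    have c1 := cone hL (hl x z).2.2.2 (hl x z).2.2.1 (near z hz) hu hv
    rw [← e1] at c1
    have c2 : hk δ (F.Ps x z) * ‖x - z‖ ^ 2 ≤ B * (B * F.Nz δ z x) :=
      (mul_le_mul_of_nonneg_right b3 (sq_nonneg _)).trans (by
        rw [mul_assoc B, mul_assoc B]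
        exact mul_le_mul_of_nonneg_left ((kp_mul hδ _).1.trans b1) hB)
    have c3 : 1 ≤ 2 * ‖F.A z v‖ ^ 2 := by
      have := F.le_norm_A z v
      rw [show ‖v‖ = 1 from hv] at this
      nlinarith
    have c4 := cut_nonneg 5 z
    have c5 := hN z
    rw [ap_smul]
    calc _ = cut 5 z * (hk δ (F.Ps x z) * -ap (F.k22 x z u (F.J x u)) v (F.J z v)) := by ring
      _ ≤ cut 5 z * (hk δ (F.Ps x z) * (K1 * ‖x - z‖ ^ 2)) := by gcongr
      _ = cut 5 z * K1 * (hk δ (F.Ps x z) * ‖x - z‖ ^ 2) * 1 := by ring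
      _ ≤ cut 5 z * K1 * (B * (B * F.Nz δ z x)) * (2 * ‖F.A z v‖ ^ 2) := by gcongr
      _ = _ := by ring
  have a2 : ∫ z, -⟪f z, F.cm z ((cut 5 z * hk δ (F.Ps x z)) • F.k22 x z u (F.J x u))⟫
      ≤ ∫ z, K2 * B * (cut 5 z * kp δ 3 (x - z) * ‖f z‖) := by
    refine int_le ((int_mul ((cut_sm 5).continuous.mul ((continuous_kp hδ 3).comp (by fun_prop)))
      (fun y hy => mul_eq_zero_of_left (cut_zero (by norm_num) (by linarith)) _) H.l2).const_mul _)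
      (fun z => mul_nonneg (by positivity) (mul_nonneg (mul_nonneg (cut_nonneg _ _)
        (kp_pos hδ _ _).le) (norm_nonneg _))) (Eventually.of_forall fun z => ?_)
    by_cases hz : ‖z‖ ≤ 7
    · obtain ⟨-, -, -, -, b2, b3⟩ := hb δ x z hδ hδ1 (near z hz)
      have c1 := cm_k22 hL (hl x z).2.2.2 (hl x z).1 (near z hz) hu
      rw [← e2] at c1
      have c2 : hk δ (F.Ps x z) * ‖x - z‖ ≤ B * kp δ 3 (x - z) :=
        (mul_le_mul_of_nonneg_right b3 (norm_nonneg _)).trans (by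
          rw [mul_assoc B, mul_assoc B]
          exact mul_le_mul_of_nonneg_left (kp_mul hδ _).2 hB)
      have c4 := cut_nonneg 5 z
      refine (neg_le_abs _).trans ((abs_real_inner_le_norm _ _).trans ?_)
      rw [map_smul, norm_smul, Real.norm_of_nonneg (mul_nonneg c4 b2)]
      calc _ ≤ ‖f z‖ * (cut 5 z * hk δ (F.Ps x z) * (K2 * ‖x - z‖)) := by gcongr
        _ = ‖f z‖ * cut 5 z * K2 * (hk δ (F.Ps x z) * ‖x - z‖) := by ring
        _ ≤ ‖f z‖ * cut 5 z * K2 * (B * kp δ 3 (x - z)) := by gcongr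
        _ = _ := by ring
    · rw [cut_zero (by norm_num) (by linarith [not_le.1 hz])]
      simp
  have b0 : ∀ z, ‖w1 (fderiv ℝ (cut 5) z) (F.k21 δ x z u (F.J x u))‖ ≤ K3 * ‖fderiv ℝ (cut 5) z‖ := by
    intro z
    refine (norm_w1_le _ _).trans ?_
    by_cases hz : fderiv ℝ (cut 5) z = 0
    · simp [hz]
    · have c1 : ‖z‖ ≤ 7 := by
        by_contra k
        exact hz (hc.2 z (by linarith [not_le.1 k]))
      have c2 : 5 ≤ ‖z‖ := not_lt.1 fun k => hz (cut_fderiv_zero k)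
      have c3 : kp δ 3 (x - z) ≤ 1 := inv_le_one_of_one_le₀ (one_le_pow₀ (by
        have := norm_sub_norm_le z x
        rw [norm_sub_rev] at this
        linarith))
      have c4 := k21_le hL (hl x z).2.2.2 (near z c1) hu
        ((hb δ x z hδ hδ1 (near z c1)).2.2.1.trans (mul_le_of_le_one_right hB c3))
      calc _ ≤ 6 * ‖fderiv ℝ (cut 5) z‖ * (8 * B * (16 * L + 2) ^ 2) := by gcongr
        _ = _ := by rw [e3]; ring
  have a3 : ∫ p, ap (w1 (fderiv ℝ (cut 5) p.1) (F.k21 δ x p.1 u (F.J x u))) p.2 (F.J p.1 p.2) ∂m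
      ≤ ∫ _p, 4 * (K3 * G) ∂m := by
    refine int_le (integrable_const _) (fun _ => by positivity) ?_
    filter_upwards [H.pm.2] with ⟨z, v⟩ ⟨_, hv⟩
    have c1 := (b0 z).trans (mul_le_mul_of_nonneg_left (hg z) k3)
    have c2 := F.norm_J_le z v
    refine (le_abs_self _).trans ((abs_ap_le _ _ _).trans ?_)
    rw [show ‖v‖ = 1 from hv] at c2 ⊢
    calc _ ≤ 2 * (K3 * G) * 1 * (2 * 1) := by gcongr
      _ = _ := by ring
  have a4 : ∫ z, ⟪f z, F.cm z (w1 (fderiv ℝ (cut 5) z) (F.k21 δ x z u (F.J x u)))⟫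
      ≤ ∫ z, 11 * K3 * (‖fderiv ℝ (cut 5) z‖ * ‖f z‖) := by
    refine int_le (i4.const_mul _) (fun _ => by positivity) (Eventually.of_forall fun z => ?_)
    refine (real_inner_le_norm _ _).trans ((mul_le_mul_of_nonneg_left ((F.norm_cm_le _ _).trans
      (mul_le_mul_of_nonneg_left (b0 z) (by norm_num))) (norm_nonneg _)).trans_eq ?_)
    ring
  rw [integral_neg, integral_const_mul] at a1 a2
  have f0 : 0 ≤ ff f δ x := integral_nonneg fun z => mul_nonneg (mul_nonneg (cut_nonneg _ _)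
    (kp_pos hδ _ _).le) (norm_nonneg _)
  have f1 := u1 x
  have f2 : ∫ p, cut 5 p.1 * ‖F.A p.1 p.2‖ ^ 2 * F.Nz δ p.1 x ∂m = F.U m δ x - 1 := by
    rw [Frame.U, add_sub_cancel_left]
  rw [f2] at a1
  change _ ≤ K2 * B * ff f δ x at a2
  rw [u3, Frame.RR, Frame.RR, TL, TL]
  have f3 : 0 ≤ K1 * B * B := by positivity
  have f4 : 0 ≤ K2 * B := by positivity
  nlinarith [mul_nonneg f3 f0, mul_nonneg f4 (zero_le_one.trans f1), mul_nonneg k4 f0,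
    mul_nonneg k4 (sub_nonneg.2 f1)]

end Vale.Agent.P204
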