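import Vale.Agent.P204.Stmt

/-! Square integrability of the anti-invariant part of the derivative of the primitive. -/

set_option maxSynthPendingDepth 3

open scoped Topology ContDiff RealInnerProductSpace Manifold
open Set Metric MeasureTheory Filter

noncomputable section
namespace Vale.Agent.P204
namespace S3

variable {F : Frame}

/-- the pointwise bounds used below, with one constant -/
structure Bds (F : Frame) (K : ℝ) : Prop where
  nn : 0 ≤ K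
  dps : ∀ x z : V, ‖x - z‖ ≤ 16 → ‖F.DPs x z‖ ≤ K
  anti : ∀ x z u : V, ‖x - z‖ ≤ 16 → ‖u‖ = 1 →
    ‖F.cm x (pull (F.DPs x z) (st (F.A x u) (F.A x (F.J z u))))‖ ≤ K * ‖x - z‖
  gk : ∀ (δ : ℝ) (x z : V), 0 < δ → δ ≤ 1 → ‖x - z‖ ≤ 16 →
    ‖gk δ (F.Ps x z)‖ ≤ K * kp δ 3 (x - z)
  hk : ∀ (δ : ℝ) (x z : V), 0 < δ → δ ≤ 1 → ‖x - z‖ ≤ 16 →
    0 ≤ hk δ (F.Ps x z) ∧ hk δ (F.Ps x z) ≤ K * δ ^ 2 * kp δ 6 (x - z)
  dcut : ∀ z, ‖fderiv ℝ (cut 5) z‖ ≤ K

lemma anti_aux (x : V) (P : End) (c e : V) (t : ℝ) (hP : ‖P + F.A x‖ ≤ t) :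
    ‖F.cm x (pull P (st c (J0 c + e)))‖
      ≤ 6 * (2 + 4 / 3 * t) * (4 / 3 * t) * (‖c‖ * (‖c‖ + ‖e‖)) + ‖c‖ * ‖e‖ := by
  have ht : 0 ≤ t := (norm_nonneg _).trans hP
  set B : End := P.comp (F.Ai x) with hB
  set I : End := ContinuousLinearMap.id ℝ V with hI
  have e1 : B - (-I) = (P + F.A x).comp (F.Ai x) := by
    rw [ContinuousLinearMap.add_comp, F.inv2, sub_neg_eq_add]
  have n1 : ‖B - (-I)‖ ≤ 4 / 3 * t := by
    rw [e1]
    refine (ContinuousLinearMap.opNorm_comp_le _ _).trans ?_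
    have := F.opNorm_Ai x
    nlinarith [norm_nonneg (P + F.A x), norm_nonneg (F.Ai x)]
  have nI : ‖-I‖ ≤ 1 := by rw [norm_neg]; exact ContinuousLinearMap.norm_id_le
  have nB : ‖B‖ ≤ 1 + 4 / 3 * t := by
    have := norm_le_insert' B (-I)
    linarith
  have n2 : ‖pull B - pull (-I)‖ ≤ 6 * (2 + 4 / 3 * t) * (4 / 3 * t) := by
    refine (norm_pull_sub_le _ _).trans ?_
    have : ‖B‖ + ‖-I‖ ≤ 2 + 4 / 3 * t := by linarith
    gcongr
  have e2 : F.cm x (pull P (st c (J0 c + e)))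
      = cm ((pull B - pull (-I)) (st c (J0 c + e))) + cm (st c e) := by
    rw [F.cm_apply, pull_pull, ← hB, pull_neg, hI, pull_id, ContinuousLinearMap.sub_apply,
      map_sub, ContinuousLinearMap.id_apply, map_add (st c) (J0 c) e, map_add cm (st c (J0 c)),
      cm_st_J0]
    abel
  rw [e2]
  refine (norm_add_le _ _).trans (add_le_add ?_ ?_)
  · refine (norm_cm_le _).trans (((pull B - pull (-I)).le_opNorm _).trans ?_)
    have h1 : ‖st c (J0 c + e)‖ ≤ ‖c‖ * (‖c‖ + ‖e‖) := by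
      refine (norm_st_le _ _).trans ?_
      have := norm_add_le (J0 c) e
      rw [norm_J0_apply] at this
      gcongr
    exact mul_le_mul n2 h1 (norm_nonneg _) (by positivity)
  · exact (norm_cm_le _).trans (norm_st_le _ _)

lemma exists_bds (h : NewS F) : ∃ K, Bds F K := by
  obtain ⟨L, hL0, hL⟩ := h.lip
  obtain ⟨B, hB0, hB⟩ := h.bd
  obtain ⟨G, hG0, hG⟩ := (cut_cc (r := 5) (by norm_num)).fderiv.bounded
  set K1 : ℝ := 6 * (2 + 4 / 3 * (16 * L)) * (4 / 3 * L) * (5 / 4 * (5 / 4 + 5 / 4 * (16 * L)))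
    + 5 / 4 * (5 / 4 * L) with hK1
  have hK10 : 0 ≤ K1 := by positivity
  refine ⟨5 / 4 + 16 * L + K1 + B + G, by positivity, fun x z hx => ?_, fun x z u hx hu => ?_,
    fun δ x z h0 h1 hx => ?_, fun δ x z h0 h1 hx => ⟨(hB δ x z h0 h1 hx).2.2.2.2.1, ?_⟩,
    fun z => ?_⟩
  · have h1 := (hL x z).2.2.2
    have h2 := norm_sub_le (F.DPs x z + F.A x) (F.A x)
    rw [add_sub_cancel_right] at h2
    have h3 := F.opNorm_A x
    nlinarith
  · have e : F.A x (F.J z u) = J0 (F.A x u) + F.A x ((F.J z - F.J x) u) := by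
      rw [ContinuousLinearMap.sub_apply, map_sub, F.A_J]; abel
    have hc : ‖F.A x u‖ ≤ 5 / 4 := by simpa [hu] using F.norm_A_le x u
    have he : ‖F.A x ((F.J z - F.J x) u)‖ ≤ 5 / 4 * (L * ‖x - z‖) := by
      refine (F.norm_A_le _ _).trans ?_
      have h1 := (F.J z - F.J x).le_opNorm u
      have h2 := (hL z x).2.2.1
      rw [norm_sub_rev z x] at h2
      rw [hu, mul_one] at h1
      linarith
    rw [e]
    refine (anti_aux x _ _ _ _ (hL x z).2.2.2).trans ?_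
    have hw := norm_nonneg (x - z)
    have h16 : L * ‖x - z‖ ≤ 16 * L := by nlinarith
    calc _ ≤ 6 * (2 + 4 / 3 * (16 * L)) * (4 / 3 * (L * ‖x - z‖))
          * (5 / 4 * (5 / 4 + 5 / 4 * (16 * L))) + 5 / 4 * (5 / 4 * (L * ‖x - z‖)) := by
          gcongr
          linarith
      _ = K1 * ‖x - z‖ := by rw [hK1]; ring
      _ ≤ _ := by gcongr; linarith
  · refine (hB δ x z h0 h1 hx).2.2.1.trans ?_
    have := (kp_pos h0 3 (x - z)).le
    gcongr; linarith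
  · refine (hB δ x z h0 h1 hx).2.2.2.2.2.trans ?_
    have := (kp_pos h0 6 (x - z)).le
    gcongr; linarith
  · exact (hG z).trans (by linarith)

lemma near_of_cut {x z : V} (hx : ‖x‖ ≤ 4) (hz : cut 5 z ≠ 0) : ‖x - z‖ ≤ 16 := by
  have h1 : ‖z‖ < 5 + 1 := by
    by_contra hc
    exact hz (cut_zero (by norm_num) (not_lt.1 hc))
  linarith [norm_sub_le x z]

lemma norm_k22 {K : ℝ} (hK : Bds F K) {x z : V} (hx : ‖x - z‖ ≤ 16) {a a' : V} (ha : ‖a‖ ≤ 2)
    (ha' : ‖a'‖ ≤ 2) : ‖F.k22 x z a a'‖ ≤ 44 * K ^ 2 := by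
  have h0 := hK.nn
  have e : ∀ b : V, ‖b‖ ≤ 2 → ‖F.DPs x z b‖ ≤ K * 2 := fun b hb =>
    ((F.DPs x z).le_opNorm b).trans (mul_le_mul (hK.dps x z hx) hb (norm_nonneg _) h0)
  refine (F.norm_pull_A _ _).trans ?_
  have h1 := (norm_st_le (F.DPs x z a) (F.DPs x z a')).trans
    (mul_le_mul (e a ha) (e a' ha') (norm_nonneg _) (by positivity))
  nlinarith

lemma norm_k21 {K : ℝ} (hK : Bds F K) {δ : ℝ} (h0 : 0 < δ) (h1 : δ ≤ 1) {x z : V}
    (hx : ‖x - z‖ ≤ 16) (hx' : 1 ≤ ‖x - z‖) {a a' : V} (ha : ‖a‖ ≤ 2) (ha' : ‖a'‖ ≤ 2) :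
    ‖F.k21 δ x z a a'‖ ≤ 10 * K ^ 3 := by
  have hn := hK.nn
  have e : ∀ b : V, ‖b‖ ≤ 2 → ‖F.DPs x z b‖ ≤ K * 2 := fun b hb =>
    ((F.DPs x z).le_opNorm b).trans (mul_le_mul (hK.dps x z hx) hb (norm_nonneg _) hn)
  have hk : kp δ 3 (x - z) ≤ 1 := by
    unfold kp
    exact inv_le_one_of_one_le₀ (one_le_pow₀ (by linarith))
  have hg : ‖gk δ (F.Ps x z)‖ ≤ K := (hK.gk δ x z h0 h1 hx).trans (by nlinarith)
  refine ContinuousLinearMap.opNorm_le_bound _ (by positivity) fun p => ?_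
  rw [k21_apply, Real.norm_eq_abs]
  refine (abs_D4_le _ _ _ _).trans ?_
  calc _ ≤ 2 * K * (K * 2) * (K * 2) * (5 / 4 * ‖p‖) := by
        gcongr
        · exact e a ha
        · exact e a' ha'
        · exact F.norm_A_le x p
    _ = _ := by ring

/-- the form in the last term is bounded and supported in the ball of radius six -/
lemma norm_last {K : ℝ} (hK : Bds F K) {δ : ℝ} (h0 : 0 < δ) (h1 : δ ≤ 1) {x : V} (hx : ‖x‖ ≤ 4)
    {a a' : V} (ha : ‖a‖ ≤ 2) (ha' : ‖a'‖ ≤ 2) (z : V) :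
    ‖w1 (fderiv ℝ (cut 5) z) (F.k21 δ x z a a')‖ ≤ 60 * K ^ 4 * cut 6 z := by
  have hn := hK.nn
  have hc := cut_nonneg 6 z
  refine (norm_w1_le _ _).trans ?_
  by_cases h5 : ‖z‖ < 5
  · rw [cut_fderiv_zero h5, norm_zero, mul_zero, zero_mul]; positivity
  by_cases h6 : 5 + 1 < ‖z‖
  · rw [(cut_cc (r := 5) (by norm_num)).fderiv.2 z h6, norm_zero, mul_zero, zero_mul]; positivity
  rw [cut_one (r := 6) (by linarith), mul_one]
  have a1 : ‖x - z‖ ≤ 16 := by linarith [norm_sub_le x z]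
  have a2 : 1 ≤ ‖x - z‖ := by
    have := norm_sub_norm_le z x
    rw [norm_sub_rev] at this
    linarith
  calc _ ≤ 6 * K * (10 * K ^ 3) := by
        gcongr
        · exact hK.dcut z
        · exact norm_k21 hK h0 h1 a1 a2 ha ha'
    _ = _ := by ring

lemma integrable_cut_f {f : V → E2} (hf : MemLp f 2 volume) {r : ℝ} (hr : 1 ≤ r) :
    Integrable (fun z => cut r z * ‖f z‖) ∧ Integrable (fun z => (cut r z * ‖f z‖) ^ 2) ∧
      ∫ z, (cut r z * ‖f z‖) ^ 2 ≤ ∫ z, ‖f z‖ ^ 2 := by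
  have h2 : Integrable (fun z => ‖f z‖ ^ 2) := (memLp_two_iff_integrable_sq_norm hf.1).1 hf
  have hc := cut_cc hr
  have hm : AEStronglyMeasurable (fun z => cut r z * ‖f z‖) volume :=
    hc.continuous.aestronglyMeasurable.mul hf.1.norm
  have b : ∀ z, (cut r z * ‖f z‖) ^ 2 ≤ ‖f z‖ ^ 2 := fun z => by
    have h0 := cut_nonneg r z
    have h1 := cut_le_one r z
    have : cut r z * ‖f z‖ ≤ ‖f z‖ := mul_le_of_le_one_left (norm_nonneg _) h1
    gcongr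
  have i2 : Integrable (fun z => (cut r z * ‖f z‖) ^ 2) := by
    refine h2.mono' (hm.pow 2) (Eventually.of_forall fun z => ?_)
    rw [Real.norm_eq_abs, abs_of_nonneg (sq_nonneg _)]; exact b z
  refine ⟨?_, i2, integral_mono i2 h2 b⟩
  refine (hc.integrable.add h2).mono' hm (Eventually.of_forall fun z => ?_)
  have h0 := cut_nonneg r z
  have h1 := cut_le_one r z
  rw [Real.norm_eq_abs, abs_of_nonneg (by positivity)]
  change _ ≤ cut r z + ‖f z‖ ^ 2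
  nlinarith [sq_nonneg (cut r z - ‖f z‖), norm_nonneg (f z)]

lemma sigma_le {f : V → E2} {β : V → E6} {b : V → ℝ} (hb : Integrable b)
    (h : ∀ z, 11 * ‖β z‖ * ‖f z‖ ≤ b z) : |∫ z, ⟪f z, F.cm z (β z)⟫| ≤ ∫ z, b z := by
  rw [← Real.norm_eq_abs]
  refine norm_integral_le_of_norm_le hb (Eventually.of_forall fun z => ?_)
  refine (norm_inner_le_norm _ _).trans (le_trans ?_ (h z))
  have := F.norm_cm_le z (β z)
  nlinarith [norm_nonneg (f z)]

lemma last_le {K : ℝ} (hK : Bds F K) {m : Measure (V × V)} {f : V → E2} {Dn : ℝ}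
    (H : LH F m f Dn) {δ : ℝ} (h0 : 0 < δ) (h1 : δ ≤ 1) {x : V} (hx : ‖x‖ ≤ 4)
    {a a' : V} (ha : ‖a‖ ≤ 2) (ha' : ‖a'‖ ≤ 2) :
    |F.RR m f (fun z => w1 (fderiv ℝ (cut 5) z) (F.k21 δ x z a a'))|
      ≤ 240 * K ^ 4 * m.real univ + 660 * K ^ 4 * ∫ z, cut 6 z * ‖f z‖ := by
  have := H.pm.1
  have hn := hK.nn
  refine (abs_add_le _ _).trans (add_le_add ?_ ?_)
  · rw [← Real.norm_eq_abs, TL]
    refine norm_integral_le_of_norm_le_const ?_
    filter_upwards [H.pm.2] with p hp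
    rw [Real.norm_eq_abs]
    refine (abs_ap_le _ _ _).trans ?_
    have a1 := (norm_last hK h0 h1 hx ha ha' p.1).trans
      (mul_le_of_le_one_right (by positivity) (cut_le_one 6 p.1))
    have a2 := F.norm_J_le p.1 p.2
    rw [hp.2] at a2 ⊢
    calc _ ≤ 2 * (60 * K ^ 4) * 1 * (2 * 1) := by gcongr
      _ = _ := by ring
  · rw [← integral_const_mul]
    refine sigma_le ((integrable_cut_f H.l2 (by norm_num)).1.const_mul _) fun z => ?_
    have a1 := norm_last hK h0 h1 hx ha ha' z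
    calc _ ≤ 11 * (60 * K ^ 4 * cut 6 z) * ‖f z‖ := by gcongr
      _ = _ := by ring

lemma sig_le {K : ℝ} (hK : Bds F K) {f : V → E2} (hf : MemLp f 2 volume) {δ : ℝ} (h0 : 0 < δ)
    (h1 : δ ≤ 1) {x : V} (hx : ‖x‖ ≤ 4) {a a' : V} (ha : ‖a‖ ≤ 2) (ha' : ‖a'‖ ≤ 2) :
    |∫ z, ⟪f z, F.cm z ((cut 5 z * hk δ (F.Ps x z)) • F.k22 x z a a')⟫|
      ≤ 484 * K ^ 3 * ∫ z, δ ^ 2 * kp δ 6 (x - z) * (cut 5 z * ‖f z‖) := by
  have hn := hK.nn
  rw [← integral_const_mul]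
  refine sigma_le (β := fun z => (cut 5 z * hk δ (F.Ps x z)) • F.k22 x z a a')
    (Integrable.const_mul ?_ _) fun z => ?_
  · refine (integrable_cut_f hf (by norm_num)).1.bdd_mul (c := δ ^ 2 * (δ ^ 6)⁻¹)
      (continuous_const.mul ((continuous_kp h0 6).comp (by fun_prop))).aestronglyMeasurable
      (Eventually.of_forall fun z => ?_)
    have := kp_pos h0 6 (x - z)
    rw [Real.norm_eq_abs, abs_of_nonneg (by positivity)]
    gcongr
    exact kp_le h0 6 _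
  · by_cases hz : cut 5 z = 0
    · simp [hz]
    have a0 := near_of_cut hx hz
    have a1 := hK.hk δ x z h0 h1 a0
    have a2 := norm_k22 hK a0 ha ha'
    have hc := cut_nonneg 5 z
    have hk6 := (kp_pos h0 6 (x - z)).le
    rw [norm_smul, Real.norm_eq_abs, abs_of_nonneg (mul_nonneg hc a1.1)]
    calc _ ≤ 11 * (cut 5 z * (K * δ ^ 2 * kp δ 6 (x - z)) * (44 * K ^ 2)) * ‖f z‖ := by
          gcongr
          exact a1.2
      _ = _ := by ring

lemma integrable_kp5 {m : Measure (V × V)} [IsFiniteMeasure m] {δ : ℝ} (h0 : 0 < δ) (x : V) :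
    Integrable (fun p : V × V => kp δ 5 (x - p.1)) m := by
  refine (integrable_const ((δ ^ 5)⁻¹)).mono'
    ((continuous_kp h0 5).comp (by fun_prop)).aestronglyMeasurable
    (Eventually.of_forall fun p => ?_)
  rw [Real.norm_eq_abs, abs_of_nonneg (kp_pos h0 5 _).le]
  exact kp_le h0 5 _

lemma tl_le {K : ℝ} (hK : Bds F K) (hN : NewS F) (hU : USm F) {m : Measure (V × V)} {f : V → E2}
    {Dn : ℝ} (H : LH F m f Dn) {δ : ℝ} (h0 : 0 < δ) (h1 : δ ≤ 1) {x : V} (hx : ‖x‖ ≤ 4)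
    {a a' b b' : V} {s : ℝ} (hs : ∀ h : E6, |ap h a a' + s * ap h b b'| ≤ 2 * ‖F.cm x h‖) :
    |TL F m (fun z => (cut 5 z * hk δ (F.Ps x z)) • F.k22 x z a a')
      + s * TL F m (fun z => (cut 5 z * hk δ (F.Ps x z)) • F.k22 x z b b')|
      ≤ 2 * K ^ 2 * (δ ^ 2 * ∫ p, kp δ 5 (x - p.1) ∂m) := by
  have := H.pm.1
  have hn := hK.nn
  have hi : ∀ c c' : V, Integrable (fun p : V × V =>
      ap ((cut 5 p.1 * hk δ (F.Ps x p.1)) • F.k22 x p.1 c c') p.2 (F.J p.1 p.2)) m := by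
    intro c c'
    refine ((hU m f Dn H).1 (fun z => (cut 5 z * hk δ (F.Ps x z)) • F.k22 x z c c') ?_ ?_).1
    · have c0 : Continuous fun z : V => (x, z) := by fun_prop
      have c1 : Continuous fun z => hk δ (F.Ps x z) := by
        simpa only [Function.comp_def] using (hN.sm δ h0).2.2.1.continuous.comp c0
      have c2 : Continuous fun z => F.k22 x z c c' := by
        simpa only [Function.comp_def] using ((hN.sm δ h0).2.2.2.2.2.2 c c').continuous.comp c0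
      exact ((cut_sm 5).continuous.mul c1).smul c2
    · intro y hy
      rw [cut_zero (r := 5) (by norm_num) (by linarith), zero_mul, zero_smul]
  rw [TL, TL, ← integral_const_mul, ← integral_add (hi a a') ((hi b b').const_mul s),
    ← integral_const_mul, ← integral_const_mul, ← Real.norm_eq_abs]
  refine norm_integral_le_of_norm_le (((integrable_kp5 h0 x).const_mul _).const_mul _) ?_
  filter_upwards [H.pm.2] with p hp
  have hk5 := (kp_pos h0 5 (x - p.1)).le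
  by_cases hz : cut 5 p.1 = 0
  · simp only [hz, zero_mul, zero_smul, ap_zero, mul_zero, add_zero, norm_zero]; positivity
  have a0 := near_of_cut hx hz
  have a1 := hK.hk δ x p.1 h0 h1 a0
  have hc := cut_nonneg 5 p.1
  have hc1 := cut_le_one 5 p.1
  have hk6 := (kp_pos h0 6 (x - p.1)).le
  have e : ∀ c c' : V, ap (F.k22 x p.1 c c') p.2 (F.J p.1 p.2)
      = ap (pull (F.DPs x p.1) (st (F.A x p.2) (F.A x (F.J p.1 p.2)))) c c' := fun c c' => by
    rw [k22_apply, D4_swap, ap_pull, D4_eq]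
  have a2 := (hs (pull (F.DPs x p.1) (st (F.A x p.2) (F.A x (F.J p.1 p.2))))).trans
    (mul_le_mul_of_nonneg_left (hK.anti x p.1 p.2 a0 hp.2) zero_le_two)
  have a3 : ‖x - p.1‖ * kp δ 6 (x - p.1) ≤ kp δ 5 (x - p.1) := by
    rw [kp_succ h0 5]; gcongr; linarith
  rw [ap_smul, ap_smul, e, e, mul_left_comm s, ← mul_add, Real.norm_eq_abs, abs_mul,
    abs_of_nonneg (mul_nonneg hc a1.1)]
  calc _ ≤ 1 * (K * δ ^ 2 * kp δ 6 (x - p.1)) * (2 * (K * ‖x - p.1‖)) := by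
        gcongr
        · exact a1.1
        · exact a1.2
    _ = 2 * K ^ 2 * (δ ^ 2 * (‖x - p.1‖ * kp δ 6 (x - p.1))) := by ring
    _ ≤ _ := by gcongr

lemma comb_le {K : ℝ} (hK : Bds F K) (hN : NewS F) (hU : USm F) {m : Measure (V × V)}
    {f : V → E2} {Dn : ℝ} (H : LH F m f Dn) {δ : ℝ} (h0 : 0 < δ) (h1 : δ ≤ 1) {x : V}
    (hx : ‖x‖ ≤ 4) {a a' b b' : V} {s : ℝ} (hs1 : |s| = 1) (ha : ‖a‖ ≤ 2) (ha' : ‖a'‖ ≤ 2)
    (hb : ‖b‖ ≤ 2) (hb' : ‖b'‖ ≤ 2)
    (hs : ∀ h : E6, |ap h a a' + s * ap h b b'| ≤ 2 * ‖F.cm x h‖) :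
    |ap (d1 (F.S m f δ) x) a a' + s * ap (d1 (F.S m f δ) x) b b'|
      ≤ 2 * (K ^ 2 * (δ ^ 2 * ∫ p, kp δ 5 (x - p.1) ∂m)
        + 484 * K ^ 3 * (∫ z, δ ^ 2 * kp δ 6 (x - z) * (cut 5 z * ‖f z‖))
        + (240 * K ^ 4 * m.real univ + 660 * K ^ 4 * ∫ z, cut 6 z * ‖f z‖)) := by
  have e := ((hU m f Dn H).2 δ h0).2.2.2.2.2.2.2 x
  have t := tl_le hK hN hU H h0 h1 hx hs
  have s1 := sig_le hK H.l2 h0 h1 hx ha ha'
  have s2 := sig_le hK H.l2 h0 h1 hx hb hb'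
  have l1 := last_le hK H h0 h1 hx ha ha'
  have l2 := last_le hK H h0 h1 hx hb hb'
  rw [e, e]
  generalize F.RR m f (fun z => w1 (fderiv ℝ (cut 5) z) (F.k21 δ x z a a')) = r1 at *
  generalize F.RR m f (fun z => w1 (fderiv ℝ (cut 5) z) (F.k21 δ x z b b')) = r2 at *
  unfold Frame.RR
  rw [abs_le] at t s1 s2 l1 l2 ⊢
  rcases (abs_eq zero_le_one).1 hs1 with rfl | rfl
  · constructor <;> linarith [t.1, t.2, s1.1, s1.2, s2.1, s2.2, l1.1, l1.2, l2.1, l2.2]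
  · constructor <;> linarith [t.1, t.2, s1.1, s1.2, s2.1, s2.2, l1.1, l1.2, l2.1, l2.2]

lemma cm_c0 (x : V) (h : E6) : ap h (F.Ai x (bv 0)) (F.Ai x (bv 2))
    + (-1) * ap h (F.Ai x (bv 1)) (F.Ai x (bv 3)) = 2 * F.cm x h 0 := by
  rw [F.cm_apply, cm_0, coord_1, ap_pull, ap_pull]; ring
lemma cm_c1 (x : V) (h : E6) : ap h (F.Ai x (bv 0)) (F.Ai x (bv 3))
    + 1 * ap h (F.Ai x (bv 1)) (F.Ai x (bv 2)) = 2 * F.cm x h 1 := by
  rw [F.cm_apply, cm_1, coord_2, ap_pull, ap_pull]; ring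

lemma pt_le {K : ℝ} (hK : Bds F K) (hN : NewS F) (hU : USm F) {m : Measure (V × V)}
    {f : V → E2} {Dn : ℝ} (H : LH F m f Dn) {δ : ℝ} (h0 : 0 < δ) (h1 : δ ≤ 1) {x : V}
    (hx : ‖x‖ ≤ 4) :
    ‖F.cm x (d1 (F.S m f δ) x)‖ ^ 2
      ≤ 6 * ((K ^ 2 * (δ ^ 2 * ∫ p, kp δ 5 (x - p.1) ∂m)) ^ 2
        + (484 * K ^ 3 * (∫ z, δ ^ 2 * kp δ 6 (x - z) * (cut 5 z * ‖f z‖))) ^ 2
        + (240 * K ^ 4 * m.real univ + 660 * K ^ 4 * ∫ z, cut 6 z * ‖f z‖) ^ 2) := by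
  have n : ∀ i, ‖F.Ai x (bv i)‖ ≤ 2 := fun i => by
    have := F.norm_Ai_le x (bv i)
    rw [norm_bv] at this; linarith
  have c : ∀ (v : E2) i, |2 * v i| ≤ 2 * ‖v‖ := fun v i => by
    rw [abs_mul, abs_two]
    exact mul_le_mul_of_nonneg_left (by simpa using PiLp.norm_apply_le v i) zero_le_two
  have b0 := comb_le hK hN hU H h0 h1 hx (s := -1) (by simp) (n 0) (n 2) (n 1) (n 3)
    fun h => by rw [cm_c0]; exact c _ _
  have b1 := comb_le hK hN hU H h0 h1 hx (s := 1) (by simp) (n 0) (n 3) (n 1) (n 2)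
    fun h => by rw [cm_c1]; exact c _ _
  rw [cm_c0] at b0
  rw [cm_c1] at b1
  rw [normsq_E2]
  generalize K ^ 2 * (δ ^ 2 * ∫ p, kp δ 5 (x - p.1) ∂m) = A at *
  generalize 484 * K ^ 3 * (∫ z, δ ^ 2 * kp δ 6 (x - z) * (cut 5 z * ‖f z‖)) = B at *
  generalize 240 * K ^ 4 * m.real univ + 660 * K ^ 4 * ∫ z, cut 6 z * ‖f z‖ = C at *
  have q0 := sq_le_sq' (abs_le.1 b0).1 (abs_le.1 b0).2
  have q1 := sq_le_sq' (abs_le.1 b1).1 (abs_le.1 b1).2
  nlinarith [sq_nonneg (A - B), sq_nonneg (A - C), sq_nonneg (B - C)]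

lemma fub {m : Measure (V × V)} [IsFiniteMeasure m] {δ : ℝ} (h0 : 0 < δ)
    (hi : Integrable (kp δ 5)) :
    Integrable (fun x => ∫ p, kp δ 5 (x - p.1) ∂m) ∧
      ∫ x, ∫ p, kp δ 5 (x - p.1) ∂m = m.real univ * ∫ w, kp δ 5 w := by
  have hc : Continuous fun q : V × V × V => kp δ 5 (q.1 - q.2.1) :=
    (continuous_kp h0 5).comp (by fun_prop)
  have hp : Integrable (fun q : V × V × V => kp δ 5 (q.1 - q.2.1)) (volume.prod m) := by
    rw [integrable_prod_iff' hc.aestronglyMeasurable]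
    refine ⟨Eventually.of_forall fun p => hi.comp_sub_right p.1, ?_⟩
    have : (fun p : V × V => ∫ x, ‖kp δ 5 (x - p.1)‖) = fun _ => ∫ w, ‖kp δ 5 w‖ := by
      funext p
      exact integral_sub_right_eq_self (fun w => ‖kp δ 5 w‖) p.1
    rw [this]
    exact integrable_const _
  refine ⟨hp.integral_prod_left, ?_⟩
  rw [integral_integral_swap hp]
  have : (fun p : V × V => ∫ x, kp δ 5 (x - p.1)) = fun _ => ∫ w, kp δ 5 w := by
    funext p
    exact integral_sub_right_eq_self (kp δ 5) p.1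
  rw [this, integral_const, smul_eq_mul]

end S3

open S3 in
theorem s3S {F : Frame} (h1 : ConvS) (h2 : NewS F) (h3 : USm F) : S3S F := by
  intro m f Dn H
  have := H.pm.1
  obtain ⟨K, hK⟩ := exists_bds h2
  obtain ⟨C3, hC3, c3⟩ := h1.c3
  obtain ⟨C4, hC4, c4⟩ := h1.c4
  have hn := hK.nn
  have hD : 0 ≤ Dn := by
    have a := H.dens 0 1 (by simp) one_pos
    have b : 0 ≤ mass m 0 1 := measureReal_nonneg
    linarith
  have hf := integrable_cut_f H.l2 (r := 5) (by norm_num)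
  set L : ℝ := 240 * K ^ 4 * m.real univ + 660 * K ^ 4 * ∫ z, cut 6 z * ‖f z‖ with hL
  have hM : 0 ≤ m.real univ := measureReal_nonneg
  have hF : 0 ≤ ∫ z, ‖f z‖ ^ 2 := integral_nonneg fun z => sq_nonneg _
  have hv : 0 ≤ (volume : Measure V).real (closedBall 0 4) := measureReal_nonneg
  refine ⟨6 * (K ^ 4 * (C4 * Dn) * (m.real univ * C3) + (484 * K ^ 3) ^ 2 * (C3 ^ 2 * ∫ z, ‖f z‖ ^ 2)
    + (volume : Measure V).real (closedBall 0 4) * L ^ 2), by positivity, fun δ h0 hδ => ?_⟩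
  obtain ⟨i6, i5, b6, b5⟩ := c3 δ h0
  obtain ⟨iI, eI⟩ := fub (m := m) h0 i5
  obtain ⟨-, iY, bY⟩ := h1.young (fun w => δ ^ 2 * kp δ 6 w) (fun z => cut 5 z * ‖f z‖)
    (fun w => mul_nonneg (sq_nonneg _) (kp_pos h0 6 w).le) (i6.const_mul _)
    (continuous_const.mul (continuous_kp h0 6))
    ⟨δ ^ 2 * (δ ^ 6)⁻¹, fun w => mul_le_mul_of_nonneg_left (kp_le h0 6 w) (sq_nonneg _)⟩
    (fun z => mul_nonneg (cut_nonneg 5 z) (norm_nonneg _)) hf.1 hf.2.1
  set I : V → ℝ := fun x => ∫ p, kp δ 5 (x - p.1) ∂m with hI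
  set Y : V → ℝ := fun x => (∫ z, δ ^ 2 * kp δ 6 (x - z) * (cut 5 z * ‖f z‖)) ^ 2 with hY
  have I0 : ∀ x, 0 ≤ I x := fun x => integral_nonneg fun p => (kp_pos h0 5 _).le
  have j1 : IntegrableOn (fun x => K ^ 4 * (C4 * Dn / δ) * δ ^ 2 * I x) (closedBall 0 4) :=
    (iI.const_mul _).integrableOn
  have j2 : IntegrableOn (fun x => (484 * K ^ 3) ^ 2 * Y x) (closedBall 0 4) :=
    (iY.const_mul _).integrableOn
  have j3 : IntegrableOn (fun _ : V => L ^ 2) (closedBall 0 4) :=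
    integrableOn_const measure_closedBall_lt_top.ne
  have k1 : ∫ x in closedBall (0 : V) 4, K ^ 4 * (C4 * Dn / δ) * δ ^ 2 * I x
      ≤ K ^ 4 * (C4 * Dn) * (m.real univ * C3) := by
    refine (setIntegral_le_integral (iI.const_mul _)
      (Eventually.of_forall fun x => mul_nonneg (by positivity) (I0 x))).trans ?_
    rw [integral_const_mul, eI]
    calc _ = K ^ 4 * (C4 * Dn / δ) * (m.real univ * (δ ^ 2 * ∫ w, kp δ 5 w)) := by ring
      _ ≤ K ^ 4 * (C4 * Dn / δ) * (m.real univ * (C3 * δ)) := by gcongr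
      _ = _ := by field_simp
  have k2 : ∫ x in closedBall (0 : V) 4, (484 * K ^ 3) ^ 2 * Y x
      ≤ (484 * K ^ 3) ^ 2 * (C3 ^ 2 * ∫ z, ‖f z‖ ^ 2) := by
    refine (setIntegral_le_integral (iY.const_mul _)
      (Eventually.of_forall fun x => mul_nonneg (sq_nonneg _) (sq_nonneg _))).trans ?_
    rw [integral_const_mul]
    refine mul_le_mul_of_nonneg_left (bY.trans ?_) (sq_nonneg _)
    rw [integral_const_mul]
    have : 0 ≤ δ ^ 2 * ∫ w, kp δ 6 w :=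
      mul_nonneg (sq_nonneg _) (integral_nonneg fun w => (kp_pos h0 6 w).le)
    exact mul_le_mul (by gcongr) hf.2.2 (integral_nonneg fun z => sq_nonneg _) (sq_nonneg _)
  calc _ ≤ ∫ x in closedBall (0 : V) 4, 6 * (K ^ 4 * (C4 * Dn / δ) * δ ^ 2 * I x
        + (484 * K ^ 3) ^ 2 * Y x + L ^ 2) := by
        refine integral_mono_of_nonneg (Eventually.of_forall fun x => sq_nonneg _)
          (((j1.add j2).add j3).const_mul 6) ?_
        filter_upwards [ae_restrict_mem measurableSet_closedBall] with x hx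
        have hx' : ‖x‖ ≤ 4 := by simpa using hx
        refine (pt_le hK h2 h3 H h0 hδ hx').trans ?_
        have a := c4 m x δ Dn this h0 fun r hr => H.dens x r hx' hr
        have a0 := I0 x
        have a1 : (K ^ 2 * (δ ^ 2 * I x)) ^ 2 ≤ K ^ 4 * (C4 * Dn / δ) * δ ^ 2 * I x :=
          calc _ = K ^ 4 * (δ ^ 2 * I x) * δ ^ 2 * I x := by ring
            _ ≤ _ := by gcongr
        have a2 : (484 * K ^ 3 * ∫ z, δ ^ 2 * kp δ 6 (x - z) * (cut 5 z * ‖f z‖)) ^ 2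
            = (484 * K ^ 3) ^ 2 * Y x := mul_pow _ _ _
        rw [a2]
        exact mul_le_mul_of_nonneg_left (add_le_add (add_le_add a1 le_rfl) le_rfl) (by norm_num)
    _ ≤ _ := by
        have j12 : IntegrableOn (fun x => K ^ 4 * (C4 * Dn / δ) * δ ^ 2 * I x
          + (484 * K ^ 3) ^ 2 * Y x) (closedBall 0 4) := j1.add j2
        rw [integral_const_mul, integral_add j12 j3, integral_add j1 j2,
          setIntegral_const, smul_eq_mul]
        gcongr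

end Vale.Agent.P204
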