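import Vale.Agent.P204.Defs

/-! Auxiliary facts for operators with a kernel in scale form. -/

set_option maxSynthPendingDepth 3

open scoped Topology ContDiff RealInnerProductSpace
open Set Metric MeasureTheory Filter

noncomputable section
namespace Vale.Agent.P204
namespace Scale

/-- the inclusion of the middle variable -/
def inc : V →L[ℝ] V × V × ℝ :=
  (0 : V →L[ℝ] V).prod ((ContinuousLinearMap.id ℝ V).prod (0 : V →L[ℝ] ℝ))

@[simp] lemma inc_apply (v : V) : inc v = (0, v, 0) := rfl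

section
variable {F : Type} [NormedAddCommGroup F] [NormedSpace ℝ F]

/-- iterated derivative in the middle variable -/
def Phi (Hs : V × V × ℝ → F) (l : ℕ) (p : V × V × ℝ) :
    ContinuousMultilinearMap ℝ (fun _ : Fin l => V) F :=
  (iteratedFDeriv ℝ l Hs p).compContinuousLinearMap (fun _ => inc)

lemma Phi_smooth {Hs : V × V × ℝ → F} (h : ContDiff ℝ ∞ Hs) (l : ℕ) :
    ContDiff ℝ 1 (Phi Hs l) := by
  have h1 : ContDiff ℝ 1 (iteratedFDeriv ℝ l Hs) :=
    h.iteratedFDeriv_right (by exact_mod_cast le_top)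
  exact (ContinuousMultilinearMap.compContinuousLinearMapL (F := F)
    (fun _ : Fin l => inc)).contDiff.comp h1

lemma iter_aff {Hs : V × V × ℝ → F} (h : ContDiff ℝ ∞ Hs) (l : ℕ) (c : ℝ) (y a x : V) (t : ℝ) :
    iteratedFDeriv ℝ l (fun z => Hs (y, c • (z - a), t)) x
      = c ^ l • Phi Hs l (y, c • (x - a), t) := by
  have e : (fun z => Hs (y, c • (z - a), t))
      = (fun q => Hs ((y, -(c • a), t) + q)) ∘ (c • inc) := by
    funext z
    simp only [Function.comp, smul_apply, inc_apply]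
    congr 1
    simp [sub_eq_neg_add]
  have hs : ContDiff ℝ ∞ (fun q => Hs ((y, -(c • a), t) + q)) :=
    h.comp (contDiff_const.add contDiff_id)
  rw [e, ContinuousLinearMap.iteratedFDeriv_comp_right _ hs x (by exact_mod_cast le_top),
    iteratedFDeriv_comp_add_left]
  have e2 : ((y, -(c • a), t) : V × V × ℝ) + (c • inc) x = (y, c • (x - a), t) := by
    simp [sub_eq_neg_add]
  rw [e2]
  ext m : 1
  simp only [Phi, ContinuousMultilinearMap.compContinuousLinearMap_apply,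
    smul_apply]
  rw [ContinuousMultilinearMap.map_smul_univ]
  simp

lemma Phi_eq {Hs : V × V × ℝ → F} (h : ContDiff ℝ ∞ Hs) (l : ℕ) (y v : V) (t : ℝ) :
    Phi Hs l (y, v, t) = iteratedFDeriv ℝ l (fun z => Hs (y, z, t)) v := by
  have := iter_aff h l 1 y 0 v t
  simpa using this.symm

lemma Phi_far {Hs : V × V × ℝ → F} {C0 : ℝ} (h : ContDiff ℝ ∞ Hs)
    (h0 : ∀ y v t, C0 < ‖v‖ → Hs (y, v, t) = 0) (l : ℕ) (y v : V) (t : ℝ) (hv : C0 < ‖v‖) :
    Phi Hs l (y, v, t) = 0 := by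
  rw [Phi_eq h]
  have e : (fun z => Hs (y, z, t)) =ᶠ[𝓝 v] fun _ => 0 := by
    have : ∀ᶠ z in 𝓝 v, C0 < ‖z‖ := continuous_norm.continuousAt.eventually (lt_mem_nhds hv)
    filter_upwards [this] with z hz using h0 y z t hz
  rw [(e.iteratedFDeriv ℝ l).eq_of_nhds, iteratedFDeriv_fun_zero]
  rfl

lemma Phi_zero {Hs : V × V × ℝ → F} (h : ContDiff ℝ ∞ Hs) {y : V}
    (h0 : ∀ v, Hs (y, v, 0) = 0) (l : ℕ) (v : V) : Phi Hs l (y, v, 0) = 0 := by
  rw [Phi_eq h]
  have e : (fun z => Hs (y, z, 0)) = fun _ => 0 := funext h0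
  rw [e, iteratedFDeriv_fun_zero]
  rfl

/-- the compact parameter set -/
def KK (C0 : ℝ) : Set (V × V × ℝ) := closedBall 0 9 ×ˢ closedBall 0 C0 ×ˢ Icc 0 1

lemma KK_compact (C0 : ℝ) : IsCompact (KK C0) :=
  (isCompact_closedBall _ _).prod ((isCompact_closedBall _ _).prod isCompact_Icc)

lemma KK_convex (C0 : ℝ) : Convex ℝ (KK C0) :=
  (convex_closedBall _ _).prod ((convex_closedBall _ _).prod (convex_Icc _ _))

lemma mem_KK {C0 : ℝ} {y v : V} {t : ℝ} (hy : ‖y‖ ≤ 9) (hv : ‖v‖ ≤ C0) (h0 : 0 ≤ t)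
    (h1 : t ≤ 1) : (y, v, t) ∈ KK C0 :=
  ⟨by simpa using hy, by simpa using hv, h0, h1⟩

lemma unif {P : ℕ → ℝ → Prop} (hm : ∀ l C C', P l C → C ≤ C' → P l C')
    (h : ∀ l, ∃ C, P l C) (M : ℕ) : ∃ C, 0 ≤ C ∧ ∀ l ≤ M, P l C := by
  choose C hC using h
  refine ⟨∑ l ∈ Finset.range (M + 1), |C l|, Finset.sum_nonneg fun _ _ => abs_nonneg _,
    fun l hl => hm l _ _ (hC l) ((le_abs_self _).trans ?_)⟩
  exact Finset.single_le_sum (f := fun l => |C l|) (fun _ _ => abs_nonneg _)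
    (Finset.mem_range.2 (Nat.lt_succ_of_le hl))

lemma Phi_bd {Hs : V × V × ℝ → F} (h : ContDiff ℝ ∞ Hs) (C0 : ℝ) (M : ℕ) :
    ∃ C, 0 ≤ C ∧ ∀ l ≤ M, ∀ (y v : V) (t : ℝ), ‖y‖ ≤ 9 → ‖v‖ ≤ C0 → 0 ≤ t → t ≤ 1 →
      ‖Phi Hs l (y, v, t)‖ ≤ C := by
  apply unif
  · intro l C C' H hC y v t hy hv h0 h1
    exact (H y v t hy hv h0 h1).trans hC
  · intro l
    obtain ⟨C, hC⟩ := (KK_compact C0).exists_bound_of_continuousOn
      (Phi_smooth h l).continuous.continuousOn
    exact ⟨C, fun y v t hy hv h0 h1 => hC _ (mem_KK hy hv h0 h1)⟩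

lemma Phi_gain {Hs : V × V × ℝ → F} (h : ContDiff ℝ ∞ Hs) (C0 : ℝ) (M : ℕ)
    (hz : ∀ y v, ‖y‖ ≤ 9 → Hs (y, v, 0) = 0) :
    ∃ C, 0 ≤ C ∧ ∀ l ≤ M, ∀ (y v : V) (t : ℝ), ‖y‖ ≤ 9 → ‖v‖ ≤ C0 → 0 ≤ t → t ≤ 1 →
      ‖Phi Hs l (y, v, t)‖ ≤ C * t := by
  apply unif
  · intro l C C' H hC y v t hy hv h0 h1
    exact (H y v t hy hv h0 h1).trans (mul_le_mul_of_nonneg_right hC h0)
  · intro l
    have hc : Continuous (fderiv ℝ (Phi Hs l)) :=
      (Phi_smooth h l).continuous_fderiv one_ne_zero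
    obtain ⟨C, hC⟩ := (KK_compact C0).exists_bound_of_continuousOn hc.continuousOn
    refine ⟨C, fun y v t hy hv h0 h1 => ?_⟩
    have := (KK_convex C0).norm_image_sub_le_of_norm_fderiv_le (𝕜 := ℝ)
      (fun x _ => ((Phi_smooth h l).differentiable one_ne_zero) x) hC
      (mem_KK hy hv le_rfl zero_le_one) (mem_KK hy hv h0 h1)
    rw [Phi_zero h (fun v => hz y v hy), sub_zero] at this
    have e : ‖((y, v, t) : V × V × ℝ) - (y, v, 0)‖ = t := by
      simp [Prod.norm_def, abs_of_nonneg h0, h0]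
    rwa [e] at this

lemma ksc_smooth {Hs : V × V × ℝ → F} (h : ContDiff ℝ ∞ Hs) (ε : ℝ) :
    ContDiff ℝ ∞ (fun q : V × V => ksc Hs ε q.2 q.1) := by
  unfold ksc
  refine ContDiff.const_smul _ (h.comp ?_)
  exact contDiff_snd.prodMk (((contDiff_fst.sub contDiff_snd).const_smul _).prodMk
    contDiff_const)

lemma ksc_iter {Hs : V × V × ℝ → F} (h : ContDiff ℝ ∞ Hs) {ε : ℝ} (hε : 0 < ε) (l : ℕ)
    (y x : V) :
    ε ^ l * ‖iteratedFDeriv ℝ l (fun z => ksc Hs ε y z) x‖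
      = (ε ^ 4)⁻¹ * ‖Phi Hs l (y, ε⁻¹ • (x - y), ε)‖ := by
  unfold ksc
  have hs : ContDiff ℝ ∞ (fun z : V => Hs (y, ε⁻¹ • (z - y), ε)) :=
    h.comp (contDiff_const.prodMk (((contDiff_id.sub contDiff_const).const_smul _).prodMk
      contDiff_const))
  rw [iteratedFDeriv_const_smul_apply' (hs.contDiffAt.of_le (by exact_mod_cast le_top)),
    iter_aff h, norm_smul, norm_smul, Real.norm_of_nonneg (by positivity),
    Real.norm_of_nonneg (by positivity), inv_pow]
  generalize ‖Phi Hs l (y, ε⁻¹ • (x - y), ε)‖ = N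
  field_simp
end

/-! ### averages over balls -/

lemma cs_set {s : Set V} (hs : volume s ≠ ⊤) {w : V → ℝ} (h1 : Integrable w)
    (h2 : Integrable (fun y => w y ^ 2)) :
    (∫ y in s, w y) ^ 2 ≤ volume.real s * ∫ y in s, w y ^ 2 := by
  have : IsFiniteMeasure (volume.restrict s) := isFiniteMeasure_restrict.2 hs
  have key : ∀ a : ℝ, 0 ≤ volume.real s * (a * a) + (-2 * ∫ y in s, w y) * a
      + ∫ y in s, w y ^ 2 := by
    intro a
    have h0 : 0 ≤ ∫ y in s, (w y - a) ^ 2 := integral_nonneg fun _ => sq_nonneg _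
    have e : (fun y => (w y - a) ^ 2) = fun y => (a * a + (-2 * a) * w y) + w y ^ 2 := by
      funext y; ring
    have i1 : Integrable (fun y => (-2 * a) * w y) (volume.restrict s) :=
      h1.integrableOn.const_mul _
    have i0 : Integrable (fun _ : V => a * a) (volume.restrict s) := integrable_const _
    have i01 : Integrable (fun y => a * a + (-2 * a) * w y) (volume.restrict s) := i0.add i1
    rw [e, integral_add i01 h2.integrableOn, integral_add i0 i1, setIntegral_const,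
      integral_const_mul, smul_eq_mul] at h0
    linarith
  have := discrim_le_zero key
  unfold discrim at this
  nlinarith

lemma ball_conv (r : ℝ) (w : V → ℝ) (z : V) :
    ∫ y in closedBall z r, w y = (MeasureTheory.convolution w
      ((closedBall (0 : V) r).indicator (fun _ => (1 : ℝ))) (ContinuousLinearMap.mul ℝ ℝ)
        volume) z := by
  rw [convolution_def, ← integral_indicator measurableSet_closedBall]
  congr 1
  funext y
  by_cases hy : y ∈ closedBall z r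
  · have : z - y ∈ closedBall (0 : V) r := by
      rw [mem_closedBall, dist_comm, dist_eq_norm] at hy
      simpa using hy
    simp [indicator_of_mem hy, indicator_of_mem this]
  · have : z - y ∉ closedBall (0 : V) r := by
      rw [mem_closedBall, dist_comm, dist_eq_norm] at hy
      simpa using hy
    simp [indicator_of_notMem hy, indicator_of_notMem this]

lemma ball_int (r : ℝ) {w : V → ℝ} (h : Integrable w) :
    Integrable (fun z => ∫ y in closedBall z r, w y) ∧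
      ∫ z, ∫ y in closedBall z r, w y = volume.real (closedBall (0 : V) r) * ∫ y, w y := by
  have hχ : Integrable ((closedBall (0 : V) r).indicator (fun _ => (1 : ℝ))) :=
    (integrable_indicator_iff measurableSet_closedBall).2
      (integrableOn_const (measure_closedBall_lt_top.ne))
  simp_rw [ball_conv r w]
  refine ⟨h.integrable_convolution _ hχ, ?_⟩
  rw [integral_convolution _ h hχ, integral_indicator measurableSet_closedBall]
  simp [mul_comm]

lemma vol_ball (z : V) {r : ℝ} (hr : 0 ≤ r) :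
    volume.real (closedBall z r) = r ^ 4 * volume.real (closedBall (0 : V) 1) := by
  rw [Measure.addHaar_real_closedBall' volume z hr]
  simp

lemma avg (R : ℝ) (hR : 0 ≤ R) : ∃ C, 0 ≤ C ∧ ∀ (ε : ℝ) (w : V → ℝ), 0 < ε → (∀ y, 0 ≤ w y) →
    Integrable w → Integrable (fun y => w y ^ 2) →
    Integrable (fun z => (ε ^ 4)⁻¹ * ∫ y in closedBall z (R * ε), w y) ∧
    Integrable (fun z => ((ε ^ 4)⁻¹ * ∫ y in closedBall z (R * ε), w y) ^ 2) ∧
    ∫ z, (ε ^ 4)⁻¹ * ∫ y in closedBall z (R * ε), w y ≤ C * ∫ y, w y ∧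
    nL2 (fun z => (ε ^ 4)⁻¹ * ∫ y in closedBall z (R * ε), w y) ≤ C * nL2 w := by
  set c := volume.real (closedBall (0 : V) 1) with hc
  have hc0 : 0 ≤ c := measureReal_nonneg
  refine ⟨R ^ 4 * c, by positivity, fun ε w hε hw h1 h2 => ?_⟩
  have hr : 0 ≤ R * ε := by positivity
  obtain ⟨i1, e1⟩ := ball_int (R * ε) h1
  obtain ⟨i2, e2⟩ := ball_int (R * ε) h2
  rw [vol_ball _ hr, ← hc] at e1 e2
  have j1 : Integrable (fun z => (ε ^ 4)⁻¹ * ∫ y in closedBall z (R * ε), w y) :=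
    i1.const_mul _
  have pt : ∀ z, ((ε ^ 4)⁻¹ * ∫ y in closedBall z (R * ε), w y) ^ 2
      ≤ ((ε ^ 4)⁻¹ * (R ^ 4 * c)) * ∫ y in closedBall z (R * ε), w y ^ 2 := by
    intro z
    have := cs_set (s := closedBall z (R * ε)) measure_closedBall_lt_top.ne h1 h2
    rw [vol_ball _ hr, ← hc] at this
    calc _ = ((ε ^ 4)⁻¹) ^ 2 * (∫ y in closedBall z (R * ε), w y) ^ 2 := by ring
      _ ≤ ((ε ^ 4)⁻¹) ^ 2 * ((R * ε) ^ 4 * c * ∫ y in closedBall z (R * ε), w y ^ 2) :=
        mul_le_mul_of_nonneg_left this (by positivity)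
      _ = _ := by field_simp
  have j3 : Integrable (fun z => ((ε ^ 4)⁻¹ * (R ^ 4 * c)) *
      ∫ y in closedBall z (R * ε), w y ^ 2) := i2.const_mul _
  have j2 : Integrable (fun z => ((ε ^ 4)⁻¹ * ∫ y in closedBall z (R * ε), w y) ^ 2) := by
    refine j3.mono' (j1.aestronglyMeasurable.pow 2) (Eventually.of_forall fun z => ?_)
    rw [Real.norm_of_nonneg (sq_nonneg _)]
    exact pt z
  refine ⟨j1, j2, ?_, ?_⟩
  · rw [integral_const_mul, e1]
    apply le_of_eq
    field_simp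
  · unfold nL2
    have h3 := integral_mono j2 j3 pt
    rw [integral_const_mul, e2] at h3
    have e : (ε ^ 4)⁻¹ * (R ^ 4 * c) * ((R * ε) ^ 4 * c * ∫ y, w y ^ 2)
        = (R ^ 4 * c) ^ 2 * ∫ y, w y ^ 2 := by field_simp
    rw [e] at h3
    refine (Real.sqrt_le_sqrt h3).trans ?_
    rw [Real.sqrt_mul (sq_nonneg _), Real.sqrt_sq (by positivity)]

end Scale
end Vale.Agent.P204
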