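import Vale.Agent.P204.Stmt
import Vale.Agent.P204.ScaleA

/-! Operators with a kernel in scale form. -/

set_option maxSynthPendingDepth 3

open scoped Topology ContDiff RealInnerProductSpace Manifold
open Set Metric MeasureTheory Filter

noncomputable section
namespace Vale.Agent.P204
namespace Scale

variable {W E : Type} [NormedAddCommGroup W] [NormedSpace ℝ W] [NormedAddCommGroup E]
  [NormedSpace ℝ E] [CompleteSpace E]

lemma base (h1 : AvgS) {Hs : V × V × ℝ → W →L[ℝ] E} (h : ContDiff ℝ ∞ Hs) (ε r : ℝ)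
    {w : V → W} (hw : Integrable w) (hr : ∀ y, r < ‖y‖ → w y = 0) :
    ContDiff ℝ ∞ (Sop Hs ε w) ∧ (∀ z, Integrable (fun y => ksc Hs ε y z (w y))) ∧
    (∀ z, Integrable (fun y => fderiv ℝ (fun z' => ksc Hs ε y z' (w y)) z) ∧
      fderiv ℝ (Sop Hs ε w) z = ∫ y, fderiv ℝ (fun z' => ksc Hs ε y z' (w y)) z) ∧
    ∀ (n : ℕ) z,
      Integrable (fun y => ‖iteratedFDeriv ℝ n (fun z' => ksc Hs ε y z') z‖ * ‖w y‖) ∧
      ‖iteratedFDeriv ℝ n (Sop Hs ε w) z‖
        ≤ ∫ y, ‖iteratedFDeriv ℝ n (fun z' => ksc Hs ε y z') z‖ * ‖w y‖ :=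
  h1.clm (volume : Measure V) (fun q : V × V => ksc Hs ε q.2 q.1) (fun y => y) w
    (closedBall 0 r) (ksc_smooth h ε) (isCompact_closedBall _ _) aestronglyMeasurable_id hw
    (Eventually.of_forall fun y hy => by
      by_contra hn
      exact hy (hr y (by simpa using hn)))

lemma far {C0 ε : ℝ} (hε : 0 < ε) {x y : V} (h : y ∉ closedBall x (C0 * ε)) :
    C0 < ‖ε⁻¹ • (x - y)‖ := by
  rw [mem_closedBall, dist_comm, dist_eq_norm, not_le] at h
  rw [norm_smul, Real.norm_of_nonneg (by positivity), inv_mul_eq_div, lt_div_iff₀ hε]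
  exact h

lemma near {C0 ε : ℝ} (hε : 0 < ε) {x y : V} (h : y ∈ closedBall x (C0 * ε)) :
    ‖ε⁻¹ • (x - y)‖ ≤ C0 := by
  rw [mem_closedBall, dist_comm, dist_eq_norm] at h
  rw [norm_smul, Real.norm_of_nonneg (by positivity), inv_mul_eq_div, div_le_iff₀ hε]
  exact h

lemma est (h1 : AvgS) {Hs : V × V × ℝ → W →L[ℝ] E} {C0 : ℝ} (h : ContDiff ℝ ∞ Hs)
    (h0 : ∀ y v t, C0 < ‖v‖ → Hs (y, v, t) = 0) {ε B : ℝ} (hε : 0 < ε) {w : V → W}
    (hw : Integrable w) (hr : ∀ y, 9 < ‖y‖ → w y = 0) (l : ℕ)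
    (hB : ∀ y v : V, ‖y‖ ≤ 9 → ‖v‖ ≤ C0 → ‖Phi Hs l (y, v, ε)‖ ≤ B) (x : V) :
    ε ^ l * ‖iteratedFDeriv ℝ l (Sop Hs ε w) x‖
      ≤ B * (ε ^ 4)⁻¹ * ∫ y in closedBall x (C0 * ε), ‖w y‖ := by
  obtain ⟨i1, b1⟩ := (base h1 h ε 9 hw hr).2.2.2 l x
  refine (mul_le_mul_of_nonneg_left b1 (by positivity)).trans ?_
  rw [← integral_const_mul, ← integral_const_mul,
    ← integral_indicator measurableSet_closedBall]
  refine integral_mono (i1.const_mul _)
    ((hw.norm.const_mul _).indicator measurableSet_closedBall) fun y => ?_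
  simp only
  rw [← mul_assoc, ksc_iter h hε]
  by_cases hy : y ∈ closedBall x (C0 * ε)
  · rw [indicator_of_mem hy]
    rcases le_or_gt ‖y‖ 9 with h9 | h9
    · have := hB y _ h9 (near hε hy)
      refine mul_le_mul_of_nonneg_right ?_ (norm_nonneg _)
      rw [mul_comm B]
      exact mul_le_mul_of_nonneg_left this (by positivity)
    · simp [hr y h9]
  · rw [indicator_of_notMem hy, Phi_far h h0 l y _ ε (far hε hy)]
    simp

end Scale

theorem scaleS (h1 : AvgS) : ScaleS where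
  sm := by
    intro W E _ _ _ _ _ Hs C0 ε r w h h0 hε hw hr
    obtain ⟨a1, a2, a3, -⟩ := Scale.base h1 h ε r hw hr
    refine ⟨⟨a1, fun z hz => ?_⟩, a2, a3⟩
    have e : (fun y => ksc Hs ε y z (w y)) = fun _ => 0 := by
      funext y
      rcases le_or_gt ‖y‖ r with hy | hy
      · have hn : y ∉ closedBall z (C0 * ε) := by
          rw [mem_closedBall, dist_comm, dist_eq_norm, not_le]
          have := norm_sub_norm_le z y
          linarith
        simp [ksc, h0 y _ ε (Scale.far hε hn)]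
      · simp [hr y hy]
    simp [Sop, e]
  bd := by
    intro W E _ _ _ _ _ Hs C0 M h h0
    obtain ⟨C, hC, H⟩ := Scale.Phi_bd h C0 M
    exact ⟨C, hC, fun ε w hε hε1 hw hr x l hl =>
      Scale.est h1 h h0 hε hw hr l (fun y v hy hv => H l hl y v ε hy hv hε.le hε1) x⟩
  gain := by
    intro W E _ _ _ _ _ Hs C0 M h h0 hz
    obtain ⟨C, hC, H⟩ := Scale.Phi_gain h C0 M hz
    exact ⟨C, hC, fun ε w hε hε1 hw hr x l hl =>
      Scale.est h1 h h0 hε hw hr l (fun y v hy hv => H l hl y v ε hy hv hε.le hε1) x⟩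
  avg := Scale.avg

end Vale.Agent.P204
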