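import Vale.Agent.P204.Stmt

/-! The Schur test. -/

set_option maxSynthPendingDepth 3

open scoped Topology ContDiff RealInnerProductSpace Manifold ENNReal
open Set Metric MeasureTheory Filter

noncomputable section
namespace Vale.Agent.P204

namespace Schur

lemma cs {Y Z : Type} [MeasurableSpace Y] [MeasurableSpace Z] (lam : Measure Y) (ν : Measure Z)
    [SFinite lam] [SFinite ν] {K : Y → Z → ℝ≥0∞} (hK : Measurable (Function.uncurry K))
    {A : Z → ℝ≥0∞} (hA : AEMeasurable A ν) {U : Y → ℝ≥0∞} (hU : Measurable U) :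
    ∫⁻ y, (∫⁻ z, K y z * A z ∂ν) * U y ∂lam ≤ (∫⁻ z, A z ^ (2 : ℝ) ∂ν) ^ (1 / 2 : ℝ) *
      (∫⁻ p, U p.1 * U p.2 * ∫⁻ z, K p.1 z * K p.2 z ∂ν ∂(lam.prod lam)) ^ (1 / 2 : ℝ) := by
  have k1 : ∀ y, Measurable (K y) := fun y => hK.of_uncurry_left
  have k2 : ∀ z, Measurable fun y => K y z * U y := fun z => hK.of_uncurry_right.mul hU
  have k3 : Measurable fun p : Y × Z => K p.1 p.2 * U p.1 := hK.mul (hU.comp measurable_fst)
  have e1 : ∫⁻ y, (∫⁻ z, K y z * A z ∂ν) * U y ∂lam =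
      ∫⁻ z, (A * fun z => ∫⁻ y, K y z * U y ∂lam) z ∂ν := by
    have a1 : ∀ y, (∫⁻ z, K y z * A z ∂ν) * U y = ∫⁻ z, A z * (K y z * U y) ∂ν := fun y => by
      rw [← lintegral_mul_const'' (f := fun z => K y z * A z) _ ((k1 y).aemeasurable.mul hA)]
      exact lintegral_congr fun z => by ring
    simp only [a1, Pi.mul_apply]
    rw [lintegral_lintegral_swap (hA.comp_snd.mul k3.aemeasurable)]
    exact lintegral_congr fun z => lintegral_const_mul _ (k2 z)
  have e2 : ∫⁻ z, (∫⁻ y, K y z * U y ∂lam) ^ (2 : ℝ) ∂ν =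
      ∫⁻ p, U p.1 * U p.2 * ∫⁻ z, K p.1 z * K p.2 z ∂ν ∂(lam.prod lam) := by
    have a1 : ∀ z, (∫⁻ y, K y z * U y ∂lam) ^ (2 : ℝ) =
        ∫⁻ p, K p.1 z * U p.1 * (K p.2 z * U p.2) ∂(lam.prod lam) := fun z => by
      rw [lintegral_prod_mul (k2 z).aemeasurable (k2 z).aemeasurable, ENNReal.rpow_two, sq]
    simp only [a1]
    rw [lintegral_lintegral_swap ((k3.comp (measurable_snd.fst.prodMk measurable_fst)).mul
      (k3.comp (measurable_snd.snd.prodMk measurable_fst))).aemeasurable]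
    refine lintegral_congr fun p => ?_
    rw [← lintegral_const_mul (f := fun z => K p.1 z * K p.2 z) _ ((k1 _).mul (k1 _))]
    exact lintegral_congr fun z => by ring
  rw [e1, ← e2]
  exact ENNReal.lintegral_mul_le_Lp_mul_Lq ν Real.HolderConjugate.two_two hA
    k3.lintegral_prod_left'.aemeasurable

lemma amgm {a b W W' o o' k : ℝ} (hW : 1 ≤ W) (hW' : 1 ≤ W') (ho : 0 ≤ o) (ho' : 0 ≤ o')
    (hk : 0 ≤ k) : a * o * (b * o') * k ≤
      a ^ 2 * o / W * (k * W' * o') + b ^ 2 * o' / W' * (k * W * o) := by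
  have W0 : 0 < W := by linarith
  have W1 : 0 < W' := by linarith
  have h : a * b ≤ a ^ 2 * W' / W + b ^ 2 * W / W' := by
    rw [div_add_div _ _ W0.ne' W1.ne', le_div_iff₀ (mul_pos W0 W1)]
    nlinarith [sq_nonneg (a * W' - b * W), sq_nonneg (a * W'), sq_nonneg (b * W)]
  calc _ = a * b * (o * o' * k) := by ring
    _ ≤ (a ^ 2 * W' / W + b ^ 2 * W / W') * (o * o' * k) :=
      mul_le_mul_of_nonneg_right h (by positivity)
    _ = _ := by ring

lemma a_int {f : V → E2} (hf : MemLp f 2 volume) : Integrable fun z => cut 5 z * ‖f z‖ := by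
  have h1 : MemLp (cut 5) 2 volume :=
    (cut_sm 5).continuous.memLp_of_hasCompactSupport (cut_cc (by norm_num)).hcs
  exact h1.integrable_mul hf.norm

lemma ff_eq (f : V → E2) (δ : ℝ) (x : V) :
    ff f δ x = ∫ z, kp δ 3 (x - z) * (cut 5 z * ‖f z‖) :=
  integral_congr_ae (Eventually.of_forall fun z => by ring)

lemma term_le (f : V → E2) {δ : ℝ} (hδ : 0 < δ) (x z : V) :
    ‖kp δ 3 (x - z) * (cut 5 z * ‖f z‖)‖ ≤ (δ ^ 3)⁻¹ * (cut 5 z * ‖f z‖) := by
  have h0 := mul_nonneg (cut_nonneg 5 z) (norm_nonneg (f z))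
  rw [Real.norm_of_nonneg (mul_nonneg (kp_pos hδ 3 _).le h0)]
  exact mul_le_mul_of_nonneg_right (kp_le hδ 3 _) h0

lemma term_meas {f : V → E2} (hf : MemLp f 2 volume) {δ : ℝ} (hδ : 0 < δ) (x : V) :
    AEStronglyMeasurable (fun z => kp δ 3 (x - z) * (cut 5 z * ‖f z‖)) volume :=
  ((continuous_kp hδ 3).comp (continuous_const.sub continuous_id)).aestronglyMeasurable.mul
    (a_int hf).1

lemma term_int {f : V → E2} (hf : MemLp f 2 volume) {δ : ℝ} (hδ : 0 < δ) (x : V) :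
    Integrable fun z => kp δ 3 (x - z) * (cut 5 z * ‖f z‖) :=
  ((a_int hf).const_mul _).mono' (term_meas hf hδ x) (Eventually.of_forall (term_le f hδ x))

lemma ff_cont {f : V → E2} (hf : MemLp f 2 volume) {δ : ℝ} (hδ : 0 < δ) :
    Continuous (ff f δ) := by
  rw [funext (ff_eq f δ)]
  exact continuous_of_dominated (term_meas hf hδ) (fun x => Eventually.of_forall (term_le f hδ x))
    ((a_int hf).const_mul _) (Eventually.of_forall fun z =>
      ((continuous_kp hδ 3).comp (continuous_id.sub continuous_const)).mul continuous_const)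

lemma ff_nn (f : V → E2) {δ : ℝ} (hδ : 0 < δ) (x : V) : 0 ≤ ff f δ x :=
  integral_nonneg fun z =>
    mul_nonneg (mul_nonneg (cut_nonneg 5 z) (kp_pos hδ 3 _).le) (norm_nonneg _)

lemma ff_bd {f : V → E2} (hf : MemLp f 2 volume) {δ : ℝ} (hδ : 0 < δ) :
    ∃ B, ∀ x, ‖ff f δ x‖ ≤ B := ⟨_, fun x => by
  rw [ff_eq]
  exact norm_integral_le_of_norm_le ((a_int hf).const_mul _)
    (Eventually.of_forall (term_le f hδ x))⟩

lemma fin {I N c : ℝ} (hI : 0 ≤ I) (hN : 0 ≤ N) (hc : 0 ≤ c) (h : ENNReal.ofReal I ≤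
    ENNReal.ofReal N ^ (1 / 2 : ℝ) * ENNReal.ofReal (c * I) ^ (1 / 2 : ℝ)) : I ≤ c * N := by
  rw [← ENNReal.mul_rpow_of_nonneg _ _ (by norm_num), ← ENNReal.ofReal_mul hN,
    ENNReal.ofReal_rpow_of_nonneg (by positivity) (by norm_num),
    ENNReal.ofReal_le_ofReal_iff (by positivity), ← Real.sqrt_eq_rpow] at h
  have h2 := (Real.le_sqrt hI (by positivity)).1 h
  rcases hI.eq_or_lt with rfl | h0
  · positivity
  · exact le_of_mul_le_mul_right (by nlinarith) h0

end Schur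

open Schur in
theorem schurS (h1 : ConvS) : SchurS := by
  obtain ⟨C, C0', hC⟩ := h1.c2
  refine ⟨2 * C, by positivity,
    fun Y _ lam _ π om W f δ C0 hδ hπ hom om0 omi hsup hW W1 hf hC0 hS => ?_⟩
  have c1 := ff_cont hf hδ
  obtain ⟨B, hB⟩ := ff_bd hf hδ
  have m1 : Measurable fun y => ff f δ (π y) := c1.measurable.comp hπ
  have m2 : Measurable fun y => W (π y) := hW.measurable.comp hπ
  have i1 : Integrable (fun y => ff f δ (π y) ^ 2 * om y) lam :=
    omi.bdd_mul (c := B ^ 2) (m1.pow_const 2).aestronglyMeasurable (Eventually.of_forall fun y => by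
      rw [norm_pow]
      exact pow_le_pow_left₀ (norm_nonneg _) (hB _) 2)
  refine ⟨c1, i1, ?_⟩
  have p0 : ∀ y, 0 ≤ ff f δ (π y) ^ 2 * om y := fun y => mul_nonneg (sq_nonneg _) (om0 y)
  have mk : ∀ n, Measurable fun p : V × V => kp δ n (p.1 - p.2) := fun n =>
    ((continuous_kp hδ n).comp (continuous_fst.sub continuous_snd)).measurable
  have a0 : ∀ z, 0 ≤ cut 5 z * ‖f z‖ := fun z => mul_nonneg (cut_nonneg 5 z) (norm_nonneg _)
  have k := cs lam volume (K := fun y z => ENNReal.ofReal (kp δ 3 (π y - z)))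
    ((mk 3).comp ((hπ.comp measurable_fst).prodMk measurable_snd)).ennreal_ofReal
    (A := fun z => ENNReal.ofReal (cut 5 z * ‖f z‖)) (a_int hf).1.aemeasurable.ennreal_ofReal
    (U := fun y => ENNReal.ofReal (ff f δ (π y) * om y)) (m1.mul hom).ennreal_ofReal
  refine fin (integral_nonneg p0) (integral_nonneg fun z => sq_nonneg _) (by positivity)
    (le_trans (le_of_eq ?_) (k.trans (mul_le_mul' (ENNReal.rpow_le_rpow ?_ (by norm_num))
      (ENNReal.rpow_le_rpow ?_ (by norm_num)))))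
  · rw [ofReal_integral_eq_lintegral_ofReal i1 (Eventually.of_forall p0)]
    refine lintegral_congr fun y => ?_
    simp only [← ENNReal.ofReal_mul (kp_pos hδ 3 _).le]
    rw [← ofReal_integral_eq_lintegral_ofReal (term_int hf hδ _) (Eventually.of_forall fun z =>
      mul_nonneg (kp_pos hδ 3 _).le (a0 z)), ← ff_eq, ← ENNReal.ofReal_mul (ff_nn f hδ _), sq,
      mul_assoc]
  · rw [ofReal_integral_eq_lintegral_ofReal ((memLp_two_iff_integrable_sq_norm hf.1).1 hf)
      (Eventually.of_forall fun z => sq_nonneg _)]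
    refine lintegral_mono fun z => ?_
    rw [ENNReal.ofReal_rpow_of_nonneg (a0 z) (by norm_num), Real.rpow_two]
    exact ENNReal.ofReal_le_ofReal (pow_le_pow_left₀ (a0 z)
      (mul_le_of_le_one_left (norm_nonneg _) (cut_le_one 5 z)) 2)
  obtain ⟨BW, hBW⟩ := (isCompact_closedBall (0 : V) 4).exists_bound_of_continuousOn hW.continuousOn
  obtain ⟨P, hP⟩ : ∃ P : Y → ℝ, P = fun y => ff f δ (π y) ^ 2 * om y / W (π y) := ⟨_, rfl⟩
  obtain ⟨Q, hQ⟩ : ∃ Q : Y → Y → ℝ, Q = fun y y' => kp δ 2 (π y' - π y) * W (π y') * om y' :=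
    ⟨_, rfl⟩
  have P0 : ∀ y, 0 ≤ P y := fun y => hP ▸ div_nonneg (p0 y) (zero_le_one.trans (W1 _))
  have Q0 : ∀ y y', 0 ≤ Q y y' := fun y y' => hQ ▸
    mul_nonneg (mul_nonneg (kp_pos hδ 2 _).le (zero_le_one.trans (W1 _))) (om0 _)
  have mP : Measurable P := hP ▸ ((m1.pow_const 2).mul hom).div m2
  have mQ : Measurable fun p : Y × Y => Q p.1 p.2 := hQ ▸ (((mk 2).comp
    ((hπ.comp measurable_snd).prodMk (hπ.comp measurable_fst))).mul (m2.comp measurable_snd)).mul
      (hom.comp measurable_snd)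
  have mT : Measurable fun p : Y × Y => ENNReal.ofReal (C * P p.1) * ENNReal.ofReal (Q p.1 p.2) :=
    ((mP.comp measurable_fst).const_mul C).ennreal_ofReal.mul mQ.ennreal_ofReal
  have iQ : ∀ y, Integrable (Q y) lam := fun y => by
    refine (omi.const_mul ((δ ^ 2)⁻¹ * BW)).mono'
      (mQ.comp measurable_prodMk_left).aestronglyMeasurable (Eventually.of_forall fun y' => ?_)
    rw [Real.norm_of_nonneg (Q0 y y'), hQ]
    by_cases h0 : om y' = 0
    · simp [h0]
    · exact mul_le_mul_of_nonneg_right (mul_le_mul (kp_le hδ 2 _) ((le_abs_self _).trans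
        (hBW _ (mem_closedBall_zero_iff.2 (hsup y' h0)))) (zero_le_one.trans (W1 _))
        (by positivity)) (om0 _)
  have b1 : ∫⁻ p, ENNReal.ofReal (C * P p.1) * ENNReal.ofReal (Q p.1 p.2) ∂(lam.prod lam) ≤
      ENNReal.ofReal (C * C0 * ∫ y, ff f δ (π y) ^ 2 * om y ∂lam) := by
    rw [lintegral_prod _ mT.aemeasurable, ← integral_const_mul,
      ofReal_integral_eq_lintegral_ofReal (i1.const_mul _) (Eventually.of_forall fun y =>
        mul_nonneg (by positivity) (p0 y))]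
    refine lintegral_mono fun y => ?_
    dsimp only
    rw [lintegral_const_mul' _ _ ENNReal.ofReal_ne_top,
      ← ofReal_integral_eq_lintegral_ofReal (iQ y) (Eventually.of_forall (Q0 y)),
      ← ENNReal.ofReal_mul (mul_nonneg C0' (P0 y))]
    refine ENNReal.ofReal_le_ofReal ?_
    by_cases h0 : om y = 0
    · simp [hP, h0]
    · have W0 : W (π y) ≠ 0 := (zero_lt_one.trans_le (W1 _)).ne'
      have hq : ∫ y', Q y y' ∂lam ≤ C0 * W (π y) := by
        rw [hQ]
        exact hS _ (hsup y h0)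
      refine (mul_le_mul_of_nonneg_left hq (mul_nonneg C0' (P0 y))).trans_eq ?_
      rw [hP]
      field_simp
  refine le_trans (lintegral_mono (g := fun p : Y × Y =>
    ENNReal.ofReal (C * P p.1) * ENNReal.ofReal (Q p.1 p.2) +
      ENNReal.ofReal (C * P p.swap.1) * ENNReal.ofReal (Q p.swap.1 p.swap.2)) fun p => ?_) ?_
  · have u0 : ∀ y, 0 ≤ ff f δ (π y) * om y := fun y => mul_nonneg (ff_nn f hδ _) (om0 y)
    simp only [← ENNReal.ofReal_mul (kp_pos hδ 3 _).le, Prod.fst_swap, Prod.snd_swap]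
    rw [← ofReal_integral_eq_lintegral_ofReal (hC δ _ _ hδ).1 (Eventually.of_forall fun z =>
      mul_nonneg (kp_pos hδ 3 _).le (kp_pos hδ 3 _).le), ← ENNReal.ofReal_mul (u0 _),
      ← ENNReal.ofReal_mul (mul_nonneg (u0 _) (u0 _)), ← ENNReal.ofReal_mul (mul_nonneg C0' (P0 _)),
      ← ENNReal.ofReal_mul (mul_nonneg C0' (P0 _)), ← ENNReal.ofReal_add
        (mul_nonneg (mul_nonneg C0' (P0 _)) (Q0 _ _)) (mul_nonneg (mul_nonneg C0' (P0 _)) (Q0 _ _))]
    refine ENNReal.ofReal_le_ofReal ((mul_le_mul_of_nonneg_left (hC δ _ _ hδ).2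
      (mul_nonneg (u0 _) (u0 _))).trans ?_)
    have := mul_le_mul_of_nonneg_left (amgm (a := ff f δ (π p.1)) (b := ff f δ (π p.2))
      (W1 (π p.1)) (W1 (π p.2)) (om0 p.1) (om0 p.2) (kp_pos hδ 2 (π p.1 - π p.2)).le) C0'
    simp only [hP, hQ, kp_sub δ 2 (π p.2) (π p.1)]
    linarith
  · rw [lintegral_add_left mT, lintegral_prod_swap (fun p : Y × Y =>
      ENNReal.ofReal (C * P p.1) * ENNReal.ofReal (Q p.1 p.2))]
    refine (add_le_add b1 b1).trans ?_
    have I0 : 0 ≤ ∫ y, ff f δ (π y) ^ 2 * om y ∂lam := integral_nonneg p0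
    rw [← ENNReal.ofReal_add (by positivity) (by positivity)]
    exact ENNReal.ofReal_le_ofReal (le_of_eq (by ring))

end Vale.Agent.P204
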