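import Vale.Agent.P204.Form

/-! Seminorms on smooth forms. -/

set_option maxSynthPendingDepth 3

open scoped Topology ContDiff RealInnerProductSpace Manifold
open Set Metric MeasureTheory Filter

noncomputable section
namespace Vale.Agent.P204

namespace SemAux
open FormAux

variable {X : Type*} [TopologicalSpace X] {a : Atl X}

lemma cut2 : Cc 3 (cut 2) := by
  have := cut_cc (r := 2) (by norm_num)
  norm_num at this
  exact this

lemma f_cc (g : GeoA a) (j : Fin a.n) {α : Form X} (h : a.Sm α) :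
    Cc 3 (fun y => cut 2 y • a.loc j α y) :=
  g.cutoff j 3 (cut 2) (a.loc j α) (by norm_num) cut2 (h j)

lemma le_nrm (h1 : NkS) (k : ℕ) (j : Fin a.n) (α : Form X) :
    Nk k (fun y => cut 2 y • a.loc j α y) ≤ a.nrm k α :=
  Finset.single_le_sum (f := fun j => Nk k (fun y => cut 2 y • a.loc j α y))
    (fun _ _ => h1.nonneg _ _) (Finset.mem_univ j)

lemma nrm_nn (h1 : NkS) (k : ℕ) (α : Form X) : 0 ≤ a.nrm k α :=
  Finset.sum_nonneg fun _ _ => h1.nonneg _ _

lemma nrm_add (h1 : NkS) (g : GeoA a) (k : ℕ) (α β : Form X) (hα : a.Sm α) (hβ : a.Sm β) :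
    a.nrm k (α + β) ≤ a.nrm k α + a.nrm k β := by
  rw [Atl.nrm, Atl.nrm, Atl.nrm, ← Finset.sum_add_distrib]
  refine Finset.sum_le_sum fun j _ => ?_
  have e : (fun y => cut 2 y • a.loc j (α + β) y)
      = (fun y => cut 2 y • a.loc j α y) + fun y => cut 2 y • a.loc j β y := by
    funext y; simp [loc_add]
  rw [e]
  exact h1.add k (f_cc g j hα) (f_cc g j hβ)

lemma nrm_smul (h1 : NkS) (g : GeoA a) (k : ℕ) (c : ℝ) (α : Form X) (hα : a.Sm α) :
    a.nrm k (c • α) = |c| * a.nrm k α := by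
  rw [Atl.nrm, Atl.nrm, Finset.mul_sum]
  refine Finset.sum_congr rfl fun j _ => ?_
  have e : (fun y => cut 2 y • a.loc j (c • α) y) = c • fun y => cut 2 y • a.loc j α y := by
    funext y; simp [loc_smul, smul_comm c]
  rw [e]
  exact h1.smul k c (f_cc g j hα)

lemma nrm_mono (h1 : NkS) (g : GeoA a) (k l : ℕ) (α : Form X) (hα : a.Sm α) (hl : l ≤ k) :
    a.nrm l α ≤ a.nrm k α :=
  Finset.sum_le_sum fun j _ => h1.mono (f_cc g j hα) hl

lemma norm_le_nk (h1 : NkS) {E : Type} [NormedAddCommGroup E] [NormedSpace ℝ E] {r : ℝ}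
    {f : V → E} (hf : Cc r f) (k : ℕ) (y : V) : ‖f y‖ ≤ Nk k f := by
  have := h1.le_nk hf (Nat.zero_le k) y
  rwa [norm_iteratedFDeriv_zero] at this

lemma pt (h1 : NkS) (g : GeoA a) (k : ℕ) (j : Fin a.n) (α : Form X) (y : V) (hα : a.Sm α)
    (hy : ‖y‖ ≤ 2) : ‖a.loc j α y‖ ≤ a.nrm k α := by
  have := norm_le_nk h1 (f_cc g j hα) k y
  rw [cut_one hy, one_smul] at this
  exact this.trans (le_nrm h1 k j α)

/-- first cut-off between the radii 11 and 12 -/
def b1 (w : V) : ℝ := cut 22 ((2 : ℝ) • w)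
/-- second cut-off between the radii 11 and 12 -/
def b2 (w : V) : ℝ := cut 23 ((2 : ℝ) • w)

lemma norm_two (w : V) : ‖(2 : ℝ) • w‖ = 2 * ‖w‖ := by rw [norm_smul]; simp

lemma b1_one {w : V} (h : ‖w‖ ≤ 11) : b1 w = 1 := cut_one (by rw [norm_two]; linarith)
lemma b1_zero {w : V} (h : 23 / 2 ≤ ‖w‖) : b1 w = 0 :=
  cut_zero (by norm_num) (by rw [norm_two]; linarith)
lemma b2_one {w : V} (h : ‖w‖ ≤ 23 / 2) : b2 w = 1 := cut_one (by rw [norm_two]; linarith)
lemma b1_cc : Cc 12 b1 :=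
  ⟨(cut_sm 22).comp (contDiff_id.const_smul (2 : ℝ)), fun _ hy => b1_zero (by linarith)⟩
lemma b2_cc : Cc 12 b2 :=
  ⟨(cut_sm 23).comp (contDiff_id.const_smul (2 : ℝ)),
    fun _ hy => cut_zero (by norm_num) (by rw [norm_two]; linarith)⟩

lemma nk_ext (h1 : NkS) (g : GeoA a) (k : ℕ) (i j : Fin a.n) : ∃ C, 0 ≤ C ∧
    ∀ β, Cc 11 β → Nk k (fun y => cut 2 y • a.loc i (a.ext j β) y) ≤ C * Nk k β := by
  let Φ : V → Op := fun y => a.ext0 j b1 ((a.e i).symm y) • pull (a.tr j i ((a.e i).symm y))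
  have hΦ : ContDiffOn ℝ ∞ Φ (a.e i).target := by
    refine g.glue j i Φ ?_ fun y _ hy => ?_
    · exact ((g.ext0_sm j i b1 b1_cc).mono inter_subset_left).smul
        ((contDiff_pull (n := ∞)).comp_contDiffOn (g.tr_sm j i))
    · simp only [Φ, ext0_of_not_in a b1_cc.2 hy, zero_smul]
  have hg := g.cutoff i 3 (cut 2) Φ (by norm_num) cut2 hΦ
  have hτ := g.cutoff i (3 + 1) (cut 3) _ (by norm_num) (cut_cc (by norm_num))
    (g.ext0_sm j i (fun w => b2 w • w) (b2_cc.smul_right contDiff_id))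
  obtain ⟨C, hC, H⟩ := h1.comp _ _ k 3 hg hτ.1
  refine ⟨C, hC, fun β hβ => le_of_eq_of_le ?_ (H 11 β hβ)⟩
  congr 1
  funext y
  by_cases hy : 3 ≤ ‖y‖
  · simp [cut_zero (r := 2) (by norm_num) (by linarith : 2 + 1 ≤ ‖y‖)]
  rw [cut_one (not_le.1 hy).le, one_smul, loc_ext', smul_apply]
  congr 1
  by_cases hx : (a.e i).symm y ∈ (a.e j).source
  · simp only [Φ, ext0_of_mem a _ hx, smul_apply]
    set w := a.e j ((a.e i).symm y)
    by_cases h11 : ‖w‖ ≤ 11
    · rw [b1_one h11, b2_one (by linarith), one_smul, one_smul]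
    · have hw := hβ.2 w (not_le.1 h11)
      by_cases h12 : ‖w‖ ≤ 23 / 2
      · rw [b2_one h12, one_smul, hw]; simp
      · rw [b1_zero (not_le.1 h12).le, hw]; simp
  · simp [Φ, ext0_of_not a _ hx]

lemma nrm_ext (h1 : NkS) (g : GeoA a) (k : ℕ) : ∃ C, 0 ≤ C ∧
    ∀ j β, Cc 11 β → a.nrm k (a.ext j β) ≤ C * Nk k β := by
  choose C hC H using nk_ext h1 g k
  refine ⟨∑ i, ∑ j, C i j, Finset.sum_nonneg fun i _ => Finset.sum_nonneg fun j _ => hC i j,
    fun j β hβ => ?_⟩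
  rw [Atl.nrm, Finset.sum_mul]
  refine Finset.sum_le_sum fun i _ => (H i j β hβ).trans ?_
  exact mul_le_mul_of_nonneg_right
    (Finset.single_le_sum (f := C i) (fun j _ => hC i j) (Finset.mem_univ j)) (h1.nonneg _ _)

/-- the exterior derivative as a functional of the derivative -/
def cycL (u v w : V) : (V →L[ℝ] E6) →L[ℝ] ℝ :=
  (ev v w).comp (ContinuousLinearMap.apply ℝ E6 u) + (ev w u).comp (ContinuousLinearMap.apply ℝ E6 v)
    + (ev u v).comp (ContinuousLinearMap.apply ℝ E6 w)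

lemma cyc_eq (β : V → E6) (y u v w : V) : cyc β y u v w = cycL u v w (fderiv ℝ β y) := by
  simp [cyc, cycL]

lemma series (h1 : NkS) (g : GeoA a)
    (sm_of : ∀ α, (∀ j, ContDiffOn ℝ ∞ (a.loc j α) (ball 0 1)) → a.Sm α)
    (cl_of : ∀ α, a.Sm α →
      (∀ j, ∀ y ∈ ball (0 : V) 1, ∀ u v w, cyc (a.loc j α) y u v w = 0) → a.Cl α)
    (β : ℕ → Form X) (hs : ∀ n, a.Sm (β n)) (hc : ∀ n, a.Cl (β n))
    (hsum : Summable (fun n => a.nrm n (β n))) :
    ∃ γ, a.Sm γ ∧ a.Cl γ ∧ ∀ x, HasSum (fun n => β n x) (γ x) := by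
  have S : ∀ x, Summable fun n => β n x := by
    intro x
    obtain ⟨j, hx, hx1⟩ := a.cover x
    have s1 : Summable fun n => a.loc j (β n) (a.e j x) :=
      Summable.of_norm_bounded hsum fun n => pt h1 g n j _ _ (hs n) (by linarith)
    have s2 := (pull ((a.fr j x).symm : End)).summable s1
    refine s2.congr fun n => ?_
    rw [loc_apply a j _ hx, pull_symm_fr]
  let γ : Form X := fun x => ∑' n, β n x
  let f : Fin a.n → ℕ → V → E6 := fun j n y => cut 2 y • a.loc j (β n) y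
  have fc : ∀ j n, Cc 3 (f j n) := fun j n => f_cc g j (hs n)
  have sv : ∀ j k, Summable fun n => Nk k (f j n) := by
    intro j k
    refine Summable.of_norm_bounded_eventually_nat hsum ?_
    filter_upwards [eventually_ge_atTop k] with n hn
    rw [Real.norm_of_nonneg (h1.nonneg _ _)]
    exact (h1.mono (fc j n) hn).trans (le_nrm h1 n j _)
  have sm : ∀ j, ContDiff ℝ ∞ fun y => ∑' n, f j n y := fun j =>
    contDiff_tsum (N := ⊤) (v := fun k n => Nk k (f j n)) (fun n => (fc j n).1)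
      (fun k _ => sv j k) fun k n y _ => h1.le_nk (fc j n) le_rfl y
  have ef : ∀ j n, ∀ y ∈ ball (0 : V) 1, f j n y = a.loc j (β n) y := fun j n y hy => by
    have : ‖y‖ ≤ 2 := by have := mem_ball_zero_iff.1 hy; linarith
    simp only [f, cut_one this, one_smul]
  have eγ : ∀ j, ∀ y ∈ ball (0 : V) 1, a.loc j γ y = ∑' n, f j n y := fun j y hy => by
    simp only [ef j _ y hy, Atl.loc, γ]
    exact ContinuousLinearMap.map_tsum _ (S _)
  have smγ : a.Sm γ := sm_of γ fun j => (sm j).contDiffOn.congr (eγ j)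
  refine ⟨γ, smγ, cl_of γ smγ fun j y hy u v w => ?_, fun x => (S x).hasSum⟩
  have hn := isOpen_ball.mem_nhds hy
  have e1 : a.loc j γ =ᶠ[𝓝 y] fun y => ∑' n, f j n y := by
    filter_upwards [hn] with y' hy' using eγ j y' hy'
  have b1 : ∀ n z, ‖fderiv ℝ (f j n) z‖ ≤ Nk 1 (f j n) := fun n z => by
    have := h1.le_nk (fc j n) (le_refl 1) z
    rwa [norm_iteratedFDeriv_one] at this
  have s0 : Summable fun n => f j n 0 :=
    Summable.of_norm_bounded (sv j 0) fun n => norm_le_nk h1 (fc j n) 0 0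
  rw [cyc_congr e1, cyc_eq, fderiv_tsum_apply (sv j 1)
    (fun n => (fc j n).1.differentiable (by simp)) b1 s0,
    ContinuousLinearMap.map_tsum _ (Summable.of_norm_bounded (sv j 1) fun n => b1 n y)]
  have z : ∀ n, cycL u v w (fderiv ℝ (f j n) y) = 0 := fun n => by
    have e2 : f j n =ᶠ[𝓝 y] a.loc j (β n) := by
      filter_upwards [hn] with y' hy' using ef j n y' hy'
    rw [← cyc_eq, cyc_congr e2]
    exact hc n j y (mem_target a (by have := mem_ball_zero_iff.1 hy; linarith)) u v w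
  simp only [z, tsum_zero]

variable {D : Dat X}

lemma le_nrmm (h1 : NkS) (k : ℕ) (j : Fin D.n) (α : Form X) : Nk k (D.cj j α) ≤ D.nrmm k α :=
  Finset.single_le_sum (f := fun j => Nk k (D.cj j α)) (fun _ _ => h1.nonneg _ _)
    (Finset.mem_univ j)

lemma nrmm_add (h1 : NkS) (g : GeoA D.toAtl) (k : ℕ) (α β : Form X) (hα : D.Sm α)
    (hβ : D.Sm β) : D.nrmm k (α + β) ≤ D.nrmm k α + D.nrmm k β := by
  rw [Dat.nrmm, Dat.nrmm, Dat.nrmm, ← Finset.sum_add_distrib]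
  refine Finset.sum_le_sum fun j _ => ?_
  have e : D.cj j (α + β) = D.cj j α + D.cj j β := by
    funext y; simp [Dat.cj, loc_add]
  rw [e]
  exact h1.add k (cj_cc g j α hα) (cj_cc g j β hβ)

lemma nrmm_smul (h1 : NkS) (g : GeoA D.toAtl) (k : ℕ) (c : ℝ) (α : Form X) (hα : D.Sm α) :
    D.nrmm k (c • α) = |c| * D.nrmm k α := by
  rw [Dat.nrmm, Dat.nrmm, Finset.mul_sum]
  refine Finset.sum_congr rfl fun j _ => ?_
  have e : D.cj j (c • α) = c • D.cj j α := by
    funext y; simp [Dat.cj, loc_smul, smul_comm c]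
  rw [e]
  exact h1.smul k c (cj_cc g j α hα)

lemma nrmm_le (h1 : NkS) (g : GeoA D.toAtl) (k : ℕ) :
    ∃ C, 0 ≤ C ∧ ∀ α, D.Sm α → D.nrmm k α ≤ C * D.nrm k α := by
  have : ∀ j, ∃ C, 0 ≤ C ∧ ∀ α, D.Sm α → Nk k (D.cj j α) ≤ C * D.nrm k α := by
    intro j
    obtain ⟨C, hC, H⟩ := h1.clm (fun y => D.psi j y • (D.F j).cm y) k 3
      ((D.psi_cc j).1.smul (D.F j).sm_cm)
    refine ⟨C, hC, fun α hα => ?_⟩
    refine le_trans (le_of_eq_of_le ?_ (H _ (f_cc g j hα)))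
      (mul_le_mul_of_nonneg_left (le_nrm h1 k j α) hC)
    congr 1
    funext y
    by_cases h : D.psi j y = 0
    · simp [Dat.cj, h]
    · simp [Dat.cj, cut_one (psi_le h)]
  choose C hC H using this
  refine ⟨∑ j, C j, Finset.sum_nonneg fun j _ => hC j, fun α hα => ?_⟩
  rw [Dat.nrmm, Finset.sum_mul]
  exact Finset.sum_le_sum fun j _ => H j α hα

lemma crude (h1 : NkS) (g : GeoA D.toAtl) (k : ℕ) : ∃ C, 0 ≤ C ∧ ∀ s Λ, 0 ≤ Λ → D.OrdM s k Λ →
    D.Ord s k (C * Λ) ∧ ∀ j c, Cc 7 c → |D.sj s j c| ≤ C * Λ * Nk k c := by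
  obtain ⟨C1, p1, H1⟩ := nrmm_le h1 g k
  obtain ⟨C2, p2, H2⟩ := nrm_ext h1 g k
  choose C3 p3 H3 using fun j => h1.clm (D.F j).up k 7 (D.F j).sm_up
  have p4 : 0 ≤ ∑ j, C3 j := Finset.sum_nonneg fun j _ => p3 j
  set C4 := ∑ j, C3 j with hC4
  refine ⟨C1 + C1 * C2 * C4, by positivity, fun s Λ hΛ hs => ?_⟩
  have o1 : ∀ α, D.Sm α → |s α| ≤ C1 * Λ * D.nrm k α := fun α hα => by
    have := mul_le_mul_of_nonneg_left (H1 α hα) hΛ
    have := hs α hα
    linarith
  constructor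
  · intro α hα
    have h2 : 0 ≤ C1 * C2 * C4 * Λ * D.nrm k α := by have := nrm_nn h1 k α (a := D.toAtl); positivity
    have := o1 α hα
    linarith
  · intro j c hc
    have hN := h1.nonneg k c
    have e1 := o1 _ (sm_upx g j c (hc.mono (by norm_num)))
    have e2 := H2 j _ ((hc.clm (D.F j).sm_up).mono (by norm_num : (7 : ℝ) ≤ 11))
    have e3 := H3 j c hc
    have e4 : C3 j ≤ C4 := Finset.single_le_sum (f := C3) (fun j _ => p3 j) (Finset.mem_univ j)
    have e5 : D.nrm k (D.upx j c) ≤ C2 * (C4 * Nk k c) :=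
      e2.trans (mul_le_mul_of_nonneg_left (e3.trans (by gcongr)) p2)
    have e6 := mul_le_mul_of_nonneg_left e5 (mul_nonneg p1 hΛ)
    have e7 : 0 ≤ C1 * Λ * Nk k c := by positivity
    rw [Dat.sj]
    linarith

end SemAux

section
variable {X : Type*} [TopologicalSpace X] [T2Space X] {D : Dat X}

theorem semS (h1 : NkS) (h2 : GeoA D.toAtl) (h3 : FormS D) : SemS D where
  nrm_nn := SemAux.nrm_nn h1
  nrm_add := SemAux.nrm_add h1 h2
  nrm_smul := SemAux.nrm_smul h1 h2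
  nrm_mono := SemAux.nrm_mono h1 h2
  nrmm_nn := fun _ _ => Finset.sum_nonneg fun _ _ => h1.nonneg _ _
  nrmm_add := SemAux.nrmm_add h1 h2
  nrmm_smul := SemAux.nrmm_smul h1 h2
  nrm_ext := SemAux.nrm_ext h1 h2
  nrmm_le := SemAux.nrmm_le h1 h2
  pt := SemAux.pt h1 h2
  cjpt := fun k j α y hα =>
    (SemAux.norm_le_nk h1 (h3.cj_cc j α hα) k y).trans (SemAux.le_nrmm h1 k j α)
  crude := SemAux.crude h1 h2
  series := SemAux.series h1 h2 h3.sm_of h3.cl_of

end

end Vale.Agent.P204
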