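import Vale.Agent.P204.Stmt

set_option maxSynthPendingDepth 3
set_option linter.unusedVariables false

open scoped Topology ContDiff RealInnerProductSpace Manifold
open Set Metric MeasureTheory Filter

noncomputable section
namespace Vale.Agent.P204
namespace Sev

lemma pt_bound {g h : E6} {C t a b : ℝ} (hC : 0 ≤ C) (ht : 0 < t) (ht1 : t ≤ 1) (ha : 0 ≤ a)
    (hb : 0 ≤ b) (g1 : ‖g‖ ≤ C * a) (g2 : ‖Pm g‖ ≤ C * t * a) (g3 : ‖Pa g‖ ≤ g 0 + C * t ^ 2 * a)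
    (h1 : ‖h‖ ≤ C * b) (h2 : ‖Pm h‖ ≤ C * t * b) (h3 : ‖Pa h‖ ≤ h 0 + C * t ^ 2 * b) :
    -(8 * C ^ 2 * (t ^ 2 * (a * b))) ≤ wq g h := by
  have g0 : g 0 ≤ C * a := ((le_abs_self _).trans (PiLp.norm_apply_le g 0)).trans g1
  have h0 : h 0 ≤ C * b := ((le_abs_self _).trans (PiLp.norm_apply_le h 0)).trans h1
  have e1 : ⟪Pa g, Pa h⟫ ≤ (g 0 + C * t ^ 2 * a) * (h 0 + C * t ^ 2 * b) :=
    (real_inner_le_norm _ _).trans
      (mul_le_mul g3 h3 (norm_nonneg _) ((norm_nonneg _).trans g3))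
  have e2 : |⟪Pm g, Pm h⟫| ≤ (C * t * a) * (C * t * b) :=
    (abs_real_inner_le_norm _ _).trans
      (mul_le_mul g2 h2 (norm_nonneg _) ((norm_nonneg _).trans g2))
  have e3 := (abs_le.mp e2).1
  have k1 : C * t ^ 2 * b * g 0 ≤ C * t ^ 2 * b * (C * a) := by gcongr
  have k2 : C * t ^ 2 * a * h 0 ≤ C * t ^ 2 * a * (C * b) := by gcongr
  have k3 : C ^ 2 * (t ^ 2 * (a * b)) * t ^ 2 ≤ C ^ 2 * (t ^ 2 * (a * b)) * 1 := by
    gcongr
    exact pow_le_one₀ ht.le ht1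
  rw [wq_split]
  nlinarith

lemma mass_nn (m : Measure (V × V)) (y : V) (r : ℝ) : 0 ≤ mass m y r := measureReal_nonneg

lemma tau_nn (m : Measure (V × V)) (C : ℝ) {t : ℝ} (ht : 0 < t) (y : V) : 0 ≤ tau m C t y :=
  mul_nonneg (by positivity) (mass_nn _ _ _)

lemma mass_int (h1 : TauS) (μ μ' : Measure (V × V)) [IsFiniteMeasure μ] [IsFiniteMeasure μ']
    (r : ℝ) : Integrable (fun p : V × V => mass μ p.1 r) μ' := by
  refine Integrable.of_bound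
    ((h1.meas μ r inferInstance).comp measurable_fst).aestronglyMeasurable (μ.real univ)
    (Eventually.of_forall fun p => ?_)
  rw [Real.norm_of_nonneg (mass_nn _ _ _)]
  exact measureReal_mono (subset_univ _)

/-- averaged density -/
def G (μ μ' : Measure (V × V)) (r : ℝ) : ℝ :=
  ∫ p in {p : V × V | ‖p.1‖ ≤ 3}, mass μ p.1 r / r ^ 2 ∂μ'

lemma meas3 : MeasurableSet {p : V × V | ‖p.1‖ ≤ 3} :=
  (isClosed_le (continuous_norm.comp continuous_fst) continuous_const).measurableSet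

lemma G_le {μ μ' : Measure (V × V)} [IsFiniteMeasure μ'] {Dn r : ℝ} (hr : 0 < r)
    (hD : ∀ y r, ‖y‖ ≤ 4 → 0 < r → mass μ y r ≤ Dn * r ^ 2) :
    G μ μ' r ≤ |Dn| * μ'.real univ := by
  have h := norm_setIntegral_le_of_norm_le_const (μ := μ') (s := {p : V × V | ‖p.1‖ ≤ 3})
    (f := fun p => mass μ p.1 r / r ^ 2) (C := |Dn|) (measure_lt_top _ _) (fun p hp => by
      rw [Real.norm_of_nonneg (div_nonneg (mass_nn _ _ _) (by positivity)),
        div_le_iff₀ (by positivity)]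
      have hp' : ‖p.1‖ ≤ 3 := hp
      refine (hD p.1 r (by linarith) hr).trans ?_
      gcongr
      exact le_abs_self _)
  refine ((le_abs_self _).trans h).trans ?_
  exact mul_le_mul_of_nonneg_left (measureReal_mono (subset_univ _)) (abs_nonneg _)

lemma G_tendsto (h1 : TauS) {μ : Measure (V × V)} [IsFiniteMeasure μ] {Dn : ℝ}
    (hD : ∀ y r, ‖y‖ ≤ 4 → 0 < r → mass μ y r ≤ Dn * r ^ 2) :
    Tendsto (G μ (μ.restrict {p | p.1 ∈ Efin μ})) (𝓝[>] 0) (𝓝 0) := by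
  have hE : MeasurableSet {p : V × V | p.1 ∈ Efin μ} :=
    measurable_fst (h1.efin_meas μ inferInstance)
  have h := tendsto_integral_filter_of_dominated_convergence
    (μ := (μ.restrict {p | p.1 ∈ Efin μ}).restrict {p : V × V | ‖p.1‖ ≤ 3})
    (l := 𝓝[>] (0 : ℝ)) (F := fun r (p : V × V) => mass μ p.1 r / r ^ 2) (f := fun _ => (0 : ℝ))
    (fun _ => |Dn|)
    (Eventually.of_forall fun r =>
      (((h1.meas μ r inferInstance).comp measurable_fst).div_const _).aestronglyMeasurable)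
    (by
      filter_upwards [self_mem_nhdsWithin] with r hr
      have hr' : 0 < r := hr
      filter_upwards [ae_restrict_mem meas3] with p hp
      rw [Real.norm_of_nonneg (div_nonneg (mass_nn _ _ _) (by positivity)),
        div_le_iff₀ (by positivity)]
      have hp' : ‖p.1‖ ≤ 3 := hp
      refine (hD p.1 r (by linarith) hr').trans ?_
      gcongr
      exact le_abs_self _)
    (integrable_const _)
    (by
      filter_upwards [ae_restrict_of_ae (ae_restrict_mem hE)] with p hp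
      exact h1.efin_dens μ p.1 hp)
  rw [integral_zero] at h
  exact h

lemma dens_restrict {μ : Measure (V × V)} [IsFiniteMeasure μ] {Dn : ℝ} (S : Set (V × V))
    (hD : ∀ y r, ‖y‖ ≤ 4 → 0 < r → mass μ y r ≤ Dn * r ^ 2) :
    ∀ y r, ‖y‖ ≤ 4 → 0 < r → mass (μ.restrict S) y r ≤ Dn * r ^ 2 := fun y r hy hr => by
  refine le_trans ?_ (hD y r hy hr)
  exact ENNReal.toReal_mono (measure_ne_top _ _) (Measure.restrict_apply_le _ _)

/-- truncation of an `L²` function -/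
lemma trunc {f : V → E2} (hf : MemLp f 2 volume) {κ : ℝ} (hκ : 0 < κ) :
    ∃ N : ℝ, 0 ≤ N ∧ Integrable (fun y => max (‖f y‖ - N) 0 ^ 2) ∧
      ∫ y, max (‖f y‖ - N) 0 ^ 2 ≤ κ := by
  have hi : Integrable (fun y => ‖f y‖ ^ 2) :=
    (memLp_two_iff_integrable_sq_norm hf.aestronglyMeasurable).mp hf
  have hm : ∀ n : ℕ, AEStronglyMeasurable (fun y => max (‖f y‖ - n) 0 ^ 2) volume := fun n =>
    (Continuous.comp_aestronglyMeasurable (g := fun s : ℝ => max (s - n) 0 ^ 2) (by fun_prop)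
      hf.aestronglyMeasurable.norm)
  have hb : ∀ n : ℕ, ∀ᵐ y, ‖max (‖f y‖ - n) 0 ^ 2‖ ≤ ‖f y‖ ^ 2 := fun n =>
    Eventually.of_forall fun y => by
      rw [Real.norm_of_nonneg (sq_nonneg _)]
      have h0 : (0 : ℝ) ≤ n := n.cast_nonneg
      gcongr
      exact max_le (by linarith) (norm_nonneg _)
  have h := tendsto_integral_of_dominated_convergence (F := fun (n : ℕ) y => max (‖f y‖ - n) 0 ^ 2)
    (f := fun _ => (0 : ℝ)) (fun y => ‖f y‖ ^ 2) hm hi hb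
    (Eventually.of_forall fun y => tendsto_const_nhds.congr' (by
      filter_upwards [tendsto_natCast_atTop_atTop.eventually_ge_atTop ‖f y‖] with n hn
      rw [max_eq_right (by linarith)]
      simp))
  rw [integral_zero] at h
  obtain ⟨n, hn⟩ := (h.eventually_le_const hκ).exists
  exact ⟨n, n.cast_nonneg, hi.mono' (hm n) (hb n), hn⟩

lemma pair_le {f c : V → E2} {g : V → ℝ} {N κ W : ℝ} (hκ : 0 < κ) (hW : 0 ≤ W)
    (hu : Integrable (fun y => max (‖f y‖ - N) 0 ^ 2))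
    (hu' : ∫ y, max (‖f y‖ - N) 0 ^ 2 ≤ κ ^ 2) (hc : ∀ y, ‖c y‖ ≤ g y) (hg : Integrable g)
    (hg2 : Integrable (fun y => g y ^ 2)) (hgW : nL2 g ≤ W) :
    |∫ y, ⟪f y, c y⟫| ≤ N * (∫ y, g y) + κ * (1 + W ^ 2) := by
  have hI : ∫ y, g y ^ 2 ≤ W ^ 2 := (Real.sqrt_le_left hW).mp hgW
  have hint : Integrable (fun y => N * g y + (κ⁻¹ * max (‖f y‖ - N) 0 ^ 2 + κ * g y ^ 2)) :=
    (hg.const_mul N).add ((hu.const_mul _).add (hg2.const_mul _))
  have h := norm_integral_le_of_norm_le (f := fun y => ⟪f y, c y⟫) hint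
    (Eventually.of_forall fun y => by
      have g0 : 0 ≤ g y := (norm_nonneg _).trans (hc y)
      set u := max (‖f y‖ - N) 0 with hu
      have u0 : 0 ≤ u := le_max_right _ _
      have u1 : ‖f y‖ ≤ N + u := by have := le_max_left (‖f y‖ - N) 0; linarith
      have u2 : u * g y ≤ κ⁻¹ * u ^ 2 + κ * g y ^ 2 := by
        have : κ * (u * g y) ≤ κ * (κ⁻¹ * u ^ 2 + κ * g y ^ 2) := by
          rw [mul_add, ← mul_assoc κ κ⁻¹, mul_inv_cancel₀ hκ.ne']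
          nlinarith [sq_nonneg (u - κ * g y), mul_nonneg (mul_nonneg hκ.le u0) g0]
        exact le_of_mul_le_mul_left this hκ
      calc ‖⟪f y, c y⟫‖ ≤ ‖f y‖ * ‖c y‖ := norm_inner_le_norm _ _
        _ ≤ ‖f y‖ * g y := by gcongr; exact hc y
        _ ≤ (N + u) * g y := by gcongr
        _ ≤ _ := by linarith)
  have hint2 : Integrable (fun y => κ⁻¹ * max (‖f y‖ - N) 0 ^ 2 + κ * g y ^ 2) :=
    (hu.const_mul _).add (hg2.const_mul _)
  rw [integral_add (hg.const_mul N) hint2,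
    integral_add (hu.const_mul _) (hg2.const_mul _), integral_const_mul, integral_const_mul,
    integral_const_mul] at h
  have k1 : κ⁻¹ * ∫ y, max (‖f y‖ - N) 0 ^ 2 ≤ κ := by
    calc _ ≤ κ⁻¹ * κ ^ 2 := by gcongr
      _ = κ := by field_simp
  have k2 : κ * ∫ y, g y ^ 2 ≤ κ * W ^ 2 := by gcongr
  rw [Real.norm_eq_abs] at h
  linarith

variable {X : Type*} [TopologicalSpace X] {D : Dat X} {K : Ker D}

lemma nu_le (h4 : HilS D) : ∃ Cw, 0 ≤ Cw ∧ ∀ j (φ : V → ℝ), (∀ y, 0 ≤ φ y) → Integrable φ →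
    Integrable φ (D.nu j) ∧ ∫ y, φ y ∂(D.nu j) ≤ Cw * ∫ y in closedBall (0 : V) 2, φ y := by
  obtain ⟨C, hC, h⟩ := h4.wt
  refine ⟨C, hC, fun j φ h0 hφ => ?_⟩
  have hc : Continuous fun y => D.psi j y * ((D.F j).A y).det :=
    (D.psi_cc j).continuous.mul
      (ContinuousLinearMap.continuous_det.comp (D.F j).smA.continuous)
  have hi : Integrable fun y => (D.psi j y * ((D.F j).A y).det) • φ y :=
    hφ.bdd_mul (c := C) hc.aestronglyMeasurable (Eventually.of_forall fun y => by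
      rw [Real.norm_of_nonneg (h j y).1]; exact (h j y).2.1)
  refine ⟨(h4.intg j φ).mpr hi, ?_⟩
  rw [h4.int, ← integral_const_mul, ← integral_indicator measurableSet_closedBall]
  refine integral_mono hi ((hφ.const_mul C).indicator measurableSet_closedBall) fun y => ?_
  by_cases hy : y ∈ closedBall (0 : V) 2
  · simp only [indicator_of_mem hy, smul_eq_mul]
    exact mul_le_mul_of_nonneg_right (h j y).2.1 (h0 y)
  · have : D.psi j y = 0 := (D.psi_cc j).2 y (by simpa using hy)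
    simp only [indicator_of_notMem hy, this, zero_mul, zero_smul, le_refl]

lemma t_small {t : ℝ} (ht : 0 < t) (ht0 : t ≤ K.ε0) : K.C0 * t ≤ 1 / 2 ∧ t ≤ 1 := by
  have h1 := K.one_le
  have h2 : K.C0 * t ≤ 1 / 2 := le_trans (by gcongr) K.small
  exact ⟨h2, by nlinarith⟩

lemma tt_le (h1 : TauS) (h4 : HilS D) : ∃ C1, 0 ≤ C1 ∧ ∀ j (μ μ' : Measure (V × V)) (t : ℝ),
    IsFiniteMeasure μ → IsFiniteMeasure μ' → 0 < t → t ≤ K.ε0 →
    Integrable (fun y => tau μ K.C0 t y * tau μ' K.C0 t y) (D.nu j) ∧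
    t ^ 2 * ∫ y, tau μ K.C0 t y * tau μ' K.C0 t y ∂(D.nu j) ≤ C1 * G μ μ' (2 * K.C0 * t) := by
  obtain ⟨Cw, hCw, hw⟩ := nu_le h4
  obtain ⟨C, hC, h⟩ := h1.l2
  have hC0 : 0 < K.C0 := one_pos.trans_le K.one_le
  refine ⟨Cw * C * K.C0 ^ 4 * (2 * K.C0) ^ 2, by positivity, fun j μ μ' t hμ hμ' ht ht0 => ?_⟩
  obtain ⟨i1, i2⟩ := h μ μ' K.C0 t hμ hμ' hC0.le ht
  obtain ⟨i3, i4⟩ := hw j _ (fun y => mul_nonneg (tau_nn μ _ ht y) (tau_nn μ' _ ht y)) i1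
  refine ⟨i3, ?_⟩
  have hs := (t_small ht ht0).1
  have i5 : ∫ p in {p : V × V | ‖p.1‖ ≤ 2 + K.C0 * t}, mass μ p.1 (2 * K.C0 * t) ∂μ'
      ≤ ∫ p in {p : V × V | ‖p.1‖ ≤ 3}, mass μ p.1 (2 * K.C0 * t) ∂μ' := by
    refine setIntegral_mono_set (mass_int h1 μ μ' _).integrableOn
      (Eventually.of_forall fun p => mass_nn _ _ _) (LE.le.eventuallyLE fun p hp => ?_)
    have hp' : ‖p.1‖ ≤ 2 + K.C0 * t := hp
    show ‖p.1‖ ≤ 3
    linarith
  rw [G, integral_div]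
  set I := ∫ p in {p : V × V | ‖p.1‖ ≤ 3}, mass μ p.1 (2 * K.C0 * t) ∂μ'
  calc _ ≤ t ^ 2 * (Cw * (C * K.C0 ^ 4 * (t ^ 4)⁻¹ * I)) := by
        refine mul_le_mul_of_nonneg_left (i4.trans (mul_le_mul_of_nonneg_left
          (i2.trans ?_) hCw)) (by positivity)
        gcongr
    _ = _ := by field_simp

/-- size of the smoothed positive current -/
lemma size (h1 : TauS) (h4 : HilS D) (h9 : ThTS K) {m mm : Fin D.n → Measure (V × V)} {Dn : ℝ}
    (hm : ∀ j, PM 1 (m j)) (hmm : D.IsCM m mm)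
    (hD : ∀ j y r, ‖y‖ ≤ 4 → 0 < r → mass (mm j) y r ≤ Dn * r ^ 2) :
    ∃ W, 0 ≤ W ∧ ∀ t Θ, 0 < t → t ≤ K.ε0 → K.IsTh t (D.T m) Θ →
      ‖D.mapH Pm Θ‖ + t * ‖Θ‖ ≤ W ∧ D.L1 (D.mapH Pm Θ) + t * D.L1 Θ ≤ W * t := by
  obtain ⟨C, hC, h⟩ := h9
  obtain ⟨C1, hC1, htt⟩ := tt_le (K := K) h1 h4
  obtain ⟨Cw, hCw, hw⟩ := nu_le h4
  obtain ⟨Cl, hCl, hl⟩ := h1.l1
  have hC0 : 0 < K.C0 := one_pos.trans_le K.one_le
  have hf : ∀ j, IsFiniteMeasure (mm j) := fun j => (hmm j).1.1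
  set S2 : ℝ := ∑ j, C ^ 2 * (C1 * (|Dn| * (mm j).real univ)) with hS2
  set S1 : ℝ := ∑ j, C * (Cw * (Cl * K.C0 ^ 4 * (mm j).real univ)) with hS1
  have S20 : 0 ≤ S2 := Finset.sum_nonneg fun j _ => by positivity
  have S10 : 0 ≤ S1 := Finset.sum_nonneg fun j _ => by positivity
  refine ⟨2 * √S2 + 2 * S1, by positivity, fun t Θ ht ht0 hΘ => ?_⟩
  have hb := h t m mm Θ ht ht0 hm hmm hΘ
  have k2 : ∀ h' : D.H, (∀ j, ∀ᵐ y ∂(D.nu j), t * ‖h' j y‖ ≤ C * t * tau (mm j) K.C0 t y) →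
      t * ‖h'‖ ≤ √S2 := by
    intro h' hh
    refine Real.le_sqrt_of_sq_le ?_
    obtain ⟨n1, n2⟩ := h4.norm_sq h'
    rw [mul_pow, n2, Finset.mul_sum]
    refine Finset.sum_le_sum fun j _ => ?_
    obtain ⟨i1, i2⟩ := htt j (mm j) (mm j) t (hf j) (hf j) ht ht0
    have := hf j
    have i3 := G_le (μ' := mm j) (r := 2 * K.C0 * t) (by positivity) (hD j)
    calc t ^ 2 * ∫ y, ‖h' j y‖ ^ 2 ∂(D.nu j) = ∫ y, t ^ 2 * ‖h' j y‖ ^ 2 ∂(D.nu j) :=
          (integral_const_mul _ _).symm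
      _ ≤ ∫ y, C ^ 2 * (t ^ 2 * (tau (mm j) K.C0 t y * tau (mm j) K.C0 t y)) ∂(D.nu j) := by
          refine integral_mono_ae ((n1 j).const_mul _) ((i1.const_mul _).const_mul _) ?_
          filter_upwards [hh j] with y hy
          calc t ^ 2 * ‖h' j y‖ ^ 2 = (t * ‖h' j y‖) ^ 2 := by ring
            _ ≤ (C * t * tau (mm j) K.C0 t y) ^ 2 := by gcongr
            _ = _ := by ring
      _ = C ^ 2 * (t ^ 2 * ∫ y, tau (mm j) K.C0 t y * tau (mm j) K.C0 t y ∂(D.nu j)) := by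
          rw [integral_const_mul, integral_const_mul]
      _ ≤ _ := by
          refine mul_le_mul_of_nonneg_left (i2.trans ?_) (by positivity)
          gcongr
  have k1 : ∀ h' : D.H, (∀ j, ∀ᵐ y ∂(D.nu j), ‖h' j y‖ ≤ C * tau (mm j) K.C0 t y) →
      D.L1 h' ≤ S1 := by
    intro h' hh
    refine Finset.sum_le_sum fun j _ => ?_
    obtain ⟨i1, i2⟩ := hl (mm j) K.C0 t (hf j) hC0.le ht
    obtain ⟨i3, i4⟩ := hw j _ (tau_nn (mm j) K.C0 ht) i1
    have i5 := setIntegral_le_integral (s := closedBall (0 : V) 2) i1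
      (Eventually.of_forall (tau_nn (mm j) K.C0 ht))
    calc _ ≤ ∫ y, C * tau (mm j) K.C0 t y ∂(D.nu j) :=
          integral_mono_ae (h4.h_int h' j).1.norm (i3.const_mul _) (hh j)
      _ = C * ∫ y, tau (mm j) K.C0 t y ∂(D.nu j) := integral_const_mul _ _
      _ ≤ _ := by
          refine mul_le_mul_of_nonneg_left (i4.trans ?_) hC
          exact mul_le_mul_of_nonneg_left (i5.trans i2) hCw
  have e1 : D.mapH Pm Θ = t • D.mapH Pm (t⁻¹ • Θ) := by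
    rw [← h4.map_smul, smul_inv_smul₀ ht.ne']
  set Θ' := D.mapH Pm (t⁻¹ • Θ) with hΘ'
  have hb' : ∀ j, ∀ᵐ y ∂(D.nu j), ‖Θ' j y‖ ≤ C * tau (mm j) K.C0 t y := by
    intro j
    have e2 : Θ' = t⁻¹ • D.mapH Pm Θ := h4.map_smul _ _ _
    have e3 : Θ' j =ᵐ[D.nu j] t⁻¹ • (D.mapH Pm Θ j : V → E6) := by
      rw [e2]
      exact Lp.coeFn_smul _ _
    filter_upwards [hb j, e3, h4.map_ae Pm Θ j] with y hy h5 h6
    rw [h5, Pi.smul_apply, h6, norm_smul, Real.norm_of_nonneg (by positivity),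
      inv_mul_le_iff₀ ht]
    linarith [hy.2.1]
  have a1 := k2 Θ fun j => (hb j).mono fun y hy => by
    rw [mul_comm C t, mul_assoc]; exact mul_le_mul_of_nonneg_left hy.1 ht.le
  have a2 := k2 Θ' fun j => (hb' j).mono fun y hy => by
    rw [mul_comm C t, mul_assoc]; exact mul_le_mul_of_nonneg_left hy ht.le
  have a3 := k1 Θ fun j => (hb j).mono fun y hy => hy.1
  have a4 := k1 Θ' hb'
  have e4 : D.L1 (D.mapH Pm Θ) = t * D.L1 Θ' := by
    rw [e1, Dat.L1, Dat.L1, Finset.mul_sum]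
    refine Finset.sum_congr rfl fun j _ => ?_
    rw [← integral_const_mul]
    refine integral_congr_ae ?_
    have e3 : (t • Θ') j =ᵐ[D.nu j] t • (Θ' j : V → E6) := Lp.coeFn_smul _ _
    filter_upwards [e3] with y hy
    rw [hy, Pi.smul_apply, norm_smul, Real.norm_of_nonneg ht.le]
  have e5 : ‖D.mapH Pm Θ‖ = t * ‖Θ'‖ := by rw [e1, norm_smul, Real.norm_of_nonneg ht.le]
  have s0 := Real.sqrt_nonneg S2
  refine ⟨by rw [e5]; linarith, ?_⟩
  rw [e4]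
  nlinarith [mul_le_mul_of_nonneg_left a3 ht.le, mul_le_mul_of_nonneg_left a4 ht.le,
    mul_nonneg s0 ht.le]

lemma ev_small : ∀ᶠ t in 𝓝[>] (0 : ℝ), 0 < t ∧ t ≤ K.ε0 := by
  filter_upwards [Ioc_mem_nhdsGT K.pos] with t ht using ht

/-- the cross terms tend to zero -/
lemma cross (h1 : TauS) (h2 : FormS D) (h4 : HilS D) (h6 : MS K) (h8 : LeakS K) (h9 : ThTS K)
    {m mm : Fin D.n → Measure (V × V)} {Dn : ℝ} {s : Form X → ℝ} {f : Fin D.n → V → E2}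
    (hm : ∀ j, PM 1 (m j)) (hmm : D.IsCM m mm)
    (hD : ∀ j y r, ‖y‖ ≤ 4 → 0 < r → mass (mm j) y r ≤ Dn * r ^ 2) (hs : D.Fn s)
    (hI : D.KillsI s)
    (hf : ∀ j, MemLp (f j) 2 volume ∧ ∀ c, Cc 6 c → D.sj s j c = ∫ y, ⟪f j y, c y⟫)
    {η : ℝ} (hη : 0 < η) : ∀ᶠ t in 𝓝[>] (0 : ℝ), ∀ Ts Θ, K.IsTh t s Ts → K.IsTh t (D.T m) Θ →
      |D.qH Ts Θ| ≤ η := by
  obtain ⟨W, hW, hsz⟩ := size h1 h4 h9 hm hmm hD
  obtain ⟨C, hC, hg⟩ := h8.gen 0
  set η' := η / (2 * (D.n + 1)) with hη'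
  have η0 : 0 < η' := by positivity
  set κ := η' / (1 + (C * W) ^ 2) with hκ
  have κ0 : 0 < κ := by positivity
  have hN := fun j => trunc (hf j).1 (κ := κ ^ 2) (by positivity)
  choose N N0 N1 N2 using hN
  have hev : ∀ j, ∀ᶠ t in 𝓝[>] (0 : ℝ), N j * (C * (W * t)) ≤ η' := by
    intro j
    have : Tendsto (fun t : ℝ => N j * (C * (W * t))) (𝓝 0) (𝓝 (N j * (C * (W * 0)))) :=
      Continuous.tendsto (by fun_prop) 0
    rw [mul_zero, mul_zero, mul_zero] at this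
    exact (this.mono_left nhdsWithin_le_nhds).eventually_le_const η0
  filter_upwards [ev_small (K := K), eventually_all.mpr hev] with t ht hNt Ts Θ hTs hΘ
  obtain ⟨ht, ht0⟩ := ht
  have hsm := h6.sm t Θ ht ht0
  obtain ⟨z1, z2⟩ := hsz t Θ ht ht0 hΘ
  rw [hTs Θ, h2.s_sum s _ hs hI hsm]
  have key : ∀ j, |D.sj s j (D.cj j (K.M t Θ))| ≤ 2 * η' := by
    intro j
    obtain ⟨g, g1, g2, g3, g4, g5⟩ := hg t Θ j ht ht0
    rw [(hf j).2 _ ((h2.cj_cc j _ hsm).mono (by norm_num))]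
    have hc : ∀ y, ‖D.cj j (K.M t Θ) y‖ ≤ g y := fun y => by
      simpa using g1 y y (by simpa using ht.le) 0 le_rfl
    have := pair_le (W := C * W) κ0 (by positivity) (N1 j) (N2 j) hc g2 g3
      (g4.trans (mul_le_mul_of_nonneg_left z1 hC))
    have e1 : κ * (1 + (C * W) ^ 2) = η' := by rw [hκ]; field_simp
    have e2 : N j * ∫ y, g y ≤ N j * (C * (W * t)) :=
      mul_le_mul_of_nonneg_left (g5.trans (mul_le_mul_of_nonneg_left z2 hC)) (N0 j)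
    linarith [hNt j]
  calc _ ≤ ∑ j, |D.sj s j (D.cj j (K.M t Θ))| := Finset.abs_sum_le_sum_abs _ _
    _ ≤ ∑ _j : Fin D.n, 2 * η' := Finset.sum_le_sum fun j _ => key j
    _ = D.n * (2 * η') := by simp
    _ ≤ (D.n + 1) * (2 * η') := by gcongr; linarith
    _ = η := by rw [hη']; field_simp

/-- the product of the two positive parts is almost nonnegative -/
lemma pos_pos (h1 : TauS) (h4 : HilS D) (h9 : ThTS K)
    {m m0 mm : Fin D.n → Measure (V × V)} {Dn : ℝ}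
    (hm : ∀ j, PM 1 (m j)) (hm0 : ∀ j, PM 1 (m0 j)) (hmm : D.IsCM m mm)
    (hmm0 : D.IsCM m0 (fun j => (mm j).restrict {p | p.1 ∈ Efin (mm j)}))
    (hD : ∀ j y r, ‖y‖ ≤ 4 → 0 < r → mass (mm j) y r ≤ Dn * r ^ 2)
    {η : ℝ} (hη : 0 < η) : ∀ᶠ t in 𝓝[>] (0 : ℝ), ∀ T1 T0, K.IsTh t (D.T m) T1 →
      K.IsTh t (D.T m0) T0 → -η ≤ D.qH T1 T0 := by
  obtain ⟨C, hC, h⟩ := h9
  obtain ⟨C1, hC1, htt⟩ := tt_le (K := K) h1 h4
  have hC0 : 0 < K.C0 := one_pos.trans_le K.one_le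
  have hf : ∀ j, IsFiniteMeasure (mm j) := fun j => (hmm j).1.1
  have hr : Tendsto (fun t : ℝ => 2 * K.C0 * t) (𝓝[>] 0) (𝓝[>] 0) := by
    refine tendsto_nhdsWithin_iff.mpr ⟨?_, ?_⟩
    · have : Tendsto (fun t : ℝ => 2 * K.C0 * t) (𝓝 0) (𝓝 (2 * K.C0 * 0)) :=
        Continuous.tendsto (by fun_prop) 0
      rw [mul_zero] at this
      exact this.mono_left nhdsWithin_le_nhds
    · filter_upwards [self_mem_nhdsWithin] with t ht
      have ht' : 0 < t := ht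
      show 0 < 2 * K.C0 * t
      positivity
  have hlim : Tendsto (fun t : ℝ => ∑ j, 8 * C ^ 2 *
      (C1 * G (mm j) ((mm j).restrict {p | p.1 ∈ Efin (mm j)}) (2 * K.C0 * t))) (𝓝[>] 0)
      (𝓝 (∑ _j : Fin D.n, 8 * C ^ 2 * (C1 * 0))) :=
    tendsto_finsetSum _ fun j _ => by
      have := hf j
      exact (((G_tendsto h1 (hD j)).comp hr).const_mul C1).const_mul _
  simp only [mul_zero, Finset.sum_const_zero] at hlim
  filter_upwards [ev_small (K := K), hlim.eventually_le_const hη] with t ht hl T1 T0 hT1 hT0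
  obtain ⟨ht, ht0⟩ := ht
  have b1 := h t m mm T1 ht ht0 hm hmm hT1
  have b0 := h t m0 _ T0 ht ht0 hm0 hmm0 hT0
  obtain ⟨q1, q2⟩ := h4.qH_eq T1 T0
  rw [q2]
  refine (neg_le_neg hl).trans ?_
  rw [← Finset.sum_neg_distrib]
  refine Finset.sum_le_sum fun j _ => ?_
  have := hf j
  obtain ⟨i1, i2⟩ := htt j (mm j) ((mm j).restrict {p | p.1 ∈ Efin (mm j)}) t (hf j)
    inferInstance ht ht0
  refine (neg_le_neg (mul_le_mul_of_nonneg_left i2 (by positivity))).trans ?_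
  rw [← integral_const_mul, ← integral_const_mul, ← integral_neg]
  refine integral_mono_ae ((i1.const_mul _).const_mul _).neg (q1 j) ?_
  filter_upwards [b1 j, b0 j] with y y1 y0
  exact pt_bound hC ht (t_small ht ht0).2 (tau_nn _ _ ht y) (tau_nn _ _ ht y) y1.1 y1.2.1 y1.2.2
    y0.1 y0.2.1 y0.2.2

end Sev

open Sev in
theorem sevS {X : Type*} [TopologicalSpace X] [T2Space X] {D : Dat X} {K : Ker D}
    (h1 : TauS) (h2 : FormS D) (h3 : SemS D) (h4 : HilS D) (h5 : CurS D) (h6 : MS K)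
    (h7 : KeyS K) (h8 : LeakS K) (h9 : ThTS K) : SevS K := by
  intro m m0 mm s k Λ M ε1 B Dn f hm hm0 hmm hmm0 hΛ hs hO hZ hK hε1 hε10 hB hBd hD hf η hη
  have hI := h2.killsI s k Λ hO
  have hfin : ∀ j, IsFiniteMeasure (mm j) := fun j => (hmm j).1.1
  have η2 : 0 < η ^ 2 / 2 := by positivity
  have c1 := cross h1 h2 h4 h6 h8 h9 hm hmm hD hs hI hf η2
  have c0 := cross h1 h2 h4 h6 h8 h9 hm0 hmm0
    (fun j => by have := hfin j; exact dens_restrict _ (hD j)) hs hI hf η2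
  have c2 := pos_pos h1 h4 h9 hm hm0 hmm hmm0 hD η2
  obtain ⟨C, hC, hl⟩ := h8.leak M
  have c3 : ∀ᶠ t in 𝓝[>] (0 : ℝ), C * t * B ≤ η / 2 := by
    have : Tendsto (fun t : ℝ => C * t * B) (𝓝 0) (𝓝 (C * 0 * B)) :=
      Continuous.tendsto (by fun_prop) 0
    rw [mul_zero, zero_mul] at this
    exact (this.mono_left nhdsWithin_le_nhds).eventually_le_const (by positivity)
  obtain ⟨Ct, hCt, hth⟩ := h6.theta 0
  obtain ⟨Λ1, hΛ1, o1⟩ := h5.ord m hm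
  obtain ⟨Λ0, hΛ0, o0⟩ := h5.ord m0 hm0
  have main : ∀ᶠ t in 𝓝[>] (0 : ℝ), ∀ Θ, K.IsTh t s Θ → ‖D.mapH Pm Θ‖ ≤ η := by
    filter_upwards [c1, c0, c2, c3, Ioc_mem_nhdsGT hε1] with t d1 d0 d2 d3 ht Θ hΘ
    obtain ⟨ht, ht1⟩ := ht
    have ht0 := ht1.trans hε10
    obtain ⟨T1, hT1, -⟩ := hth t _ Λ1 ht ht0 hΛ1 (h5.fn m hm) o1
    obtain ⟨T0, hT0, -⟩ := hth t _ Λ0 ht ht0 hΛ0 (h5.fn m0 hm0) o0
    have z := h7 t _ _ (T1 + Θ) (T0 + Θ) ht ht0 hZ hK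
      (fun h => by rw [h4.qH_add, hT1 h, hΘ h]) (fun h => by rw [h4.qH_add, hT0 h, hΘ h])
    rw [h4.qH_add, h4.qH_symm T1, h4.qH_symm Θ, h4.qH_add, h4.qH_add, h4.qH_symm T0 T1,
      h4.qH_symm T0 Θ] at z
    have e1 := (abs_le.mp (d1 Θ T1 hΘ hT1)).1
    have e0 := (abs_le.mp (d0 Θ T0 hΘ hT0)).1
    have e2 := d2 T1 T0 hT1 hT0
    have e3 := h4.qH_self Θ
    have e4 := (hl t B s Θ ht ht0 hB hs hI hΘ (hBd t ht ht1)).trans d3
    have e5 : ‖D.mapH Po Θ‖ ^ 2 ≤ (η / 2) ^ 2 := by gcongr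
    refine (abs_le_of_sq_le_sq' ?_ hη.le).2
    nlinarith
  obtain ⟨ε2, hε2, hsub⟩ := mem_nhdsGT_iff_exists_Ioc_subset.mp main
  exact ⟨ε2, hε2, fun t Θ ht ht2 hΘ => hsub ⟨ht, ht2⟩ Θ hΘ⟩

end Vale.Agent.P204
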