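import Vale.Agent.P204.Stmt

/-! One step of the scale recursion and its consequences. -/

set_option maxSynthPendingDepth 3

open scoped Topology ContDiff RealInnerProductSpace Manifold
open Set Metric MeasureTheory Filter

noncomputable section
namespace Vale.Agent.P204

namespace Step

lemma dom_nn {M : ℕ} {ε : ℝ} {c : V → E2} {g : V → ℝ} (h : Dom M ε c g) (hε : 0 ≤ ε) (z : V) :
    0 ≤ g z :=
  le_trans (by positivity) (h z z (by simpa using hε) 0 (Nat.zero_le _))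

lemma dom_zero {M : ℕ} {ε : ℝ} {c : V → E2} {g : V → ℝ} (h : Dom M ε c g) : Dom 0 ε c g :=
  fun x z hx l hl => h x z hx l (hl.trans (Nat.zero_le _))

lemma nL2_le {a g : V → ℝ} {κ : ℝ} (hκ : 0 ≤ κ) (h0 : ∀ y, 0 ≤ a y) (h : ∀ y, a y ≤ κ * g y)
    (hg : Integrable fun y => g y ^ 2) : nL2 a ≤ κ * nL2 g := by
  rw [nL2, nL2, ← Real.sqrt_sq hκ, ← Real.sqrt_mul (sq_nonneg _), ← integral_const_mul]
  refine Real.sqrt_le_sqrt (integral_mono_of_nonneg (Eventually.of_forall fun y => sq_nonneg _)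
    (hg.const_mul _) (Eventually.of_forall fun y => ?_))
  dsimp only
  rw [← mul_pow]
  exact pow_le_pow_left₀ (h0 y) (h y) 2

lemma int_mul {g : V → ℝ} (κ : ℝ) (hg : Integrable fun y => g y ^ 2) :
    Integrable fun y => (κ * g y) ^ 2 := by
  simpa only [mul_pow] using hg.const_mul (κ ^ 2)

variable {X : Type*} [TopologicalSpace X] {D : Dat X}

/-- the kernel acting on anti-invariant parts -/
def Hp (K : Ker D) (j : Fin D.n) (p : V × V × ℝ) : E2 →L[ℝ] E2 :=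
  ((D.F j).cm (p.1 + p.2.2 • p.2.1)).comp ((K.Hs j p).comp ((D.F j).up p.1))

variable {K : Ker D}

lemma Hp_sm (j : Fin D.n) : ContDiff ℝ ∞ (Hp K j) :=
  ((D.F j).sm_cm.comp (contDiff_fst.add (contDiff_snd.snd.smul contDiff_snd.fst))).clm_comp
    ((K.scf j).1.clm_comp ((D.F j).sm_up.comp contDiff_fst))

lemma Hp_zero (j : Fin D.n) (y v : V) (t : ℝ) (h : K.C0 < ‖v‖) : Hp K j (y, v, t) = 0 := by
  simp [Hp, (K.scf j).2.1 y v t h]

lemma Hp_int (j : Fin D.n) (y : V) (hy : ‖y‖ ≤ 9) :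
    ∫ v, Hp K j (y, v, 0) = ContinuousLinearMap.id ℝ E2 := by
  obtain ⟨h, e1, e2⟩ := (K.scf j).2.2
  have e : ∀ v, Hp K j (y, v, 0) = h y v • ContinuousLinearMap.id ℝ E2 := fun v => by
    ext1 c
    simp [Hp, e1 y v hy]
  simp only [e]
  rw [integral_smul_const, e2 y hy, one_smul]

lemma kop (h2 : ScaleS) (j : Fin D.n) {t : ℝ} (ht : 0 < t) (ht' : t ≤ K.ε0) {c : V → E2}
    (hc : Cc 7 c) : Cc 11 (K.Kop j t fun y => (D.F j).up y (c y)) ∧ Sop (Hp K j) t c =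
      fun z => (D.F j).cm z (K.Kop j t (fun y => (D.F j).up y (c y)) z) := by
  have hR : K.C0 * t ≤ 1 / 2 :=
    (mul_le_mul_of_nonneg_left ht' (zero_le_one.trans K.one_le)).trans K.small
  have hu := Cc.clm (D.F j).sm_up hc
  obtain ⟨a1, a2, -⟩ := h2.sm (K.Hs j) K.C0 t 7 _ (K.scf j).1 (K.scf j).2.1 ht hu.integrable hu.2
  refine ⟨a1.mono (by linarith), funext fun z => ?_⟩
  refine Eq.trans (integral_congr_ae (Eventually.of_forall fun y => ?_))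
    (ContinuousLinearMap.integral_comp_comm _ (a2 z))
  simp [Ker.k, ksc, Hp, smul_smul, ht.ne']

lemma step (h2 : ScaleS) (h3 : R1S) (h4 : FormS D) (h6 : HilS D) (h7 : HatS D) (h8 : MS K)
    (m : ℕ) : ∃ C L0, 0 ≤ C ∧ 1 ≤ L0 ∧ ∀ (t ε : ℝ) j (c : V → E2), 0 < t → t ≤ K.ε0 →
    L0 * t ≤ ε → ε ≤ 1 → Cc (7 - ε) c → ∃ c1, Cc (7 - t) c1 ∧
      (∀ M ≤ m, ∀ g, Dom M ε c g → Dom M t c1 (fun z => C * (t / ε) ^ M * g z)) ∧
      ∀ s Θ g, D.Fn s → D.KillsI s → K.IsTh t s Θ → Dom 0 ε c g →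
        Integrable (fun y => g y ^ 2) →
        |D.sj s j c - D.sj s j c1| ≤ C * ‖D.mapH Pm Θ‖ * nL2 g := by
  choose C1 p1 q1 using fun j => h3 (Hp K j) K.C0 m K.one_le (Hp_sm j) (Hp_zero j) (Hp_int j)
  obtain ⟨C2, p2, q2⟩ := h7.iota_l2
  have l1 : ∀ j, C1 j ≤ ∑ i, C1 i := fun j =>
    Finset.single_le_sum (fun i _ => p1 i) (Finset.mem_univ j)
  have s0 : 0 ≤ ∑ i, C1 i := Finset.sum_nonneg fun i _ => p1 i
  have c0 : 0 ≤ K.C0 := zero_le_one.trans K.one_le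
  have L1 : 1 ≤ m * K.C0 + 1 := le_add_of_nonneg_left (by positivity)
  refine ⟨(1 + 22 * C2) * ∑ i, C1 i, m * K.C0 + 1, by positivity, L1,
    fun t ε j c ht ht' hL hε hc => ?_⟩
  have e0 : 0 < ε := lt_of_lt_of_le (by positivity) hL
  obtain ⟨c1, c', a1, a2, a3, a4, a5, a6⟩ := q1 j t ε c ht hL hε hc
  refine ⟨c1, a1, fun M hM g hg x z hx l hl => (a5 M hM g hg x z hx l hl).trans ?_,
    fun s Θ g b1 b2 b3 b4 b5 => ?_⟩
  · have := dom_nn hg e0.le z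
    have h : C1 j ≤ (1 + 22 * C2) * ∑ i, C1 i := by nlinarith [l1 j]
    dsimp only
    gcongr
  · obtain ⟨k1, k2⟩ := kop (K := K) h2 j ht ht' a2
    have hu := Cc.clm (D.F j).sm_up a2
    have e : D.sj s j c - D.sj s j c1 = D.qH Θ (D.iota (D.upx j c')) := by
      rw [a4, (h4.llin s j b1).1 _ _ (a1.mono (by linarith)) a3, add_sub_cancel_left, k2,
        ← h4.s_ext s j _ b1 b2 k1, ← h8.mext t j _ ht ht' hu, b3]
      rfl
    rw [e]
    refine (h6.qH_minus _ _ (h7.iota_upx j c' (a2.mono (by norm_num)))).trans ?_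
    have n1 : ‖D.iota (D.upx j c')‖ ≤ C2 * (11 * C1 j * nL2 g) :=
      (q2 j _ (hu.mono (by norm_num))).trans (mul_le_mul_of_nonneg_left
        (nL2_le (by have := p1 j; positivity) (fun y => norm_nonneg _) (fun y =>
          ((D.F j).norm_up_le y _).trans (by linarith [a6 g b4 y])) b5) p2)
    have n2 := nL2_nonneg g
    have n3 := l1 j
    calc _ ≤ 2 * ‖D.mapH Pm Θ‖ * (C2 * (11 * (∑ i, C1 i) * nL2 g)) := by
          gcongr
          exact n1.trans (by gcongr)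
      _ ≤ _ := by
          have : 0 ≤ (∑ i, C1 i) * ‖D.mapH Pm Θ‖ * nL2 g := by positivity
          nlinarith

lemma alg1 {e r : ℝ} (C : ℝ) (he : 0 < e) (hr : 0 < r) (n p : ℕ) :
    ((e * r ^ (n + 1)) ^ p)⁻¹ * (C * r ^ (p + 1)) ^ n = ((e * r) ^ p)⁻¹ * (C * r) ^ n := by
  field_simp
  ring

lemma alg2 {e r : ℝ} (C : ℝ) (he : 0 < e) (hr : 0 < r) (n p k : ℕ) :
    ((e * r ^ n) ^ (k + 2))⁻¹ * (C * r ^ (p + k + 3)) ^ n =
      (e ^ (k + 2))⁻¹ * (C * r * r ^ p) ^ n := by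
  field_simp
  ring

end Step

variable {X : Type*} [TopologicalSpace X] [T2Space X] {D : Dat X} {K : Ker D}

open Step in
theorem stepS (h1 : NkS) (h2 : ScaleS) (h3 : R1S) (h4 : FormS D) (h5 : SemS D) (h6 : HilS D)
    (h7 : HatS D) (h8 : MS K) : StepS K := by
  refine ⟨step h2 h3 h4 h6 h7 h8, fun M => ?_, fun p k ε1 e0 e1 => ?_⟩
  · obtain ⟨C, L0, p1, p2, q⟩ := step h2 h3 h4 h6 h7 h8 M
    refine ⟨C, L0, p1, p2, fun L ε β s Θ hL hε hε' ht hβ b1 b2 b3 b4 j c g hc hd hg => ?_⟩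
    have L0' : 0 < L := by linarith
    have t0 : 0 < ε / L := by positivity
    obtain ⟨c1, a1, a2, a3⟩ := q (ε / L) ε j c t0 ht (by
      rw [← mul_div_assoc, div_le_iff₀ L0']
      nlinarith) hε' hc
    have e : C * (ε / L / ε) ^ M = C * (L ^ M)⁻¹ := by
      rw [div_div_cancel_left' hε.ne', inv_pow]
    have a4 := a2 M le_rfl g hd
    rw [e] at a4
    have a5 := b4 j c1 _ a1 a4 (int_mul _ hg)
    have a6 := a3 s Θ g b1 b2 b3 (dom_zero hd) hg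
    have a7 := mul_le_mul_of_nonneg_left (nL2_le (κ := C * (L ^ M)⁻¹) (by positivity)
      (dom_nn a4 t0.le) (fun _ => le_rfl) hg) hβ
    have a8 := abs_sub_abs_le_abs_sub (D.sj s j c) (D.sj s j c1)
    linarith
  obtain ⟨C, L0, p1, p2, q⟩ := step h2 h3 h4 h6 h7 h8 (p + k + 3)
  obtain ⟨Cs, ps, qs⟩ := h1.dom_sup
  obtain ⟨Cn, pn, qn⟩ := h1.crude
  obtain ⟨Cc', pc, qc⟩ := h5.crude k
  obtain ⟨r, hr⟩ : ∃ r, r = (L0 + 2 * C)⁻¹ := ⟨_, rfl⟩
  have d0 : 0 < L0 + 2 * C := by linarith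
  have r0 : 0 < r := hr ▸ inv_pos.2 d0
  have r1 : (L0 + 2 * C) * r = 1 := hr ▸ mul_inv_cancel₀ d0.ne'
  have r2 : 0 ≤ C * r := by positivity
  have r3 : r ≤ L0 * r := le_mul_of_one_le_left r0.le p2
  have r4 : L0 * r ≤ 1 := by linarith
  have r5 : C * r ≤ 1 / 2 := by linarith
  have r6 : r ≤ 1 := by linarith
  have e2 : ε1 ≤ 1 := by nlinarith [K.small, K.one_le, K.pos]
  have t0 : ∀ n : ℕ, 0 < ε1 * r ^ n := fun n => by positivity
  have t1 : ∀ n : ℕ, ε1 * r ^ n ≤ ε1 := fun n =>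
    mul_le_of_le_one_right e0.le (pow_le_one₀ r0.le r6)
  refine ⟨2 * C * ((ε1 * r) ^ p)⁻¹ * Cs, by positivity, fun s Λ A hΛ hA b1 b2 b3 j c hc => ?_⟩
  have b4 := h4.killsI s k Λ b2
  have d0 := h1.dom_nk (M := p + 1) e0 e2 (hc.mono (by norm_num))
  have d1 := h1.dom_nk (M := p + k + 3) e0 e2 (hc.mono (by norm_num))
  obtain ⟨i0, n0⟩ := qs _ (h1.nonneg (p + 1) c)
  obtain ⟨i1, -⟩ := qs _ (h1.nonneg (p + k + 3) c)
  generalize (closedBall (0 : V) 8).indicator (fun _ => Nk (p + 1) c) = g0 at d0 i0 n0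
  generalize (closedBall (0 : V) 8).indicator (fun _ => Nk (p + k + 3) c) = g1 at d1 i1
  obtain ⟨κ, hκ⟩ : ∃ κ, κ = C * A * ((ε1 * r) ^ p)⁻¹ * nL2 g0 := ⟨_, rfl⟩
  have m0 := nL2_nonneg g0
  have m1 := nL2_nonneg g1
  have inv : ∀ n : ℕ, ∃ cn, Cc (7 - ε1 * r ^ n) cn ∧
      Dom (p + 1) (ε1 * r ^ n) cn (fun z => (C * r ^ (p + 1)) ^ n * g0 z) ∧
      Dom (p + k + 3) (ε1 * r ^ n) cn (fun z => (C * r ^ (p + k + 3)) ^ n * g1 z) ∧
      |D.sj s j c - D.sj s j cn| ≤ 2 * κ * (1 - (1 / 2) ^ n) := by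
    intro n
    induction n with
    | zero => exact ⟨c, hc.mono (by linarith [t1 0]), by simpa using d0, by simpa using d1, by simp⟩
    | succ n ih =>
      obtain ⟨cn, a1, a2, a3, a4⟩ := ih
      obtain ⟨c1, u1, u2, u3⟩ := q (ε1 * r ^ (n + 1)) (ε1 * r ^ n) j cn (t0 _) ((t1 _).trans e1)
        (by have := mul_le_mul_of_nonneg_left r4 (t0 n).le; rw [pow_succ]; linarith)
        ((t1 n).trans e2) a1
      have e : ε1 * r ^ (n + 1) / (ε1 * r ^ n) = r := by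
        rw [pow_succ]
        field_simp
      rw [e] at u2
      obtain ⟨Θ, v1, v2⟩ := b3 _ (t0 (n + 1)) (t1 _)
      refine ⟨c1, u1, ?_, ?_, ?_⟩
      · simpa only [pow_succ' _ n, mul_assoc] using u2 _ (by omega) _ a2
      · simpa only [pow_succ' _ n, mul_assoc] using u2 _ le_rfl _ a3
      · have w1 := u3 s Θ _ b1 b4 v1 (dom_zero a2) (int_mul _ i0)
        have w2 := nL2_le (κ := (C * r ^ (p + 1)) ^ n) (by positivity) (dom_nn a2 (t0 n).le)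
          (fun _ => le_rfl) i0
        have w3 : |D.sj s j cn - D.sj s j c1| ≤ κ * (1 / 2) ^ n :=
          calc _ ≤ C * (A * ((ε1 * r ^ (n + 1)) ^ p)⁻¹) * ((C * r ^ (p + 1)) ^ n * nL2 g0) :=
                w1.trans (by have := nL2_nonneg fun z => (C * r ^ (p + 1)) ^ n * g0 z; gcongr)
            _ = C * A * nL2 g0 * (((ε1 * r ^ (n + 1)) ^ p)⁻¹ * (C * r ^ (p + 1)) ^ n) := by ring
            _ = κ * (C * r) ^ n := by rw [alg1 C e0 r0, hκ]; ring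
            _ ≤ _ := by rw [hκ]; gcongr
        have w4 := abs_sub_le (D.sj s j c) (D.sj s j cn) (D.sj s j c1)
        rw [pow_succ]
        linarith
  have κ0 : 0 ≤ κ := by rw [hκ]; positivity
  have fin : ∀ n : ℕ, |D.sj s j c| ≤
      2 * κ + Cn * (Cc' * Λ) * (ε1 ^ (k + 2))⁻¹ * nL2 g1 * (1 / 2) ^ n := fun n => by
    obtain ⟨cn, a1, a2, a3, a4⟩ := inv n
    have w1 := qn (D.sj s j) k (p + k + 3) (Cc' * Λ) _ (by positivity) (by omega) (t0 n)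
      ((t1 n).trans e2) ((qc s Λ hΛ b2).2 j) cn _ a1 a3 (int_mul _ i1)
    have w2 := nL2_le (κ := (C * r ^ (p + k + 3)) ^ n) (by positivity) (dom_nn a3 (t0 n).le)
      (fun _ => le_rfl) i1
    have w3 : |D.sj s j cn| ≤ Cn * (Cc' * Λ) * (ε1 ^ (k + 2))⁻¹ * nL2 g1 * (1 / 2) ^ n :=
      calc _ ≤ Cn * (Cc' * Λ) * ((ε1 * r ^ n) ^ (k + 2))⁻¹ *
              ((C * r ^ (p + k + 3)) ^ n * nL2 g1) := w1.trans (by gcongr)
        _ = Cn * (Cc' * Λ) * nL2 g1 *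
              (((ε1 * r ^ n) ^ (k + 2))⁻¹ * (C * r ^ (p + k + 3)) ^ n) := by ring
        _ = Cn * (Cc' * Λ) * (ε1 ^ (k + 2))⁻¹ * nL2 g1 * (C * r * r ^ p) ^ n := by
            rw [alg2 C e0 r0]; ring
        _ ≤ _ := by
            gcongr
            exact (mul_le_of_le_one_right r2 (pow_le_one₀ r0.le r6)).trans r5
    have w4 := abs_sub_abs_le_abs_sub (D.sj s j c) (D.sj s j cn)
    have w5 : 0 ≤ κ * (1 / 2) ^ n := by positivity
    linarith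
  have lim := ((tendsto_pow_atTop_nhds_zero_of_lt_one (r := (1 / 2 : ℝ)) (by norm_num)
    (by norm_num)).const_mul (Cn * (Cc' * Λ) * (ε1 ^ (k + 2))⁻¹ * nL2 g1)).const_add (2 * κ)
  refine (ge_of_tendsto' lim fin).trans ?_
  rw [mul_zero, add_zero, hκ]
  calc _ ≤ 2 * (C * A * ((ε1 * r) ^ p)⁻¹ * (Cs * Nk (p + 1) c)) := by gcongr
    _ = _ := by ring

end Vale.Agent.P204
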