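import Vale.Agent.P204.Stmt

/-! Measure theoretic facts on densities. -/

set_option maxSynthPendingDepth 3

open scoped Topology ContDiff RealInnerProductSpace Manifold ENNReal
open Set Metric MeasureTheory Filter

noncomputable section
namespace Vale.Agent.P204

namespace Tau

lemma msS (r : ℝ) : MeasurableSet {q : V × V × V | ‖q.2.1 - q.1‖ ≤ r} :=
  (isClosed_le (by fun_prop) continuous_const).measurableSet

lemma ms (y : V) (r : ℝ) : MeasurableSet {p : V × V | ‖p.1 - y‖ ≤ r} :=
  (isClosed_le (by fun_prop) continuous_const).measurableSet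

lemma mE (m : Measure (V × V)) [IsFiniteMeasure m] (r : ℝ) :
    Measurable fun y : V => m {p | ‖p.1 - y‖ ≤ r} :=
  measurable_measure_prodMk_left (msS r)

lemma lint (m : Measure (V × V)) [IsFiniteMeasure m] {r : ℝ} (hr : 0 ≤ r) :
    ∫⁻ y : V, m {p | ‖p.1 - y‖ ≤ r} =
      ENNReal.ofReal (r ^ 4) * (volume : Measure V) (ball 0 1) * m univ := by
  refine ((Measure.prod_apply (msS r)).symm.trans (Measure.prod_apply_symm (msS r))).trans ?_
  rw [← lintegral_const]
  refine lintegral_congr fun p => ?_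
  have : (fun x : V => (x, p)) ⁻¹' {q : V × V × V | ‖q.2.1 - q.1‖ ≤ r} = closedBall p.1 r := by
    ext x
    rw [mem_closedBall, dist_comm, dist_eq_norm]
    rfl
  rw [this, Measure.addHaar_closedBall _ _ hr, finrank_euclideanSpace_fin]

lemma mass_int (m : Measure (V × V)) [IsFiniteMeasure m] {r : ℝ} (hr : 0 ≤ r) :
    Integrable (fun y => mass m y r) ∧
      ∫ y, mass m y r = r ^ 4 * (volume : Measure V).real (ball 0 1) * m.real univ := by
  refine ⟨integrable_toReal_of_lintegral_ne_top (mE m r).aemeasurable ?_, ?_⟩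
  · rw [lint m hr]
    exact ENNReal.mul_ne_top (ENNReal.mul_ne_top ENNReal.ofReal_ne_top measure_ball_lt_top.ne)
      (measure_ne_top _ _)
  · refine (integral_toReal (mE m r).aemeasurable
      (Eventually.of_forall fun _ => measure_lt_top _ _)).trans ?_
    rw [lint m hr, ENNReal.toReal_mul, ENNReal.toReal_mul, ENNReal.toReal_ofReal (by positivity)]
    rfl

lemma mass_mul (m m' : Measure (V × V)) [IsFiniteMeasure m] [IsFiniteMeasure m'] {r : ℝ}
    (hr : 0 ≤ r) : Integrable (fun y => mass m y r * mass m' y r) ∧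
    ∫ y in closedBall (0 : V) 2, mass m y r * mass m' y r ≤
      r ^ 4 * (volume : Measure V).real (ball 0 1) *
        ∫ p in {p : V × V | ‖p.1‖ ≤ 2 + r}, mass m p.1 (2 * r) ∂m' := by
  have h1 : Integrable fun y => mass m y r * mass m' y r :=
    (mass_int m hr).1.mul_bdd (c := m'.real univ) (mE m' r).ennreal_toReal.aestronglyMeasurable
      (Eventually.of_forall fun y => by
        rw [mass, Real.norm_of_nonneg measureReal_nonneg]
        exact measureReal_mono (subset_univ _))
  refine ⟨h1, ?_⟩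
  have hd : Measurable fun p : V × V => m {q | ‖q.1 - p.1‖ ≤ 2 * r} :=
    (mE m (2 * r)).comp measurable_fst
  set n := (m'.restrict {p : V × V | ‖p.1‖ ≤ 2 + r}).withDensity
    fun p : V × V => m {q | ‖q.1 - p.1‖ ≤ 2 * r} with hn
  have : IsFiniteMeasure n := isFiniteMeasure_withDensity (ne_top_of_le_ne_top
    (by rw [lintegral_const]; exact ENNReal.mul_ne_top (measure_ne_top m univ) (measure_ne_top _ _))
    (lintegral_mono fun p => measure_mono (subset_univ _)))
  have h2 : ∀ y ∈ closedBall (0 : V) 2, mass m y r * mass m' y r ≤ mass n y r := by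
    intro y hy
    rw [mem_closedBall_zero_iff] at hy
    rw [mass, mass, mass, Measure.real, Measure.real, Measure.real, ← ENNReal.toReal_mul]
    refine ENNReal.toReal_mono (measure_ne_top _ _) ?_
    rw [hn, withDensity_apply _ (ms y r), Measure.restrict_restrict (ms y r), inter_eq_left.2,
      ← setLIntegral_const]
    · refine setLIntegral_mono' (ms y r) fun p hp => measure_mono fun q hq => ?_
      have := norm_sub_le_norm_sub_add_norm_sub q.1 y p.1
      rw [norm_sub_rev y] at this
      simp only [mem_ofPred_eq] at hp hq ⊢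
      linarith
    · intro p hp
      have := norm_sub_norm_le p.1 y
      simp only [mem_ofPred_eq] at hp ⊢
      linarith
  have h3 : n.real univ = ∫ p in {p : V × V | ‖p.1‖ ≤ 2 + r}, mass m p.1 (2 * r) ∂m' := by
    rw [Measure.real, hn, withDensity_apply _ MeasurableSet.univ, Measure.restrict_univ]
    exact (integral_toReal hd.aemeasurable (Eventually.of_forall fun _ => measure_lt_top _ _)).symm
  rw [← h3, ← (mass_int n hr).2]
  exact (setIntegral_mono_on h1.integrableOn (mass_int n hr).1.integrableOn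
    measurableSet_closedBall h2).trans (setIntegral_le_integral (mass_int n hr).1
      (Eventually.of_forall fun _ => measureReal_nonneg))

lemma mk : Measurable fun w : V => (ENNReal.ofReal (‖w‖ ^ 2))⁻¹ := by fun_prop

lemma k_int : ∫⁻ w : V, (ball 0 1).indicator (fun w => (ENNReal.ofReal (‖w‖ ^ 2))⁻¹) w ≠ ⊤ := by
  have h1 : IntegrableOn (fun w : V => (‖w‖ ^ 2)⁻¹) (ball 0 1) := by
    refine integrableOn_ball_of_norm_le_rpow (C := 1) (α := 2) (by simp) (by simp; norm_num)
      (Eventually.of_forall fun w => ?_) (Measurable.aestronglyMeasurable (by fun_prop))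
    rw [Real.norm_of_nonneg (by positivity), Real.rpow_neg (norm_nonneg _), one_mul, Real.rpow_two]
  rw [lintegral_indicator measurableSet_ball]
  refine ne_of_lt (lt_of_eq_of_lt (lintegral_congr_ae ?_) (Integrable.lintegral_lt_top h1))
  refine ae_restrict_of_ae ((Measure.ae_ne volume (0 : V)).mono fun w hw => ?_)
  exact (ENNReal.ofReal_inv_of_pos (pow_pos (norm_pos_iff.2 hw) 2)).symm

lemma efin_ae (m : Measure (V × V)) [IsFiniteMeasure m] : ∀ᵐ y, y ∈ Efin m := by
  set k : V → ℝ≥0∞ := (ball 0 1).indicator (fun w => (ENNReal.ofReal (‖w‖ ^ 2))⁻¹) with hk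
  have h1 : Measurable k := mk.indicator measurableSet_ball
  have h2 : Measurable fun q : V × V × V => k (q.2.1 - q.1) := h1.comp (by fun_prop)
  have h3 : ∫⁻ y : V, ∫⁻ p, k (p.1 - y) ∂m ≠ ⊤ := by
    rw [lintegral_lintegral_swap h2.aemeasurable]
    simp only [lintegral_sub_left_eq_self k]
    rw [lintegral_const]
    exact ENNReal.mul_ne_top k_int (measure_ne_top _ _)
  refine (ae_lt_top h2.lintegral_prod_right' h3).mono fun y hy => ?_
  refine lt_of_le_of_lt (lintegral_mono (g := fun p => k (p.1 - y) + 1) fun p => ?_) ?_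
  · by_cases h : p.1 - y ∈ ball (0 : V) 1
    · exact le_trans (indicator_of_mem h fun w => (ENNReal.ofReal (‖w‖ ^ 2))⁻¹).ge le_self_add
    · refine le_trans (ENNReal.inv_le_one.2 (ENNReal.one_le_ofReal.2 ?_)) le_add_self
      exact one_le_pow₀ (by simpa using h)
  · rw [lintegral_add_right _ measurable_const, lintegral_const, one_mul]
    exact ENNReal.add_lt_top.2 ⟨hy, measure_lt_top _ _⟩

lemma efin_dens (m : Measure (V × V)) (y : V) (hy : y ∈ Efin m) :
    Tendsto (fun r => mass m y r / r ^ 2) (𝓝[>] 0) (𝓝 0) := by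
  have hk : Measurable fun p : V × V => (ENNReal.ofReal (‖p.1 - y‖ ^ 2))⁻¹ :=
    mk.comp (by fun_prop : Measurable fun p : V × V => p.1 - y)
  set n := m.withDensity fun p : V × V => (ENNReal.ofReal (‖p.1 - y‖ ^ 2))⁻¹ with hn
  have : IsFiniteMeasure n := isFiniteMeasure_withDensity (ne_of_lt hy)
  have h1 := tendsto_measure_biInter_gt (μ := n) (s := fun r : ℝ => {p : V × V | ‖p.1 - y‖ ≤ r})
    (a := 0) (fun r _ => (ms y r).nullMeasurableSet) (fun i j _ h p hp => le_trans hp h)
    ⟨1, one_pos, measure_ne_top _ _⟩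
  have h2 : n (⋂ r > (0 : ℝ), {p : V × V | ‖p.1 - y‖ ≤ r}) = 0 := by
    refine withDensity_absolutelyContinuous _ _ (measure_mono_null (fun p hp => ?_)
      (ae_iff.1 (ae_lt_top hk (ne_of_lt hy))))
    have h3 : ‖p.1 - y‖ = 0 := le_antisymm
      (le_of_forall_gt_imp_ge_of_dense fun r hr => mem_iInter₂.1 hp r hr) (norm_nonneg _)
    simp [norm_eq_zero.1 h3]
  rw [h2] at h1
  refine squeeze_zero' (Eventually.of_forall fun r => div_nonneg measureReal_nonneg (sq_nonneg r))
    (eventually_mem_nhdsWithin.mono fun r (hr : 0 < r) => ?_)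
    ((ENNReal.tendsto_toReal ENNReal.zero_ne_top).comp h1)
  have h3 : (ENNReal.ofReal (r ^ 2))⁻¹ * m {p : V × V | ‖p.1 - y‖ ≤ r} ≤
      n {p : V × V | ‖p.1 - y‖ ≤ r} := by
    rw [hn, withDensity_apply _ (ms y r), ← setLIntegral_const]
    exact setLIntegral_mono' (ms y r) fun p hp => ENNReal.inv_le_inv.2
      (ENNReal.ofReal_le_ofReal (pow_le_pow_left₀ (norm_nonneg _) hp 2))
  have h4 := ENNReal.toReal_mono (measure_ne_top _ _) h3
  rw [ENNReal.toReal_mul, ENNReal.toReal_inv, ENNReal.toReal_ofReal (sq_nonneg r)] at h4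
  rw [div_eq_inv_mul]
  exact h4

end Tau

theorem tauS (h1 : ConvS) : TauS where
  meas m r _ := (Tau.mE m r).ennreal_toReal
  l1 := ⟨(volume : Measure V).real (ball 0 1), measureReal_nonneg, fun m C0 ε _ hC hε => by
    obtain ⟨h2, h3⟩ := Tau.mass_int m (mul_nonneg hC hε.le)
    refine ⟨h2.const_mul _, le_of_eq ?_⟩
    unfold tau
    rw [integral_const_mul, h3]
    field_simp⟩
  l2 := ⟨(volume : Measure V).real (ball 0 1), measureReal_nonneg, fun m m' C0 ε _ _ hC hε => by
    obtain ⟨h2, h3⟩ := Tau.mass_mul m m' (mul_nonneg hC hε.le)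
    have e : (fun y => tau m C0 ε y * tau m' C0 ε y) = fun y =>
        (ε ^ 4)⁻¹ * (ε ^ 4)⁻¹ * (mass m y (C0 * ε) * mass m' y (C0 * ε)) := by
      funext y
      unfold tau
      ring
    rw [e, integral_const_mul, mul_assoc 2]
    refine ⟨h2.const_mul _, (mul_le_mul_of_nonneg_left h3 (by positivity)).trans (le_of_eq ?_)⟩
    field_simp⟩
  efin_meas m _ := measurableSet_lt (Measurable.lintegral_prod_right'
    (f := fun q : V × V × V => (ENNReal.ofReal (‖q.2.1 - q.1‖ ^ 2))⁻¹) (by fun_prop))
    measurable_const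
  efin_ae m _ := Tau.efin_ae m
  efin_dens := Tau.efin_dens

end Vale.Agent.P204
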