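import Vale.Agent.P204.Stmt

/-! The representative of the smoothed positive current. -/

set_option maxSynthPendingDepth 3

open scoped Topology ContDiff RealInnerProductSpace Manifold
open Set Metric MeasureTheory Filter

noncomputable section
namespace Vale.Agent.P204

namespace ThT

/-- the integrand -/
def g (F : Frame) (k : V → V → Op) (y : V) (p : V × V) : E6 :=
  pull (F.Ai y) (sl p.2 (F.J p.1 p.2) (k y p.1))

section chart
variable {F : Frame} {k : V → V → Op} {C R ε : ℝ} {μ : Measure (V × V)}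

lemma cont (hk : Continuous fun q : V × V => k q.1 q.2) :
    Continuous fun q : V × V × V => g F k q.1 q.2 := by
  have h1 : Continuous fun q : V × V × V => pull (F.Ai q.1) :=
    continuous_pull.comp (F.smAi.continuous.comp continuous_fst)
  have h2 : Continuous fun q : V × V × V => F.J q.2.1 q.2.2 :=
    (F.smJ.continuous.comp continuous_snd.fst).clm_apply continuous_snd.snd
  have h3 : Continuous fun q : V × V × V => sl q.2.2 (F.J q.2.1 q.2.2) :=
    (contDiff_sl (n := 0)).continuous.comp (continuous_snd.snd.prodMk h2)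
  have h4 : Continuous fun q : V × V × V => k q.1 q.2.1 :=
    hk.comp (continuous_fst.prodMk continuous_snd.fst)
  exact h1.clm_apply (h3.clm_apply h4)

lemma g_zero (h0 : ∀ y z, R < ‖z - y‖ → k y z = 0) {y : V} {p : V × V} (h : ¬ ‖p.1 - y‖ ≤ R) :
    g F k y p = 0 := by
  rw [g, h0 _ _ (not_le.1 h), map_zero, map_zero]

lemma meas (y : V) (R : ℝ) : MeasurableSet {p : V × V | ‖p.1 - y‖ ≤ R} :=
  (isClosed_le (continuous_fst.sub continuous_const).norm continuous_const).measurableSet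

lemma intg (hk : Continuous fun q : V × V => k q.1 q.2) (hc : Cone F k C ε) (hμ : PM 7 μ)
    {y : V} (hy : ‖y‖ ≤ 2) : Integrable (g F k y) μ := by
  have := hμ.1
  refine Integrable.of_bound
    ((cont hk).comp (continuous_const.prodMk continuous_id)).aestronglyMeasurable
    (C * (ε ^ 4)⁻¹) ?_
  filter_upwards [hμ.2] with p hp
  exact (hc y p.1 p.2 hy hp.2).1

lemma bound (h0 : ∀ y z, R < ‖z - y‖ → k y z = 0) (hμ : PM 7 μ) {y : V}
    (hi : Integrable (g F k y) μ) (L : Op) (l : E6 →L[ℝ] ℝ) {B : ℝ}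
    (hB : ∀ p : V × V, ‖p.2‖ = 1 → ‖L (g F k y p)‖ ≤ l (g F k y p) + B) :
    ‖L (∫ p, g F k y p ∂μ)‖ ≤ l (∫ p, g F k y p ∂μ) + B * mass μ y R := by
  have := hμ.1
  have h1 : Integrable ({p : V × V | ‖p.1 - y‖ ≤ R}.indicator fun _ => B) μ :=
    (integrable_const B).indicator (meas y R)
  have h2 : ∫ p, {p : V × V | ‖p.1 - y‖ ≤ R}.indicator (fun _ => B) p ∂μ = B * mass μ y R := by
    rw [integral_indicator_const _ (meas y R), smul_eq_mul, mul_comm, mass]
  rw [← L.integral_comp_comm hi, ← l.integral_comp_comm hi, ← h2,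
    ← integral_add (l.integrable_comp hi) h1]
  refine norm_integral_le_of_norm_le ((l.integrable_comp hi).add h1) ?_
  filter_upwards [hμ.2] with p hp
  by_cases h : ‖p.1 - y‖ ≤ R
  · rw [indicator_of_mem (show p ∈ {p : V × V | ‖p.1 - y‖ ≤ R} from h)]
    exact hB p hp.2
  · rw [indicator_of_notMem (show p ∉ {p : V × V | ‖p.1 - y‖ ≤ R} from h), g_zero h0 h]
    simp

lemma intg_k (hk : Continuous fun q : V × V => k q.1 q.2) (h0 : ∀ y z, R < ‖z - y‖ → k y z = 0)
    {w : V → E6} (hw : Integrable w) (z : V) : Integrable fun y => k y z (w y) := by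
  have h1 : Continuous fun y => k y z := hk.comp (continuous_id.prodMk continuous_const)
  have h2 : HasCompactSupport fun y => k y z :=
    HasCompactSupport.intro (isCompact_closedBall z R) fun y hy =>
      h0 y z (by rwa [mem_closedBall', dist_eq_norm, not_le] at hy)
  obtain ⟨B, hB⟩ := h1.bounded_above_of_compact_support h2
  refine (hw.norm.const_mul B).mono' (isBoundedBilinearMap_apply.continuous.comp_aestronglyMeasurable
    (h1.aestronglyMeasurable.prodMk hw.1)) (ae_of_all _ fun y => ?_)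
  exact ((k y z).le_opNorm _).trans (mul_le_mul_of_nonneg_right (hB y) (norm_nonneg _))

lemma fubini (hk : Continuous fun q : V × V => k q.1 q.2) (h0 : ∀ y z, R < ‖z - y‖ → k y z = 0)
    (hc : Cone F k C ε) (hμ : PM 7 μ) {ν : Measure V} [IsFiniteMeasure ν]
    (hν : ∀ᵐ y ∂ν, ‖y‖ ≤ 2) {ψ : V → ℝ}
    (hint : ∀ f : V → ℝ, ∫ y, f y ∂ν = ∫ y, (ψ y * (F.A y).det) • f y) {h : V → E6}
    (hh : Integrable h ν) (hw : Integrable fun y => ψ y • pull (F.A y) (h y)) :
    ∫ y, wq (∫ p, g F k y p ∂μ) (h y) ∂ν =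
      TL F μ fun z => ∫ y, k y z (ψ y • pull (F.A y) (h y)) := by
  have := hμ.1
  have h1 : Integrable (Function.uncurry fun (y : V) (p : V × V) => wq (g F k y p) (h y))
      (ν.prod μ) := by
    refine (((hh.norm.const_mul (2 * (C * (ε ^ 4)⁻¹))).comp_fst μ).mono'
      (continuous_wq.comp_aestronglyMeasurable
        ((cont hk).aestronglyMeasurable.prodMk hh.1.comp_fst)) ?_)
    filter_upwards [Measure.quasiMeasurePreserving_fst.ae hν,
      Measure.quasiMeasurePreserving_snd.ae hμ.2] with q hq hq'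
    refine (abs_wq_le _ _).trans (mul_le_mul_of_nonneg_right ?_ (norm_nonneg _))
    exact mul_le_mul_of_nonneg_left (hc q.1 q.2.1 q.2.2 hq hq'.2).1 two_pos.le
  have h2 : ∫ y, wq (∫ p, g F k y p ∂μ) (h y) ∂ν = ∫ y, ∫ p, wq (g F k y p) (h y) ∂μ ∂ν := by
    refine integral_congr_ae ?_
    filter_upwards [hν] with y hy
    have := (wqL.flip (h y)).integral_comp_comm (intg hk hc hμ hy)
    simpa only [ContinuousLinearMap.flip_apply, wqL_apply] using this.symm
  rw [h2, integral_integral_swap h1, TL]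
  refine integral_congr_ae (ae_of_all _ fun p => ?_)
  have h3 := (ev p.2 (F.J p.1 p.2)).integral_comp_comm (intg_k hk h0 hw p.1)
  simp only [ev_apply] at h3
  beta_reduce
  rw [← h3, hint]
  refine integral_congr_ae (ae_of_all _ fun y => ?_)
  beta_reduce
  rw [← wq_sl, wq_smul_r, g, wq_pull_inv _ _ (F.inv2 y), smul_eq_mul]
  linear_combination ψ y * wq (sl p.2 (F.J p.1 p.2) (k y p.1)) (pull (F.A y) (h y)) * F.det_mul y

end chart

lemma cont_k {Hs : V × V × ℝ → Op} (h : Continuous Hs) (ε : ℝ) :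
    Continuous fun q : V × V => ksc Hs ε q.1 q.2 := by
  unfold ksc
  fun_prop

lemma zero_k {Hs : V × V × ℝ → Op} {C0 ε : ℝ} (h : ∀ y v t, C0 < ‖v‖ → Hs (y, v, t) = 0)
    (hε : 0 < ε) (y z : V) (hz : C0 * ε < ‖z - y‖) : ksc Hs ε y z = 0 := by
  rw [ksc, h, smul_zero]
  rwa [norm_smul, norm_inv, Real.norm_of_nonneg hε.le, inv_mul_eq_div, lt_div_iff₀ hε]

end ThT

section
variable {X : Type*} [TopologicalSpace X] [T2Space X] {D : Dat X} {K : Ker D}

open ThT in
theorem thTS (h1 : TauS) (h2 : FormS D) (h3 : HilS D) (h4 : CurS D) (h5 : MS K) : ThTS K := by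
  have _ := h1
  refine ⟨|K.Cc|, abs_nonneg _, fun ε m mm Θ hε hε0 hm hcm hΘ => ?_⟩
  have hk : ∀ j, Continuous fun q : V × V => K.k j ε q.1 q.2 :=
    fun j => cont_k (K.scf j).1.continuous ε
  have h0 : ∀ j y z, K.C0 * ε < ‖z - y‖ → K.k j ε y z = 0 := fun j => zero_k (K.scf j).2.1 hε
  have hc : ∀ j, Cone (D.F j) (K.k j ε) K.Cc ε := fun j => K.cone j ε hε hε0
  have hC := le_abs_self K.Cc
  set θ : Fin D.n → V → E6 := fun j y => ∫ p, g (D.F j) (K.k j ε) y p ∂(mm j) with hθ
  have hb : ∀ j y, ‖y‖ ≤ 2 → ‖θ j y‖ ≤ |K.Cc| * tau (mm j) K.C0 ε y ∧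
      ‖Pm (θ j y)‖ ≤ |K.Cc| * ε * tau (mm j) K.C0 ε y ∧
      ‖Pa (θ j y)‖ ≤ θ j y 0 + |K.Cc| * ε ^ 2 * tau (mm j) K.C0 ε y := by
    intro j y hy
    have hi := intg (hk j) (hc j) (hcm j).1 hy
    have b1 := bound (h0 j) (hcm j).1 hi (ContinuousLinearMap.id ℝ E6) 0
      (B := |K.Cc| * (ε ^ 4)⁻¹) fun p hp => by
        rw [zero_apply, zero_add]
        exact (hc j y p.1 p.2 hy hp).1.trans (by gcongr)
    have b2 := bound (h0 j) (hcm j).1 hi Pm 0 (B := |K.Cc| * (ε ^ 3)⁻¹) fun p hp => by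
        rw [zero_apply, zero_add]
        exact (hc j y p.1 p.2 hy hp).2.1.trans (by gcongr)
    have b3 := bound (h0 j) (hcm j).1 hi Pa (p6 0) (B := |K.Cc| * (ε ^ 2)⁻¹) fun p hp =>
        (hc j y p.1 p.2 hy hp).2.2.trans (add_le_add le_rfl (by gcongr))
    rw [zero_apply, zero_add] at b1 b2
    refine ⟨b1.trans (le_of_eq ?_), b2.trans (le_of_eq ?_), b3.trans (le_of_eq ?_)⟩
    · rw [tau, mul_assoc]
    · rw [tau]
      field_simp
    · rw [tau]
      congr 1
      field_simp
  have hL : ∀ j, MemLp (θ j) 2 (D.nu j) := by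
    intro j
    have := h3.fin j
    have := (hcm j).1.1
    refine MemLp.of_bound
      (cont (hk j)).stronglyMeasurable.integral_prod_right'.aestronglyMeasurable
      (|K.Cc| * ((ε ^ 4)⁻¹ * (mm j).real univ)) ?_
    filter_upwards [h3.supp j] with y hy
    refine (hb j y hy).1.trans (mul_le_mul_of_nonneg_left ?_ (abs_nonneg _))
    exact mul_le_mul_of_nonneg_left (measureReal_mono (subset_univ _)) (by positivity)
  set Θ' : D.H := WithLp.toLp 2 fun j => (hL j).toLp (θ j) with hΘ'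
  have hae : ∀ j, Θ' j =ᵐ[D.nu j] θ j := fun j => (hL j).coeFn_toLp
  have he : Θ = Θ' := by
    refine h3.qH_inj _ _ fun h => ?_
    have e1 : D.T m (K.M ε h) = ∑ j, D.T m (D.ext j (K.Mj ε j h)) :=
      h2.fn_sum _ (h4.fn m hm) Finset.univ (fun j => D.ext j (K.Mj ε j h)) fun j _ =>
        h2.sm_ext j _ ((h5.mj ε j h hε hε0).mono (by norm_num))
    rw [hΘ h, (h3.qH_eq Θ' h).2, e1]
    refine Finset.sum_congr rfl fun j _ => ?_
    have := h3.fin j
    rw [(hcm j).2 _ (h5.mj ε j h hε hε0).continuous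
      fun y hy => (h5.mj ε j h hε hε0).2 y (by linarith)]
    refine (fubini (hk j) (h0 j) (hc j) (hcm j).1 (h3.supp j) (h3.int j) (h3.h_int h j).1
      (h3.h_int h j).2).symm.trans (integral_congr_ae ?_)
    filter_upwards [hae j] with y hy
    rw [hy]
  intro j
  filter_upwards [hae j, h3.supp j] with y e hy
  rw [he, e]
  exact hb j y hy

end

end Vale.Agent.P204
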