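import Vale.Agent.P204.Stmt

/-! Smoothness and formulas for the potential and the primitive. -/

set_option maxSynthPendingDepth 3

open scoped Topology ContDiff RealInnerProductSpace Manifold
open Set Metric MeasureTheory Filter

noncomputable section
namespace Vale.Agent.P204

namespace USm

variable {E : Type} [NormedAddCommGroup E] [NormedSpace ℝ E] {m : Measure (V × V)} {f : V → E2}
  {F : Frame} {Dn : ℝ}

lemma ae_mem (hm : PM 7 m) : ∀ᵐ p ∂m, p ∈ closedBall (0 : V) 7 ×ˢ closedBall (0 : V) 1 :=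
  hm.2.mono fun _ hp => ⟨mem_closedBall_zero_iff.2 hp.1, mem_closedBall_zero_iff.2 hp.2.le⟩

omit [NormedSpace ℝ E] in
lemma int_m (hm : PM 7 m) {g : V × V → E} (hg : Continuous g) : Integrable g m := by
  have := hm.1
  obtain ⟨C, hC⟩ := ((isCompact_closedBall (0 : V) 7).prod
    (isCompact_closedBall (0 : V) 1)).exists_bound_of_continuousOn hg.continuousOn
  exact Integrable.of_bound hg.aestronglyMeasurable C ((ae_mem hm).mono hC)

lemma int_smul (hf : MemLp f 2 volume) {g : V → ℝ} (hg : Continuous g) {r : ℝ}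
    (h0 : ∀ y, r < ‖y‖ → g y = 0) : Integrable fun z => g z • f z :=
  (hf.locallyIntegrable (by norm_num)).integrable_smul_left_of_hasCompactSupport hg
    (HasCompactSupport.intro (isCompact_closedBall 0 r) fun y hy =>
      h0 y (not_le.1 fun h => hy (mem_closedBall_zero_iff.2 h)))

lemma int_f (hf : MemLp f 2 volume) {g : V → E2} (hg : Continuous g) {r : ℝ}
    (h0 : ∀ y, r < ‖y‖ → g y = 0) : Integrable fun z => ⟪f z, g z⟫ :=
  (int_smul hf hg.norm fun y hy => by rw [h0 y hy, norm_zero]).mono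
    (hf.1.inner hg.aestronglyMeasurable) (Eventually.of_forall fun z => by
      rw [norm_smul, norm_norm, mul_comm]; exact norm_inner_le_norm _ _)

lemma int_RR (h : LH F m f Dn) {β : V → E6} (hβ : Continuous β) (h0 : ∀ y, 7 < ‖y‖ → β y = 0) :
    Integrable (fun p : V × V => ap (β p.1) p.2 (F.J p.1 p.2)) m ∧
      Integrable (fun z => ⟪f z, F.cm z (β z)⟫) :=
  ⟨int_m h.pm (continuous_ap.comp ((hβ.comp continuous_fst).prodMk (continuous_snd.prodMk
    ((F.smJ.continuous.comp continuous_fst).clm_apply continuous_snd)))),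
    int_f h.l2 (F.sm_cm.continuous.clm_apply hβ) fun y hy => by rw [h0 y hy, map_zero]⟩

lemma RR_add (h : LH F m f Dn) {β γ : V → E6} (hβ : Continuous β) (h0 : ∀ y, 7 < ‖y‖ → β y = 0)
    (hγ : Continuous γ) (h1 : ∀ y, 7 < ‖y‖ → γ y = 0) :
    F.RR m f (fun z => β z + γ z) = F.RR m f β + F.RR m f γ := by
  simp only [Frame.RR, TL, ap_add, map_add, inner_add_right]
  rw [integral_add (int_RR h hβ h0).1 (int_RR h hγ h1).1,
    integral_add (int_RR h hβ h0).2 (int_RR h hγ h1).2]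
  ring

lemma cd_l {G : V × V → E} (hG : ContDiff ℝ ∞ G) (z : V) : ContDiff ℝ ∞ fun x => G (x, z) :=
  hG.comp (contDiff_id.prodMk contDiff_const)

lemma cd_r {Y : Type} [NormedAddCommGroup Y] [NormedSpace ℝ Y] {G : V × Y → E}
    (hG : ContDiff ℝ ∞ G) (x : V) : ContDiff ℝ ∞ fun z => G (x, z) :=
  hG.comp (contDiff_const.prodMk contDiff_id)

lemma cd_3 {G : V × V → E} (hG : ContDiff ℝ ∞ G) :
    ContDiff ℝ ∞ fun q : V × V × V => G (q.1, q.2.1) := hG.comp (by fun_prop)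

lemma cd_s {G : V × V → E} (hG : ContDiff ℝ ∞ G) : ContDiff ℝ ∞ fun q : V × V × V => G q.2 :=
  hG.comp contDiff_snd

lemma cd_f {G : V → E} (hG : ContDiff ℝ ∞ G) : ContDiff ℝ ∞ fun q : V × V => G q.1 :=
  hG.comp contDiff_fst

lemma cd_sw {G : V × V → E} (hG : ContDiff ℝ ∞ G) : ContDiff ℝ ∞ fun q : V × V => G (q.2, q.1) :=
  hG.comp (contDiff_snd.prodMk contDiff_fst)

variable [CompleteSpace E]

lemma avg_m (h1 : AvgS) (hm : PM 7 m) {G : V × V × V → E} (hG : ContDiff ℝ ∞ G) :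
    ContDiff ℝ ∞ (fun x => ∫ p, G (x, p) ∂m) ∧
    ∀ x, Integrable (fun p => fderiv ℝ (fun x' => G (x', p)) x) m ∧
      fderiv ℝ (fun x => ∫ p, G (x, p) ∂m) x = ∫ p, fderiv ℝ (fun x' => G (x', p)) x ∂m := by
  have := hm.1
  have h := h1.smul m G id (fun _ => 1) _ hG ((isCompact_closedBall (0 : V) 7).prod
    (isCompact_closedBall (0 : V) 1)) aestronglyMeasurable_id (integrable_const _)
    ((ae_mem hm).mono fun _ hp _ => hp)
  simp only [one_smul, id] at h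
  exact ⟨h.1, h.2.2.1⟩

lemma avg_f (h1 : AvgS) (hf : MemLp f 2 volume) {G : V × V → E2 →L[ℝ] E} (hG : ContDiff ℝ ∞ G) :
    ContDiff ℝ ∞ (fun x => ∫ z, G (x, z) (cut 5 z • f z)) ∧
    (∀ x, Integrable fun z => G (x, z) (cut 5 z • f z)) ∧
    ∀ x, Integrable (fun z => fderiv ℝ (fun x' => G (x', z) (cut 5 z • f z)) x) ∧
      fderiv ℝ (fun x => ∫ z, G (x, z) (cut 5 z • f z)) x =
        ∫ z, fderiv ℝ (fun x' => G (x', z) (cut 5 z • f z)) x := by
  have hc := cut_cc (r := 5) (by norm_num)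
  have h := h1.clm volume G id (fun z => cut 5 z • f z) _ hG (isCompact_closedBall (0 : V) (5 + 1))
    aestronglyMeasurable_id (int_smul hf hc.continuous hc.2) (Eventually.of_forall fun z hz =>
      mem_closedBall_zero_iff.2 (not_lt.1 fun h => hz (by rw [hc.2 z h, zero_smul])))
  exact ⟨h.1, h.2.1, h.2.2.1⟩

/-- the scalar product as a bilinear map -/
def iL : E2 →L[ℝ] E2 →L[ℝ] ℝ := innerSL ℝ

lemma iL_apply (a b : E2) : iL a b = ⟪a, b⟫ := rfl

lemma RR_fderiv (h1 : AvgS) (h : LH F m f Dn) {β : V × V → E6} (hβ : ContDiff ℝ ∞ β) (x a : V) :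
    fderiv ℝ (fun x => F.RR m f fun z => cut 5 z • β (x, z)) x a =
      F.RR m f fun z => cut 5 z • fderiv ℝ (fun x' => β (x', z)) x a := by
  have hd : ∀ z, DifferentiableAt ℝ (fun x' => β (x', z)) x := fun z =>
    (hβ.comp (contDiff_id.prodMk contDiff_const)).differentiable (by simp) x
  obtain ⟨a1, a2⟩ := avg_m h1 h.pm
    (G := fun q => cut 5 q.2.1 * ap (β (q.1, q.2.1)) q.2.2 (F.J q.2.1 q.2.2))
    (((cut_sm 5).comp (by fun_prop)).mul (cd_ap (hβ.comp (by fun_prop)) (by fun_prop)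
      ((F.smJ.comp (by fun_prop)).clm_apply (by fun_prop))))
  obtain ⟨b1, -, b2⟩ := avg_f h1 h.l2 (G := fun q => iL (F.cm q.2 (β q)))
    (iL.contDiff.comp ((F.sm_cm.comp contDiff_snd).clm_apply hβ))
  have e : ∀ (z : V) (b : E6), ⟪f z, F.cm z (cut 5 z • b)⟫ = iL (F.cm z b) (cut 5 z • f z) :=
    fun z b => by rw [iL_apply, map_smul, inner_smul_right, inner_smul_right, real_inner_comm]
  simp only [Frame.RR, TL, ap_smul, e]
  rw [fderiv_fun_add (a1.differentiable (by simp) x) (b1.differentiable (by simp) x),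
    ContinuousLinearMap.add_apply, (a2 x).2, (b2 x).2,
    ContinuousLinearMap.integral_apply (a2 x).1, ContinuousLinearMap.integral_apply (b2 x).1]
  congr 2
  · funext p
    simp only [← ev_apply]
    exact DFunLike.congr_fun (((ev p.2 (F.J p.1 p.2)).hasFDerivAt.comp x
      (hd p.1).hasFDerivAt).const_mul (cut 5 p.1)).fderiv a
  · funext z
    exact DFunLike.congr_fun (((iL.flip (cut 5 z • f z)).comp (F.cm z)).hasFDerivAt.comp x
      (hd z).hasFDerivAt).fderiv a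

/-- trace -/
def trL : End →L[ℝ] ℝ := ∑ i, (pr i).comp (ContinuousLinearMap.apply ℝ V (bv i))

lemma Lop_eq (g : V → ℝ) (x : V) : F.Lop g x = trL (fderiv ℝ (F.ag g) x) := by
  simp [Frame.Lop, trL]

lemma sm_c (F : Frame) : ContDiff ℝ ∞ fun p : V × V => cut 5 p.1 * ‖F.A p.1 p.2‖ ^ 2 :=
  ((cut_sm 5).comp contDiff_fst).mul
    (((F.smA.comp contDiff_fst).clm_apply contDiff_snd).norm_sq ℝ)

lemma partU (h1 : AvgS) (h3 : NewS F) (hm : PM 7 m) {δ : ℝ} (hδ : 0 < δ) :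
    ContDiff ℝ ∞ (F.U m δ) ∧
      (∀ x, Integrable (fun p : V × V => cut 5 p.1 * ‖F.A p.1 p.2‖ ^ 2 * F.Nz δ p.1 x) m) ∧
      ∀ x a, fderiv ℝ (F.U m δ) x a
        = ∫ p, cut 5 p.1 * ‖F.A p.1 p.2‖ ^ 2 * ⟪gk δ (F.Ps x p.1), F.DPs x p.1 a⟫ ∂m := by
  have sN := (h3.sm δ hδ).1
  have sU : ContDiff ℝ ∞ fun q : V × V × V =>
      cut 5 q.2.1 * ‖F.A q.2.1 q.2.2‖ ^ 2 * F.Nz δ q.2.1 q.1 :=
    (cd_s (sm_c F)).mul (cd_3 sN)
  obtain ⟨u1, u2⟩ := avg_m h1 hm sU
  have hN : ∀ z x, DifferentiableAt ℝ (F.Nz δ z) x := fun z x =>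
    (cd_l sN z).differentiable (by simp) x
  refine ⟨contDiff_const.add u1,
    fun x => int_m hm (cd_r sU x).continuous, fun x a => ?_⟩
  have e : fderiv ℝ (F.U m δ) x = _ := (fderiv_const_add 1).trans (u2 x).2
  rw [e, ContinuousLinearMap.integral_apply (u2 x).1]
  congr 1
  funext p
  rw [← h3.dx δ x p.1 a hδ]
  exact DFunLike.congr_fun
    ((hN p.1 x).hasFDerivAt.const_mul (cut 5 p.1 * ‖F.A p.1 p.2‖ ^ 2)).fderiv a

lemma partL (h1 : AvgS) (h3 : NewS F) (hm : PM 7 m) {δ : ℝ} (hδ : 0 < δ) (x : V) :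
    Integrable (fun p : V × V => cut 5 p.1 * ‖F.A p.1 p.2‖ ^ 2 * F.Lop (F.Nz δ p.1) x) m ∧
      F.Lop (F.U m δ) x = ∫ p, cut 5 p.1 * ‖F.A p.1 p.2‖ ^ 2 * F.Lop (F.Nz δ p.1) x ∂m := by
  obtain ⟨-, sg, -, sD, -⟩ := h3.sm δ hδ
  have u3 := (partU h1 h3 hm hδ).2.2
  have sa : ∀ i, ContDiff ℝ ∞ fun q : V × V => F.Ai q.1 (bv i) := fun i =>
    (F.smAi.comp contDiff_fst).clm_apply contDiff_const
  have sb : ∀ i, ContDiff ℝ ∞ fun q : V × V =>
      ⟪gk δ (F.Ps q.1 q.2), F.DPs q.1 q.2 (F.Ai q.1 (bv i))⟫ := fun i =>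
    sg.inner ℝ (sD.clm_apply (sa i))
  have sag : ContDiff ℝ ∞ fun q : V × V => F.ag (F.Nz δ q.2) q.1 := by
    simp only [Frame.ag, h3.dx δ _ _ _ hδ]
    exact ContDiff.sum fun i _ => (sb i).smul (sa i)
  obtain ⟨-, v2⟩ := avg_m h1 hm (G := fun q : V × V × V =>
    (cut 5 q.2.1 * ‖F.A q.2.1 q.2.2‖ ^ 2) • F.ag (F.Nz δ q.2.1) q.1)
    ((cd_s (sm_c F)).smul (cd_3 sag))
  have v3 : F.ag (F.U m δ) =
      fun x => ∫ p, (cut 5 p.1 * ‖F.A p.1 p.2‖ ^ 2) • F.ag (F.Nz δ p.1) x ∂m := by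
    funext x
    simp only [Frame.ag, h3.dx δ _ _ _ hδ, u3, Finset.smul_sum, smul_smul, ← integral_smul_const]
    exact (integral_finsetSum _ fun i _ => int_m hm (((sm_c F).continuous.mul
      (cd_f (cd_r (sb i) x)).continuous).smul continuous_const)).symm
  have v4 : ∀ p : V × V, cut 5 p.1 * ‖F.A p.1 p.2‖ ^ 2 * F.Lop (F.Nz δ p.1) x =
      trL (fderiv ℝ (fun x' => (cut 5 p.1 * ‖F.A p.1 p.2‖ ^ 2) • F.ag (F.Nz δ p.1) x') x) :=
    fun p => by
      have : DifferentiableAt ℝ (F.ag (F.Nz δ p.1)) x :=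
        (cd_l sag p.1).differentiable (by simp) x
      rw [fderiv_fun_const_smul this, map_smul, Lop_eq, smul_eq_mul]
  simp only [v4]
  exact ⟨trL.integrable_comp (v2 x).1, by
    rw [Lop_eq, v3, trL.integral_comp_comm (v2 x).1]; exact congrArg trL (v2 x).2⟩

lemma partS (h1 : AvgS) (h3 : NewS F) (h : LH F m f Dn) {δ : ℝ} (hδ : 0 < δ) :
    ContDiff ℝ ∞ (F.S m f δ) ∧
      ∀ x a, F.S m f δ x a = F.RR m f (fun z => cut 5 z • F.k12 δ x z a) := by
  obtain ⟨-, -, -, -, s12, -⟩ := h3.sm δ hδ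
  have sS1 : ContDiff ℝ ∞ fun q : V × V × V =>
      cut 5 q.2.1 • (ev q.2.2 (F.J q.2.1 q.2.2)).comp (F.k12 δ q.1 q.2.1) :=
    ((cut_sm 5).comp (by fun_prop)).smul ((cd_ev (by fun_prop)
      ((F.smJ.comp (by fun_prop)).clm_apply (by fun_prop))).clm_comp (cd_3 s12))
  obtain ⟨w1', w2, -⟩ := avg_f h1 h.l2 (G := fun q => ((ContinuousLinearMap.compL ℝ V E2 ℝ).flip
      ((F.cm q.2).comp (F.k12 δ q.1 q.2))).comp iL)
    ((contDiff_const.clm_apply ((F.sm_cm.comp contDiff_snd).clm_comp s12)).clm_comp contDiff_const)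
  simp only [map_smul] at w1' w2
  refine ⟨(avg_m h1 h.pm sS1).1.add w1', fun x a => ?_⟩
  have i1 : Integrable (fun p : V × V =>
      cut 5 p.1 • (ev p.2 (F.J p.1 p.2)).comp (F.k12 δ x p.1)) m :=
    int_m h.pm (cd_r sS1 x).continuous
  have i2 : Integrable fun z =>
      cut 5 z • (innerSL ℝ (f z)).comp ((F.cm z).comp (F.k12 δ x z)) := w2 x
  rw [Frame.S, ContinuousLinearMap.add_apply, ContinuousLinearMap.integral_apply i1,
    ContinuousLinearMap.integral_apply i2]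
  simp only [Frame.RR, TL, ap_smul, map_smul, inner_smul_right, ContinuousLinearMap.smul_apply,
    ContinuousLinearMap.comp_apply, ev_apply, innerSL_apply_apply, smul_eq_mul]

lemma partD (h1 : AvgS) (h2 : NatS) (h3 : NewS F) (h : LH F m f Dn) {δ : ℝ} (hδ : 0 < δ)
    (x a a' : V) : ap (d1 (F.S m f δ) x) a a'
        = -F.RR m f (fun z => (cut 5 z * hk δ (F.Ps x z)) • F.k22 x z a a')
          + F.RR m f (fun z => w1 (fderiv ℝ (cut 5) z) (F.k21 δ x z a a')) := by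
  obtain ⟨-, -, sh, -, s12, s21, s22⟩ := h3.sm δ hδ
  obtain ⟨sS, hS⟩ := partS h1 h3 h hδ
  have hc := cut_cc (r := 5) (by norm_num)
  have hd := sS.differentiable (by simp) x
  have t1 : ContDiff ℝ ∞ fun z => hk δ (F.Ps x z) := cd_r sh x
  have t2 : ContDiff ℝ ∞ fun z => F.k22 x z a a' := cd_r (s22 a a') x
  have t3 : ContDiff ℝ ∞ fun z => F.k21 δ x z a a' := cd_r (s21 a a') x
  have k1 : ∀ b b', Cc 7 fun z => cut 5 z • fderiv ℝ (fun x' => F.k12 δ x' z b) x b' :=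
    fun b b' => (hc.smul_right ((ContDiff.fderiv (f := fun z x' => F.k12 δ x' z b) (g := fun _ => x)
      ((cd_sw s12).clm_apply contDiff_const) contDiff_const
      (le_of_eq rfl)).clm_apply contDiff_const)).mono (by norm_num)
  have k2 : Cc 7 fun z => (cut 5 z * hk δ (F.Ps x z)) • F.k22 x z a a' :=
    ((Cc.smul_right hc t1).smul_right t2).mono (by norm_num)
  have k3 : Cc 6 fun z => cut 5 z • F.k21 δ x z a a' := (hc.smul_right t3).mono (by norm_num)
  have k4 : Cc 7 fun z => w1 (fderiv ℝ (cut 5) z) (F.k21 δ x z a a') :=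
    ⟨cd_w1 hc.fderiv.1 t3, fun y hy => ap_ext fun p q => by
      simp [ap_w1, hc.fderiv.2 y (by linarith)]⟩
  have k5 := k3.d1.mono (r' := 7) (by norm_num)
  have k6 := (k1 a' a).add k2
  have e1 := RR_add h (k1 a a').continuous (k1 a a').2 k4.continuous k4.2
  have e2 := RR_add h (k1 a' a).continuous (k1 a' a).2 k2.continuous k2.2
  have e3 := RR_add h k6.continuous k6.2 k5.continuous k5.2
  have e4 : ∀ b b', fderiv ℝ (F.S m f δ) x b' b =
      F.RR m f fun z => cut 5 z • fderiv ℝ (fun x' => F.k12 δ x' z b) x b' := fun b b' => by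
    rw [← fderiv_app hd, funext fun x => hS x b]
    exact RR_fderiv h1 h (β := fun q => F.k12 δ q.1 q.2 b) (s12.clm_apply contDiff_const) x b'
  have e5 : ∀ z, cut 5 z • fderiv ℝ (fun x' => F.k12 δ x' z a') x a +
      (cut 5 z * hk δ (F.Ps x z)) • F.k22 x z a a' + d1 (fun z => cut 5 z • F.k21 δ x z a a') z =
      cut 5 z • fderiv ℝ (fun x' => F.k12 δ x' z a) x a' +
        w1 (fderiv ℝ (cut 5) z) (F.k21 δ x z a a') := fun z => by
    rw [h2.d1_smul ((cut_sm 5).differentiable (by simp) z) (t3.differentiable (by simp) z),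
      eq_add_of_sub_eq (h3.piola δ x z a a' hδ)]
    module
  simp only [Pi.add_def, e5] at e3
  rw [ap_d1, e4, e4]
  linarith [h.cl _ k3]

end USm

open USm in
theorem uSm {F : Frame} (h1 : AvgS) (h2 : NatS) (h3 : NewS F) : USm F := fun _ _ _ h =>
  ⟨fun _ hβ h0 => int_RR h hβ h0, fun _ hδ => ⟨(partU h1 h3 h.pm hδ).1,
    fun _ => le_add_of_nonneg_right (integral_nonneg fun _ => mul_nonneg
      (mul_nonneg (cut_nonneg _ _) (sq_nonneg _)) (inv_nonneg.2 (by positivity))),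
    (partS h1 h3 h hδ).1, (partU h1 h3 h.pm hδ).2.1, (partU h1 h3 h.pm hδ).2.2,
    partL h1 h3 h.pm hδ, (partS h1 h3 h hδ).2, partD h1 h2 h3 h hδ⟩⟩

end Vale.Agent.P204
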