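import Vale.Agent.P204.Avg
import Vale.Agent.P204.Nk
import Vale.Agent.P204.Nat
import Vale.Agent.P204.Scale
import Vale.Agent.P204.R1
import Vale.Agent.P204.L2
import Vale.Agent.P204.Conv
import Vale.Agent.P204.Tau
import Vale.Agent.P204.Schur
import Vale.Agent.P204.MonoA
import Vale.Agent.P204.Mono
import Vale.Agent.P204.New
import Vale.Agent.P204.Lop
import Vale.Agent.P204.USm
import Vale.Agent.P204.S1
import Vale.Agent.P204.S2
import Vale.Agent.P204.S3
import Vale.Agent.P204.Leb
import Vale.Agent.P204.En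
import Vale.Agent.P204.Loc
import Vale.Agent.P204.KCone
import Vale.Agent.P204.KSc
import Vale.Agent.P204.KCl
import Vale.Agent.P204.CVpi
import Vale.Agent.P204.KD
import Vale.Agent.P204.KInd
import Vale.Agent.P204.Ker
import Vale.Agent.P204.Geo
import Vale.Agent.P204.Dat
import Vale.Agent.P204.Form
import Vale.Agent.P204.Sem
import Vale.Agent.P204.Hil
import Vale.Agent.P204.Hat
import Vale.Agent.P204.Cur
import Vale.Agent.P204.M
import Vale.Agent.P204.Key
import Vale.Agent.P204.Step
import Vale.Agent.P204.Leak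
import Vale.Agent.P204.DE
import Vale.Agent.P204.ThT
import Vale.Agent.P204.Bdd
import Vale.Agent.P204.Sev
import Vale.Agent.P204.MT
import Vale.Agent.P204.F1
import Vale.Agent.P204.F2
import Vale.Agent.P204.Bridge

/-! Final assembly. -/

set_option maxSynthPendingDepth 3

open scoped Topology ContDiff RealInnerProductSpace Manifold
open Set Metric MeasureTheory Filter

noncomputable section
namespace Vale.Agent.P204

theorem locAll (F : Frame) : LocS F :=
  have n := newS natS F
  have u := uSm avgS natS n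
  have l := lebS natS convS n (lopS n) u
  locS natS (tauS convS) u l
    (enS natS convS (schurS convS) n u (s1S natS n u) (s2S n u) (s3S convS n u) l)

theorem mainAll {X : Type*} [TopologicalSpace X] [T2Space X] (D : Dat X) : MainS D := by
  have ga := geoA D.toAtl
  have gd := geoD D
  have fo : FormS D := formS natS ga
  have se := semS nkS ga fo
  have hi : HilS D := hilS ga
  have ha := hatS ga gd fo hi
  have ta := tauS convS
  have cu := curS ta ga fo se
  have sc := scaleS avgS
  obtain ⟨K⟩ := kerS kSupS (kScS avgS) (kClS avgS natS) kConeS ga (kdS ga) (kIndS cvpiS ga gd)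
  have m : MS K := mS nkS sc fo se hi ha
  have ke := keyS avgS natS sc fo hi ha m
  have st := stepS nkS sc (r1S avgS sc) fo se hi ha m
  have le := leakS sc fo hi ha m
  have th := thTS ta fo hi cu m
  have bd := bddS nkS ta (monoS convS (monoA natS) (monoB natS)) fo se hi cu m ke st le th
  have mt := mtS nkS (l2S nkS) locAll fo se cu m st bd (sevS ta fo se hi cu m ke le th)
  exact mainS fo se (f1S fo se mt) (f2S fo se (deS nkS fo se hi m ke st le))

/-- the bilinear form of an element of `E6` -/
def ofE6 (h : E6) : V →L[ℝ] V →L[ℝ] ℝ :=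
  (ContinuousLinearMap.compL ℝ V E6 ℝ ((2 : ℝ) • innerSL ℝ h)).comp wv

lemma ofE6_apply (h : E6) (p q : V) : ofE6 h p q = ap h p q := by
  rw [ap_inner, real_inner_comm]; simp [ofE6]

lemma ap_half_alt2 (L : V →L[ℝ] V →L[ℝ] ℝ) (hL : ∀ u v, L u v = -L v u) (p q : V) :
    ap ((1 / 2 : ℝ) • alt2 L) p q = L p q := by
  rw [ap_smul, ap_alt2, hL q p]; ring

theorem donaldson (X : Type*) [TopologicalSpace X] [ChartedSpace R4 X] [T2Space X]
    [CompactSpace X] [IsManifold (𝓡 4) ∞ X] (J : EndField X) (hJ : IsAlmostComplex J)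
    (h : ∃ α, IsSymplectic α ∧ Tames α J) : ∃ α, IsSymplectic α ∧ IsCompatible α J := by
  obtain ⟨a, haJ, ha⟩ := bridgeS natS X J hJ
  obtain ⟨D, rfl⟩ := datS (geoA a)
  obtain ⟨α, ⟨h1, h2, -⟩, h3⟩ := h
  obtain ⟨β, b1, b2, b3, b4⟩ := mainAll D ⟨toForm α, (ha α h1.1).1.1 h1, ((ha α h1.1).2 h1).1 h2,
    fun x v hv => by
      have := h3 x v hv
      rw [toForm, ap_half_alt2 _ (h1.1 x), haJ]; exact this⟩
  let γ : TwoTensor X := fun x => ofE6 (β x)
  have e : ∀ x (u v : V), γ x u v = ap (β x) u v := fun x u v => ofE6_apply _ _ _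
  have anti : ∀ x u v, γ x u v = -γ x v u := fun x u v => by
    have h1 := e x u v
    have h2 := e x v u
    have := ap_swap (β x) u v
    exact h1.trans (this.trans (congrArg Neg.neg h2.symm))
  have eq : toForm γ = β := by
    funext x
    refine ap_ext fun p q => ?_
    rw [toForm, ap_half_alt2 _ (anti x)]; exact e x p q
  have sm : IsSmoothTwoForm γ := (ha γ anti).1.2 (eq ▸ b1)
  have tm : Tames γ J := fun x v hv => by
    have := b3 x v hv
    rw [haJ] at this; exact this.trans_eq (e x v (J x v)).symm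
  refine ⟨γ, ⟨sm, ((ha γ anti).2 sm).2 (eq ▸ b2), fun x v hv => ?_⟩, tm, fun x u v => ?_⟩
  · by_contra hne
    exact (tm x v hne).ne' (hv _)
  · have := b4 x u v
    rw [haJ] at this
    exact (e x (J x u) (J x v)).trans (this.trans (e x u v).symm)

end Vale.Agent.P204
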