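import Mathlib

/-! Smooth two-forms and almost complex structures on a manifold modelled on `E`, in charts. -/

open scoped Manifold ContDiff

noncomputable section
namespace Vale.Agent.P204.St

variable (E : Type*) [NormedAddCommGroup E] [NormedSpace ℝ E]

section
variable (X : Type*) [TopologicalSpace X] [ChartedSpace E X]

/-- a field of continuous bilinear forms on the tangent spaces -/
def TwoTensor := ∀ x : X, TangentSpace 𝓘(ℝ, E) x →L[ℝ] TangentSpace 𝓘(ℝ, E) x →L[ℝ] ℝ

/-- a field of endomorphisms of the tangent spaces -/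
def EndField := ∀ x : X, TangentSpace 𝓘(ℝ, E) x →L[ℝ] TangentSpace 𝓘(ℝ, E) x
end

variable {E} {X : Type*} [TopologicalSpace X] [ChartedSpace E X]

/-- the linear form `α(u, ·)` at the point `x` -/
def TwoTensor.ins (α : TwoTensor E X) (x : X) (u : TangentSpace 𝓘(ℝ, E) x) :
    TangentSpace 𝓘(ℝ, E) x →L[ℝ] ℝ := α x u

/-- the number `α(u, v)` at the point `x` -/
def TwoTensor.val (α : TwoTensor E X) (x : X) (u v : TangentSpace 𝓘(ℝ, E) x) : ℝ :=
  α.ins x u v

/-- the vector `J v` at the point `x` -/
def EndField.app (J : EndField E X) (x : X) (v : TangentSpace 𝓘(ℝ, E) x) :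
    TangentSpace 𝓘(ℝ, E) x := J x v

/-- the coordinate vector field with constant components `a` in the chart at `p`, at the point
with coordinates `y` -/
def coordVec (p : X) (a y : E) : TangentSpace 𝓘(ℝ, E) ((chartAt E p).symm y) :=
  mfderiv 𝓘(ℝ, E) 𝓘(ℝ, E) (chartAt E p).symm y a

/-- the components of a tangent vector at `x` in the chart at `p` -/
def components (p x : X) (v : TangentSpace 𝓘(ℝ, E) x) : E :=
  mfderiv 𝓘(ℝ, E) 𝓘(ℝ, E) (chartAt E p) x v

/-- the coefficient `α(a, b)` in the chart at `p`, as a function of the coordinates -/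
def formCoord (α : TwoTensor E X) (p : X) (a b y : E) : ℝ :=
  α.val ((chartAt E p).symm y) (coordVec p a y) (coordVec p b y)

/-- the components of `J a` in the chart at `p`, as a function of the coordinates -/
def endCoord (J : EndField E X) (p : X) (a y : E) : E :=
  components p ((chartAt E p).symm y) (J.app ((chartAt E p).symm y) (coordVec p a y))

/-- smooth almost complex structure -/
def IsAlmostComplex (J : EndField E X) : Prop :=
  (∀ x v, J.app x (J.app x v) = -v) ∧
    ∀ p a, ContDiffOn ℝ ∞ (endCoord J p a) (chartAt E p).target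

/-- smooth two-form -/
def IsSmoothTwoForm (α : TwoTensor E X) : Prop :=
  (∀ x u v, α.val x u v = -α.val x v u) ∧
    ∀ p a b, ContDiffOn ℝ ∞ (formCoord α p a b) (chartAt E p).target

/-- derivative of `f` at `y` in the direction `a` -/
def dirDeriv (f : E → ℝ) (y a : E) : ℝ := fderiv ℝ f y a

/-- `dα = 0` -/
def IsClosedTwoForm (α : TwoTensor E X) : Prop :=
  ∀ p, ∀ y ∈ (chartAt E p).target, ∀ a b c : E,
    dirDeriv (formCoord α p b c) y a + dirDeriv (formCoord α p c a) y b
      + dirDeriv (formCoord α p a b) y c = 0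

/-- smooth, closed and nondegenerate -/
def IsSymplectic (α : TwoTensor E X) : Prop :=
  IsSmoothTwoForm α ∧ IsClosedTwoForm α ∧ ∀ x v, (∀ w, α.val x v w = 0) → v = 0

def Tames (α : TwoTensor E X) (J : EndField E X) : Prop :=
  ∀ x v, v ≠ 0 → 0 < α.val x v (J.app x v)

def IsCompatible (α : TwoTensor E X) (J : EndField E X) : Prop :=
  Tames α J ∧ ∀ x u v, α.val x (J.app x u) (J.app x v) = α.val x u v

end Vale.Agent.P204.St
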