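import Vale.Agent.P204.Basic2

/-! Intermediate statements. Each one is proved in its own file from the listed other ones. -/

set_option maxSynthPendingDepth 3

open scoped Topology ContDiff RealInnerProductSpace Manifold
open Set Metric MeasureTheory Filter

noncomputable section
namespace Vale.Agent.P204

/-! ### general analysis on `V` -/

/-- smoothness of parametric integrals -/
structure AvgS : Prop where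
  clm : ∀ {P Z W E Y : Type} [NormedAddCommGroup P] [NormedSpace ℝ P] [FiniteDimensional ℝ P]
    [NormedAddCommGroup Z] [NormedSpace ℝ Z] [FiniteDimensional ℝ Z]
    [NormedAddCommGroup W] [NormedSpace ℝ W] [NormedAddCommGroup E] [NormedSpace ℝ E]
    [CompleteSpace E] [MeasurableSpace Y] (μ : Measure Y) (G : P × Z → W →L[ℝ] E) (φ : Y → Z)
    (w : Y → W) (K : Set Z), ContDiff ℝ ∞ G → IsCompact K → AEStronglyMeasurable φ μ →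
    Integrable w μ → (∀ᵐ y ∂μ, w y ≠ 0 → φ y ∈ K) →
    ContDiff ℝ ∞ (fun p => ∫ y, G (p, φ y) (w y) ∂μ) ∧
    (∀ p, Integrable (fun y => G (p, φ y) (w y)) μ) ∧
    (∀ p, Integrable (fun y => fderiv ℝ (fun p' => G (p', φ y) (w y)) p) μ ∧
      fderiv ℝ (fun p => ∫ y, G (p, φ y) (w y) ∂μ) p
        = ∫ y, fderiv ℝ (fun p' => G (p', φ y) (w y)) p ∂μ) ∧
    ∀ (n : ℕ) p,
      Integrable (fun y => ‖iteratedFDeriv ℝ n (fun p' => G (p', φ y)) p‖ * ‖w y‖) μ ∧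
      ‖iteratedFDeriv ℝ n (fun p => ∫ y, G (p, φ y) (w y) ∂μ) p‖
        ≤ ∫ y, ‖iteratedFDeriv ℝ n (fun p' => G (p', φ y)) p‖ * ‖w y‖ ∂μ
  smul : ∀ {P Z E Y : Type} [NormedAddCommGroup P] [NormedSpace ℝ P] [FiniteDimensional ℝ P]
    [NormedAddCommGroup Z] [NormedSpace ℝ Z] [FiniteDimensional ℝ Z]
    [NormedAddCommGroup E] [NormedSpace ℝ E]
    [CompleteSpace E] [MeasurableSpace Y] (μ : Measure Y) (G : P × Z → E) (φ : Y → Z)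
    (w : Y → ℝ) (K : Set Z), ContDiff ℝ ∞ G → IsCompact K → AEStronglyMeasurable φ μ →
    Integrable w μ → (∀ᵐ y ∂μ, w y ≠ 0 → φ y ∈ K) →
    ContDiff ℝ ∞ (fun p => ∫ y, w y • G (p, φ y) ∂μ) ∧
    (∀ p, Integrable (fun y => w y • G (p, φ y)) μ) ∧
    (∀ p, Integrable (fun y => w y • fderiv ℝ (fun p' => G (p', φ y)) p) μ ∧
      fderiv ℝ (fun p => ∫ y, w y • G (p, φ y) ∂μ) p
        = ∫ y, w y • fderiv ℝ (fun p' => G (p', φ y)) p ∂μ) ∧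
    ∀ (n : ℕ) p,
      Integrable (fun y => |w y| * ‖iteratedFDeriv ℝ n (fun p' => G (p', φ y)) p‖) μ ∧
      ‖iteratedFDeriv ℝ n (fun p => ∫ y, w y • G (p, φ y) ∂μ) p‖
        ≤ ∫ y, |w y| * ‖iteratedFDeriv ℝ n (fun p' => G (p', φ y)) p‖ ∂μ

/-- the `C^k` norms and the bounds at a scale -/
structure NkS : Prop where
  le_nk : ∀ {E : Type} [NormedAddCommGroup E] [NormedSpace ℝ E] {r : ℝ} {f : V → E} {k l : ℕ},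
    Cc r f → l ≤ k → ∀ y, ‖iteratedFDeriv ℝ l f y‖ ≤ Nk k f
  nk_le : ∀ {E : Type} [NormedAddCommGroup E] [NormedSpace ℝ E] {f : V → E} {k : ℕ} {C : ℝ},
    (∀ l ≤ k, ∀ y, ‖iteratedFDeriv ℝ l f y‖ ≤ C) → Nk k f ≤ C
  nonneg : ∀ {E : Type} [NormedAddCommGroup E] [NormedSpace ℝ E] (k : ℕ) (f : V → E), 0 ≤ Nk k f
  add : ∀ {E : Type} [NormedAddCommGroup E] [NormedSpace ℝ E] {r : ℝ} {f g : V → E} (k : ℕ),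
    Cc r f → Cc r g → Nk k (f + g) ≤ Nk k f + Nk k g
  smul : ∀ {E : Type} [NormedAddCommGroup E] [NormedSpace ℝ E] {r : ℝ} {f : V → E} (k : ℕ)
    (c : ℝ), Cc r f → Nk k (c • f) = |c| * Nk k f
  mono : ∀ {E : Type} [NormedAddCommGroup E] [NormedSpace ℝ E] {r : ℝ} {f : V → E} {k l : ℕ},
    Cc r f → l ≤ k → Nk l f ≤ Nk k f
  clm : ∀ {E E' : Type} [NormedAddCommGroup E] [NormedSpace ℝ E] [NormedAddCommGroup E']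
    [NormedSpace ℝ E'] (g : V → E →L[ℝ] E') (k : ℕ) (r : ℝ), ContDiff ℝ ∞ g →
    ∃ C, 0 ≤ C ∧ ∀ f : V → E, Cc r f → Nk k (fun y => g y (f y)) ≤ C * Nk k f
  comp : ∀ {E E' : Type} [NormedAddCommGroup E] [NormedSpace ℝ E] [NormedAddCommGroup E']
    [NormedSpace ℝ E'] (g : V → E →L[ℝ] E') (τ : V → V) (k : ℕ) (R : ℝ), Cc R g →
    ContDiff ℝ ∞ τ →
    ∃ C, 0 ≤ C ∧ ∀ (r : ℝ) (f : V → E), Cc r f → Nk k (fun y => g y (f (τ y))) ≤ C * Nk k f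
  lbd_mono : ∀ {σ : (V → E2) → ℝ} {M : ℕ} {ε β β' : ℝ}, LBd σ M ε β → β ≤ β' → LBd σ M ε β'
  lbd_lim : ∀ {σ : (V → E2) → ℝ} {M : ℕ} {ε β : ℝ},
    (∀ η, 0 < η → LBd σ M ε (β + η)) → LBd σ M ε β
  crude : ∃ C, 0 ≤ C ∧ ∀ (σ : (V → E2) → ℝ) (k M : ℕ) (Λ ε : ℝ), 0 ≤ Λ → k ≤ M → 0 < ε →
    ε ≤ 1 → (∀ c, Cc 7 c → |σ c| ≤ Λ * Nk k c) → LBd σ M ε (C * Λ * (ε ^ (k + 2))⁻¹)
  dom_nk : ∀ {c : V → E2} {M : ℕ} {ε : ℝ}, 0 < ε → ε ≤ 1 → Cc 7 c →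
    Dom M ε c ((closedBall (0 : V) 8).indicator (fun _ => Nk M c))
  dom_sup : ∃ C, 0 ≤ C ∧ ∀ a : ℝ, 0 ≤ a →
    Integrable (fun y => ((closedBall (0 : V) 8).indicator (fun _ => a) y) ^ 2) ∧
    nL2 ((closedBall (0 : V) 8).indicator (fun _ => a)) ≤ C * a
  close : ∀ (P : ℝ → ℝ → Prop) (ε1 L κ A C : ℝ) (p q : ℕ), 0 < ε1 → 1 ≤ L → 0 ≤ κ → 0 ≤ A →
    0 ≤ C → p ≤ q → κ * L ^ q ≤ 1 / 2 → (∀ ε β β', P ε β → β ≤ β' → P ε β') →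
    (∀ ε β, (∀ η, 0 < η → P ε (β + η)) → P ε β) →
    (∀ ε, 0 < ε → ε ≤ ε1 → P ε (C * (ε ^ q)⁻¹)) →
    (∀ ε β, 0 < ε → ε ≤ ε1 → 0 ≤ β → (∀ s, ε / L ≤ s → s ≤ ε1 → P s β) →
      P ε (A * (ε ^ p)⁻¹ + κ * β)) →
    ∀ ε, 0 < ε → ε ≤ ε1 → P ε (2 * A * (ε ^ p)⁻¹)

/-- exterior calculus on `V` -/
structure NatS : Prop where
  nat : ∀ {τ : V → V} {β : V → E6} {y : V}, ContDiffAt ℝ 2 τ y → DifferentiableAt ℝ β (τ y) →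
    ∀ a b c, cyc (fun y' => pull (fderiv ℝ τ y') (β (τ y'))) y a b c
      = cyc β (τ y) (fderiv ℝ τ y a) (fderiv ℝ τ y b) (fderiv ℝ τ y c)
  dd : ∀ {b : V → Cov} {y : V}, ContDiffAt ℝ 2 b y → ∀ u v w, cyc (d1 b) y u v w = 0
  d1_smul : ∀ {g : V → ℝ} {b : V → Cov} {y : V}, DifferentiableAt ℝ g y →
    DifferentiableAt ℝ b y → d1 (fun x => g x • b x) y = w1 (fderiv ℝ g y) (b y) + g y • d1 b y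
  ibp : ∀ {r : ℝ} {b : V → Cov} {β : V → E6}, Cc r b → ContDiff ℝ ∞ β →
    ∫ y, wq (β y) (d1 b y) = ∫ y, (b y (bv 0) * cyc β y (bv 1) (bv 2) (bv 3)
      - b y (bv 1) * cyc β y (bv 0) (bv 2) (bv 3) + b y (bv 2) * cyc β y (bv 0) (bv 1) (bv 3)
      - b y (bv 3) * cyc β y (bv 0) (bv 1) (bv 2))
  div : ∀ {r : ℝ} {Y : V → V}, Cc r Y → ∫ y, ∑ i, fderiv ℝ Y y (bv i) i = 0
  p4 : ∀ {P : Type} [NormedAddCommGroup P] [NormedSpace ℝ P] {Ψ : P → V} {η : V → ℝ} {p : P},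
    ContDiffAt ℝ 2 Ψ p → DifferentiableAt ℝ η (Ψ p) →
    ∀ (om : P → P → P → P → P → ℝ), (∀ a b c d p', om a b c d p' = η (Ψ p') *
      D4 (fderiv ℝ Ψ p' a) (fderiv ℝ Ψ p' b) (fderiv ℝ Ψ p' c) (fderiv ℝ Ψ p' d)) →
    ∀ x0 x1 x2 x3 x4, fderiv ℝ (om x1 x2 x3 x4) p x0 - fderiv ℝ (om x0 x2 x3 x4) p x1
      + fderiv ℝ (om x0 x1 x3 x4) p x2 - fderiv ℝ (om x0 x1 x2 x4) p x3
      + fderiv ℝ (om x0 x1 x2 x3) p x4 = 0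
  p3 : ∀ {P : Type} [NormedAddCommGroup P] [NormedSpace ℝ P] {Ψ : P → V} {g : V → V} {p : P},
    ContDiffAt ℝ 2 Ψ p → DifferentiableAt ℝ g (Ψ p) →
    ∀ (om : P → P → P → P → ℝ), (∀ a b c p', om a b c p' =
      D4 (g (Ψ p')) (fderiv ℝ Ψ p' a) (fderiv ℝ Ψ p' b) (fderiv ℝ Ψ p' c)) →
    ∀ x0 x1 x2 x3, fderiv ℝ (om x1 x2 x3) p x0 - fderiv ℝ (om x0 x2 x3) p x1
      + fderiv ℝ (om x0 x1 x3) p x2 - fderiv ℝ (om x0 x1 x2) p x3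
      = (∑ i, fderiv ℝ g (Ψ p) (bv i) i) *
        D4 (fderiv ℝ Ψ p x0) (fderiv ℝ Ψ p x1) (fderiv ℝ Ψ p x2) (fderiv ℝ Ψ p x3)

/-- operators with a kernel in scale form -/
structure ScaleS : Prop where
  sm : ∀ {W E : Type} [NormedAddCommGroup W] [NormedSpace ℝ W] [NormedAddCommGroup E]
    [NormedSpace ℝ E] [CompleteSpace E] (Hs : V × V × ℝ → W →L[ℝ] E) (C0 ε r : ℝ) (w : V → W),
    ContDiff ℝ ∞ Hs → (∀ y v t, C0 < ‖v‖ → Hs (y, v, t) = 0) → 0 < ε → Integrable w →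
    (∀ y, r < ‖y‖ → w y = 0) →
    Cc (r + C0 * ε) (Sop Hs ε w) ∧ (∀ z, Integrable (fun y => ksc Hs ε y z (w y))) ∧
    ∀ z, Integrable (fun y => fderiv ℝ (fun z' => ksc Hs ε y z' (w y)) z) ∧
      fderiv ℝ (Sop Hs ε w) z = ∫ y, fderiv ℝ (fun z' => ksc Hs ε y z' (w y)) z
  bd : ∀ {W E : Type} [NormedAddCommGroup W] [NormedSpace ℝ W] [NormedAddCommGroup E]
    [NormedSpace ℝ E] [CompleteSpace E] (Hs : V × V × ℝ → W →L[ℝ] E) (C0 : ℝ) (M : ℕ),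
    ContDiff ℝ ∞ Hs → (∀ y v t, C0 < ‖v‖ → Hs (y, v, t) = 0) →
    ∃ C, 0 ≤ C ∧ ∀ (ε : ℝ) (w : V → W), 0 < ε → ε ≤ 1 → Integrable w →
      (∀ y, 9 < ‖y‖ → w y = 0) → ∀ x, ∀ l ≤ M,
      ε ^ l * ‖iteratedFDeriv ℝ l (Sop Hs ε w) x‖
        ≤ C * (ε ^ 4)⁻¹ * ∫ y in closedBall x (C0 * ε), ‖w y‖
  gain : ∀ {W E : Type} [NormedAddCommGroup W] [NormedSpace ℝ W] [NormedAddCommGroup E]
    [NormedSpace ℝ E] [CompleteSpace E] (Hs : V × V × ℝ → W →L[ℝ] E) (C0 : ℝ) (M : ℕ),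
    ContDiff ℝ ∞ Hs → (∀ y v t, C0 < ‖v‖ → Hs (y, v, t) = 0) →
    (∀ y v, ‖y‖ ≤ 9 → Hs (y, v, 0) = 0) →
    ∃ C, 0 ≤ C ∧ ∀ (ε : ℝ) (w : V → W), 0 < ε → ε ≤ 1 → Integrable w →
      (∀ y, 9 < ‖y‖ → w y = 0) → ∀ x, ∀ l ≤ M,
      ε ^ l * ‖iteratedFDeriv ℝ l (Sop Hs ε w) x‖
        ≤ C * ε * (ε ^ 4)⁻¹ * ∫ y in closedBall x (C0 * ε), ‖w y‖
  avg : ∀ R : ℝ, 0 ≤ R → ∃ C, 0 ≤ C ∧ ∀ (ε : ℝ) (w : V → ℝ), 0 < ε → (∀ y, 0 ≤ w y) →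
    Integrable w → Integrable (fun y => w y ^ 2) →
    Integrable (fun z => (ε ^ 4)⁻¹ * ∫ y in closedBall z (R * ε), w y) ∧
    Integrable (fun z => ((ε ^ 4)⁻¹ * ∫ y in closedBall z (R * ε), w y) ^ 2) ∧
    ∫ z, (ε ^ 4)⁻¹ * ∫ y in closedBall z (R * ε), w y ≤ C * ∫ y, w y ∧
    nL2 (fun z => (ε ^ 4)⁻¹ * ∫ y in closedBall z (R * ε), w y) ≤ C * nL2 w

/-- approximate identities of high order -/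
def R1S : Prop :=
  ∀ (Hs : V × V × ℝ → E2 →L[ℝ] E2) (C0 : ℝ) (m : ℕ), 1 ≤ C0 → ContDiff ℝ ∞ Hs →
    (∀ y v t, C0 < ‖v‖ → Hs (y, v, t) = 0) →
    (∀ y, ‖y‖ ≤ 9 → ∫ v, Hs (y, v, 0) = ContinuousLinearMap.id ℝ E2) →
    ∃ C, 0 ≤ C ∧ ∀ (t ε : ℝ) (c : V → E2), 0 < t → (m * C0 + 1) * t ≤ ε → ε ≤ 1 →
      Cc (7 - ε) c → ∃ c1 c' : V → E2, Cc (7 - t) c1 ∧ Cc 7 c' ∧ Cc 7 (Sop Hs t c') ∧
        c = c1 + Sop Hs t c' ∧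
        (∀ M ≤ m, ∀ g, Dom M ε c g → Dom M t c1 (fun z => C * (t / ε) ^ M * g z)) ∧
        ∀ g, Dom 0 ε c g → ∀ x, ‖c' x‖ ≤ C * g x

/-- square integrable representation -/
def L2S : Prop :=
  ∀ (σ : (V → E2) → ℝ) (M : ℕ) (ε1 B : ℝ), 0 < ε1 → LLin σ →
    (∀ ε, 0 < ε → ε ≤ ε1 → LBd σ M ε B) →
    ∃ f : V → E2, MemLp f 2 volume ∧ ∀ c, Cc 6 c → σ c = ∫ y, ⟪f y, c y⟫

/-- measure theoretic facts on densities -/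
structure TauS : Prop where
  meas : ∀ (m : Measure (V × V)) (r : ℝ), IsFiniteMeasure m → Measurable (fun y => mass m y r)
  l1 : ∃ C, 0 ≤ C ∧ ∀ (m : Measure (V × V)) (C0 ε : ℝ), IsFiniteMeasure m → 0 ≤ C0 → 0 < ε →
    Integrable (tau m C0 ε) ∧ ∫ y, tau m C0 ε y ≤ C * C0 ^ 4 * m.real univ
  l2 : ∃ C, 0 ≤ C ∧ ∀ (m m' : Measure (V × V)) (C0 ε : ℝ), IsFiniteMeasure m →
    IsFiniteMeasure m' → 0 ≤ C0 → 0 < ε →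
    Integrable (fun y => tau m C0 ε y * tau m' C0 ε y) ∧
    ∫ y in closedBall (0 : V) 2, tau m C0 ε y * tau m' C0 ε y
      ≤ C * C0 ^ 4 * (ε ^ 4)⁻¹ *
        ∫ p in {p : V × V | ‖p.1‖ ≤ 2 + C0 * ε}, mass m p.1 (2 * C0 * ε) ∂m'
  efin_meas : ∀ m : Measure (V × V), IsFiniteMeasure m → MeasurableSet (Efin m)
  efin_ae : ∀ m : Measure (V × V), IsFiniteMeasure m → ∀ᵐ y, y ∈ Efin m
  efin_dens : ∀ m : Measure (V × V), ∀ y ∈ Efin m,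
    Tendsto (fun r => mass m y r / r ^ 2) (𝓝[>] 0) (𝓝 0)

/-- integrals of the comparison kernels -/
structure ConvS : Prop where
  c1 : ∃ C, 0 ≤ C ∧ ∀ (δ : ℝ) (x : V), 0 < δ → ∫ z in closedBall x 16, kp δ 3 (x - z) ≤ C
  c2 : ∃ C, 0 ≤ C ∧ ∀ (δ : ℝ) (x y : V), 0 < δ →
    Integrable (fun z => kp δ 3 (x - z) * kp δ 3 (y - z)) ∧
    ∫ z, kp δ 3 (x - z) * kp δ 3 (y - z) ≤ C * kp δ 2 (x - y)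
  c3 : ∃ C, 0 ≤ C ∧ ∀ δ : ℝ, 0 < δ → Integrable (kp δ 6) ∧ Integrable (kp δ 5) ∧
    δ ^ 2 * ∫ w, kp δ 6 w ≤ C ∧ δ ^ 2 * ∫ w, kp δ 5 w ≤ C * δ
  c4 : ∃ C, 0 ≤ C ∧ ∀ (m : Measure (V × V)) (y : V) (δ Dn : ℝ), IsFiniteMeasure m → 0 < δ →
    (∀ r, 0 < r → mass m y r ≤ Dn * r ^ 2) → δ ^ 2 * ∫ p, kp δ 5 (y - p.1) ∂m ≤ C * Dn / δ
  c5 : ∃ C, 0 ≤ C ∧ ∀ (m : Measure (V × V)) (y : V) (s s1 Dn : ℝ), IsFiniteMeasure m → 0 < s →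
    s ≤ s1 → (∀ r, s ≤ r → r ≤ s1 → mass m y r ≤ Dn * r ^ 2) →
    ∫ p, kp s 1 (p.1 - y) ∂m ≤ C * (Dn * s1 + m.real univ / s1)
  young : ∀ (κ g : V → ℝ), (∀ w, 0 ≤ κ w) → Integrable κ → Continuous κ → (∃ B, ∀ w, κ w ≤ B) →
    (∀ z, 0 ≤ g z) → Integrable g → Integrable (fun z => g z ^ 2) →
    Continuous (fun x => ∫ z, κ (x - z) * g z) ∧
    Integrable (fun x => (∫ z, κ (x - z) * g z) ^ 2) ∧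
    ∫ x, (∫ z, κ (x - z) * g z) ^ 2 ≤ (∫ w, κ w) ^ 2 * ∫ z, g z ^ 2

/-- Schur test -/
def SchurS : Prop :=
  ∃ C, 0 ≤ C ∧ ∀ (Y : Type) [MeasurableSpace Y] (lam : Measure Y) [SFinite lam] (π : Y → V)
    (om : Y → ℝ) (W : V → ℝ) (f : V → E2) (δ C0 : ℝ), 0 < δ → Measurable π → Measurable om →
    (∀ y, 0 ≤ om y) → Integrable om lam → (∀ y, om y ≠ 0 → ‖π y‖ ≤ 4) → Continuous W →
    (∀ x, 1 ≤ W x) → MemLp f 2 volume → 0 ≤ C0 →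
    (∀ x, ‖x‖ ≤ 4 → ∫ y, kp δ 2 (π y - x) * W (π y) * om y ∂lam ≤ C0 * W x) →
    Continuous (ff f δ) ∧ Integrable (fun y => ff f δ (π y) ^ 2 * om y) lam ∧
    ∫ y, ff f δ (π y) ^ 2 * om y ∂lam ≤ C * C0 * ∫ z, ‖f z‖ ^ 2

/-! ### monotonicity formula -/

def MonoA : Prop :=
  ∀ (F : Frame) (M : ℕ), ∃ C, 0 ≤ C ∧ ∀ (y : V) (s : ℝ), ‖y‖ ≤ 4 → 0 < s → s ≤ 1 →
    Cc 5 (F.tf y s) ∧ Dom M s (fun z => F.cm z (d1 (F.tf y s) z))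
      (fun z => (closedBall y 2).indicator (fun z => C * kp s 1 (z - y)) z)

def MonoB : Prop :=
  ∀ F : Frame, ∃ c C, 0 < c ∧ 0 ≤ C ∧ ∀ (y z u : V) (s : ℝ), ‖y‖ ≤ 4 → 0 < s → s ≤ 1 / 4 →
    ‖u‖ = 1 → (closedBall y s).indicator (fun _ => c * (s ^ 2)⁻¹) z - C * kp s 1 (z - y)
      ≤ ap (d1 (F.tf y s) z) u (F.J z u)

def MonoS : Prop :=
  ∀ (F : Frame) (M : ℕ), ∃ s0, 0 < s0 ∧ ∀ s1, 0 < s1 → s1 ≤ s0 → ∃ C, 0 ≤ C ∧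
    ∀ (m : Measure (V × V)) (σ : (V → E2) → ℝ) (β r : ℝ), PM 7 m →
    (∀ b, Cc 6 b → TL F m (d1 b) + σ (fun y => F.cm y (d1 b y)) = 0) → 0 < r → r ≤ s1 → 0 ≤ β →
    (∀ s, r ≤ s → s ≤ s1 → LBd σ M s β) →
    ∀ y ρ, ‖y‖ ≤ 4 → r ≤ ρ → mass m y ρ ≤ C * (m.real univ + β) * ρ ^ 2

/-! ### removable singularity theorem -/

/-- pointwise facts on the Newton kernel -/
structure NewS (F : Frame) : Prop where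
  sm : ∀ δ : ℝ, 0 < δ → ContDiff ℝ ∞ (fun p : V × V => F.Nz δ p.2 p.1) ∧
    ContDiff ℝ ∞ (fun p : V × V => gk δ (F.Ps p.1 p.2)) ∧
    ContDiff ℝ ∞ (fun p : V × V => hk δ (F.Ps p.1 p.2)) ∧
    ContDiff ℝ ∞ (fun p : V × V => F.DPs p.1 p.2) ∧
    ContDiff ℝ ∞ (fun p : V × V => F.k12 δ p.1 p.2) ∧
    (∀ a a', ContDiff ℝ ∞ (fun p : V × V => F.k21 δ p.1 p.2 a a')) ∧
    ∀ a a', ContDiff ℝ ∞ (fun p : V × V => F.k22 p.1 p.2 a a')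
  dx : ∀ (δ : ℝ) (x z a : V), 0 < δ →
    fderiv ℝ (F.Nz δ z) x a = ⟪gk δ (F.Ps x z), F.DPs x z a⟫
  dz : ∀ (δ : ℝ) (x z a : V), 0 < δ →
    fderiv ℝ (fun z' => F.Nz δ z' x) z a = ⟪gk δ (F.Ps x z), F.A x a⟫
  piola : ∀ (δ : ℝ) (x z a a' : V), 0 < δ →
    fderiv ℝ (fun x' => F.k12 δ x' z a') x a - fderiv ℝ (fun x' => F.k12 δ x' z a) x a'
      = -(hk δ (F.Ps x z) • F.k22 x z a a') - d1 (fun z' => F.k21 δ x z' a a') z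
  lip : ∃ C, 0 ≤ C ∧ ∀ x z : V, ‖F.A x - F.A z‖ ≤ C * ‖x - z‖ ∧ ‖F.Ai x - F.Ai z‖ ≤ C * ‖x - z‖ ∧
    ‖F.J x - F.J z‖ ≤ C * ‖x - z‖ ∧ ‖F.DPs x z + F.A x‖ ≤ C * ‖x - z‖
  bd : ∃ C, 0 ≤ C ∧ ∀ (δ : ℝ) (x z : V), 0 < δ → δ ≤ 1 → ‖x - z‖ ≤ 16 →
    kp δ 2 (x - z) ≤ C * F.Nz δ z x ∧ F.Nz δ z x ≤ C * kp δ 2 (x - z) ∧
    ‖gk δ (F.Ps x z)‖ ≤ C * kp δ 3 (x - z) ∧ ‖fderiv ℝ (F.Nz δ z) x‖ ≤ C * kp δ 3 (x - z) ∧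
    0 ≤ hk δ (F.Ps x z) ∧ hk δ (F.Ps x z) ≤ C * δ ^ 2 * kp δ 6 (x - z)

def LopS (F : Frame) : Prop :=
  ∃ C, 0 ≤ C ∧ ∀ (δ : ℝ) (x z : V), 0 < δ → δ ≤ 1 → ‖x - z‖ ≤ 16 →
    F.Lop (F.Nz δ z) x ≤ C * kp δ 3 (x - z)

/-- smoothness and formulas for the potential and the primitive -/
def USm (F : Frame) : Prop :=
  ∀ (m : Measure (V × V)) (f : V → E2) (Dn : ℝ), LH F m f Dn →
    (∀ β : V → E6, Continuous β → (∀ y, 7 < ‖y‖ → β y = 0) →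
      Integrable (fun p : V × V => ap (β p.1) p.2 (F.J p.1 p.2)) m ∧
      Integrable (fun z => ⟪f z, F.cm z (β z)⟫)) ∧
    ∀ δ : ℝ, 0 < δ → ContDiff ℝ ∞ (F.U m δ) ∧ (∀ x, 1 ≤ F.U m δ x) ∧
      ContDiff ℝ ∞ (F.S m f δ) ∧
      (∀ x, Integrable (fun p : V × V => cut 5 p.1 * ‖F.A p.1 p.2‖ ^ 2 * F.Nz δ p.1 x) m) ∧
      (∀ x a, fderiv ℝ (F.U m δ) x a
        = ∫ p, cut 5 p.1 * ‖F.A p.1 p.2‖ ^ 2 * ⟪gk δ (F.Ps x p.1), F.DPs x p.1 a⟫ ∂m) ∧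
      (∀ x, Integrable (fun p : V × V =>
          cut 5 p.1 * ‖F.A p.1 p.2‖ ^ 2 * F.Lop (F.Nz δ p.1) x) m ∧
        F.Lop (F.U m δ) x = ∫ p, cut 5 p.1 * ‖F.A p.1 p.2‖ ^ 2 * F.Lop (F.Nz δ p.1) x ∂m) ∧
      (∀ x a, F.S m f δ x a = F.RR m f (fun z => cut 5 z • F.k12 δ x z a)) ∧
      ∀ x a a', ap (d1 (F.S m f δ) x) a a'
        = -F.RR m f (fun z => (cut 5 z * hk δ (F.Ps x z)) • F.k22 x z a a')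
          + F.RR m f (fun z => w1 (fderiv ℝ (cut 5) z) (F.k21 δ x z a a'))

def S1S (F : Frame) : Prop :=
  ∀ (m : Measure (V × V)) (f : V → E2) (Dn : ℝ), LH F m f Dn → ∃ C, 0 ≤ C ∧
    ∀ (δ : ℝ) (x : V), 0 < δ → δ ≤ 1 → ‖x‖ ≤ 4 →
      ‖F.S m f δ x - F.dc (F.U m δ) x‖ ≤ C * (F.U m δ x + ff f δ x)

def S2S (F : Frame) : Prop :=
  ∀ (m : Measure (V × V)) (f : V → E2) (Dn : ℝ), LH F m f Dn → ∃ C, 0 ≤ C ∧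
    ∀ (δ : ℝ) (x u : V), 0 < δ → δ ≤ 1 → ‖x‖ ≤ 4 → ‖u‖ = 1 →
      ap (d1 (F.S m f δ) x) u (F.J x u) ≤ C * (F.U m δ x + ff f δ x)

def S3S (F : Frame) : Prop :=
  ∀ (m : Measure (V × V)) (f : V → E2) (Dn : ℝ), LH F m f Dn → ∃ C, 0 ≤ C ∧
    ∀ δ : ℝ, 0 < δ → δ ≤ 1 →
      ∫ x in closedBall (0 : V) 4, ‖F.cm x (d1 (F.S m f δ) x)‖ ^ 2 ≤ C

def LebS (F : Frame) : Prop :=
  ∀ (m : Measure (V × V)) (f : V → E2) (Dn : ℝ), LH F m f Dn → ∃ C, 0 ≤ C ∧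
    ∀ δ : ℝ, 0 < δ → δ ≤ 1 →
      ∫ x, cut 3 x ^ 2 * (F.U m δ x ^ 2)⁻¹ * ‖fderiv ℝ (F.U m δ) x‖ ^ 2 ≤ C ∧
      ∀ y : V, ‖y‖ ≤ 4 →
        ∫ x, kp δ 2 (x - y) * (cut 3 x ^ 2 * (F.U m δ x ^ 3)⁻¹ * ‖fderiv ℝ (F.U m δ) x‖ ^ 2)
          ≤ C * F.U m δ y

def EnS (F : Frame) : Prop :=
  ∀ (m : Measure (V × V)) (f : V → E2) (Dn : ℝ), LH F m f Dn → ∃ C, 0 ≤ C ∧
    ∀ δ : ℝ, 0 < δ → δ ≤ 1 →
      ∫ p, cut 3 p.1 ^ 2 * (F.U m δ p.1 ^ 2)⁻¹ * (fderiv ℝ (F.U m δ) p.1 p.2 ^ 2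
        + fderiv ℝ (F.U m δ) p.1 (F.J p.1 p.2) ^ 2) ∂m ≤ C

def LocS (F : Frame) : Prop :=
  ∀ (m : Measure (V × V)) (f : V → E2) (Dn : ℝ), LH F m f Dn →
    ∀ b, Cc 3 b → F.RR (m.restrict {p | p.1 ∈ Efin m}) f (d1 b) = 0

/-! ### the kernel in one chart -/

def KSupS : Prop := ∀ (n : ℕ) (d : KD n), ∃ C1 δ0, 1 ≤ C1 ∧ 0 < δ0 ∧ d.Far C1 δ0

def KScS : Prop :=
  ∀ (n : ℕ) (d : KD n) (C1 δ0 C : ℝ), 1 ≤ C1 → 0 < δ0 → d.Far C1 δ0 → 2 * C1 ≤ C →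
    ∃ Hs : V × V × ℝ → Op, ScF Hs (2 * C) ∧ ∀ ε, 0 < ε → ksc Hs ε = d.kcut C ε

def KClS : Prop :=
  ∀ (n : ℕ) (d : KD n) (C1 δ0 C ε : ℝ), 1 ≤ C1 → d.Far C1 δ0 → 2 * C1 ≤ C → 0 < ε →
    2 * C * ε ≤ 1 / 2 → 2 * C * ε < δ0 →
    ClP (d.kcut C ε) (2 * C * ε) ∧ ClP' (d.kcut C ε) (2 * C * ε)

def KConeS : Prop :=
  ∀ (n : ℕ) (d : KD n) (F : Frame) (C : ℝ), 1 ≤ C → ∃ C' ε1, 0 < ε1 ∧
    ∀ ε, 0 < ε → ε ≤ ε1 → Cone F (d.kcut C ε) C' ε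

/-- shear and swap of two coordinates -/
def CVpiS : Prop :=
  ∀ (n : ℕ) (i j : Fin n) (L : End) (c : (Fin n → V) → V) (f : (Fin n → V) → Op), i ≠ j →
    L.det ≠ 0 → Continuous c → (∀ u w, c (Function.update u i w) = c u) →
    (∀ u w, c (Function.update u j w) = c u) → Continuous f →
    ∫ u, f u = |L.det| • ∫ u, f (Function.update (Function.update u j (L (u i) + c u)) i (u j))

/-! ### statements about an atlas -/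

variable {X : Type*} [TopologicalSpace X]

def toForm [ChartedSpace R4 X] (α : TwoTensor X) : Form X :=
  fun x => (1/2 : ℝ) • alt2 (α x : V →L[ℝ] V →L[ℝ] ℝ)

def BridgeS (X : Type*) [TopologicalSpace X] [ChartedSpace R4 X] : Prop :=
  ∀ J : EndField X, IsAlmostComplex J → ∃ a : Atl X, (∀ x, a.J x = (J x : V →L[ℝ] V)) ∧
    ∀ α : TwoTensor X, (∀ x u v, α x u v = -α x v u) →
      (IsSmoothTwoForm α ↔ a.Sm (toForm α)) ∧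
      (IsSmoothTwoForm α → (IsClosedTwoForm α ↔ a.Cl (toForm α)))

def DatS (a : Atl X) : Prop := ∃ D : Dat X, D.toAtl = a

/-- domain of the transition map `tm i j` -/
def Atl.dom (a : Atl X) (i j : Fin a.n) : Set V := (a.e j).target ∩ (a.e j).symm ⁻¹' (a.e i).source

structure GeoA (a : Atl X) : Prop where
  dom_open : ∀ i j, IsOpen (a.dom i j)
  fderiv_tm : ∀ i j, ∀ y ∈ a.dom i j, HasFDerivAt (a.tm i j) (a.tr i j ((a.e j).symm y)) y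
  tr_sm : ∀ i j, ContDiffOn ℝ ∞ (fun y => a.tr i j ((a.e j).symm y)) (a.dom i j)
  cpt : ∀ i j (r r' : ℝ), r ≤ 12 → r' ≤ 12 →
    IsCompact {y : V | ‖y‖ ≤ r ∧ a.In i r' ((a.e j).symm y)}
  bound : ∃ C, 0 ≤ C ∧ ∀ i j x, a.In i 12 x → a.In j 12 x → ‖a.tr i j x‖ ≤ C
  near : ∀ δ, 0 < δ → ∃ δ', 0 < δ' ∧ ∀ i j x x', a.In i 9 x → a.In j 9 x →
    x' ∈ (a.e j).source → ‖a.e j x' - a.e j x‖ ≤ δ' →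
    x' ∈ (a.e i).source ∧ ‖a.e i x' - a.e i x‖ ≤ δ
  glue : ∀ {E : Type} [NormedAddCommGroup E] [NormedSpace ℝ E] (i j) (Φ : V → E),
    ContDiffOn ℝ ∞ Φ (a.dom i j) →
    (∀ y ∈ (a.e j).target, ¬ a.In i 12 ((a.e j).symm y) → Φ y = 0) →
    ContDiffOn ℝ ∞ Φ (a.e j).target
  cutoff : ∀ {E : Type} [NormedAddCommGroup E] [NormedSpace ℝ E] (j) (r : ℝ) (g : V → ℝ)
    (Φ : V → E), r ≤ 12 → Cc r g → ContDiffOn ℝ ∞ Φ (a.e j).target → Cc r (fun y => g y • Φ y)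
  ext0_sm : ∀ {E : Type} [NormedAddCommGroup E] [NormedSpace ℝ E] (i j) (f : V → E),
    Cc 12 f → ContDiffOn ℝ ∞ (fun y => a.ext0 i f ((a.e j).symm y)) (a.e j).target

structure GeoD (D : Dat X) : Prop where
  comm : ∀ i j x, D.In i 11 x → D.In j 11 x →
    ((((D.F i).A (D.e i x)).comp ((D.tr i j x).comp ((D.F j).Ai (D.e j x)))).comp J0
      = J0.comp (((D.F i).A (D.e i x)).comp ((D.tr i j x).comp ((D.F j).Ai (D.e j x)))))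
  det_pos : ∀ i j x, D.In i 11 x → D.In j 11 x → 0 < (D.tr i j x).det

structure FormS (D : Dat X) : Prop where
  loc_ext : ∀ j β, ∀ y ∈ (D.e j).target, D.loc j (D.ext j β) y = β y
  loc_ext' : ∀ i j β y, D.loc i (D.ext j β) y
    = pull (D.tr j i ((D.e i).symm y)) (D.ext0 j β ((D.e i).symm y))
  loc_loc : ∀ i j α x, x ∈ (D.e i).source → x ∈ (D.e j).source →
    D.loc j α (D.e j x) = pull (D.tr i j x) (D.loc i α (D.e i x))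
  sm_ext : ∀ j β, Cc 12 β → D.Sm (D.ext j β)
  cl_ext : ∀ j β, Cc 12 β → (∀ y u v w, cyc β y u v w = 0) → D.Cl (D.ext j β)
  sm_of : ∀ α, (∀ j, ContDiffOn ℝ ∞ (D.loc j α) (ball 0 1)) → D.Sm α
  cl_of : ∀ α, D.Sm α → (∀ j, ∀ y ∈ ball (0 : V) 1, ∀ u v w, cyc (D.loc j α) y u v w = 0) → D.Cl α
  sm_zero : D.Sm 0
  sm_add : ∀ α β, D.Sm α → D.Sm β → D.Sm (α + β)
  sm_smul : ∀ (c : ℝ) α, D.Sm α → D.Sm (c • α)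
  sm_sum : ∀ {ι : Type} (t : Finset ι) (α : ι → Form X), (∀ i ∈ t, D.Sm (α i)) →
    D.Sm (fun x => ∑ i ∈ t, α i x)
  cl_zero : D.Cl 0
  cl_add : ∀ α β, D.Sm α → D.Sm β → D.Cl α → D.Cl β → D.Cl (α + β)
  cl_smul : ∀ (c : ℝ) α, D.Sm α → D.Cl α → D.Cl (c • α)
  part : ∀ α x, α x = ∑ j, D.ext j (fun y => D.psi j y • D.loc j α y) x
  cj_cc : ∀ j α, D.Sm α → Cc 2 (D.cj j α)
  inv_iff : ∀ α, D.Inv α ↔ ∀ j, D.cj j α = 0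
  fn_zero : ∀ R, D.Fn R → R 0 = 0
  fn_sum : ∀ R, D.Fn R → ∀ {ι : Type} (t : Finset ι) (α : ι → Form X), (∀ i ∈ t, D.Sm (α i)) →
    R (fun x => ∑ i ∈ t, α i x) = ∑ i ∈ t, R (α i)
  sm_upx : ∀ j c, Cc 12 c → D.Sm (D.upx j c)
  s_ext : ∀ s j β, D.Fn s → D.KillsI s → Cc 11 β →
    s (D.ext j β) = D.sj s j (fun y => (D.F j).cm y (β y))
  s_sum : ∀ s α, D.Fn s → D.KillsI s → D.Sm α → s α = ∑ j, D.sj s j (D.cj j α)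
  llin : ∀ s j, D.Fn s → LLin (D.sj s j)
  killsI : ∀ s k Λ, D.OrdM s k Λ → D.KillsI s
  killsD : ∀ R j b, D.KillsZ R → Cc 12 b → R (D.ext j (d1 b)) = 0
  tm_loc : ∀ α, D.Tm α → ∀ j y v, ‖y‖ ≤ 11 → v ≠ 0 → 0 < ap (D.loc j α y) v ((D.F j).J y v)
  tm_of : ∀ α, (∀ j y v, ‖y‖ ≤ 1 → ‖v‖ = 1 → 0 < ap (D.loc j α y) v ((D.F j).J y v)) → D.Tm α

structure SemS (D : Dat X) : Prop where
  nrm_nn : ∀ k α, 0 ≤ D.nrm k α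
  nrm_add : ∀ k α β, D.Sm α → D.Sm β → D.nrm k (α + β) ≤ D.nrm k α + D.nrm k β
  nrm_smul : ∀ k (c : ℝ) α, D.Sm α → D.nrm k (c • α) = |c| * D.nrm k α
  nrm_mono : ∀ k l α, D.Sm α → l ≤ k → D.nrm l α ≤ D.nrm k α
  nrmm_nn : ∀ k α, 0 ≤ D.nrmm k α
  nrmm_add : ∀ k α β, D.Sm α → D.Sm β → D.nrmm k (α + β) ≤ D.nrmm k α + D.nrmm k β
  nrmm_smul : ∀ k (c : ℝ) α, D.Sm α → D.nrmm k (c • α) = |c| * D.nrmm k α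
  nrm_ext : ∀ k, ∃ C, 0 ≤ C ∧ ∀ j β, Cc 11 β → D.nrm k (D.ext j β) ≤ C * Nk k β
  nrmm_le : ∀ k, ∃ C, 0 ≤ C ∧ ∀ α, D.Sm α → D.nrmm k α ≤ C * D.nrm k α
  pt : ∀ k j α y, D.Sm α → ‖y‖ ≤ 2 → ‖D.loc j α y‖ ≤ D.nrm k α
  cjpt : ∀ k j α y, D.Sm α → ‖D.cj j α y‖ ≤ D.nrmm k α
  crude : ∀ k, ∃ C, 0 ≤ C ∧ ∀ s Λ, 0 ≤ Λ → D.OrdM s k Λ →
    D.Ord s k (C * Λ) ∧ ∀ j c, Cc 7 c → |D.sj s j c| ≤ C * Λ * Nk k c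
  series : ∀ β : ℕ → Form X, (∀ n, D.Sm (β n)) → (∀ n, D.Cl (β n)) →
    Summable (fun n => D.nrm n (β n)) →
    ∃ γ, D.Sm γ ∧ D.Cl γ ∧ ∀ x, HasSum (fun n => β n x) (γ x)

structure HilS (D : Dat X) : Prop where
  fin : ∀ j, IsFiniteMeasure (D.nu j)
  supp : ∀ j, ∀ᵐ y ∂(D.nu j), ‖y‖ ≤ 2
  wt : ∃ C, 0 ≤ C ∧ ∀ j y, 0 ≤ D.psi j y * ((D.F j).A y).det ∧
    D.psi j y * ((D.F j).A y).det ≤ C ∧ D.psi j y ≤ C * (D.psi j y * ((D.F j).A y).det)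
  int : ∀ {E : Type} [NormedAddCommGroup E] [NormedSpace ℝ E] j (f : V → E),
    ∫ y, f y ∂(D.nu j) = ∫ y, (D.psi j y * ((D.F j).A y).det) • f y
  intg : ∀ {E : Type} [NormedAddCommGroup E] [NormedSpace ℝ E] j (f : V → E),
    Integrable f (D.nu j) ↔ Integrable (fun y => (D.psi j y * ((D.F j).A y).det) • f y)
  ae : ∀ j (P : V → Prop), (∀ᵐ y ∂(D.nu j), P y) ↔ ∀ᵐ y, D.psi j y ≠ 0 → P y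
  h_int : ∀ (h : D.H) j, Integrable (h j) (D.nu j) ∧
    Integrable (fun y => D.psi j y • pull ((D.F j).A y) (h j y))
  l1_le : ∃ C, 0 ≤ C ∧ ∀ h : D.H, D.L1 h ≤ C * ‖h‖
  map_ae : ∀ L h j, D.mapH L h j =ᵐ[D.nu j] fun y => L (h j y)
  map_add : ∀ L g h, D.mapH L (g + h) = D.mapH L g + D.mapH L h
  map_smul : ∀ L (c : ℝ) h, D.mapH L (c • h) = c • D.mapH L h
  map_norm : ∀ L h, ‖D.mapH L h‖ ≤ ‖L‖ * ‖h‖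
  norm_sq : ∀ h : D.H, (∀ j, Integrable (fun y => ‖h j y‖ ^ 2) (D.nu j)) ∧
    ‖h‖ ^ 2 = ∑ j, ∫ y, ‖h j y‖ ^ 2 ∂(D.nu j)
  qH_eq : ∀ g h : D.H, (∀ j, Integrable (fun y => wq (g j y) (h j y)) (D.nu j)) ∧
    D.qH g h = ∑ j, ∫ y, wq (g j y) (h j y) ∂(D.nu j)
  qH_symm : ∀ g h, D.qH g h = D.qH h g
  qH_add : ∀ g g' h, D.qH (g + g') h = D.qH g h + D.qH g' h
  qH_inj : ∀ g g', (∀ h, D.qH g h = D.qH g' h) → g = g'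
  qH_le : ∀ g h, |D.qH g h| ≤ 2 * ‖g‖ * ‖h‖
  qH_minus : ∀ g h, D.mapH Po h = 0 → |D.qH g h| ≤ 2 * ‖D.mapH Pm g‖ * ‖h‖
  qH_self : ∀ g, 2 * ‖D.mapH Pm g‖ ^ 2 - 2 * ‖D.mapH Po g‖ ^ 2 ≤ D.qH g g
  qH_dual : ∀ g, ∃ h, D.mapH Pm h = 0 ∧ ‖h‖ = ‖D.mapH Po g‖ ∧ D.qH g h = 2 * ‖D.mapH Po g‖ ^ 2
  proj : ∀ g, ‖D.mapH Pm g‖ ≤ ‖g‖ ∧ ‖D.mapH Po g‖ ≤ ‖g‖ ∧ ‖g‖ ≤ ‖D.mapH Pm g‖ + ‖D.mapH Po g‖
  riesz : ∀ (l : D.H → ℝ) (C : ℝ), 0 ≤ C → (∀ g h, l (g + h) = l g + l h) →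
    (∀ (c : ℝ) h, l (c • h) = c * l h) → (∀ h, |l h| ≤ C * ‖h‖) →
    ∃ Θ, ‖Θ‖ ≤ C ∧ ∀ h, D.qH Θ h = l h
  iota_ae : ∀ α j, D.Sm α → D.iota α j =ᵐ[D.nu j] fun y => pull ((D.F j).Ai y) (D.loc j α y)

structure HatS (D : Dat X) : Prop where
  int : ∀ i h, Integrable (D.hat i h) ∧ Integrable (fun y => ‖D.hat i h y‖ ^ 2)
  bd : ∃ C, 0 ≤ C ∧ ∀ i h, nL2 (fun y => ‖D.hat i h y‖) ≤ C * ‖h‖ ∧
    nL2 (fun y => ‖(D.F i).cm y (D.hat i h y)‖) ≤ C * ‖D.mapH Pm h‖ ∧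
    ∫ y, ‖D.hat i h y‖ ≤ C * D.L1 h ∧
    ∫ y, ‖(D.F i).cm y (D.hat i h y)‖ ≤ C * D.L1 (D.mapH Pm h)
  pair : ∀ {E : Type} [NormedAddCommGroup E] [NormedSpace ℝ E] [CompleteSpace E] (i) (h : D.H)
    (k : V → E6 →L[ℝ] E), Continuous k → (∀ y, 9 < ‖y‖ → k y = 0) →
    ∑ j, ∫ y, (D.tr i j ((D.e j).symm y)).det • D.ext0 i k ((D.e j).symm y)
        (pull (D.tr j i ((D.e j).symm y)) (D.psi j y • pull ((D.F j).A y) (h j y)))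
      = ∫ y, k y (D.hat i h y)
  pair' : ∀ i h β, Cc 9 β → D.qH (D.iota (D.ext i β)) h = ∫ y, wq (β y) (D.hat i h y)
  iota : ∀ i α, D.Sm α →
    D.hat i (D.iota α) =ᵐ[volume] (closedBall (0 : V) 9).indicator (D.loc i α)
  iota_l2 : ∃ C, 0 ≤ C ∧ ∀ i β, Cc 9 β → ‖D.iota (D.ext i β)‖ ≤ C * nL2 (fun y => ‖β y‖)
  iota_upx : ∀ i c, Cc 9 c → D.mapH Po (D.iota (D.upx i c)) = 0

/-- positive currents -/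
structure CurS (D : Dat X) : Prop where
  fn : ∀ m, (∀ j, PM 1 (m j)) → D.Fn (D.T m)
  ord : ∀ m, (∀ j, PM 1 (m j)) → ∃ Λ, 0 ≤ Λ ∧ D.Ord (D.T m) 0 Λ
  cm : ∀ m, (∀ j, PM 1 (m j)) → ∃ mm m0, D.IsCM m mm ∧ (∀ j, PM 1 (m0 j)) ∧
    D.IsCM m0 (fun j => (mm j).restrict {p | p.1 ∈ Efin (mm j)})

def KDS (D : Dat X) : Prop := ∀ j, ∃ d : KD D.n, D.IsKD j d

def KIndS (D : Dat X) : Prop :=
  ∀ i j (d d' : KD D.n) (ε : ℝ) (x x' : X), i ≠ j → D.IsKD i d → D.IsKD j d' → 0 < ε →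
    x ∈ (D.e i).source → x ∈ (D.e j).source → x' ∈ (D.e i).source → x' ∈ (D.e j).source →
    ‖D.e i x‖ < 9 → ‖D.e j x‖ < 9 → ‖D.e i x'‖ < 11 → ‖D.e j x'‖ < 11 →
    D.KK i (d.kraw ε) x x' = D.KK j (d'.kraw ε) x x'

def KerS (D : Dat X) : Prop := Nonempty (Ker D)

/-- the smoothing operator -/
structure MS {D : Dat X} (K : Ker D) : Prop where
  mj : ∀ ε j h, 0 < ε → ε ≤ K.ε0 → Cc 3 (K.Mj ε j h)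
  sm : ∀ ε h, 0 < ε → ε ≤ K.ε0 → D.Sm (K.M ε h)
  add : ∀ ε g h, 0 < ε → ε ≤ K.ε0 → K.M ε (g + h) = K.M ε g + K.M ε h
  smul : ∀ ε (c : ℝ) h, 0 < ε → ε ≤ K.ε0 → K.M ε (c • h) = c • K.M ε h
  theta : ∀ k, ∃ C, 0 ≤ C ∧ ∀ ε R Λ, 0 < ε → ε ≤ K.ε0 → 0 ≤ Λ → D.Fn R → D.Ord R k Λ →
    ∃ Θ, K.IsTh ε R Θ ∧ ‖Θ‖ ≤ C * Λ * (ε ^ (k + 4))⁻¹
  m3 : ∀ ε i h z, 0 < ε → ε ≤ K.ε0 → ‖z‖ ≤ 8 → D.loc i (K.M ε h) z = K.Kop i ε (D.hat i h) z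
  mext : ∀ ε j β, 0 < ε → ε ≤ K.ε0 → Cc 7 β →
    K.M ε (D.iota (D.ext j β)) = D.ext j (K.Kop j ε β)

def KeyS {D : Dat X} (K : Ker D) : Prop :=
  ∀ ε R1 R2 Θ1 Θ2, 0 < ε → ε ≤ K.ε0 → D.KillsZ R1 → D.KillsD R2 → K.IsTh ε R1 Θ1 →
    K.IsTh ε R2 Θ2 → D.qH Θ1 Θ2 = 0

structure StepS {D : Dat X} (K : Ker D) : Prop where
  step : ∀ m : ℕ, ∃ C L0, 0 ≤ C ∧ 1 ≤ L0 ∧ ∀ (t ε : ℝ) j (c : V → E2), 0 < t → t ≤ K.ε0 →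
    L0 * t ≤ ε → ε ≤ 1 → Cc (7 - ε) c → ∃ c1, Cc (7 - t) c1 ∧
      (∀ M ≤ m, ∀ g, Dom M ε c g → Dom M t c1 (fun z => C * (t / ε) ^ M * g z)) ∧
      ∀ s Θ g, D.Fn s → D.KillsI s → K.IsTh t s Θ → Dom 0 ε c g →
        Integrable (fun y => g y ^ 2) →
        |D.sj s j c - D.sj s j c1| ≤ C * ‖D.mapH Pm Θ‖ * nL2 g
  recur : ∀ M : ℕ, ∃ C L0, 0 ≤ C ∧ 1 ≤ L0 ∧ ∀ (L ε β : ℝ) s Θ, L0 ≤ L → 0 < ε → ε ≤ 1 →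
    ε / L ≤ K.ε0 → 0 ≤ β → D.Fn s → D.KillsI s → K.IsTh (ε / L) s Θ → D.Bd s M (ε / L) β →
    D.Bd s M ε (C * ‖D.mapH Pm Θ‖ + C * (L ^ M)⁻¹ * β)
  rep : ∀ (p k : ℕ) (ε1 : ℝ), 0 < ε1 → ε1 ≤ K.ε0 → ∃ C, 0 ≤ C ∧ ∀ s (Λ A : ℝ), 0 ≤ Λ → 0 ≤ A →
    D.Fn s → D.OrdM s k Λ →
    (∀ t, 0 < t → t ≤ ε1 → ∃ Θ, K.IsTh t s Θ ∧ ‖D.mapH Pm Θ‖ ≤ A * (t ^ p)⁻¹) →
    ∀ j c, Cc 2 c → |D.sj s j c| ≤ C * A * Nk (p + 1) c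

structure LeakS {D : Dat X} (K : Ker D) : Prop where
  gen : ∀ M : ℕ, ∃ C, 0 ≤ C ∧ ∀ ε h i, 0 < ε → ε ≤ K.ε0 → ∃ g : V → ℝ,
    Dom M ε (D.cj i (K.M ε h)) g ∧ Integrable g ∧ Integrable (fun y => g y ^ 2) ∧
    nL2 g ≤ C * (‖D.mapH Pm h‖ + ε * ‖h‖) ∧ ∫ y, g y ≤ C * (D.L1 (D.mapH Pm h) + ε * D.L1 h)
  leak : ∀ M : ℕ, ∃ C, 0 ≤ C ∧ ∀ ε β s Θ, 0 < ε → ε ≤ K.ε0 → 0 ≤ β → D.Fn s → D.KillsI s →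
    K.IsTh ε s Θ → D.Bd s M ε β → ‖D.mapH Po Θ‖ ≤ C * ε * β

def DES (D : Dat X) : Prop :=
  ∀ k k' : ℕ, ∃ C, 0 ≤ C ∧ ∀ τ s Λ, 0 ≤ Λ → D.Fn τ → D.Fn s → D.Ord τ k 1 → D.OrdM s k' Λ →
    D.KillsZ (fun α => τ α + s α) → ∀ γ, D.Sm γ → |s γ| ≤ C * D.nrmm (k + 5) γ

def ThTS {D : Dat X} (K : Ker D) : Prop :=
  ∃ C, 0 ≤ C ∧ ∀ ε m mm Θ, 0 < ε → ε ≤ K.ε0 → (∀ j, PM 1 (m j)) → D.IsCM m mm →
    K.IsTh ε (D.T m) Θ → ∀ j, ∀ᵐ y ∂(D.nu j),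
      ‖Θ j y‖ ≤ C * tau (mm j) K.C0 ε y ∧ ‖Pm (Θ j y)‖ ≤ C * ε * tau (mm j) K.C0 ε y ∧
      ‖Pa (Θ j y)‖ ≤ Θ j y 0 + C * ε ^ 2 * tau (mm j) K.C0 ε y

def BddS {D : Dat X} (K : Ker D) : Prop :=
  ∀ m mm s k Λ, (∀ j, PM 1 (m j)) → D.IsCM m mm → 0 ≤ Λ → D.Fn s → D.OrdM s k Λ →
    D.KillsZ (fun α => D.T m α + s α) →
    ∃ (M : ℕ) (ε1 B Dn : ℝ), 1 ≤ M ∧ 0 < ε1 ∧ ε1 ≤ K.ε0 ∧ 0 ≤ B ∧
      (∀ ε, 0 < ε → ε ≤ ε1 → D.Bd s M ε B) ∧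
      ∀ j y r, ‖y‖ ≤ 4 → 0 < r → mass (mm j) y r ≤ Dn * r ^ 2

/-- the anti-invariant part of the smoothed current tends to zero -/
def SevS {D : Dat X} (K : Ker D) : Prop :=
  ∀ m m0 mm s k Λ (M : ℕ) (ε1 B Dn : ℝ) (f : Fin D.n → V → E2), (∀ j, PM 1 (m j)) →
    (∀ j, PM 1 (m0 j)) → D.IsCM m mm →
    D.IsCM m0 (fun j => (mm j).restrict {p | p.1 ∈ Efin (mm j)}) → 0 ≤ Λ → D.Fn s →
    D.OrdM s k Λ → D.KillsZ (fun α => D.T m α + s α) → D.KillsD (fun α => D.T m0 α + s α) →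
    0 < ε1 → ε1 ≤ K.ε0 → 0 ≤ B → (∀ ε, 0 < ε → ε ≤ ε1 → D.Bd s M ε B) →
    (∀ j y r, ‖y‖ ≤ 4 → 0 < r → mass (mm j) y r ≤ Dn * r ^ 2) →
    (∀ j, MemLp (f j) 2 volume ∧ ∀ c, Cc 6 c → D.sj s j c = ∫ y, ⟪f j y, c y⟫) →
    ∀ η, 0 < η → ∃ ε2, 0 < ε2 ∧ ∀ t Θ, 0 < t → t ≤ ε2 → K.IsTh t s Θ → ‖D.mapH Pm Θ‖ ≤ η

def MTS (D : Dat X) : Prop :=
  ∀ m s k Λ, (∀ j, PM 1 (m j)) → 0 ≤ Λ → D.Fn s → D.OrdM s k Λ →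
    D.KillsZ (fun α => D.T m α + s α) → ∀ α, D.Sm α → s α = 0

def F1S (D : Dat X) : Prop :=
  (∃ α, D.Sm α ∧ D.Cl α ∧ D.Tm α) → ∀ (k : ℕ) (η : ℝ), 0 < η → ∃ α, D.Sm α ∧ D.Cl α ∧
    (∀ j y v, ‖y‖ ≤ 1 → ‖v‖ = 1 → 1 ≤ ap (D.loc j α y) v ((D.F j).J y v)) ∧ D.nrmm k α ≤ η

def F2S (D : Dat X) : Prop :=
  ∀ k k' : ℕ, ∃ C, 0 ≤ C ∧ ∀ α η, D.Sm α → 0 < η → ∃ β, D.Sm β ∧ D.Cl β ∧
    D.nrm k β ≤ C * D.nrmm (k + 5) α + η ∧ D.nrmm k' (α - β) ≤ η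

def MainS (D : Dat X) : Prop :=
  (∃ α, D.Sm α ∧ D.Cl α ∧ D.Tm α) → ∃ α, D.Sm α ∧ D.Cl α ∧ D.Tm α ∧ D.Inv α

end Vale.Agent.P204
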